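import Mathlib

/-!
# Row 17: two-dimensional theta inversion with characteristics (hexagonal form)
-/

set_option autoImplicit false

noncomputable section

namespace Crest.Agent.R17.PAux

open Complex

/-- `exp (-π A + 2π i B)` -/
def E (A B : ℝ) : ℂ := cexp (((-(Real.pi * A) : ℝ) : ℂ) + ((2 * Real.pi * B : ℝ) : ℂ) * I)

theorem norm_E (A B : ℝ) : ‖E A B‖ = Real.exp (-(Real.pi * A)) := by
  unfold E
  rw [norm_exp, add_re, ofReal_re, re_ofReal_mul, I_re, mul_zero, add_zero]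

theorem E_mul (A B A' B' : ℝ) : E A B * E A' B' = E (A + A') (B + B') := by
  unfold E
  rw [← Complex.exp_add]
  congr 1
  push_cast
  ring

theorem E_int (A B : ℝ) (n : ℤ) : E A (B + n) = E A B := by
  unfold E
  have : ((-(Real.pi * A) : ℝ) : ℂ) + ((2 * Real.pi * (B + n) : ℝ) : ℂ) * I
      = (((-(Real.pi * A) : ℝ) : ℂ) + ((2 * Real.pi * B : ℝ) : ℂ) * I) + n * (2 * Real.pi * I) := by
    push_cast
    ring
  rw [this, Complex.exp_add, exp_int_mul_two_pi_mul_I, mul_one]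

theorem summable_int {δ : ℝ} (hδ : 0 < δ) :
    Summable fun n : ℤ => Real.exp (-(δ * (n : ℝ) ^ 2)) := by
  have h : Summable fun n : ℕ => Real.exp (-δ * (n : ℝ) ^ 2) := by
    refine Real.summable_exp_nat_mul_of_ge (by linarith) fun i => ?_
    exact_mod_cast Nat.le_self_pow two_ne_zero i
  apply Summable.of_nat_of_neg <;> simpa using h

theorem summable_shift {δ : ℝ} (hδ : 0 < δ) (s : ℝ) :
    Summable fun n : ℤ => Real.exp (-(δ * ((n : ℝ) + s) ^ 2)) := by
  refine ((summable_int (half_pos hδ)).mul_left (Real.exp (δ * s ^ 2))).of_nonneg_of_le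
    (fun _ => (Real.exp_pos _).le) fun n => ?_
  rw [← Real.exp_add]
  apply Real.exp_le_exp.2
  have : 0 ≤ δ * ((n : ℝ) + 2 * s) ^ 2 := by positivity
  nlinarith

theorem summable_prod {δ δ' : ℝ} (hδ : 0 < δ) (hδ' : 0 < δ') (s s' : ℝ) :
    Summable fun p : ℤ × ℤ =>
      Real.exp (-(δ * ((p.1 : ℝ) + s) ^ 2)) * Real.exp (-(δ' * ((p.2 : ℝ) + s') ^ 2)) :=
  (summable_shift hδ s).mul_of_nonneg (summable_shift hδ' s') (fun _ => (Real.exp_pos _).le)
    (fun _ => (Real.exp_pos _).le)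

/-- the norm form -/
def Q (u v : ℝ) : ℝ := u ^ 2 - u * v + v ^ 2

theorem summable_Q {a : ℝ} (ha : 0 < a) (s s' : ℝ) (B : ℤ × ℤ → ℝ) :
    Summable fun p : ℤ × ℤ => E (a * Q (p.1 + s) (p.2 + s')) (B p) := by
  have h : 0 < Real.pi * a / 2 := by have := Real.pi_pos; positivity
  refine Summable.of_norm_bounded (summable_prod h h s s') fun p => ?_
  rw [norm_E, ← Real.exp_add]
  apply Real.exp_le_exp.2
  have h2 : 0 ≤ Real.pi * a / 2 * (((p.1 : ℝ) + s) - (p.2 + s')) ^ 2 := by positivity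
  unfold Q
  nlinarith

/-- one-dimensional inversion -/
theorem P1 {a : ℝ} (ha : 0 < a) (s t : ℝ) :
    ∑' n : ℤ, E (a * (n + s) ^ 2) (n * t) =
      ((Real.sqrt a)⁻¹ : ℝ) * ∑' m : ℤ, E ((m + t) ^ 2 / a) (-(s * (m + t))) := by
  have ha0 : (a : ℂ) ≠ 0 := ofReal_ne_zero.2 ha.ne'
  have H := Complex.tsum_exp_neg_quadratic (a := (a : ℂ)) (by simpa using ha) (-(a * s) + I * t)
  have e1 : ∀ n : ℤ, E (a * (n + s) ^ 2) (n * t) = cexp (-(Real.pi * a * s ^ 2)) *
      cexp (-Real.pi * a * (n : ℂ) ^ 2 + 2 * Real.pi * (-(a * s) + I * t) * n) := by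
    intro n
    unfold E
    rw [← Complex.exp_add]
    congr 1
    push_cast
    ring
  have e2 : (1 : ℂ) / (a : ℂ) ^ (1 / 2 : ℂ) = ((Real.sqrt a)⁻¹ : ℝ) := by
    rw [Real.sqrt_eq_rpow, ofReal_inv, ofReal_cpow ha.le, one_div]
    norm_num
  simp only [e1]
  rw [tsum_mul_left, H, e2, mul_left_comm, ← tsum_mul_left, ← (Equiv.neg ℤ).tsum_eq]
  congr 1
  refine tsum_congr fun m => ?_
  unfold E
  rw [← Complex.exp_add]
  congr 1
  simp only [Equiv.neg_apply]
  push_cast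
  field_simp
  ring_nf
  simp only [I_sq, I_pow_three, I_pow_four]
  ring

/-- two-dimensional inversion -/
theorem P2 {a : ℝ} (ha : 0 < a) (w1 w2 y1 y2 : ℝ) :
    ∑' p : ℤ × ℤ, E (a * Q (p.1 + w1) (p.2 + w2)) (p.1 * y2 + p.2 * y1 - p.2 * y2) =
      ((2 / Real.sqrt 3 / a : ℝ) : ℂ) *
        ∑' p : ℤ × ℤ, E (4 / (3 * a) * Q (p.1 + y1) (p.2 + y2))
          (-((p.1 + y1) * w2 + (p.2 + y2) * w1 - (p.2 + y2) * w2)) := by
  have ha' : 0 < 3 / 4 * a := by positivity
  have ha'' : 0 < 4 / (3 * a) := by positivity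
  let G : ℤ → ℤ → ℂ := fun k n =>
    E ((n + y2) ^ 2 / a) (-((w1 - w2 / 2) * (n + y2))) *
      E (3 / 4 * a * (k + w2) ^ 2) (k * (y1 - (n + y2) / 2))
  have hG : Summable (Function.uncurry G) := by
    have h1 : 0 < Real.pi * (3 / 4 * a) := by have := Real.pi_pos; positivity
    have h2 : 0 < Real.pi / a := by have := Real.pi_pos; positivity
    refine Summable.of_norm ((summable_prod h1 h2 w2 y2).congr fun p => ?_)
    simp only [Function.uncurry, G]
    rw [norm_mul, norm_E, norm_E, mul_comm]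
    congr 2 <;> ring
  have s1 := summable_Q ha w1 w2 (fun p => p.1 * y2 + p.2 * y1 - p.2 * y2)
  have s2 := summable_Q ha'' y1 y2
    (fun p => -((p.1 + y1) * w2 + (p.2 + y2) * w1 - (p.2 + y2) * w2))
  have step1 : ∀ k : ℤ, ∑' j : ℤ, E (a * Q (j + w1) (k + w2)) (j * y2 + k * y1 - k * y2) =
      ((Real.sqrt a)⁻¹ : ℝ) * ∑' n, G k n := by
    intro k
    have H := P1 ha (w1 - (k + w2) / 2) y2
    have e : ∀ j : ℤ, E (a * Q (j + w1) (k + w2)) (j * y2 + k * y1 - k * y2) =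
        E (3 / 4 * a * (k + w2) ^ 2) (k * y1 - k * y2) *
          E (a * (j + (w1 - (k + w2) / 2)) ^ 2) (j * y2) := by
      intro j
      rw [E_mul]
      congr 1
      · unfold Q; ring
      · ring
    simp only [e]
    rw [tsum_mul_left, H, mul_left_comm, ← tsum_mul_left]
    congr 1
    refine tsum_congr fun n => ?_
    simp only [G]
    rw [E_mul, E_mul, ← E_int _ _ (-(k * n))]
    congr 1
    · ring
    · push_cast; ring
  have step2 : ∀ n : ℤ, ∑' k, G k n = ((Real.sqrt (3 / 4 * a))⁻¹ : ℝ) *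
      ∑' m : ℤ, E (4 / (3 * a) * Q (m + y1) (n + y2))
          (-((m + y1) * w2 + (n + y2) * w1 - (n + y2) * w2)) := by
    intro n
    simp only [G]
    rw [tsum_mul_left, P1 ha', mul_left_comm, ← tsum_mul_left]
    congr 1
    refine tsum_congr fun m => ?_
    rw [E_mul]
    congr 1
    · unfold Q; field_simp; ring
    · ring
  have t1 := ((Equiv.prodComm ℤ ℤ).summable_iff.2 s1).tsum_prod
  simp only [Function.comp] at t1
  rw [← (Equiv.prodComm ℤ ℤ).tsum_eq, t1]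
  simp only [Equiv.prodComm_apply, Prod.swap_prod_mk, step1]
  rw [tsum_mul_left, ← hG.tsum_comm]
  simp only [step2]
  rw [tsum_mul_left, ← mul_assoc]
  have t2 := ((Equiv.prodComm ℤ ℤ).summable_iff.2 s2).tsum_prod
  simp only [Function.comp] at t2
  rw [← (Equiv.prodComm ℤ ℤ).tsum_eq, t2]
  simp only [Equiv.prodComm_apply, Prod.swap_prod_mk]
  congr 1
  rw [← ofReal_mul]
  congr 1
  have h3 : 0 < Real.sqrt 3 := Real.sqrt_pos.2 (by norm_num)
  have hsa : 0 < Real.sqrt a := Real.sqrt_pos.2 ha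
  have e4 : Real.sqrt (3 / 4 * a) = Real.sqrt 3 / 2 * Real.sqrt a := by
    rw [Real.sqrt_mul (by norm_num), Real.sqrt_div (by norm_num),
      show (4 : ℝ) = 2 ^ 2 by norm_num, Real.sqrt_sq (by norm_num)]
  rw [e4]
  have e5 : Real.sqrt a * Real.sqrt a = a := Real.mul_self_sqrt ha.le
  field_simp
  nlinarith

end Crest.Agent.R17.PAux
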