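import Crest.Agent.R17.Recip
import Crest.Agent.R17.Poisson
import Crest.Agent.R17.Weight

/-!
# Row 17, module M7 (quadratic large sieve): definitions

Plan of the proof (files `LS2*.lean`):
* `LS ξ` : large sieve bound `K + N^ξ`;  `LSw ξ` : its weighted dual form over all squarefree rows;
  `Core ξ` : the bound `M` for one block of columns when `N^ξ ≤ M`.
* `LS 2` (`LS2Triv`), `LS ξ → LSw ξ` (`LS2Dual`), `LSw ξ → Core (2 - 1/ξ)` (`LS2Core`),
  `Core ξ → LS ξ` (`LS2Red`).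
-/

set_option autoImplicit false

noncomputable section

namespace Crest.Agent.R17

open scoped ComplexConjugate

open Classical in
/-- Squarefree primary elements coprime to `M` of norm at most `X`. -/
def sp (M : O) (X : ℝ) : Finset O := (ball ⌊X⌋₊).filter (SP M)

namespace LS2

theorem mem_sp {M n : O} {X : ℝ} (hX : 0 ≤ X) : n ∈ sp M X ↔ SP M n ∧ nr n ≤ X := by
  classical
  rw [sp, Finset.mem_filter, mem_ball, Nat.le_floor_iff hX, and_comm]

open Classical in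
/-- `∑_{c ≠ 0} gw (y N(c)²)`. -/
def th2 (y : ℝ) : ℝ := ∑' c : O, if c = 0 then 0 else gw (y * nr c ^ 2)

/-- The remainder of `th2` after removing the main term `κ / √y`. -/
def Er (κ y : ℝ) : ℝ := th2 y - κ / Real.sqrt y

open Classical in
/-- All squarefree elements of norm at most `V` (not normalised). -/
def sqf (V : ℝ) : Finset O := (ball ⌊V⌋₊).filter Squarefree

theorem mem_sqf {a : O} {V : ℝ} (hV : 0 ≤ V) : a ∈ sqf V ↔ Squarefree a ∧ nr a ≤ V := by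
  classical
  rw [sqf, Finset.mem_filter, mem_ball, Nat.le_floor_iff hV, and_comm]

theorem squarefree_of_mem_sqf {a : O} {V : ℝ} (h : a ∈ sqf V) : Squarefree a := by
  classical
  rw [sqf, Finset.mem_filter] at h
  exact h.2

theorem ne_zero_of_mem_sqf {a : O} {V : ℝ} (h : a ∈ sqf V) : a ≠ 0 :=
  (squarefree_of_mem_sqf h).ne_zero

/-- Non-zero elements whose squarefree kernel has norm at most `V`. -/
def PP (V : ℝ) : Set O := {k | ∃ a ∈ sqf V, ∃ c : O, c ≠ 0 ∧ k = a * c ^ 2}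

/-- The norm of the product of a finite set (of primes). -/
def nP (D : Finset O) : ℝ := ∏ p ∈ D, nr p

open Classical in
/-- The cofactor of `∏ G` in the squarefree element `n`. -/
def cof (G : Finset O) (n : O) : O := ∏ p ∈ pf n \ G, p

open Classical in
/-- Contribution of the kernel `a` on the original side, as a functional of a test function. -/
def origA (n₁ n₂ a : O) (f : ℝ → ℂ) : ℂ :=
  quad n₁ a * quad n₂ a * ∑ D ∈ (pf n₁ ∪ pf n₂).powerset, (-1) ^ D.card * f (nr a * nP D ^ 2)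

open Classical in
/-- Contribution of the kernel `a` on the dual side for the cofactors `m₁, m₂` and the set `G` of
common primes. -/
def dualB (G : Finset O) (m₁ m₂ a : O) (f : ℝ → ℂ) : ℂ :=
  ∑ E ∈ G.powerset, (-1) ^ E.card / ((nP E * Real.sqrt (nr m₁) * Real.sqrt (nr m₂) : ℝ) : ℂ) *
    (quad m₁ a * quad m₂ a) * ∑ D ∈ (pf m₁ ∪ pf m₂).powerset, (-1) ^ D.card *
      f (nr a * nP D ^ 2 / (nP (E.filter (· ∣ a)) ^ 2 * nr m₁ * nr m₂))

open Classical in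
/-- Contribution of the kernel `a` on the dual side, as a functional of a test function. -/
def dualA (n₁ n₂ a : O) (f : ℝ → ℂ) : ℂ :=
  dualB (pf n₁ ∩ pf n₂) (cof (pf n₁ ∩ pf n₂) n₁) (cof (pf n₁ ∩ pf n₂) n₂) a f

/-- Finite combinations of evaluations at positive points. -/
def FC (L : (ℝ → ℂ) → ℂ) : Prop :=
  ∃ μ : ℝ →₀ ℂ, (∀ y ∈ μ.support, 0 < y) ∧ ∀ f, L f = ∑ y ∈ μ.support, μ y * f y

/-- Multiplicative test functions. -/
def MulF (ψ : ℝ → ℂ) : Prop := ψ 1 = 1 ∧ ∀ x y, 0 < x → 0 < y → ψ (x * y) = ψ x * ψ y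

/-- Euler factors. -/
def eu (ψ : ℝ → ℂ) (S : Finset O) : ℂ := ∏ p ∈ S, (1 - ψ (nr p) ^ 2)

/-- Large sieve inequality with exponent `ξ`. -/
def LS (ξ : ℝ) : Prop :=
  ∀ ε : ℝ, 0 < ε → ∃ C : ℝ, 0 < C ∧ ∀ (K N : ℝ) (β : O → ℂ), 1 ≤ K → 1 ≤ N →
    ∑ k ∈ sp 6 K, ‖∑ n ∈ sp 6 N, β n * quad n k‖ ^ 2 ≤
      C * (K * N) ^ ε * (K + N ^ ξ) * ∑ n ∈ sp 6 N, ‖β n‖ ^ 2

/-- Weighted large sieve over all squarefree rows of norm `≤ V`, with constant `D`, for all column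
lengths `N' ≤ N`. -/
def Sieve (ξ V N D : ℝ) : Prop :=
  ∀ N' : ℝ, 1 ≤ N' → N' ≤ N → ∀ (I : Finset O) (m : O → O) (γ : O → ℂ), Set.InjOn m I →
    (∀ i ∈ I, SP 6 (m i) ∧ nr (m i) ≤ N') →
      ∑ a ∈ sqf V, ‖∑ i ∈ I, γ i * quad (m i) a‖ ^ 2 / (N' + nr a ^ ξ) ≤ D * ∑ i ∈ I, ‖γ i‖ ^ 2

/-- Weighted dual form of the large sieve with exponent `ξ`. -/
def LSw (ξ : ℝ) : Prop :=
  ∀ ε : ℝ, 0 < ε → ∃ C : ℝ, 0 < C ∧ ∀ V N : ℝ, 1 ≤ V → 1 ≤ N → Sieve ξ V N (C * (V * N) ^ ε)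

/-- A block of columns: a dyadic range and a class modulo `4`. -/
def Blk (N : ℝ) (S : Finset O) : Prop :=
  (∀ n ∈ S, SP 6 n ∧ N / 2 ≤ nr n ∧ nr n ≤ N) ∧ ∀ n₁ ∈ S, ∀ n₂ ∈ S, (4 : O) ∣ n₁ - n₂

/-- The large sieve for one block of columns and long rows. -/
def Core (ξ : ℝ) : Prop :=
  ∀ ε : ℝ, 0 < ε → ∃ C : ℝ, 0 < C ∧ ∀ (M N : ℝ) (S : Finset O) (β : O → ℂ), 1 ≤ N → N ^ ξ ≤ M →
    Blk N S → ∑ k ∈ sp 6 M, ‖∑ n ∈ S, β n * quad n k‖ ^ 2 ≤
      C * (M * N) ^ ε * M * ∑ n ∈ S, ‖β n‖ ^ 2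

/-! ### Elementary facts -/

theorem PO_of_SP {n : O} (h : SP 6 n) : PO n :=
  ⟨h.1, h.2.2.of_isCoprime_of_dvd_right ⟨3, by norm_num⟩⟩

theorem ne_zero_of_SP {M n : O} (h : SP M n) : n ≠ 0 := h.1.ne_zero

theorem SP_of_dvd {M m n : O} (hn : SP M n) (hm : Primary m) (h : m ∣ n) : SP M m :=
  ⟨hm, hn.2.1.squarefree_of_dvd h, hn.2.2.of_isCoprime_of_dvd_left h⟩

theorem nr_prod (D : Finset O) : nr (∏ p ∈ D, p) = nP D := by
  rw [nP, nr, nm_prod]; push_cast; rfl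

theorem nP_empty : nP ∅ = 1 := by simp [nP]

theorem one_le_nP {D : Finset O} (h : ∀ p ∈ D, p ≠ 0) : 1 ≤ nP D := by
  rw [← nr_prod]; exact one_le_nr (Finset.prod_ne_zero_iff.2 h)

theorem nP_pos {D : Finset O} (h : ∀ p ∈ D, p ≠ 0) : 0 < nP D :=
  lt_of_lt_of_le one_pos (one_le_nP h)

theorem ne_zero_of_subset_pf {D : Finset O} {n : O} (h : D ⊆ pf n) : ∀ p ∈ D, p ≠ 0 :=
  fun _ hp => (BasicB.pf_sub (h hp)).1.ne_zero

theorem nP_mono {D E : Finset O} (h : D ⊆ E) (hE : ∀ p ∈ E, p ≠ 0) : nP D ≤ nP E := by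
  classical
  rw [nP, nP, ← Finset.prod_sdiff h]
  have h1 : 1 ≤ nP (E \ D) := one_le_nP fun p hp => hE p (Finset.sdiff_subset hp)
  have h2 : 0 < nP D := nP_pos fun p hp => hE p (h hp)
  rw [nP] at h1 h2
  nlinarith

theorem cof_primes (G : Finset O) (n : O) : ∀ q ∈ pf n \ G, Prime q ∧ Primary q :=
  fun _ hq => BasicB.pf_sub (Finset.sdiff_subset hq)

theorem pf_cof (G : Finset O) (n : O) : pf (cof G n) = pf n \ G := by
  have := (squarefree_prod_primes (cof_primes G n)).2.2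
  rw [cof]; convert this

theorem primary_cof (G : Finset O) (n : O) : Primary (cof G n) := by
  have := (squarefree_prod_primes (cof_primes G n)).2.1
  rw [cof]; convert this

theorem prod_mul_cof {G : Finset O} {n : O} (hn : Primary n) (hs : Squarefree n) (h : G ⊆ pf n) :
    (∏ p ∈ G, p) * cof G n = n := by
  classical
  have h1 := hn.eq_rad hs
  rw [rad, ← Finset.prod_sdiff h] at h1
  rw [cof, mul_comm]; convert h1

theorem SP_cof {M n : O} (hn : SP M n) (G : Finset O) : SP M (cof G n) := by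
  refine SP_of_dvd hn (primary_cof G n) ?_
  rw [cof]
  convert BasicB.prod_dvd_of_subset (ne_zero_of_SP hn) (s := pf n \ G) Finset.sdiff_subset

theorem SP_prod {M n : O} (hn : SP M n) {G : Finset O} (h : G ⊆ pf n) : SP M (∏ p ∈ G, p) :=
  SP_of_dvd hn (squarefree_prod_primes fun _ hq => BasicB.pf_sub (h hq)).2.1
    (BasicB.prod_dvd_of_subset (ne_zero_of_SP hn) h)

theorem pf_prod {n : O} {G : Finset O} (h : G ⊆ pf n) : pf (∏ p ∈ G, p) = G :=
  (squarefree_prod_primes fun _ hq => BasicB.pf_sub (h hq)).2.2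

theorem nr_cof {M n : O} (hn : SP M n) {G : Finset O} (h : G ⊆ pf n) :
    nr (cof G n) = nr n / nP G := by
  have h1 := congrArg nr (prod_mul_cof hn.1 hn.2.1 h)
  rw [nr_mul, nr_prod] at h1
  rw [eq_div_iff (nP_pos (ne_zero_of_subset_pf h)).ne', ← h1, mul_comm]

theorem mulF_cpow (s : ℂ) : MulF (fun y : ℝ => (y : ℂ) ^ (-s)) := by
  refine ⟨by simp, fun x y hx hy => ?_⟩
  simp only
  rw [Complex.ofReal_mul, Complex.mul_cpow_ofReal_nonneg hx.le hy.le]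

end LS2

end Crest.Agent.R17
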