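import Crest.Agent.R17.CountAux

/-!
# Row 17, module M1 (part B): counting lemmas in `O`
-/

set_option autoImplicit false

noncomputable section

namespace Crest.Agent.R17

open CountAux

theorem Count_pow_card_pf_le {ε : ℝ} (hε : 0 < ε) (B : ℝ) :
    ∃ C : ℝ, 0 < C ∧ ∀ n : O, n ≠ 0 → B ^ (pf n).card ≤ C * nr n ^ ε := by
  classical
  set B' := max |B| 1 with hB'
  have h1 : 1 ≤ B' := le_max_right _ _
  set T := ball ⌈B' ^ ε⁻¹⌉₊
  refine ⟨B' ^ T.card, by positivity, fun n hn => ?_⟩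
  have h2 : ∀ p ∈ pf n, B' ≤ (if p ∈ T then B' else 1) * nr p ^ ε := by
    intro p hp
    split_ifs with h
    · exact le_mul_of_one_le_right (by linarith)
        (Real.one_le_rpow (one_le_nr ((mem_pf hn).1 hp).1.ne_zero) hε.le)
    · rw [mem_ball, not_le] at h
      rw [one_mul, ← Real.rpow_inv_rpow (by linarith : 0 ≤ B') hε.ne']
      exact Real.rpow_le_rpow (by positivity) (Nat.ceil_le.1 h.le) hε.le
  calc B ^ (pf n).card ≤ B' ^ (pf n).card := (le_abs_self _).trans (by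
        rw [abs_pow]
        exact pow_le_pow_left₀ (abs_nonneg _) (le_max_left _ _) _)
    _ = ∏ _p ∈ pf n, B' := (Finset.prod_const _).symm
    _ ≤ ∏ p ∈ pf n, (if p ∈ T then B' else 1) * nr p ^ ε :=
        Finset.prod_le_prod (fun _ _ => by linarith) h2
    _ = B' ^ (pf n ∩ T).card * nr (rad n) ^ ε := by
        rw [Finset.prod_mul_distrib, Finset.prod_ite_mem, Finset.prod_const,
          Real.finsetProd_rpow _ _ (fun _ _ => Nat.cast_nonneg _), rad, nr, nm_prod, Nat.cast_prod]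
    _ ≤ _ := mul_le_mul (pow_le_pow_right₀ h1 (Finset.card_le_card Finset.inter_subset_right))
        (Real.rpow_le_rpow (Nat.cast_nonneg _) (Nat.cast_le.2 (nm_le_of_dvd (rad_dvd n) hn)) hε.le)
        (by positivity) (by positivity)

theorem Count_sum_smooth_le {ε σ : ℝ} (hε : 0 < ε) (hσ : 0 < σ) :
    ∃ C : ℝ, 0 < C ∧ ∀ (h : O) (S : Finset O), h ≠ 0 → (∀ j ∈ S, j ≠ 0 ∧ pf j ⊆ pf h) →
      ∑ j ∈ S, nr j ^ (-σ) ≤ C * nr h ^ ε := by
  classical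
  have h2 : (2 : ℝ) ^ (-σ) < 1 := Real.rpow_lt_one_of_one_lt_of_neg one_lt_two (by linarith)
  have hB : 0 < (1 - (2 : ℝ) ^ (-σ))⁻¹ := inv_pos.2 (by linarith)
  obtain ⟨C, hC, hpow⟩ := Count_pow_card_pf_le hε (1 - (2 : ℝ) ^ (-σ))⁻¹
  have hU : 0 ≤ ∑ u ∈ ball 1, nr u ^ (-σ) := Finset.sum_nonneg fun _ _ => by positivity
  refine ⟨(∑ u ∈ ball 1, nr u ^ (-σ) + 1) * (1 - (2 : ℝ) ^ (-σ))⁻¹ * C, by positivity,
    fun h S hh hS => ?_⟩
  have hl : lam ∉ pf h := fun hl => ((mem_pf hh).1 hl).2.1.not_lam_dvd dvd_rfl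
  refine (euler hσ (ball 1) (insert lam (pf h)) (fun p hp => ?_) S fun j hj => ?_).trans ?_
  · rcases Finset.mem_insert.1 hp with rfl | hp
    · exact two_le_nm prime_lam
    · exact two_le_nm ((mem_pf hh).1 hp).1
  · obtain ⟨hj0, hj⟩ := hS j hj
    obtain ⟨u, a, hu, he⟩ := exists_eq_unit_lam_primary hj0
    refine ⟨u, mem_ball.2 (isUnit_iff_nm.1 hu).le, fun p => if p = lam then a else vp p j, ?_⟩
    beta_reduce
    rw [Finset.prod_insert hl, if_pos rfl, ← mul_assoc, Finset.prod_congr rfl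
      (g := fun p => p ^ vp p j) fun p hp => by rw [if_neg (ne_of_mem_of_not_mem hp hl)],
      ← Finset.prod_subset hj, ← he]
    intro p hp hp'
    have h3 := (mem_pf hh).1 hp
    rw [(vp_eq_zero_iff h3.1 hj0).2 fun h4 => hp' ((mem_pf hj0).2 ⟨h3.1, h3.2.1, h4⟩), pow_zero]
  · rw [Finset.card_insert_of_notMem hl, pow_succ', mul_assoc, mul_assoc]
    exact mul_le_mul (by linarith) (mul_le_mul_of_nonneg_left (hpow h hh) hB.le) (by positivity)
      (by positivity)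

/-- Rankin's trick. -/
theorem Count_rankin {S : Finset O} {X : ℕ} (hS : ∀ j ∈ S, j ≠ 0 ∧ j ∈ ball X) {σ : ℝ}
    (hσ : 0 ≤ σ) : (S.card : ℝ) ≤ (X : ℝ) ^ σ * ∑ j ∈ S, nr j ^ (-σ) := by
  rw [Finset.mul_sum, Finset.card_eq_sum_ones, Nat.cast_sum]
  refine Finset.sum_le_sum fun j hj => ?_
  rw [Real.rpow_neg (Nat.cast_nonneg _), ← div_eq_mul_inv, Nat.cast_one,
    one_le_div (Real.rpow_pos_of_pos (nr_pos (hS j hj).1) _)]
  exact Real.rpow_le_rpow (Nat.cast_nonneg _) (Nat.cast_le.2 (mem_ball.1 (hS j hj).2)) hσ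

theorem Count_card_smooth_le {ε : ℝ} (hε : 0 < ε) :
    ∃ C : ℝ, 0 < C ∧ ∀ (h : O) (X : ℕ), h ≠ 0 → 1 ≤ X →
      (((ball X).filter (fun j => j ≠ 0 ∧ pf j ⊆ pf h)).card : ℝ) ≤ C * (X * nr h) ^ ε := by
  obtain ⟨C, hC, hs⟩ := Count_sum_smooth_le hε hε
  refine ⟨C, hC, fun h X hh _ => (Count_rankin (X := X) (fun j hj => ?_) hε.le).trans ?_⟩
  · rw [Finset.mem_filter] at hj
    exact ⟨hj.2.1, hj.1⟩
  · rw [Real.mul_rpow (Nat.cast_nonneg _) (Nat.cast_nonneg _), mul_left_comm]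
    exact mul_le_mul_of_nonneg_left (hs h _ hh fun j hj => (Finset.mem_filter.1 hj).2)
      (by positivity)

/-- Divisor bound. -/
theorem card_pdiv_le {ε : ℝ} (hε : 0 < ε) :
    ∃ C : ℝ, 0 < C ∧ ∀ n : O, n ≠ 0 → ((pdiv n).card : ℝ) ≤ C * nr n ^ ε := by
  obtain ⟨C, hC, h⟩ := Count_card_smooth_le (half_pos hε)
  refine ⟨C, hC, fun n hn => ?_⟩
  have h1 := h n (nm n) hn (Nat.one_le_iff_ne_zero.2 fun h => hn (nm_eq_zero.1 h))
  rw [Real.mul_rpow (Nat.cast_nonneg _) (Nat.cast_nonneg _), ← Real.rpow_add (nr_pos hn),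
    add_halves] at h1
  refine le_trans (Nat.cast_le.2 (Finset.card_le_card fun d hd => ?_)) h1
  obtain ⟨h2, h3⟩ := (mem_pdiv hn).1 hd
  refine Finset.mem_filter.2 ⟨mem_ball.2 (nm_le_of_dvd h3 hn), h2.ne_zero, fun p hp => ?_⟩
  rw [mem_pf h2.ne_zero] at hp
  exact (mem_pf hn).2 ⟨hp.1, hp.2.1, hp.2.2.trans h3⟩

/-- `B ^ ω(n) ≪ N(n)^ε`. -/
theorem pow_card_pf_le {ε : ℝ} (hε : 0 < ε) (B : ℝ) :
    ∃ C : ℝ, 0 < C ∧ ∀ n : O, n ≠ 0 → B ^ (pf n).card ≤ C * nr n ^ ε := by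
  exact Count_pow_card_pf_le hε B

/-- Elements composed of the primes of `h` (and `λ`, units): there are few of them. -/
theorem card_smooth_le {ε : ℝ} (hε : 0 < ε) :
    ∃ C : ℝ, 0 < C ∧ ∀ (h : O) (X : ℕ), h ≠ 0 → 1 ≤ X →
      (((ball X).filter (fun j => j ≠ 0 ∧ pf j ⊆ pf h)).card : ℝ) ≤ C * (X * nr h) ^ ε := by
  exact Count_card_smooth_le hε

/-- Weighted version: `∑_{j ∣ h^∞} N(j)^{-σ} ≪ N(h)^ε` (any finite subsum). -/
theorem sum_smooth_le {ε σ : ℝ} (hε : 0 < ε) (hσ : 0 < σ) :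
    ∃ C : ℝ, 0 < C ∧ ∀ (h : O) (S : Finset O), h ≠ 0 → (∀ j ∈ S, j ≠ 0 ∧ pf j ⊆ pf h) →
      ∑ j ∈ S, nr j ^ (-σ) ≤ C * nr h ^ ε := by
  exact Count_sum_smooth_le hε hσ

/-- Powerful primary elements. -/
def Powerful (n : O) : Prop := Primary n ∧ ∀ p ∈ pf n, 2 ≤ vp p n

theorem Powerful.two_le_vp {n : O} (h : Powerful n) {p : O} (hp : p ∈ pf n) : 2 ≤ vp p n :=
  h.2 p hp

theorem Powerful.exists_sq_cube {n : O} (h : Powerful n) : ∃ a b : O, n = a ^ 2 * b ^ 3 := by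
  refine ⟨∏ p ∈ pf n, p ^ ((vp p n - 3 * (vp p n % 2)) / 2), ∏ p ∈ pf n, p ^ (vp p n % 2), ?_⟩
  rw [← Finset.prod_pow, ← Finset.prod_pow, ← Finset.prod_mul_distrib]
  refine h.1.eq_prod.trans (Finset.prod_congr rfl fun p hp => ?_)
  rw [← pow_mul, ← pow_mul, ← pow_add]
  have := h.two_le_vp hp
  congr 1
  omega

open Classical in
theorem Count_sum_powerful_le {ε : ℝ} (hε : 0 < ε) :
    ∃ C : ℝ, 0 < C ∧ ∀ X : ℕ, 1 ≤ X →
      ∑ n ∈ (ball X).filter Powerful, nr n ^ (-(1 / 2 : ℝ)) ≤ C * (X : ℝ) ^ ε := by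
  obtain ⟨C, hC, h1⟩ := sum_rpow_le (σ := -1 + ε) (by linarith)
  obtain ⟨C', hC', h2⟩ := sum_all (σ := 3 / 2) (by norm_num)
  refine ⟨C * C', by positivity, fun X hX => ?_⟩
  refine (sum_le_prod ((ball X).erase 0) (ball X) (fun a b => a ^ 2 * b ^ 3) (fun j hj => ?_) _
    fun _ => by positivity).trans ?_
  · rw [Finset.mem_filter, mem_ball] at hj
    obtain ⟨a, b, hab⟩ := hj.2.exists_sq_cube
    have h0 := hj.2.1.ne_zero
    have ha : a ∣ j := hab ▸ (dvd_pow_self a two_ne_zero).mul_right _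
    have hb : b ∣ j := hab ▸ (dvd_pow_self b three_ne_zero).mul_left _
    exact ⟨a, mem_erase_ball.2 ⟨ne_zero_of_dvd_ne_zero h0 ha, (nm_le_of_dvd ha h0).trans hj.1⟩,
      b, mem_ball.2 ((nm_le_of_dvd hb h0).trans hj.1), hab⟩
  · simp only [nr_mul_rpow, nr_pow_rpow]
    rw [← Finset.sum_mul_sum, mul_right_comm]
    refine mul_le_mul ((Finset.sum_le_sum fun a ha => ?_).trans ((h1 X hX).trans_eq ?_)) ?_
      (Finset.sum_nonneg fun _ _ => by positivity) (by positivity)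
    · exact Real.rpow_le_rpow_of_exponent_le (one_le_nr (Finset.ne_of_mem_erase ha))
        (by push_cast; linarith)
    · rw [add_neg_cancel_left]
    · rw [show ((3 : ℕ) : ℝ) * -(1 / 2) = -(3 / 2) by norm_num]
      exact h2 _

open Classical in
theorem card_powerful_le {ε : ℝ} (hε : 0 < ε) :
    ∃ C : ℝ, 0 < C ∧ ∀ X : ℕ, 1 ≤ X →
      (((ball X).filter Powerful).card : ℝ) ≤ C * (X : ℝ) ^ (1 / 2 + ε) := by
  obtain ⟨C, hC, h⟩ := Count_sum_powerful_le hε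
  refine ⟨C, hC, fun X hX => (Count_rankin (X := X) (σ := 1 / 2) (fun j hj => ?_)
    (by norm_num)).trans ?_⟩
  · rw [Finset.mem_filter] at hj
    exact ⟨hj.2.1.ne_zero, hj.1⟩
  · rw [Real.rpow_add (by exact_mod_cast hX), mul_left_comm]
    exact mul_le_mul_of_nonneg_left (h X hX) (by positivity)

open Classical in
theorem sum_powerful_le {ε : ℝ} (hε : 0 < ε) :
    ∃ C : ℝ, 0 < C ∧ ∀ X : ℕ, 1 ≤ X →
      ∑ n ∈ (ball X).filter Powerful, nr n ^ (-(1 / 2 : ℝ)) ≤ C * (X : ℝ) ^ ε := by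
  exact Count_sum_powerful_le hε

theorem Powerful.nr_rad_sq_le {n : O} (h : Powerful n) : nr (rad n) ^ 2 ≤ nr n := by
  rw [← nr_pow]
  refine Nat.cast_le.2 (nm_le_of_dvd ?_ h.1.ne_zero)
  conv_rhs => rw [h.1.eq_prod]
  rw [rad, ← Finset.prod_pow]
  exact Finset.prod_dvd_prod_of_dvd _ _ fun p hp => pow_dvd_pow p (h.two_le_vp hp)

/-- Splitting a primary element into its squarefree part and its powerful part. -/
theorem exists_sqfree_powerful {n : O} (hn : Primary n) :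
    ∃ k h : O, Primary k ∧ Squarefree k ∧ Powerful h ∧ IsCoprime k h ∧ n = k * h := by
  classical
  have h0 := hn.ne_zero
  have h1 : ∀ (P : O → Prop) [DecidablePred P], ∀ q ∈ (pf n).filter P, Prime q ∧ Primary q :=
    fun P _ q hq => by
      have := (mem_pf h0).1 (Finset.mem_filter.1 hq).1
      exact ⟨this.1, this.2.1⟩
  obtain ⟨k1, k2, k3⟩ := squarefree_prod_primes (h1 fun p => vp p n = 1)
  have h2 : Primary (∏ p ∈ (pf n).filter fun p => ¬ vp p n = 1, p ^ vp p n) :=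
    Primary.prod fun p hp => (h1 _ p hp).2.pow _
  have h3 : ∀ p ∈ pf (∏ p ∈ (pf n).filter fun p => ¬ vp p n = 1, p ^ vp p n),
      ¬ vp p n = 1 ∧ 2 ≤ vp p (∏ p ∈ (pf n).filter fun p => ¬ vp p n = 1, p ^ vp p n) := by
    intro p hp
    rw [mem_pf h2.ne_zero] at hp
    have h4 := (vp_eq_zero_iff hp.1 h2.ne_zero).not.2 (not_not.2 hp.2.2)
    rw [vp_prod_pow (h1 _) _ hp.1 hp.2.1] at h4 ⊢
    split_ifs at h4 ⊢ with h5
    · have := (Finset.mem_filter.1 h5).2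
      omega
    · exact absurd rfl h4
  refine ⟨_, _, k2, k1, ⟨h2, fun p hp => (h3 p hp).2⟩,
    isCoprime_of_disjoint_pf k2 h2.ne_zero ?_, ?_⟩
  · rw [k3]
    exact Finset.disjoint_left.2 fun p hp hp' => (h3 p hp').1 (Finset.mem_filter.1 hp).2
  · rw [Finset.prod_congr rfl (g := fun p => p ^ vp p n) fun p hp => by
      rw [(Finset.mem_filter.1 hp).2, pow_one], Finset.prod_filter_mul_prod_filter_not]
    exact hn.eq_prod

open Classical in
/-- Rows which are sixth powers away from the primes of `h`. -/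
theorem card_exc_le {ε : ℝ} (hε : 0 < ε) :
    ∃ C : ℝ, 0 < C ∧ ∀ (h : O) (X : ℕ), h ≠ 0 → 1 ≤ X →
      (((ball X).filter (fun a => a ≠ 0 ∧ Exc h a)).card : ℝ)
        ≤ C * (X : ℝ) ^ (1 / 6 : ℝ) * (X * nr h) ^ ε := by
  obtain ⟨C, hC, h1⟩ := Count_sum_smooth_le hε (σ := 1 / 6 + ε) (by linarith)
  obtain ⟨C', hC', h2⟩ := sum_all (σ := 1 + 6 * ε) (by linarith)
  refine ⟨C * C', by positivity, fun h X hh hX => (Count_rankin (X := X) (σ := 1 / 6 + ε)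
    (fun j hj => ?_) (by linarith)).trans ?_⟩
  · rw [Finset.mem_filter] at hj
    exact ⟨hj.2.1, hj.1⟩
  rw [Real.rpow_add (by exact_mod_cast hX), Real.mul_rpow (Nat.cast_nonneg _) (Nat.cast_nonneg _),
    show C * C' * (X : ℝ) ^ (1 / 6 : ℝ) * ((X : ℝ) ^ ε * nr h ^ ε) =
      (X : ℝ) ^ (1 / 6 : ℝ) * (X : ℝ) ^ ε * (C * nr h ^ ε * C') by ring]
  refine mul_le_mul_of_nonneg_left ((sum_le_prod ((ball X).filter fun j => j ≠ 0 ∧ pf j ⊆ pf h)
    (ball X) (fun s c => s * c ^ 6) (fun a ha => ?_) _ fun _ => by positivity).trans ?_)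
    (by positivity)
  · rw [Finset.mem_filter, mem_ball] at ha
    obtain ⟨haX, ha, he⟩ := ha
    have h3 : ∀ q ∈ (pf a).filter fun p => ¬ p ∣ h, Prime q ∧ Primary q := fun q hq => by
      have := (mem_pf ha).1 (Finset.mem_filter.1 hq).1
      exact ⟨this.1, this.2.1⟩
    have h4 : Primary (∏ p ∈ (pf a).filter fun p => ¬ p ∣ h, p ^ (vp p a / 6)) :=
      Primary.prod fun p hp => (h3 p hp).2.pow _
    have h5 := fun p hp hp' => vp_prod_pow h3 (fun p => vp p a / 6) (p := p) hp hp'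
    generalize (∏ p ∈ (pf a).filter fun p => ¬ p ∣ h, p ^ (vp p a / 6)) = c at h4 h5
    have h6 : c ^ 6 ∣ a := ((h4.pow 6).dvd_iff_vp ha).2 fun p hp => by
      rw [mem_pf (h4.pow 6).ne_zero] at hp
      rw [vp_pow hp.1 h4.ne_zero, h5 p hp.1 hp.2.1]
      split_ifs <;> omega
    obtain ⟨s, hs⟩ := exists_eq_mul_left_of_dvd h6
    have hsa : s ∣ a := Dvd.intro _ hs.symm
    have hs0 : s ≠ 0 := ne_zero_of_dvd_ne_zero ha hsa
    refine ⟨s, Finset.mem_filter.2 ⟨mem_ball.2 ((nm_le_of_dvd hsa ha).trans haX), hs0,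
      fun p hp => ?_⟩, c, mem_ball.2 ((nm_le_of_dvd ((dvd_pow_self c (by norm_num)).trans h6)
        ha).trans haX), hs⟩
    rw [mem_pf hs0] at hp
    refine (mem_pf hh).2 ⟨hp.1, hp.2.1, by_contra fun h7 => ?_⟩
    have h8 : p ∈ pf a := (mem_pf ha).2 ⟨hp.1, hp.2.1, hp.2.2.trans hsa⟩
    have h9 := vp_mul hp.1 hs0 (h4.pow 6).ne_zero
    rw [← hs, vp_pow hp.1 h4.ne_zero, h5 p hp.1 hp.2.1, if_pos (Finset.mem_filter.2 ⟨h8, h7⟩)] at h9
    have h10 := he p h8 h7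
    exact (vp_eq_zero_iff hp.1 hs0).1 (by omega) hp.2.2
  · simp only [nr_mul_rpow, nr_pow_rpow]
    rw [← Finset.sum_mul_sum]
    refine mul_le_mul (h1 h _ hh fun j hj => (Finset.mem_filter.1 hj).2) ?_
      (Finset.sum_nonneg fun _ _ => by positivity) (by positivity)
    rw [show ((6 : ℕ) : ℝ) * -(1 / 6 + ε) = -(1 + 6 * ε) by push_cast; ring]
    exact h2 _

theorem sum_inv_nr_le :
    ∃ C : ℝ, 0 < C ∧ ∀ X : ℕ, ∑ n ∈ (ball X).erase 0, (nr n)⁻¹ ≤ C * (1 + Real.log (X + 1)) := by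
  refine ⟨7, by norm_num, fun X => (CountAux.abel (fun k => (k : ℝ)⁻¹) (fun k => by positivity)
    (fun k hk => inv_anti₀ (by exact_mod_cast hk) (by simp)) X).trans ?_⟩
  have h1 := harmonic_le_one_add_log X
  simp only [harmonic, Rat.cast_sum, Rat.cast_inv, Rat.cast_natCast] at h1
  have h2 : Real.log X ≤ Real.log (X + 1) := by
    rcases Nat.eq_zero_or_pos X with rfl | hX
    · simp
    · exact Real.log_le_log (by exact_mod_cast hX) (by linarith)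
  linarith

theorem summable_nr_rpow {σ : ℝ} (hσ : 1 < σ) : Summable (fun n : O => nr n ^ (-σ)) := by
  obtain ⟨C, -, h⟩ := sum_all hσ
  exact summable_of_sum_le (fun _ => by positivity) h

/-- `∑_{N n ≤ X} N(n)^σ ≪ X^{1+σ}` for `σ > -1`. -/
theorem sum_nr_rpow_le {σ : ℝ} (hσ : -1 < σ) :
    ∃ C : ℝ, 0 < C ∧ ∀ X : ℕ, 1 ≤ X → ∑ n ∈ (ball X).erase 0, nr n ^ σ ≤ C * (X : ℝ) ^ (1 + σ) := by
  exact sum_rpow_le hσ

/-- Tails: `∑_{N n > X} N(n)^{-σ} ≪ X^{1-σ}` for `σ > 1` (any finite subsum). -/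
theorem sum_nr_rpow_tail {σ : ℝ} (hσ : 1 < σ) :
    ∃ C : ℝ, 0 < C ∧ ∀ (X : ℝ) (S : Finset O), 1 ≤ X → (∀ n ∈ S, X ≤ nr n) →
      ∑ n ∈ S, nr n ^ (-σ) ≤ C * X ^ (1 - σ) := by
  exact sum_tail hσ

open Classical in
/-- The primary primes with norm in `(P, 2P]`, not dividing `M`. -/
def primesIn (M : O) (P : ℝ) : Finset O :=
  (ball ⌊2 * P⌋₊).filter (fun p => Prime p ∧ Primary p ∧ ¬ p ∣ M ∧ P < nr p)

theorem mem_primesIn {M p : O} {P : ℝ} (hP : 0 ≤ P) :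
    p ∈ primesIn M P ↔ Prime p ∧ Primary p ∧ ¬ p ∣ M ∧ P < nr p ∧ nr p ≤ 2 * P := by
  classical
  rw [primesIn, Finset.mem_filter, mem_ball, Nat.le_floor_iff (by linarith)]
  tauto

/-- Chebyshev-type lower bound (use `Crest.Agent.Lib.PNT.Main`: primes `≡ 1 (mod 3)` split). -/
theorem card_primesIn_ge {M : O} (hM : M ≠ 0) {ε : ℝ} (hε : 0 < ε) :
    ∃ P₀ : ℝ, ∀ P ≥ P₀, P ^ (1 - ε) ≤ ((primesIn M P).card : ℝ) := by
  refine Filter.eventually_atTop.1 ?_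
  filter_upwards [card_rat_primes hε, Filter.eventually_ge_atTop (nr M)] with P h1 h2
  have hP : 0 ≤ P := (Nat.cast_nonneg _).trans h2
  refine h1.trans (Nat.cast_le.2 (Finset.card_le_card_of_surjOn nm fun q hq => ?_))
  rw [Finset.mem_coe, Finset.mem_filter, Finset.mem_Ioc, Nat.floor_lt hP,
    Nat.le_floor_iff (by linarith)] at hq
  obtain ⟨p, hp1, hp2, rfl⟩ := exists_prime_nm hq.2.1 hq.2.2
  refine ⟨p, (mem_primesIn hP).2 ⟨hp1, hp2, fun h => ?_, hq.1⟩, rfl⟩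
  have h3 : nr p ≤ nr M := Nat.cast_le.2 (nm_le_of_dvd h hM)
  linarith [hq.1.1]

end Crest.Agent.R17
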