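import Crest.Agent.R17.LS2Defs

/-!
# Row 17, module M7 (quadratic large sieve): the trivial large sieve
-/

set_option autoImplicit false

noncomputable section

namespace Crest.Agent.R17.LS2

open scoped ComplexConjugate
open Classical

theorem triv_mean_prime {p m : O} (hp : Prime p) (hpo : PO p) (hm : m ≠ 0) (h : IsCoprime p m)
    {j : ℕ} (hj : ¬ 6 ∣ j) (g : O → ℂ) (hg : ∀ x y, m ∣ x - y → g x = g y) :
    ∑ x ∈ res (p * m), sym p x ^ j * g x = 0 := by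
  rw [sum_res_crt hp.ne_zero hm h (fun x => sym p x ^ j * g x)]
  · have e : ∀ x y : O, sym p (m * x + p * y) ^ j * g (m * x + p * y) =
        sym p x ^ j * (sym p m ^ j * g (p * y)) := by
      intro x y
      rw [sym_congr (n := p) (a := m * x + p * y) (b := m * x)
        ((rad_dvd p).trans ⟨y, by ring⟩), sym_mul_right hpo, hg (m * x + p * y) (p * y) ⟨x, by ring⟩,
        mul_pow]
      ring
    simp only [e]
    rw [← Finset.sum_mul_sum, sum_res_sym_pow hp hpo hj, zero_mul]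
  · intro x y hxy
    rw [sym_congr ((rad_dvd p).trans ((dvd_mul_right p m).trans hxy)),
      hg x y ((dvd_mul_left m p).trans hxy)]

theorem triv_mean_of_mem {z₁ z₂ p : O} (h1 : SP 6 z₁) (h2 : SP 6 z₂) (hp1 : p ∈ pf z₁)
    (hp2 : p ∉ pf z₂) {j : ℕ} (hj : ¬ 6 ∣ j) :
    ∑ x ∈ res (z₁ * z₂), sym z₁ x ^ j * conj (sym z₂ x ^ j) = 0 := by
  obtain ⟨hp, hp'⟩ := BasicB.pf_sub hp1
  have hsub : ({p} : Finset O) ⊆ pf z₁ := Finset.singleton_subset_iff.2 hp1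
  have hz : p * cof {p} z₁ = z₁ := by
    have := prod_mul_cof h1.1 h1.2.1 hsub
    rwa [Finset.prod_singleton] at this
  set c := cof {p} z₁ with hc
  have hc0 : c ≠ 0 := (primary_cof _ _).ne_zero
  have hz2 : z₂ ≠ 0 := ne_zero_of_SP h2
  have hpo : PO p := (PO_of_SP h1).of_dvd hp' ⟨c, hz.symm⟩
  have hcop : IsCoprime p (c * z₂) := by
    refine isCoprime_of_disjoint_pf hp' (mul_ne_zero hc0 hz2) ?_
    rw [pf_prime hp hp', pf_mul hc0 hz2, hc, pf_cof, Finset.disjoint_singleton_left]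
    simp [hp2]
  have key := triv_mean_prime hp hpo (mul_ne_zero hc0 hz2) hcop hj
    (fun x => sym c x ^ j * conj (sym z₂ x ^ j)) (fun x y hxy => by
      rw [sym_congr ((rad_dvd c).trans ((dvd_mul_right c z₂).trans hxy)),
        sym_congr ((rad_dvd z₂).trans ((dvd_mul_left z₂ c).trans hxy))])
  rw [← mul_assoc, hz] at key
  rw [← key]
  refine Finset.sum_congr rfl fun x _ => ?_
  rw [← hz, sym_mul_left hp.ne_zero hc0, mul_pow, mul_assoc]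

theorem triv_mean {z₁ z₂ : O} (h1 : SP 6 z₁) (h2 : SP 6 z₂) (hne : z₁ ≠ z₂) {j : ℕ}
    (hj : ¬ 6 ∣ j) : ∑ x ∈ res (z₁ * z₂), sym z₁ x ^ j * conj (sym z₂ x ^ j) = 0 := by
  have hpf : pf z₁ ≠ pf z₂ := by
    intro h
    apply hne
    rw [← h1.1.eq_rad h1.2.1, ← h2.1.eq_rad h2.2.1, rad, rad, h]
  by_cases hsub : pf z₁ ⊆ pf z₂
  · have : ¬ pf z₂ ⊆ pf z₁ := fun h => hpf (Finset.Subset.antisymm hsub h)
    obtain ⟨p, hp2, hp1⟩ := Finset.not_subset.1 this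
    have key := congrArg conj (triv_mean_of_mem h2 h1 hp2 hp1 hj)
    rw [map_sum, map_zero, mul_comm z₂ z₁] at key
    rw [← key]
    refine Finset.sum_congr rfl fun x _ => ?_
    rw [map_mul, Complex.conj_conj, mul_comm]
  · obtain ⟨p, hp1, hp2⟩ := Finset.not_subset.1 hsub
    exact triv_mean_of_mem h1 h2 hp1 hp2 hj

theorem triv_bilinear (S : Finset O) (a : O → O → ℂ) (ha : ∀ z n, ‖a z n‖ ≤ 1) (w : O → ℝ)
    (hw0 : ∀ n, 0 ≤ w n) (hw : Summable w) (c : O → ℂ) {D E : ℝ} (hE : 0 ≤ E)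
    (hD : ∑' n, w n ≤ D)
    (hoff : ∀ z₁ ∈ S, ∀ z₂ ∈ S, z₁ ≠ z₂ → ‖∑' n, a z₁ n * conj (a z₂ n) * (w n : ℂ)‖ ≤ E)
    (T : Finset O) :
    ∑ n ∈ T, w n * ‖∑ z ∈ S, c z * a z n‖ ^ 2 ≤ (D + S.card * E) * ∑ z ∈ S, ‖c z‖ ^ 2 := by
  have hb : ∀ z₁ z₂ n, ‖a z₁ n * conj (a z₂ n) * (w n : ℂ)‖ ≤ w n := by
    intro z₁ z₂ n
    rw [norm_mul, norm_mul, Complex.norm_conj, Complex.norm_real, Real.norm_of_nonneg (hw0 n)]
    exact mul_le_of_le_one_left (hw0 n) (mul_le_one₀ (ha _ _) (norm_nonneg _) (ha _ _))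
  have hs : ∀ z₁ z₂, Summable fun n => a z₁ n * conj (a z₂ n) * (w n : ℂ) :=
    fun z₁ z₂ => Summable.of_norm_bounded hw (hb z₁ z₂)
  have hall : ∀ z₁ z₂, ‖∑' n, a z₁ n * conj (a z₂ n) * (w n : ℂ)‖ ≤ D :=
    fun z₁ z₂ => (tsum_of_norm_bounded hw.hasSum (hb z₁ z₂)).trans hD
  have e : ∀ n, ((w n * ‖∑ z ∈ S, c z * a z n‖ ^ 2 : ℝ) : ℂ) =
      ∑ z₁ ∈ S, ∑ z₂ ∈ S, c z₁ * conj (c z₂) * (a z₁ n * conj (a z₂ n) * (w n : ℂ)) := by
    intro n
    push_cast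
    rw [← Complex.mul_conj', map_sum, Finset.sum_mul_sum, Finset.mul_sum]
    refine Finset.sum_congr rfl fun z₁ _ => ?_
    rw [Finset.mul_sum]
    refine Finset.sum_congr rfl fun z₂ _ => ?_
    rw [map_mul]
    ring
  have hH : HasSum (fun n => ((w n * ‖∑ z ∈ S, c z * a z n‖ ^ 2 : ℝ) : ℂ))
      (∑ z₁ ∈ S, ∑ z₂ ∈ S, c z₁ * conj (c z₂) * ∑' n, a z₁ n * conj (a z₂ n) * (w n : ℂ)) := by
    simp only [e]
    exact hasSum_sum fun z₁ _ => hasSum_sum fun z₂ _ => (hs z₁ z₂).hasSum.mul_left _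
  have hH' := Complex.hasSum_re hH
  simp only [Complex.ofReal_re] at hH'
  refine (sum_le_hasSum T (fun n _ => mul_nonneg (hw0 n) (sq_nonneg _)) hH').trans ?_
  refine (Complex.re_le_norm _).trans ?_
  have h1 : ∀ z₁ ∈ S, ∀ z₂ ∈ S,
      ‖c z₁ * conj (c z₂) * ∑' n, a z₁ n * conj (a z₂ n) * (w n : ℂ)‖ ≤
        (if z₁ = z₂ then D * ‖c z₁‖ ^ 2 else 0) + (E / 2 * ‖c z₁‖ ^ 2 + E / 2 * ‖c z₂‖ ^ 2) := by
    intro z₁ h₁ z₂ h₂
    rw [norm_mul, norm_mul, Complex.norm_conj]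
    split_ifs with h
    · subst h
      have := mul_le_mul_of_nonneg_left (hall z₁ z₁)
        (mul_nonneg (norm_nonneg (c z₁)) (norm_nonneg (c z₁)))
      have h2 : 0 ≤ E / 2 * ‖c z₁‖ ^ 2 := by positivity
      nlinarith
    · have := mul_le_mul_of_nonneg_left (hoff z₁ h₁ z₂ h₂ h)
        (mul_nonneg (norm_nonneg (c z₁)) (norm_nonneg (c z₂)))
      have h2 := mul_nonneg hE (sq_nonneg (‖c z₁‖ - ‖c z₂‖))
      nlinarith
  calc _ ≤ ∑ z₁ ∈ S, ∑ z₂ ∈ S, ((if z₁ = z₂ then D * ‖c z₁‖ ^ 2 else 0) +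
        (E / 2 * ‖c z₁‖ ^ 2 + E / 2 * ‖c z₂‖ ^ 2)) :=
        (norm_sum_le _ _).trans (Finset.sum_le_sum fun z₁ h₁ =>
          (norm_sum_le _ _).trans (Finset.sum_le_sum fun z₂ h₂ => h1 z₁ h₁ z₂ h₂))
    _ = _ := by
        simp only [Finset.sum_add_distrib, Finset.sum_ite_eq, Finset.sum_const, nsmul_eq_mul,
          ← Finset.mul_sum]
        rw [Finset.sum_congr rfl fun z hz => if_pos hz, ← Finset.mul_sum]
        ring

theorem triv_sieve {j : ℕ} (hj : ¬ 6 ∣ j) {ε : ℝ} (hε : 0 < ε) : ∃ C : ℝ, 0 < C ∧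
    ∀ (N Z : ℝ) (c : O → ℂ), 1 ≤ N → 1 ≤ Z →
      ∑ n ∈ ball ⌊N⌋₊, ‖∑ z ∈ sp 6 Z, c z * sym z n ^ j‖ ^ 2 ≤
        C * (N * Z) ^ ε * (N + Z ^ 2) * ∑ z ∈ sp 6 Z, ‖c z‖ ^ 2 := by
  obtain ⟨C, hC, hoff⟩ := norm_tsum_gw_le_of_mean_zero ε⁻¹
  have hg1 := gw_pos 1
  refine ⟨(gw 1)⁻¹ * (8 + 8 * C), by positivity, fun N Z c hN hZ => ?_⟩
  have hNZ : 1 ≤ N * Z := one_le_mul_of_one_le_of_one_le hN hZ
  set P := (N * Z) ^ ε with hP
  have hP1 : 1 ≤ P := Real.one_le_rpow hNZ hε.le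
  set X := N + Z ^ 2 * P with hX
  have hZ2 : 1 ≤ Z ^ 2 := one_le_pow₀ hZ
  have hZP : 0 ≤ Z ^ 2 * P := by positivity
  have hXN : N ≤ X := by linarith
  have hX1 : 1 ≤ X := by linarith
  have hX0 : 0 < X := by linarith
  have hcard : ((sp 6 Z).card : ℝ) ≤ 8 * Z := by
    have h1 : (sp 6 Z).card ≤ 7 * ⌊Z⌋₊ + 1 :=
      (Finset.card_le_card (Finset.filter_subset _ _)).trans (card_ball_le _)
    have h2 : ((sp 6 Z).card : ℝ) ≤ 7 * ⌊Z⌋₊ + 1 := by exact_mod_cast h1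
    have h3 := Nat.floor_le (show (0 : ℝ) ≤ Z by linarith)
    linarith
  have key := triv_bilinear (sp 6 Z) (fun z n => sym z n ^ j)
    (fun z n => by rw [norm_pow]; exact pow_le_one₀ (norm_nonneg _) (norm_sym_le z n))
    (fun n => gw (nr n / X)) (fun n => (gw_pos _).le) (summable_gw' hX0) c
    (E := C * X * (N * Z)⁻¹) (by positivity) (tsum_gw_le hX0) ?_ (ball ⌊N⌋₊)
  · have hS : 0 ≤ ∑ z ∈ sp 6 Z, ‖c z‖ ^ 2 := Finset.sum_nonneg fun _ _ => sq_nonneg _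
    have h1 : gw 1 * ∑ n ∈ ball ⌊N⌋₊, ‖∑ z ∈ sp 6 Z, c z * sym z n ^ j‖ ^ 2 ≤
        ∑ n ∈ ball ⌊N⌋₊, gw (nr n / X) * ‖∑ z ∈ sp 6 Z, c z * sym z n ^ j‖ ^ 2 := by
      rw [Finset.mul_sum]
      refine Finset.sum_le_sum fun n hn => mul_le_mul_of_nonneg_right (gw_antitone ?_) (sq_nonneg _)
      rw [mem_ball, Nat.le_floor_iff (by linarith)] at hn
      rw [div_le_one hX0]
      exact hn.trans hXN
    have h2 : ((sp 6 Z).card : ℝ) * (C * X * (N * Z)⁻¹) ≤ 8 * C * X := by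
      calc _ ≤ 8 * Z * (C * X * (N * Z)⁻¹) := by gcongr
        _ = 8 * C * X * N⁻¹ := by field_simp
        _ ≤ 8 * C * X := mul_le_of_le_one_right (by positivity) (inv_le_one_of_one_le₀ hN)
    have h3 : X ≤ P * (N + Z ^ 2) := by
      rw [hX]
      nlinarith
    have h4 : 1 + 7 * X + ((sp 6 Z).card : ℝ) * (C * X * (N * Z)⁻¹) ≤
        (8 + 8 * C) * (P * (N + Z ^ 2)) := by
      calc _ ≤ (8 + 8 * C) * X := by linarith
        _ ≤ _ := by gcongr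
    have h5 := (h1.trans key).trans (mul_le_mul_of_nonneg_right h4 hS)
    rw [← le_inv_mul_iff₀ hg1] at h5
    refine h5.trans (le_of_eq ?_)
    ring
  · intro z₁ h₁ z₂ h₂ hne
    rw [mem_sp (by linarith)] at h₁ h₂
    have hq : z₁ * z₂ ≠ 0 := mul_ne_zero (ne_zero_of_SP h₁.1) (ne_zero_of_SP h₂.1)
    have hq0 := nr_pos hq
    have hqZ : nr (z₁ * z₂) ≤ Z ^ 2 := by
      rw [nr_mul, sq]
      exact mul_le_mul h₁.2 h₂.2 (Nat.cast_nonneg _) (by linarith)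
    have hPq : P ≤ X / nr (z₁ * z₂) := by
      rw [le_div_iff₀ hq0]
      have := mul_le_mul_of_nonneg_left hqZ (show 0 ≤ P by linarith)
      linarith
    have hqX : nr (z₁ * z₂) ≤ X := by
      have := (le_div_iff₀ hq0).1 (hP1.trans hPq)
      linarith
    refine (hoff (z₁ * z₂) (fun n => sym z₁ n ^ j * conj (sym z₂ n ^ j)) X hq ?_ ?_
      (triv_mean h₁.1 h₂.1 hne hj) hqX).trans ?_
    · intro x y hxy
      rw [sym_congr ((rad_dvd z₁).trans ((dvd_mul_right z₁ z₂).trans hxy)),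
        sym_congr ((rad_dvd z₂).trans ((dvd_mul_left z₂ z₁).trans hxy))]
    · intro x
      rw [norm_mul, Complex.norm_conj, norm_pow, norm_pow]
      exact mul_le_one₀ (pow_le_one₀ (norm_nonneg _) (norm_sym_le _ _)) (by positivity)
        (pow_le_one₀ (norm_nonneg _) (norm_sym_le _ _))
    · refine mul_le_mul_of_nonneg_left ?_ (by positivity)
      calc _ ≤ P ^ (-ε⁻¹) :=
            Real.rpow_le_rpow_of_nonpos (by linarith) hPq (neg_nonpos.2 (inv_nonneg.2 hε.le))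
        _ = (N * Z)⁻¹ := by
            rw [hP, ← Real.rpow_mul (by linarith), mul_neg, mul_inv_cancel₀ hε.ne',
              Real.rpow_neg_one]

theorem LS_two : LS 2 := by
  intro ε hε
  obtain ⟨C, hC, h⟩ := triv_sieve (j := 3) (by norm_num) hε
  refine ⟨C, hC, fun K N β hK hN => ?_⟩
  rw [Real.rpow_two]
  refine le_trans ?_ (h K N β hK hN)
  calc _ = ∑ k ∈ sp 6 K, ‖∑ n ∈ sp 6 N, β n * sym n k ^ 3‖ ^ 2 := by
        refine Finset.sum_congr rfl fun k _ => ?_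
        congr 2
        refine Finset.sum_congr rfl fun n hn => ?_
        rw [sym_pow_three ((mem_sp (by linarith)).1 hn).1.1]
    _ ≤ _ := Finset.sum_le_sum_of_subset_of_nonneg (Finset.filter_subset _ _)
        fun _ _ _ => sq_nonneg _

end Crest.Agent.R17.LS2
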