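import Crest.Agent.R17.LBasic

/-!
# Row 17: the L-function of `χ ∘ N` is `L(χ) L(χ χ₋₃)`
-/

set_option autoImplicit false

noncomputable section

namespace Crest.Agent.R17.FinalA

open Complex

theorem nm_congr {K : ℕ} {a b : O} (h : (K : O) ∣ a - b) : (nm a : ZMod K) = nm b := by
  obtain ⟨c, hc⟩ := h
  have h1 : a.re = b.re + K * c.re := by
    have := congrArg QuadraticAlgebra.re hc
    simp at this; omega
  have h2 : a.im = b.im + K * c.im := by
    have := congrArg QuadraticAlgebra.im hc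
    simp at this; omega
  have e : ∀ z : O, (nm z : ZMod K) = ((nm z : ℤ) : ZMod K) := fun z => by simp
  rw [e, e, nm_cast, nm_cast, h1, h2]
  simp

/-- the norm modulo `K` -/
def nq (K : ℕ) (x : O ⧸ Ideal.span {(K : O)}) : ZMod K :=
  Quotient.liftOn' x (fun a => (nm a : ZMod K)) fun _ _ h =>
    nm_congr (Ideal.mem_span_singleton.1 ((Submodule.quotientRel_def _).1 h))

theorem nq_mk (K : ℕ) (a : O) : nq K (Ideal.Quotient.mk _ a) = nm a := rfl

/-- the character `χ ∘ N` -/
def normChr {K : ℕ} (χ : DirichletCharacter ℂ K) : Chr (K : O) where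
  toFun x := χ (nq K x)
  map_one' := by
    rw [← map_one (Ideal.Quotient.mk _), nq_mk, isUnit_iff_nm.1 isUnit_one]; simp
  map_mul' x y := by
    obtain ⟨a, rfl⟩ := Ideal.Quotient.mk_surjective x
    obtain ⟨b, rfl⟩ := Ideal.Quotient.mk_surjective y
    rw [← map_mul, nq_mk, nq_mk, nq_mk, nm_mul, Nat.cast_mul, map_mul]
  map_nonunit' x hx := by
    obtain ⟨a, rfl⟩ := Ideal.Quotient.mk_surjective x
    refine χ.map_nonunit fun h => hx ?_
    rw [nq_mk, ZMod.isUnit_iff_coprime] at h
    obtain ⟨u, v, huv⟩ := (Nat.isCoprime_iff_coprime.2 h).map (Int.castRingHom O)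
    refine IsUnit.of_mul_eq_one (Ideal.Quotient.mk _ (cj a * u)) ?_
    rw [← map_mul, ← map_one (Ideal.Quotient.mk _), Ideal.Quotient.eq, Ideal.mem_span_singleton]
    refine ⟨-v, ?_⟩
    simp only [eq_intCast, Int.cast_natCast] at huv
    rw [← mul_assoc, mul_cj]
    linear_combination huv

open Classical in
theorem rc_normChr {K : ℕ} (χ : DirichletCharacter ℂ K) (n : O) :
    rc (normChr χ) 1 n = if Primary n then χ (nm n) else 0 := by
  simp only [rc, sym_one_right, map_one, mul_one]
  rfl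

/-- the quadratic character modulo `3` -/
def chi3 : DirichletCharacter ℂ 3 :=
  haveI := Fact.mk Nat.prime_three
  (quadraticChar (ZMod 3)).ringHomComp (Int.castRingHom ℂ)

theorem chi3_two : chi3 2 = -1 := by
  have h0 : ¬ IsSquare (2 : ZMod 3) := by decide
  have := Fact.mk Nat.prime_three
  have : quadraticChar (ZMod 3) 2 = -1 := quadraticChar_neg_one_iff_not_isSquare.2 h0
  simp [chi3, this]

theorem nm_cj (z : O) : nm (cj z) = nm z := by
  apply Int.natCast_inj.mp; rw [nm_cast, nm_cast]; simp only [cj]; ring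

theorem fiber_split {l : ℕ} (hl : l.Prime) (h1 : l % 3 = 1) :
    ∃ π : O, Prime π ∧ Primary π ∧ nm π = l ∧ π ≠ cj π ∧
      ∀ p, Prime p → Primary p → l ∣ nm p → p = π ∨ p = cj π := by
  obtain ⟨π, a, b, c⟩ := CountAux.exists_prime_nm hl
    ((ZMod.natCast_eq_natCast_iff' l 1 3).2 (by simpa using h1))
  refine ⟨π, a, b, c, fun h => ?_, fun p hp hp' hd => ?_⟩
  · have h2 : π.im = 0 := by
      have := congrArg QuadraticAlgebra.im h
      simp only [cj] at this; omega
    have h3 := nm_cast π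
    rw [h2, c] at h3
    have h4 : l = π.re.natAbs * π.re.natAbs := by
      apply Int.natCast_inj.mp
      rw [h3, Int.natAbs_mul_self]; ring
    exact hl.not_isSquare ⟨_, h4⟩
  · have h2 : π ∣ p * cj p := by
      rw [mul_cj]
      exact (Dvd.intro _ ((mul_cj π).trans (by rw [c]))).trans (Nat.cast_dvd_cast hd)
    rcases a.dvd_or_dvd h2 with h | h
    · exact Or.inl (BasicB.eq_of_dvd a hp b hp' h).symm
    · right
      rw [BasicB.eq_of_dvd a (RecipA.prime_cj hp) b (RecipA.primary_cj hp') h, RecipA.cj_cj]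

theorem fiber_inert {l : ℕ} (hl : l.Prime) (h1 : l % 3 = 2) :
    Prime (-l : O) ∧ Primary (-l : O) ∧ ∀ p, Prime p → Primary p → l ∣ nm p → p = -l := by
  have hpr : Primary (-l : O) := by
    rw [BasicA.primary_iff]; simp; omega
  have key : ∀ p, Prime p → Primary p → p ∣ (l : O) → p = -l := by
    rintro p hp hp' ⟨c, hc⟩
    have h2 : nm p * nm c = l ^ 2 := by rw [← nm_mul, ← hc, nm_natCast]
    have h3 := nm_prime_mod hp hp'
    have h4 := CountAux.two_le_nm hp
    obtain ⟨k, hk, hk'⟩ := (Nat.dvd_prime_pow hl).1 (Dvd.intro _ h2)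
    interval_cases k
    · rw [pow_zero] at hk'; omega
    · rw [pow_one] at hk'; omega
    · rw [hk'] at h2
      have h5 : IsUnit c := isUnit_iff_nm.2
        (mul_left_cancel₀ (pow_ne_zero 2 hl.ne_zero) (h2.trans (mul_one _).symm))
      refine hp'.eq_of_associated hpr ?_
      rw [hc]
      exact (associated_mul_unit_right p c h5).neg_right
  refine ⟨?_, hpr, fun p hp hp' hd => ?_⟩
  · have hnu : ¬ IsUnit (l : O) := fun h => by
      rw [isUnit_iff_nm, nm_natCast] at h
      exact hl.one_lt.ne' (Nat.pow_eq_one.1 h |>.resolve_right two_ne_zero)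
    have h0 : (l : O) ≠ 0 := fun h => hpr.ne_zero (by rw [h, neg_zero])
    obtain ⟨q, hq, hd⟩ := WfDvdMonoid.exists_irreducible_factor hnu h0
    obtain ⟨u, hu, huq⟩ := exists_unit_primary (n := q) fun h => by
      have h2 := nm_dvd_of_dvd (h.trans hd)
      rw [nm_lam, nm_natCast] at h2
      have := Nat.prime_three.dvd_of_dvd_pow h2
      omega
    have h3 : Prime (u * q) := (associated_unit_mul_right q u hu).prime hq.prime
    rw [← key _ h3 huq ((associated_unit_mul_left q u hu).dvd.trans hd)]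
    exact h3
  · obtain ⟨l', f, hl', h2, h3⟩ := RecipA.exists_char hp
    rw [h3] at hd
    rw [(Nat.prime_dvd_prime_iff_eq hl hl').1 (hl.dvd_of_dvd_pow hd)] at key ⊢
    exact key p hp hp' h2

theorem Lser_normChr {K : ℕ} [NeZero K] (h72 : 72 ∣ K) (χ : DirichletCharacter ℂ K) {s : ℂ}
    (hs : 1 < s.re) :
    Lser (normChr χ) 1 s = LSeries (fun n => χ n) s *
      LSeries (fun n => (χ * DirichletCharacter.changeLevel (Dvd.dvd.trans (by norm_num) h72)
        chi3) n) s := by
  classical
  have hM : Adm (K : O) := ⟨by exact_mod_cast NeZero.ne K, by exact_mod_cast Nat.cast_dvd_cast (α := O) h72⟩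
  have h3 : 3 ∣ K := Dvd.dvd.trans (by norm_num) h72
  set χ2 := χ * DirichletCharacter.changeLevel h3 chi3 with hχ2
  have hv : ∀ l : ℕ, χ2 l = χ l * chi3 l := fun l => by
    by_cases hu : IsUnit (l : ZMod K)
    · rw [hχ2, MulChar.mul_apply, ← hu.unit_spec, DirichletCharacter.changeLevel_eq_cast_of_dvd,
        hu.unit_spec, ZMod.cast_natCast h3]
    · rw [χ2.map_nonunit hu, χ.map_nonunit hu, zero_mul]
  set F : O → ℂ := fun p =>
    if Prime p then -Complex.log (1 - rc (normChr χ) 1 p * (nr p : ℂ) ^ (-s)) else 0 with hF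
  have hs0 : (-s).re ≠ 0 := by simp; linarith
  have hFs : Summable F := by
    have h1 : Summable fun p : O => rc (normChr χ) 1 p * (nr p : ℂ) ^ (-s) := by
      refine Summable.of_norm_bounded (summable_nr_rpow hs) fun p => ?_
      rw [norm_mul, ofReal_natCast, norm_natCast_cpow_of_re_ne_zero _ hs0, neg_re]
      exact mul_le_of_le_one_left (by positivity) (norm_rc_le hM _ _ _)
    have h2 := h1.clog_one_sub.neg.indicator {p | Prime p}
    refine h2.congr fun p => ?_
    simp only [hF, Set.indicator_apply, Set.mem_ofPred_eq]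
  have hne : ∀ l : ℕ, l.Prime → ∀ ψ : DirichletCharacter ℂ K, 1 - ψ l * (l : ℂ) ^ (-s) ≠ 0 := by
    intro l hl ψ h
    have h1 : ‖ψ l * (l : ℂ) ^ (-s)‖ < 1 := by
      rw [norm_mul, norm_natCast_cpow_of_re_ne_zero _ hs0]
      refine (mul_le_of_le_one_left (by positivity) (ψ.norm_le_one _)).trans_lt ?_
      exact Real.rpow_lt_one_of_one_lt_of_neg (by exact_mod_cast hl.one_lt) (by simp; linarith)
    rw [← sub_eq_zero.1 h] at h1
    simp at h1
  have hsum := ((Equiv.sigmaFiberEquiv fun p : O => (nm p).minFac).hasSum_iff.2 hFs.hasSum).sigma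
    (g := fun l => ∑' p : {p : O // (nm p).minFac = l}, F p)
    fun l => (hFs.subtype _).hasSum
  have hprod := hsum.cexp
  have hzero : ∀ p, ¬ (Prime p ∧ Primary p) → F p = 0 := fun p hp => by
    simp only [hF]
    split_ifs with h
    · rw [rc_normChr, if_neg fun h' => hp ⟨h, h'⟩]; simp
    · rfl
  have hval : ∀ p, Prime p → Primary p →
      F p = -Complex.log (1 - χ (nm p) * (nm p : ℂ) ^ (-s)) := fun p hp hp' => by
    simp only [hF, if_pos hp, rc_normChr, if_pos hp', ofReal_natCast]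
  have hfib : ∀ (l : ℕ) (S : Finset O), (∀ p ∈ S, (nm p).minFac = l) →
      (∀ p, Prime p → Primary p → (nm p).minFac = l → p ∈ S) →
      ∑' p : {p : O // (nm p).minFac = l}, F p = ∑ p ∈ S, F p := by
    intro l S h1 h2
    refine (tsum_subtype {p : O | (nm p).minFac = l} F).trans ?_
    rw [tsum_eq_sum (s := S)]
    · exact Finset.sum_congr rfl fun p hp => Set.indicator_of_mem (s := {p : O | (nm p).minFac = l}) (h1 p hp) _
    · intro p hp
      by_cases h : p ∈ {p : O | (nm p).minFac = l}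
      · rw [Set.indicator_of_mem h]
        exact hzero p fun h' => hp (h2 p h'.1 h'.2 h)
      · exact Set.indicator_of_notMem h _
  have hprime : ∀ l : Nat.Primes, cexp (∑' p : {p : O // (nm p).minFac = l}, F p) =
      (1 - χ l * (l : ℂ) ^ (-s))⁻¹ * (1 - χ2 l * (l : ℂ) ^ (-s))⁻¹ := by
    rintro ⟨l, hl⟩
    simp only
    have hd : ∀ p : O, (nm p).minFac = l → l ∣ nm p := fun p h => h ▸ Nat.minFac_dvd _
    have hc : (l : ZMod 3) = ((l % 3 : ℕ) : ZMod 3) := (ZMod.natCast_mod l 3).symm
    obtain h | h | h : l % 3 = 0 ∨ l % 3 = 1 ∨ l % 3 = 2 := by omega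
    · have h0 : χ l = 0 := by
        refine χ.map_nonunit fun hu => ?_
        rw [ZMod.isUnit_iff_coprime] at hu
        have := Nat.eq_one_of_dvd_coprimes hu (Nat.dvd_of_mod_eq_zero h) h3
        omega
      rw [hfib l ∅ (by simp) fun p hp hp' e => by
        have h1 := nm_prime_mod hp hp'
        have h2 := (Nat.dvd_of_mod_eq_zero h).trans (hd p e)
        omega, hv, h0]
      simp
    · obtain ⟨π, a, b, c, d, e⟩ := fiber_split hl h
      rw [hfib l {π, cj π} (by simp [nm_cj, c, hl.minFac_eq])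
        fun p hp hp' e' => by simpa using e p hp hp' (hd p e'), Finset.sum_pair d, hval π a b,
        hval _ (RecipA.prime_cj a) (RecipA.primary_cj b), nm_cj, c, hv, hc, h, exp_add, exp_neg,
        exp_log (hne l hl χ)]
      simp
    · obtain ⟨a, b, e⟩ := fiber_inert hl h
      have c : nm (-l : O) = l ^ 2 := by
        rw [← nm_natCast, neg_eq_neg_one_mul, nm_mul, isUnit_iff_nm.1 isUnit_one.neg, one_mul]
      have h1 := hne l hl χ
      have h2 := hne l hl χ2
      have h4 : 1 - χ ((l ^ 2 : ℕ) : ZMod K) * ((l ^ 2 : ℕ) : ℂ) ^ (-s) =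
          (1 - χ l * (l : ℂ) ^ (-s)) * (1 - χ2 l * (l : ℂ) ^ (-s)) := by
        rw [hv, hc, h, sq, Nat.cast_mul, map_mul, Nat.cast_mul, natCast_mul_natCast_cpow,
          Nat.cast_ofNat, chi3_two]
        ring
      rw [hfib l {(-l : O)} (by simp [c, hl.pow_minFac])
        fun p hp hp' e' => by simpa using e p hp hp' (hd p e'), Finset.sum_singleton, hval _ a b, c,
        exp_neg, h4, exp_log (mul_ne_zero h1 h2), mul_inv]
  have hP : HasProd (fun l : Nat.Primes => cexp (∑' p : {p : O // (nm p).minFac = l}, F p))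
      (cexp (∑' p, F p)) := by
    refine (hasProd_subtype_iff_of_mulSupport_subset (s := {l : ℕ | l.Prime}) ?_).2 hprod
    intro l hl
    by_contra h
    refine hl ?_
    simp only [Function.comp]
    rw [hfib l ∅ (by simp) fun p hp _ e => by
      have := CountAux.two_le_nm hp
      exact absurd (e ▸ Nat.minFac_prime (by omega)) h]
    simp
  simp only [hprime] at hP
  rw [Lser_eq_exp hM _ _ hs]
  exact hP.unique ((χ.LSeries_eulerProduct_hasProd hs).mul (χ2.LSeries_eulerProduct_hasProd hs))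

theorem Lc_normChr {K : ℕ} [NeZero K] (h72 : 72 ∣ K) (χ : DirichletCharacter ℂ K) {s : ℂ}
    (hs : s ≠ 1) :
    Lc (normChr χ) 1 s = χ.LFunction s *
      (χ * DirichletCharacter.changeLevel (Dvd.dvd.trans (by norm_num) h72) chi3).LFunction s := by
  have hM : Adm (K : O) := ⟨by exact_mod_cast NeZero.ne K, by exact_mod_cast Nat.cast_dvd_cast (α := O) h72⟩
  obtain ⟨h1, h2, -⟩ := isL_Lc hM (normChr χ) one_ne_zero
  have hpc : IsPreconnected ({1}ᶜ : Set ℂ) :=
    (isConnected_compl_singleton_of_one_lt_rank (rank_real_complex ▸ Nat.one_lt_ofNat) _)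
      |>.isPreconnected
  have hne : 2 ∈ ({1}ᶜ : Set ℂ) := by simp
  refine AnalyticOnNhd.eqOn_of_preconnected_of_eventuallyEq (𝕜 := ℂ)
    (g := fun s => χ.LFunction s * (χ * DirichletCharacter.changeLevel
      (Dvd.dvd.trans (by norm_num) h72) chi3).LFunction s)
    (h1.analyticOnNhd isOpen_compl_singleton) ?_ hpc hne ?_ hs
  · refine DifferentiableOn.analyticOnNhd (fun s hs => ?_) isOpen_compl_singleton
    exact ((DirichletCharacter.differentiableAt_LFunction _ _ (.inl hs)).mul
      (DirichletCharacter.differentiableAt_LFunction _ _ (.inl hs))).differentiableWithinAt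
  · refine Filter.eventually_of_mem ?_ fun t (ht : 1 < t.re) => ?_
    · exact (continuous_re.isOpen_preimage _ isOpen_Ioi).mem_nhds (by simp : 1 < (2 : ℂ).re)
    · simp only [h2 t ht, DirichletCharacter.LFunction_eq_LSeries _ ht, Lser_normChr h72 χ ht]

theorem dirichlet {β : ℝ} (h : ZeroFree β) {N : ℕ} [NeZero N]
    (χ : DirichletCharacter ℂ N) (s : ℂ) (hχs : χ ≠ 1 ∨ s ≠ 1) (hs : β < s.re) :
    χ.LFunction s ≠ 0 := by
  by_cases h1 : s = 1
  · exact χ.LFunction_ne_zero_of_one_le_re hχs (by simp [h1])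
  have : NeZero (72 * N) := ⟨mul_ne_zero (by norm_num) (NeZero.ne N)⟩
  have h72 : 72 ∣ 72 * N := Dvd.intro _ rfl
  have hM : Adm ((72 * N : ℕ) : O) :=
    ⟨by exact_mod_cast NeZero.ne (72 * N), by exact_mod_cast Nat.cast_dvd_cast (α := O) h72⟩
  have h2 := h _ hM (normChr (DirichletCharacter.changeLevel (Dvd.intro_left 72 rfl) χ)) 1
    one_ne_zero s hs (Or.inl h1)
  rw [Lc_normChr h72 _ h1, DirichletCharacter.LFunction_changeLevel _ _ hχs] at h2
  exact left_ne_zero_of_mul (left_ne_zero_of_mul h2)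

end Crest.Agent.R17.FinalA
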