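import Crest.Agent.R17.LS2Defs

/-!
# Row 17, module M7 (quadratic large sieve): bilinear forms with coefficients depending on the gcd
-/

set_option autoImplicit false

noncomputable section

namespace Crest.Agent.R17.LS2

open scoped ComplexConjugate
open Classical

theorem bil_filter {U T G : Finset O} (hT : T ⊆ U) (hG : G ⊆ T) :
    (U \ G).powerset.filter (fun E => G ∪ E ⊆ T) = (T \ G).powerset := by
  ext E
  simp only [Finset.mem_filter, Finset.mem_powerset, Finset.union_subset_iff, Finset.subset_sdiff]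
  exact ⟨fun h => ⟨h.2.2, h.1.2⟩, fun h => ⟨⟨h.1.trans hT, h.2⟩, hG, h.1⟩⟩

/-- Möbius inversion on the Boolean lattice. -/
theorem bil_mob {U T : Finset O} (hT : T ⊆ U) (F : Finset O → ℂ) :
    F T = ∑ G ∈ U.powerset, ∑ E ∈ (U \ G).powerset,
      if G ∪ E ⊆ T then (-1) ^ E.card * F G else 0 := by
  have h1 : ∀ G ∈ U.powerset, (∑ E ∈ (U \ G).powerset,
      if G ∪ E ⊆ T then (-1) ^ E.card * F G else 0) = if T = G then F G else 0 := by
    intro G _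
    by_cases hG : G ⊆ T
    · rw [← Finset.sum_filter, bil_filter hT hG, ← Finset.sum_mul]
      have h2 : ∑ E ∈ (T \ G).powerset, (-1 : ℂ) ^ E.card = if T \ G = ∅ then 1 else 0 := by
        exact_mod_cast congrArg (Int.cast : ℤ → ℂ)
          (Finset.sum_powerset_neg_one_pow_card (x := T \ G))
      rw [h2]
      by_cases h : T = G
      · rw [if_pos h, if_pos (Finset.sdiff_eq_empty_iff_subset.2 h.subset), one_mul]
      · rw [if_neg h, if_neg fun h' =>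
          h (Finset.Subset.antisymm (Finset.sdiff_eq_empty_iff_subset.1 h') hG), zero_mul]
    · rw [if_neg fun h : T = G => hG h.symm.subset]
      exact Finset.sum_eq_zero fun E _ => if_neg fun h => hG (Finset.subset_union_left.trans h)
  rw [Finset.sum_congr rfl h1, Finset.sum_ite_eq, if_pos (Finset.mem_powerset.2 hT)]

theorem bil_count {U T : Finset O} (hT : T ⊆ U) (x : ℝ) :
    (∑ G ∈ U.powerset, ∑ E ∈ (U \ G).powerset, if G ∪ E ⊆ T then x else 0) =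
      3 ^ T.card * x := by
  have h1 : ∀ G ∈ U.powerset, (∑ E ∈ (U \ G).powerset, if G ∪ E ⊆ T then x else 0) =
      if G ⊆ T then 1 ^ G.card * 2 ^ (T.card - G.card) * x else 0 := by
    intro G _
    by_cases hG : G ⊆ T
    · rw [← Finset.sum_filter, bil_filter hT hG, if_pos hG, Finset.sum_const, Finset.card_powerset,
        Finset.card_sdiff_of_subset hG, nsmul_eq_mul, one_pow, one_mul]
      push_cast
      rfl
    · rw [if_neg hG]
      exact Finset.sum_eq_zero fun E _ => if_neg fun h => hG (Finset.subset_union_left.trans h)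
  have h2 : U.powerset.filter (fun G => G ⊆ T) = T.powerset := by
    ext G
    simp only [Finset.mem_filter, Finset.mem_powerset]
    exact ⟨fun h => h.2, fun h => ⟨h.trans hT, h⟩⟩
  rw [Finset.sum_congr rfl h1, ← Finset.sum_filter, h2, ← Finset.sum_mul,
    Finset.sum_pow_mul_eq_add_pow]
  norm_num

theorem bil_one {ξ V N D Λ : ℝ} (hS : Sieve ξ V N D) (hD : 0 ≤ D) (hΛ : 0 ≤ Λ) {S : Finset O}
    (hSP : ∀ n ∈ S, SP 6 n ∧ nr n ≤ N) (γ : O → ℂ) (c : O → ℂ) (η : O → ℂ) {G : Finset O}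
    {H : ℝ} (hG : ∀ n ∈ S, G ⊆ pf n) (hη : ∀ n ∈ S, ‖η (cof G n)‖ ≤ H)
    (hc : ∀ n ∈ S, ∀ a ∈ sqf V, ‖c a‖ * H ^ 2 * (N / nP G + nr a ^ ξ) ≤ Λ) :
    ∑ a ∈ sqf V, ‖c a‖ * ‖∑ n ∈ S, γ n * (η (cof G n) * quad (cof G n) a)‖ ^ 2 ≤
      Λ * D * ∑ n ∈ S, ‖γ n‖ ^ 2 := by
  rcases S.eq_empty_or_nonempty with rfl | ⟨n₀, hn₀⟩
  · simp
  have hH := (norm_nonneg _).trans (hη n₀ hn₀)
  rcases hH.eq_or_lt with rfl | hH
  · refine (Finset.sum_eq_zero fun a _ => ?_).trans_le (by positivity)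
    rw [Finset.sum_eq_zero fun n hn => by
      rw [norm_le_zero_iff.1 (hη n hn), zero_mul, mul_zero]]
    simp
  have hP := one_le_nP (ne_zero_of_subset_pf (hG n₀ hn₀))
  have h1 : ∀ n ∈ S, SP 6 (cof G n) ∧ nr (cof G n) ≤ N / nP G := fun n hn =>
    ⟨SP_cof (hSP n hn).1 G, by
      rw [nr_cof (hSP n hn).1 (hG n hn)]
      exact div_le_div_of_nonneg_right (hSP n hn).2 (zero_le_one.trans hP)⟩
  have h2 : 1 ≤ N / nP G := (one_le_nr (ne_zero_of_SP (h1 n₀ hn₀).1)).trans (h1 n₀ hn₀).2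
  have h3 : 1 ≤ N := (one_le_nr (ne_zero_of_SP (hSP n₀ hn₀).1)).trans (hSP n₀ hn₀).2
  have h4 := hS (N / nP G) h2 (div_le_self (zero_le_one.trans h3) hP) S (cof G)
    (fun n => γ n * η (cof G n)) (fun n hn n' hn' h => by
      rw [← prod_mul_cof (hSP n hn).1.1 (hSP n hn).1.2.1 (hG n hn),
        ← prod_mul_cof (hSP n' hn').1.1 (hSP n' hn').1.2.1 (hG n' hn'), h]) h1
  have h5 : ∑ n ∈ S, ‖γ n * η (cof G n)‖ ^ 2 ≤ H ^ 2 * ∑ n ∈ S, ‖γ n‖ ^ 2 := by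
    rw [Finset.mul_sum]
    refine Finset.sum_le_sum fun n hn => ?_
    rw [norm_mul, mul_pow, mul_comm]
    exact mul_le_mul_of_nonneg_right (pow_le_pow_left₀ (norm_nonneg _) (hη n hn) 2) (sq_nonneg _)
  have h6 := mul_le_mul_of_nonneg_left (h4.trans (mul_le_mul_of_nonneg_left h5 hD))
    (div_nonneg hΛ (sq_nonneg H))
  rw [Finset.mul_sum] at h6
  refine le_trans (Finset.sum_le_sum fun a ha => ?_) (h6.trans_eq (by field_simp))
  have h7 : 0 < N / nP G + nr a ^ ξ :=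
    add_pos_of_pos_of_nonneg (one_pos.trans_le h2)
      (Real.rpow_nonneg (zero_le_one.trans (one_le_nr (ne_zero_of_mem_sqf ha))) ξ)
  simp only [← mul_assoc]
  rw [mul_div_assoc', ← div_mul_eq_mul_div, div_div]
  refine mul_le_mul_of_nonneg_right ?_ (sq_nonneg _)
  rw [le_div_iff₀ (by positivity), ← mul_assoc]
  exact hc n₀ hn₀ a ha

theorem bil_two {ξ V N D Λ : ℝ} (hS : Sieve ξ V N D) (hD : 0 ≤ D) (hΛ : 0 ≤ Λ) {S : Finset O}
    (hSP : ∀ n ∈ S, SP 6 n ∧ nr n ≤ N) (β : O → ℂ) (c : O → ℂ) (η : O → ℂ) {G : Finset O}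
    {H : ℝ} (hG : ∀ n ∈ S, G ⊆ pf n) (hη : ∀ n ∈ S, ‖η (cof G n)‖ ≤ H)
    (hc : ∀ n ∈ S, ∀ a ∈ sqf V, ‖c a‖ * H ^ 2 * (N / nP G + nr a ^ ξ) ≤ Λ) :
    ‖∑ n₁ ∈ S, ∑ n₂ ∈ S, β n₁ * conj (β n₂) * ∑ a ∈ sqf V, c a *
        (η (cof G n₁) * quad (cof G n₁) a) * (η (cof G n₂) * quad (cof G n₂) a)‖ ≤
      Λ * D * ∑ n ∈ S, ‖β n‖ ^ 2 := by
  have h1 := bil_one hS hD hΛ hSP β c η hG hη hc
  have h2 := bil_one hS hD hΛ hSP (fun n => conj (β n)) c η hG hη hc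
  simp only [Complex.norm_conj] at h2
  have h3 : ∑ n₁ ∈ S, ∑ n₂ ∈ S, β n₁ * conj (β n₂) * ∑ a ∈ sqf V, c a *
        (η (cof G n₁) * quad (cof G n₁) a) * (η (cof G n₂) * quad (cof G n₂) a) =
      ∑ a ∈ sqf V, c a * ((∑ n ∈ S, β n * (η (cof G n) * quad (cof G n) a)) *
        ∑ n ∈ S, conj (β n) * (η (cof G n) * quad (cof G n) a)) := by
    simp only [Finset.sum_mul_sum]
    simp only [Finset.mul_sum]
    rw [Finset.sum_comm (s := sqf V)]
    refine Finset.sum_congr rfl fun n₁ _ => ?_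
    rw [Finset.sum_comm (s := sqf V)]
    exact Finset.sum_congr rfl fun n₂ _ => Finset.sum_congr rfl fun a _ => by ring
  rw [h3]
  refine (norm_sum_le _ _).trans (le_trans (Finset.sum_le_sum (g := fun a =>
    (‖c a‖ * ‖∑ n ∈ S, β n * (η (cof G n) * quad (cof G n) a)‖ ^ 2 +
      ‖c a‖ * ‖∑ n ∈ S, conj (β n) * (η (cof G n) * quad (cof G n) a)‖ ^ 2) / 2) fun a _ => ?_) ?_)
  · rw [norm_mul, norm_mul, ← mul_add, mul_div_assoc]
    refine mul_le_mul_of_nonneg_left ?_ (norm_nonneg _)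
    rw [le_div_iff₀' two_pos, ← mul_assoc]
    exact two_mul_le_add_sq _ _
  · rw [← Finset.sum_div, Finset.sum_add_distrib]
    linarith

theorem bil {ξ V N D Λ : ℝ} (hS : Sieve ξ V N D) (hD : 0 ≤ D) (hΛ : 0 ≤ Λ) {S : Finset O}
    (hSP : ∀ n ∈ S, SP 6 n ∧ nr n ≤ N) (β : O → ℂ) (c : Finset O → O → ℂ) (η : O → ℂ)
    (H : Finset O → ℝ) (hη : ∀ n ∈ S, ∀ G ⊆ pf n, ‖η (cof G n)‖ ≤ H G)
    (hc : ∀ n ∈ S, ∀ G ⊆ pf n, ∀ a ∈ sqf V, ‖c G a‖ * H G ^ 2 * (N / nP G + nr a ^ ξ) ≤ Λ) :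
    ‖∑ n₁ ∈ S, ∑ n₂ ∈ S, β n₁ * conj (β n₂) * ∑ a ∈ sqf V, c (pf n₁ ∩ pf n₂) a *
        (η (cof (pf n₁ ∩ pf n₂) n₁) * quad (cof (pf n₁ ∩ pf n₂) n₁) a) *
        (η (cof (pf n₁ ∩ pf n₂) n₂) * quad (cof (pf n₁ ∩ pf n₂) n₂) a)‖ ≤
      Λ * D * ∑ n ∈ S, 3 ^ (pf n).card * ‖β n‖ ^ 2 := by
  set U : Finset O := S.biUnion pf with hU
  have hsub : ∀ n ∈ S, pf n ⊆ U := fun n hn => Finset.subset_biUnion_of_mem pf hn
  set T : Finset O → O → O → ℂ := fun G n₁ n₂ => β n₁ * conj (β n₂) * ∑ a ∈ sqf V, c G a *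
    (η (cof G n₁) * quad (cof G n₁) a) * (η (cof G n₂) * quad (cof G n₂) a) with hT
  have h1 : ∑ n₁ ∈ S, ∑ n₂ ∈ S, T (pf n₁ ∩ pf n₂) n₁ n₂ =
      ∑ G ∈ U.powerset, ∑ E ∈ (U \ G).powerset, (-1) ^ E.card *
        ∑ n₁ ∈ S.filter (fun n => G ∪ E ⊆ pf n), ∑ n₂ ∈ S.filter (fun n => G ∪ E ⊆ pf n),
          T G n₁ n₂ := by
    rw [Finset.sum_congr rfl fun n₁ h₁ => Finset.sum_congr rfl fun n₂ _ =>
      bil_mob (Finset.inter_subset_left.trans (hsub n₁ h₁)) (fun G => T G n₁ n₂)]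
    rw [Finset.sum_congr rfl fun n₁ _ => Finset.sum_comm, Finset.sum_comm]
    refine Finset.sum_congr rfl fun G _ => ?_
    rw [Finset.sum_congr rfl fun n₁ _ => Finset.sum_comm, Finset.sum_comm]
    refine Finset.sum_congr rfl fun E _ => ?_
    rw [Finset.mul_sum, Finset.sum_filter]
    refine Finset.sum_congr rfl fun n₁ _ => ?_
    by_cases h : G ∪ E ⊆ pf n₁
    · rw [if_pos h, Finset.mul_sum, Finset.sum_filter]
      refine Finset.sum_congr rfl fun n₂ _ => ?_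
      simp only [Finset.subset_inter_iff, h, true_and]
    · rw [if_neg h]
      exact Finset.sum_eq_zero fun n₂ _ => if_neg fun h' => h (h'.trans Finset.inter_subset_left)
  have h2 : ∑ n ∈ S, 3 ^ (pf n).card * ‖β n‖ ^ 2 = ∑ G ∈ U.powerset, ∑ E ∈ (U \ G).powerset,
      ∑ n ∈ S.filter (fun n => G ∪ E ⊆ pf n), ‖β n‖ ^ 2 := by
    rw [Finset.sum_congr rfl fun n hn => (bil_count (hsub n hn) (‖β n‖ ^ 2)).symm, Finset.sum_comm]
    refine Finset.sum_congr rfl fun G _ => ?_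
    rw [Finset.sum_comm]
    exact Finset.sum_congr rfl fun E _ => (Finset.sum_filter _ _).symm
  change ‖∑ n₁ ∈ S, ∑ n₂ ∈ S, T (pf n₁ ∩ pf n₂) n₁ n₂‖ ≤ _
  rw [h1, h2, Finset.mul_sum]
  refine (norm_sum_le _ _).trans (Finset.sum_le_sum fun G _ => ?_)
  rw [Finset.mul_sum]
  refine (norm_sum_le _ _).trans (Finset.sum_le_sum fun E _ => ?_)
  rw [norm_mul, norm_pow, norm_neg, norm_one, one_pow, one_mul]
  have h3 : ∀ n ∈ S.filter (fun n => G ∪ E ⊆ pf n), n ∈ S ∧ G ⊆ pf n := fun n hn =>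
    ⟨(Finset.mem_filter.1 hn).1, Finset.subset_union_left.trans (Finset.mem_filter.1 hn).2⟩
  exact bil_two hS hD hΛ (fun n hn => hSP n (h3 n hn).1) β (c G) η (fun n hn => (h3 n hn).2)
    (fun n hn => hη n (h3 n hn).1 G (h3 n hn).2) fun n hn => hc n (h3 n hn).1 G (h3 n hn).2

end Crest.Agent.R17.LS2
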