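import Crest.Agent.R17.Basic
import Crest.Agent.Lib.PNT.Main

/-!
# Row 17: auxiliary lemmas for `Count.lean`
-/

set_option autoImplicit false

noncomputable section

namespace Crest.Agent.R17.CountAux

open Finset

theorem card_erase_le (X : ℕ) : (((ball X).erase 0).card : ℝ) ≤ 7 * X := by
  have h1 := card_ball_le X
  rw [card_erase_of_mem (mem_ball.2 (by simp))]
  exact_mod_cast (by omega : (ball X).card - 1 ≤ 7 * X)

theorem mem_erase_ball {X : ℕ} {z : O} : z ∈ (ball X).erase 0 ↔ z ≠ 0 ∧ nm z ≤ X := by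
  rw [mem_erase, mem_ball]

/-- Abel summation against the bound `#{0 < N n ≤ X} ≤ 7 X`. -/
theorem abel (g : ℕ → ℝ) (h0 : ∀ k, 0 ≤ g k) (hg : ∀ k, 1 ≤ k → g (k + 1) ≤ g k) (X : ℕ) :
    ∑ n ∈ (ball X).erase 0, g (nm n) ≤ 7 * ∑ k ∈ range X, g (k + 1) := by
  have key : ∀ X : ℕ, ∑ n ∈ (ball X).erase 0, g (nm n) +
      (7 * X - (((ball X).erase 0).card : ℝ)) * g X ≤ 7 * ∑ k ∈ range X, g (k + 1) := by
    intro X
    induction X with
    | zero =>
      have : (ball 0).erase 0 = ∅ := eq_empty_of_forall_notMem fun z hz => by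
        rw [mem_erase_ball] at hz
        exact hz.1 (nm_eq_zero.1 (by omega))
      simp [this]
    | succ X ih =>
      have hs : (ball X).erase 0 ⊆ (ball (X + 1)).erase 0 := fun z hz => by
        rw [mem_erase_ball] at hz ⊢
        exact ⟨hz.1, by omega⟩
      have h1 : ∑ n ∈ (ball (X + 1)).erase 0 \ (ball X).erase 0, g (nm n) =
          ((((ball (X + 1)).erase 0).card : ℝ) - ((ball X).erase 0).card) * g (X + 1) := by
        rw [sum_congr rfl (g := fun _ => g (X + 1)), sum_const, card_sdiff_of_subset hs,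
          nsmul_eq_mul, Nat.cast_sub (card_le_card hs)]
        intro z hz
        rw [mem_sdiff, mem_erase_ball, mem_erase_ball] at hz
        congr 1
        have := hz.2
        push Not at this
        have := this hz.1.1
        omega
      have h2 : (7 * X - (((ball X).erase 0).card : ℝ)) * g (X + 1) ≤
          (7 * X - (((ball X).erase 0).card : ℝ)) * g X := by
        have h3 := card_erase_le X
        rcases Nat.eq_zero_or_pos X with rfl | hX
        · have h4 : (0 : ℝ) ≤ (((ball 0).erase 0).card : ℝ) := Nat.cast_nonneg _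
          have h5 : (7 * ((0 : ℕ) : ℝ) - (((ball 0).erase 0).card : ℝ)) = 0 := by
            simp only [Nat.cast_zero] at h3 ⊢
            linarith
          rw [h5, zero_mul, zero_mul]
        · exact mul_le_mul_of_nonneg_left (hg X hX) (by linarith)
      rw [← sum_sdiff hs, h1, sum_range_succ]
      push_cast
      linarith
  have h1 := key X
  have h2 := mul_nonneg (sub_nonneg.2 (card_erase_le X)) (h0 X)
  linarith

theorem rpow_step_le {p : ℝ} (hp0 : 0 ≤ p) (hp1 : p ≤ 1) (k : ℕ) :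
    p * ((k + 1 : ℕ) : ℝ) ^ (p - 1) ≤ ((k + 1 : ℕ) : ℝ) ^ p - (k : ℝ) ^ p := by
  have hk : (0 : ℝ) < ((k + 1 : ℕ) : ℝ) := by positivity
  have h1 := rpow_one_add_le_one_add_mul_self (s := -((k + 1 : ℕ) : ℝ)⁻¹)
    (neg_le_neg (inv_le_one_of_one_le₀ (by exact_mod_cast Nat.le_add_left 1 k))) hp0 hp1
  have h2 : 1 + -((k + 1 : ℕ) : ℝ)⁻¹ = k / ((k + 1 : ℕ) : ℝ) := by
    field_simp
    push_cast
    ring
  rw [h2, Real.div_rpow (Nat.cast_nonneg _) hk.le, div_le_iff₀ (Real.rpow_pos_of_pos hk _)] at h1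
  rw [Real.rpow_sub_one hk.ne', div_eq_mul_inv]
  linarith

theorem sum_rpow_le {σ : ℝ} (hσ : -1 < σ) :
    ∃ C : ℝ, 0 < C ∧ ∀ X : ℕ, 1 ≤ X → ∑ n ∈ (ball X).erase 0, nr n ^ σ ≤ C * (X : ℝ) ^ (1 + σ) := by
  rcases le_or_gt 0 σ with h | h
  · refine ⟨7, by norm_num, fun X hX => ?_⟩
    have hX' : (0 : ℝ) < X := by exact_mod_cast hX
    refine (sum_le_card_nsmul _ _ ((X : ℝ) ^ σ) fun z hz => Real.rpow_le_rpow (Nat.cast_nonneg _)
      (by exact_mod_cast (mem_erase_ball.1 hz).2) h).trans ?_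
    rw [nsmul_eq_mul, Real.rpow_add hX', Real.rpow_one, ← mul_assoc]
    exact mul_le_mul_of_nonneg_right (card_erase_le X) (by positivity)
  · have hp : 0 < 1 + σ := by linarith
    refine ⟨7 / (1 + σ), by positivity, fun X _ => ?_⟩
    refine (abel (fun k => (k : ℝ) ^ σ) (fun k => by positivity) (fun k hk =>
      Real.rpow_le_rpow_of_nonpos (by exact_mod_cast hk) (by simp) h.le) X).trans ?_
    have h1 : ∀ Y : ℕ, (1 + σ) * ∑ k ∈ range Y, ((k + 1 : ℕ) : ℝ) ^ σ ≤ (Y : ℝ) ^ (1 + σ) := by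
      intro Y
      induction Y with
      | zero => simp; positivity
      | succ Y ih =>
        have := rpow_step_le hp.le (by linarith) Y
        rw [show 1 + σ - 1 = σ by ring] at this
        rw [sum_range_succ]
        linarith
    rw [div_mul_eq_mul_div, le_div_iff₀ hp]
    linarith [h1 X]

theorem rpow_step_ge {p : ℝ} (hp : 0 ≤ p) {x : ℝ} (hx : 0 < x) :
    p * (x + 1) ^ (-(p + 1)) ≤ x ^ (-p) - (x + 1) ^ (-p) := by
  have hx1 : 0 < x + 1 := by linarith
  have h1 := Real.one_sub_inv_le_log_of_pos (div_pos hx1 hx)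
  have h2 : 1 - ((x + 1) / x)⁻¹ = (x + 1)⁻¹ := by
    field_simp
    ring
  have h3 : 1 + p * (x + 1)⁻¹ ≤ ((x + 1) / x) ^ p := by
    rw [Real.rpow_def_of_pos (div_pos hx1 hx)]
    have := Real.add_one_le_exp (Real.log ((x + 1) / x) * p)
    have h4 := mul_le_mul_of_nonneg_left h1 hp
    rw [h2] at h4
    linarith
  have h5 : x ^ (-p) = ((x + 1) / x) ^ p * (x + 1) ^ (-p) := by
    rw [Real.div_rpow hx1.le hx.le, Real.rpow_neg hx.le, Real.rpow_neg hx1.le]
    have := Real.rpow_pos_of_pos hx1 p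
    field_simp
  rw [h5, neg_add, Real.rpow_add hx1, Real.rpow_neg_one]
  have h6 := mul_le_mul_of_nonneg_right h3 (Real.rpow_pos_of_pos hx1 (-p)).le
  linarith

theorem sum_tail {σ : ℝ} (hσ : 1 < σ) :
    ∃ C : ℝ, 0 < C ∧ ∀ (X : ℝ) (S : Finset O), 1 ≤ X → (∀ n ∈ S, X ≤ nr n) →
      ∑ n ∈ S, nr n ^ (-σ) ≤ C * X ^ (1 - σ) := by
  have hp : 0 < σ - 1 := by linarith
  refine ⟨7 * (2 + (σ - 1)⁻¹), by positivity, fun X S hX hS => ?_⟩
  have hX0 : 0 < X := by linarith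
  have hm : ∀ k : ℕ, 0 < max (k : ℝ) X := fun k => lt_max_of_lt_right hX0
  have hmono : ∀ k : ℕ, max (k : ℝ) X ≤ max ((k + 1 : ℕ) : ℝ) X := fun k =>
    max_le_max_right _ (by simp)
  have h1 : S ⊆ (ball (S.sup nm)).erase 0 := fun z hz => mem_erase_ball.2 ⟨by
    rintro rfl
    have := hS 0 hz
    simp at this
    linarith, le_sup (f := nm) hz⟩
  have h2 : ∀ Y : ℕ, ∑ k ∈ range Y, (max ((k + 1 : ℕ) : ℝ) X) ^ (-σ) ≤
      min (Y : ℝ) (X + 1) * X ^ (-σ) + (σ - 1)⁻¹ * (X ^ (1 - σ) - (max (Y : ℝ) X) ^ (1 - σ)) := by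
    intro Y
    induction Y with
    | zero => simp [hX0.le, min_eq_left (by linarith : (0 : ℝ) ≤ X + 1)]
    | succ Y ih =>
      rw [sum_range_succ]
      have h3 : 0 < X ^ (-σ) := Real.rpow_pos_of_pos hX0 _
      rcases lt_or_ge (Y : ℝ) X with h | h
      · have h4 : (max ((Y + 1 : ℕ) : ℝ) X) ^ (-σ) ≤ X ^ (-σ) :=
          Real.rpow_le_rpow_of_nonpos hX0 (le_max_right _ _) (by linarith)
        have h5 : (max ((Y + 1 : ℕ) : ℝ) X) ^ (1 - σ) ≤ (max (Y : ℝ) X) ^ (1 - σ) :=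
          Real.rpow_le_rpow_of_nonpos (hm Y) (hmono Y) (by linarith)
        have h6 := mul_le_mul_of_nonneg_left h5 (inv_pos.2 hp).le
        rw [min_eq_left (by linarith)] at ih
        rw [min_eq_left (by push_cast; linarith)]
        push_cast at *
        linarith
      · have h4 := rpow_step_ge hp.le (hX0.trans_le h)
        rw [show -(σ - 1 + 1) = -σ by ring, show -(σ - 1) = 1 - σ by ring,
          ← le_inv_mul_iff₀ hp] at h4
        have h5 : min (Y : ℝ) (X + 1) ≤ min ((Y + 1 : ℕ) : ℝ) (X + 1) :=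
          min_le_min_right _ (by simp)
        have h6 := mul_le_mul_of_nonneg_right h5 h3.le
        rw [max_eq_left h] at ih
        rw [max_eq_left (by push_cast; linarith)]
        push_cast at *
        linarith
  calc ∑ n ∈ S, nr n ^ (-σ) = ∑ n ∈ S, (max (nm n : ℝ) X) ^ (-σ) :=
        sum_congr rfl fun n hn => by rw [max_eq_left (hS n hn)]
    _ ≤ ∑ n ∈ (ball (S.sup nm)).erase 0, (max (nm n : ℝ) X) ^ (-σ) :=
        sum_le_sum_of_subset_of_nonneg h1 fun n _ _ => (Real.rpow_pos_of_pos (hm _) _).le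
    _ ≤ 7 * ∑ k ∈ range (S.sup nm), (max ((k + 1 : ℕ) : ℝ) X) ^ (-σ) :=
        abel (fun k => (max (k : ℝ) X) ^ (-σ)) (fun k => (Real.rpow_pos_of_pos (hm _) _).le)
          (fun k _ => Real.rpow_le_rpow_of_nonpos (hm k) (hmono k) (by linarith)) _
    _ ≤ _ := by
        have h3 := h2 (S.sup nm)
        have h4 : min ((S.sup nm : ℕ) : ℝ) (X + 1) * X ^ (-σ) ≤ (2 * X) * X ^ (-σ) :=
          mul_le_mul_of_nonneg_right ((min_le_right _ _).trans (by linarith))
            (Real.rpow_pos_of_pos hX0 _).le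
        have h5 : X ^ (1 - σ) = X * X ^ (-σ) := by
          rw [sub_eq_add_neg, Real.rpow_add hX0, Real.rpow_one]
        have h6 := mul_nonneg (inv_pos.2 hp).le
          (Real.rpow_pos_of_pos (hm (S.sup nm)) (1 - σ)).le
        rw [h5] at h3 ⊢
        linarith

theorem sum_all {σ : ℝ} (hσ : 1 < σ) :
    ∃ C : ℝ, 0 < C ∧ ∀ S : Finset O, ∑ n ∈ S, nr n ^ (-σ) ≤ C := by
  obtain ⟨C, hC, h⟩ := sum_tail hσ
  refine ⟨C, hC, fun S => ?_⟩
  rw [← sum_erase S (a := 0) (by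
    rw [nr, nm_zero, Nat.cast_zero, Real.zero_rpow (by linarith)])]
  simpa using h 1 (S.erase 0) le_rfl fun n hn => one_le_nr (ne_of_mem_erase hn)

theorem sum_le_prod {α β : Type} (A : Finset α) (B : Finset β) (F : α → β → O) {S : Finset O}
    (h : ∀ j ∈ S, ∃ a ∈ A, ∃ b ∈ B, j = F a b) (f : O → ℝ) (hf : ∀ j, 0 ≤ f j) :
    ∑ j ∈ S, f j ≤ ∑ a ∈ A, ∑ b ∈ B, f (F a b) := by
  classical
  rw [← sum_product']
  refine (sum_le_sum_of_subset_of_nonneg (t := (A ×ˢ B).image fun x => F x.1 x.2)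
    (fun j hj => ?_) fun j _ _ => hf j).trans (sum_image_le_of_nonneg fun j _ => hf j)
  obtain ⟨a, ha, b, hb, rfl⟩ := h j hj
  exact mem_image.2 ⟨(a, b), mem_product.2 ⟨ha, hb⟩, rfl⟩

theorem nr_mul_rpow (a b : O) (s : ℝ) : nr (a * b) ^ s = nr a ^ s * nr b ^ s := by
  rw [nr_mul, Real.mul_rpow (Nat.cast_nonneg _) (Nat.cast_nonneg _)]

theorem nr_pow_rpow (a : O) (k : ℕ) (s : ℝ) : nr (a ^ k) ^ s = nr a ^ (k * s) := by
  rw [nr_pow, Real.rpow_natCast_mul (Nat.cast_nonneg _)]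

theorem two_le_nm {p : O} (hp : Prime p) : 2 ≤ nm p := by
  have h1 : nm p ≠ 0 := fun h => hp.ne_zero (nm_eq_zero.1 h)
  have h2 : nm p ≠ 1 := fun h => hp.not_isUnit (isUnit_iff_nm.2 h)
  omega

/-- Euler product bound. -/
theorem euler {σ : ℝ} (hσ : 0 < σ) (U P : Finset O) (hP : ∀ p ∈ P, 2 ≤ nm p) :
    ∀ S : Finset O, (∀ j ∈ S, ∃ u ∈ U, ∃ e : O → ℕ, j = u * ∏ p ∈ P, p ^ e p) →
      ∑ j ∈ S, nr j ^ (-σ) ≤ (∑ u ∈ U, nr u ^ (-σ)) * (1 - 2 ^ (-σ))⁻¹ ^ P.card := by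
  classical
  induction P using Finset.induction_on with
  | empty =>
    intro S hS
    simp only [prod_empty, mul_one, card_empty, pow_zero] at hS ⊢
    refine sum_le_sum_of_subset_of_nonneg (fun j hj => ?_) fun _ _ _ => by positivity
    obtain ⟨u, hu, -, rfl⟩ := hS j hj
    exact hu
  | insert q P hq ih =>
    intro S hS
    choose! u hu e he using hS
    have h1 := ih (fun p hp => hP p (mem_insert_of_mem hp))
      (S.image fun j => u j * ∏ p ∈ P, p ^ e j p) fun j hj => by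
        obtain ⟨j, hj', rfl⟩ := mem_image.1 hj
        exact ⟨_, hu j hj', _, rfl⟩
    have h2 : (2 : ℝ) ^ (-σ) < 1 := Real.rpow_lt_one_of_one_lt_of_neg one_lt_two (by linarith)
    have h3 : ∑ k ∈ range (S.sup (e · q) + 1), (nr q ^ (-σ)) ^ k ≤ (1 - 2 ^ (-σ))⁻¹ := by
      have h4 : nr q ^ (-σ) ≤ 2 ^ (-σ) := Real.rpow_le_rpow_of_nonpos two_pos
        (by exact_mod_cast hP q (mem_insert_self q P)) (by linarith)
      rw [← tsum_geometric_of_lt_one (by positivity) h2]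
      exact (sum_le_sum fun k _ => pow_le_pow_left₀ (by positivity) h4 k).trans
        ((summable_geometric_of_lt_one (by positivity) h2).sum_le_tsum _ fun _ _ => by positivity)
    refine (sum_le_prod (range (S.sup (e · q) + 1)) (S.image fun j => u j * ∏ p ∈ P, p ^ e j p)
      (fun k j => q ^ k * j) (fun j hj => ⟨e j q, mem_range.2 (Nat.lt_succ_of_le
        (le_sup (f := (e · q)) hj)), _, mem_image_of_mem _ hj, ?_⟩) _
        fun _ => by positivity).trans ?_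
    · conv_lhs => rw [he j hj, prod_insert hq]
      ring
    · simp only [nr_mul_rpow (q ^ _), nr_pow_rpow, mul_comm (_ : ℝ) (-σ),
        Real.rpow_mul_natCast (Nat.cast_nonneg (nm q))]
      rw [← sum_mul_sum, card_insert_of_notMem hq, pow_succ, ← mul_assoc, mul_comm]
      exact mul_le_mul h1 h3 (sum_nonneg fun _ _ => by positivity)
        ((sum_nonneg fun _ _ => by positivity).trans h1)

/-- A rational prime `≡ 1 (mod 3)` is the norm of a primary prime. -/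
theorem exists_prime_nm {q : ℕ} (hq : q.Prime) (h3 : (q : ZMod 3) = 1) :
    ∃ p : O, Prime p ∧ Primary p ∧ nm p = q := by
  have := Fact.mk hq
  have := Fact.mk Nat.prime_three
  have h31 : q % 3 = 1 := (ZMod.natCast_eq_natCast_iff' q 1 3).1 (by simpa using h3)
  obtain ⟨g, hg⟩ := exists_prime_orderOf_dvd_card (G := (ZMod q)ˣ) 3
    (by rw [ZMod.card_units]; omega)
  have hg1 : (g : ZMod q) ^ 3 = 1 := by
    rw [← Units.val_pow_eq_pow_val, ← hg, pow_orderOf_eq_one, Units.val_one]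
  have hg2 : (g : ZMod q) - 1 ≠ 0 := fun h => by
    have : g = 1 := Units.ext (sub_eq_zero.1 h)
    simp [this] at hg
  obtain ⟨x, hx⟩ := ZMod.intCast_surjective (g : ZMod q)
  have hd : (q : ℤ) ∣ x ^ 2 + x + 1 := by
    rw [← ZMod.intCast_zmod_eq_zero_iff_dvd]
    push_cast
    rw [hx]
    exact mul_left_cancel₀ hg2 (by linear_combination hg1)
  have hnd : ∀ (y s : ℤ), s = 1 ∨ s = -1 → ¬ (q : O) ∣ ⟨y, s⟩ := by
    rintro y s hs ⟨c, hc⟩
    have h1 := congrArg QuadraticAlgebra.im hc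
    simp only [QuadraticAlgebra.im_mul, QuadraticAlgebra.re_natCast, QuadraticAlgebra.im_natCast,
      zero_mul, mul_zero, add_zero] at h1
    have h2 : (q : ℤ) ∣ 1 := by
      rcases hs with rfl | rfl
      · exact ⟨_, h1⟩
      · exact dvd_neg.1 ⟨_, h1⟩
    exact hq.one_lt.ne' (by exact_mod_cast Int.eq_one_of_dvd_one (Nat.cast_nonneg _) h2)
  have hnp : ¬ Irreducible (q : O) := fun hi => by
    have h1 : (q : O) ∣ (⟨x, -1⟩ : O) * cj ⟨x, -1⟩ := by
      rw [mul_cj]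
      refine Nat.cast_dvd_cast (Int.natCast_dvd_natCast.1 ?_)
      rw [nm_cast]
      simpa using hd
    rcases hi.prime.dvd_or_dvd h1 with h | h
    · exact hnd _ _ (Or.inr rfl) h
    · exact hnd _ _ (Or.inl (neg_neg 1)) h
  have hnu : ¬ IsUnit (q : O) := fun h => by
    rw [isUnit_iff_nm, nm_natCast] at h
    exact hq.one_lt.ne' (Nat.pow_eq_one.1 h |>.resolve_right two_ne_zero)
  obtain ⟨a, b, hab, ha, hb⟩ : ∃ a b : O, (q : O) = a * b ∧ ¬ IsUnit a ∧ ¬ IsUnit b := by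
    by_contra h
    push Not at h
    exact hnp ⟨hnu, fun a b hab => or_iff_not_imp_left.2 (h a b hab)⟩
  have h1 : nm a * nm b = q ^ 2 := by rw [← nm_mul, ← hab, nm_natCast]
  rw [isUnit_iff_nm] at ha hb
  have h2 : nm a = q := by
    obtain ⟨k, hk, hk'⟩ := (Nat.dvd_prime_pow hq).1 (Dvd.intro _ h1)
    interval_cases k
    · exact absurd hk' ha
    · simpa using hk'
    · rw [hk'] at h1
      exact absurd (mul_left_cancel₀ (pow_ne_zero 2 hq.ne_zero) (h1.trans (mul_one _).symm)) hb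
  have h4 : Irreducible a := ⟨fun h => ha (isUnit_iff_nm.1 h), fun c d hcd => by
    rw [isUnit_iff_nm, isUnit_iff_nm]
    exact (Nat.prime_mul_iff.1 (by rw [← nm_mul, ← hcd, h2]; exact hq)).symm.imp And.right And.right⟩
  obtain ⟨u, hu, hua⟩ := exists_unit_primary (n := a) fun h => by
    have := nm_dvd_of_dvd h
    rw [nm_lam, h2] at this
    omega
  exact ⟨u * a, (associated_unit_mul_right a u hu).prime h4.prime, hua,
    by rw [nm_mul, isUnit_iff_nm.1 hu, one_mul, h2]⟩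

open Filter Topology in
/-- Many primes `≡ 1 (mod 3)` in `(P, 2P]`. -/
theorem card_rat_primes {ε : ℝ} (hε : 0 < ε) : ∀ᶠ P : ℝ in atTop, P ^ (1 - ε) ≤
    (((Ioc ⌊P⌋₊ ⌊2 * P⌋₊).filter fun q : ℕ => q.Prime ∧ (q : ZMod 3) = 1).card : ℝ) := by
  have h1 := Crest.Agent.Lib.PNT.thetaAP_tendsto (q := 3) (a := 1) isUnit_one
  rw [Nat.totient_prime Nat.prime_three] at h1
  have h2 := h1.comp (tendsto_id.const_mul_atTop two_pos)
  have h3 : Tendsto (fun P : ℝ => P ^ (ε / 2)) atTop atTop := tendsto_rpow_atTop (half_pos hε)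
  filter_upwards [h1.eventually (gt_mem_nhds (show (((3 - 1 : ℕ) : ℝ))⁻¹ < 5 / 8 by norm_num)),
    h2.eventually (lt_mem_nhds (show 7 / 16 < (((3 - 1 : ℕ) : ℝ))⁻¹ by norm_num)),
    eventually_ge_atTop 2, h3.eventually_ge_atTop (16 / ε)] with P hP1 hP2 hP hP3
  have hP0 : 0 < P := by linarith
  simp only [Function.comp, id] at hP2
  rw [div_lt_iff₀ hP0] at hP1
  rw [lt_div_iff₀ (by linarith)] at hP2
  have h4 : (Icc 1 ⌊2 * P⌋₊).filter (fun q : ℕ => q.Prime ∧ (q : ZMod 3) = 1) ⊆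
      (Icc 1 ⌊P⌋₊).filter (fun q : ℕ => q.Prime ∧ (q : ZMod 3) = 1) ∪
      (Ioc ⌊P⌋₊ ⌊2 * P⌋₊).filter fun q : ℕ => q.Prime ∧ (q : ZMod 3) = 1 := fun q hq => by
    simp only [mem_filter, mem_union, mem_Icc, mem_Ioc] at hq ⊢
    rcases le_or_gt q ⌊P⌋₊ with h | h
    · exact Or.inl ⟨⟨hq.1.1, h⟩, hq.2⟩
    · exact Or.inr ⟨⟨h, hq.1.2⟩, hq.2⟩
  have h5 := (sum_le_sum_of_subset_of_nonneg (f := fun q : ℕ => Real.log q) h4
    fun q _ _ => Real.log_natCast_nonneg q).trans ((le_add_of_nonneg_right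
      (sum_nonneg fun q _ => Real.log_natCast_nonneg q)).trans_eq sum_union_inter)
  have h6 := sum_le_card_nsmul ((Ioc ⌊P⌋₊ ⌊2 * P⌋₊).filter fun q : ℕ => q.Prime ∧ (q : ZMod 3) = 1)
    (fun q : ℕ => Real.log q) (2 * (P ^ (ε / 2) / (ε / 2))) fun q hq => by
      rw [mem_filter, mem_Ioc] at hq
      have h7 : (q : ℝ) ≤ P ^ 2 :=
        ((Nat.cast_le.2 hq.1.2).trans (Nat.floor_le (by linarith))).trans (by nlinarith)
      have h8 := Real.log_le_log (by exact_mod_cast hq.2.1.pos) h7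
      rw [Real.log_pow] at h8
      have := Real.log_le_rpow_div hP0.le (half_pos hε)
      push_cast at h8
      linarith
  rw [nsmul_eq_mul] at h6
  set N : ℝ := (((Ioc ⌊P⌋₊ ⌊2 * P⌋₊).filter fun q : ℕ => q.Prime ∧ (q : ZMod 3) = 1).card : ℝ)
  have hN : 0 ≤ N := Nat.cast_nonneg _
  have h9 : 0 < P ^ (ε / 2) := Real.rpow_pos_of_pos hP0 _
  have h10 : P ^ (1 - ε) * (P ^ (ε / 2) * P ^ (ε / 2)) = P := by
    rw [← Real.rpow_add hP0, ← Real.rpow_add hP0, show 1 - ε + (ε / 2 + ε / 2) = 1 by ring,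
      Real.rpow_one]
  refine le_of_mul_le_mul_right ?_ (mul_pos h9 h9)
  rw [h10]
  have h11 : 4 * (2 * (P ^ (ε / 2) / (ε / 2))) = P ^ (ε / 2) * (16 / ε) := by
    field_simp
    ring
  have h12 := mul_le_mul_of_nonneg_left (mul_le_mul_of_nonneg_left hP3 h9.le) hN
  rw [← h11] at h12
  linarith

end Crest.Agent.R17.CountAux
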