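import Crest.Agent.R17.LS2Defs
import Crest.Agent.R17.CountAux

/-!
# Row 17, module M7 (quadratic large sieve): duality and reciprocity
-/

set_option autoImplicit false

noncomputable section

namespace Crest.Agent.R17.LS2

open scoped ComplexConjugate
open Classical

/-- The duality principle. -/
theorem duality {α β : Type*} (S : Finset α) (T : Finset β) (φ : α → β → ℂ) {B : ℝ} (hB : 0 ≤ B)
    (h : ∀ x : β → ℂ, ∑ a ∈ S, ‖∑ b ∈ T, x b * φ a b‖ ^ 2 ≤ B * ∑ b ∈ T, ‖x b‖ ^ 2)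
    (y : α → ℂ) : ∑ b ∈ T, ‖∑ a ∈ S, y a * φ a b‖ ^ 2 ≤ B * ∑ a ∈ S, ‖y a‖ ^ 2 := by
  set u : β → ℂ := fun b => ∑ a ∈ S, y a * φ a b with hu
  set U : ℝ := ∑ b ∈ T, ‖u b‖ ^ 2 with hU
  set Y : ℝ := ∑ a ∈ S, ‖y a‖ ^ 2 with hY
  have hU0 : 0 ≤ U := Finset.sum_nonneg fun _ _ => sq_nonneg _
  have hY0 : 0 ≤ Y := Finset.sum_nonneg fun _ _ => sq_nonneg _
  have h1 : (U : ℂ) = ∑ a ∈ S, y a * ∑ b ∈ T, conj (u b) * φ a b := by
    have : (U : ℂ) = ∑ b ∈ T, conj (u b) * u b := by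
      rw [hU]; push_cast
      exact Finset.sum_congr rfl fun b _ => (Complex.conj_mul' (u b)).symm
    rw [this]
    simp only [Finset.mul_sum]
    rw [Finset.sum_comm]
    refine Finset.sum_congr rfl fun b _ => ?_
    conv_lhs => rw [hu]
    simp only [Finset.mul_sum]
    exact Finset.sum_congr rfl fun a _ => by ring
  have h2 : U ≤ ∑ a ∈ S, ‖y a‖ * ‖∑ b ∈ T, conj (u b) * φ a b‖ := by
    have : U = ‖(U : ℂ)‖ := by rw [Complex.norm_real, Real.norm_of_nonneg hU0]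
    rw [this, h1]
    refine (norm_sum_le _ _).trans (le_of_eq ?_)
    exact Finset.sum_congr rfl fun a _ => norm_mul _ _
  have h3 : U ^ 2 ≤ Y * (B * U) := by
    refine (pow_le_pow_left₀ hU0 h2 2).trans ((Finset.sum_mul_sq_le_sq_mul_sq _ _ _).trans ?_)
    refine mul_le_mul_of_nonneg_left ((h fun b => conj (u b)).trans (le_of_eq ?_)) hY0
    simp only [Complex.norm_conj, hU]
  rcases hU0.eq_or_lt with h0 | h0
  · rw [← h0]; positivity
  · nlinarith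

/-- Splitting a sum into `s.card` pieces according to a colouring. -/
theorem norm_sum_sq_le_fiber {α κ : Type*} (T : Finset α) (s : Finset κ) (g : α → κ)
    (hg : ∀ b ∈ T, g b ∈ s) (x : α → ℂ) :
    ‖∑ b ∈ T, x b‖ ^ 2 ≤ s.card * ∑ j ∈ s, ‖∑ b ∈ T.filter (fun b => g b = j), x b‖ ^ 2 := by
  rw [← Finset.sum_fiberwise_of_maps_to hg x]
  exact (pow_le_pow_left₀ (norm_nonneg _) (norm_sum_le _ _) 2).trans sq_sum_le_card_mul_sum_sq

theorem Dual_norm_Rs {m n : O} (hm : IsCoprime m 2) (hn : IsCoprime n 2) : ‖Rs m n‖ = 1 := by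
  have h := congrArg norm (Rs_sq hm hn)
  rw [norm_pow, norm_one] at h
  exact (pow_eq_one_iff_of_nonneg (norm_nonneg _) two_ne_zero).1 h

theorem Dual_SP_of_mem {M n : O} {X : ℝ} (h : n ∈ sp M X) : SP M n := by
  rw [sp, Finset.mem_filter] at h
  exact h.2

/-- On one class modulo `4`, the symbol can be flipped. -/
theorem Dual_flip {n : O} (hn : SP 6 n) (T : Finset O) (hT : ∀ k ∈ T, SP 6 k)
    (h4 : ∀ k ∈ T, ∀ k' ∈ T, (4 : O) ∣ k - k') (x : O → ℂ) :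
    ‖∑ k ∈ T, x k * quad n k‖ = ‖∑ k ∈ T, x k * quad k n‖ := by
  rcases T.eq_empty_or_nonempty with rfl | ⟨k₀, hk₀⟩
  · simp
  have : ∑ k ∈ T, x k * quad n k = Rs n k₀ * ∑ k ∈ T, x k * quad k n := by
    rw [Finset.mul_sum]
    refine Finset.sum_congr rfl fun k hk => ?_
    rw [quad_recip (PO_of_SP hn) (PO_of_SP (hT k hk)),
      Rs_congr (m := n) (m' := n) (by simp) (h4 k hk k₀ hk₀)]
    ring
  rw [this, norm_mul, Dual_norm_Rs (PO_of_SP hn).2 (PO_of_SP (hT k₀ hk₀)).2, one_mul]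

theorem Dual_res_four : ∃ R : Finset O, (R.card : ℝ) = 16 ∧ ∀ k : O, k % 4 ∈ R := by
  have h40 : (4 : O) ≠ 0 := by decide
  refine ⟨res 4, ?_, fun k => ?_⟩
  · rw [card_res h40]
    have : nm (4 : O) = 16 := by simpa using nm_natCast 4
    rw [this]; norm_num
  · rw [mem_res h40]
    refine mod_congr h40 ?_
    rw [← dvd_neg, neg_sub]
    exact dvd_sub_mod' k 4

/-- Duality and quadratic reciprocity: the exponent moves to the rows. -/
theorem LS.swap {ξ : ℝ} (h : LS ξ) {ε : ℝ} (hε : 0 < ε) : ∃ C : ℝ, 0 < C ∧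
    ∀ (K N : ℝ) (β : O → ℂ), 1 ≤ K → 1 ≤ N →
      ∑ k ∈ sp 6 K, ‖∑ n ∈ sp 6 N, β n * quad n k‖ ^ 2 ≤
        C * (K * N) ^ ε * (N + K ^ ξ) * ∑ n ∈ sp 6 N, ‖β n‖ ^ 2 := by
  obtain ⟨C, hC, h⟩ := h ε hε
  refine ⟨16 * C, by positivity, fun K N β hK hN => ?_⟩
  obtain ⟨R, hcard, hR⟩ := Dual_res_four
  have hmap : ∀ k ∈ sp 6 K, k % 4 ∈ R := fun k _ => hR k
  refine duality (sp 6 N) (sp 6 K) (fun n k => quad n k) (by positivity) (fun x => ?_) β
  set B : ℝ := C * (N * K) ^ ε * (N + K ^ ξ) with hB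
  have hj : ∀ j : O, ∑ n ∈ sp 6 N, ‖∑ k ∈ (sp 6 K).filter (fun k => k % 4 = j), x k * quad n k‖ ^ 2
      ≤ B * ∑ k ∈ (sp 6 K).filter (fun k => k % 4 = j), ‖x k‖ ^ 2 := fun j => by
    have h1 := h N K (fun k => if k % 4 = j then x k else 0) hN hK
    have h2 : ∑ k ∈ sp 6 K, ‖(if k % 4 = j then x k else 0)‖ ^ 2 =
        ∑ k ∈ (sp 6 K).filter (fun k => k % 4 = j), ‖x k‖ ^ 2 := by
      rw [Finset.sum_filter]
      refine Finset.sum_congr rfl fun k _ => ?_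
      split_ifs <;> simp
    rw [h2] at h1
    refine le_trans (le_of_eq (Finset.sum_congr rfl fun n hn => ?_)) h1
    rw [Dual_flip (Dual_SP_of_mem hn) _ (fun k hk => Dual_SP_of_mem (Finset.mem_filter.1 hk).1)
      (fun k hk k' hk' => ?_), Finset.sum_filter]
    · congr 2
      refine Finset.sum_congr rfl fun k _ => ?_
      split_ifs <;> simp
    · have e1 := dvd_sub_mod' k 4
      have e2 := dvd_sub_mod' k' 4
      rw [(Finset.mem_filter.1 hk).2] at e1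
      rw [(Finset.mem_filter.1 hk').2] at e2
      simpa using dvd_sub e1 e2
  calc ∑ n ∈ sp 6 N, ‖∑ k ∈ sp 6 K, x k * quad n k‖ ^ 2
      ≤ ∑ n ∈ sp 6 N, 16 * ∑ j ∈ R,
          ‖∑ k ∈ (sp 6 K).filter (fun k => k % 4 = j), x k * quad n k‖ ^ 2 := by
        refine Finset.sum_le_sum fun n _ => ?_
        have := norm_sum_sq_le_fiber (sp 6 K) R (fun k => k % 4) hmap
          (fun k => x k * quad n k)
        rw [hcard] at this
        refine this.trans (le_of_eq ?_)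
        congr!
    _ = 16 * ∑ j ∈ R, ∑ n ∈ sp 6 N,
          ‖∑ k ∈ (sp 6 K).filter (fun k => k % 4 = j), x k * quad n k‖ ^ 2 := by
        rw [← Finset.mul_sum, Finset.sum_comm]
    _ ≤ 16 * ∑ j ∈ R, B * ∑ k ∈ (sp 6 K).filter (fun k => k % 4 = j), ‖x k‖ ^ 2 := by
        gcongr with j _
        exact hj j
    _ = 16 * C * (K * N) ^ ε * (N + K ^ ξ) * ∑ k ∈ sp 6 K, ‖x k‖ ^ 2 := by
        rw [← Finset.mul_sum, Finset.sum_fiberwise_of_maps_to hmap, hB, mul_comm N K]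
        ring

/-- Reindexing along an injective map. -/
theorem Dual_reindex (S I : Finset O) (m : O → O) (γ : O → ℂ) (hm : Set.InjOn m I)
    (hS : ∀ i ∈ I, m i ∈ S) : ∃ β : O → ℂ,
      (∀ F : O → ℂ, ∑ n ∈ S, β n * F n = ∑ i ∈ I, γ i * F (m i)) ∧
        ∑ n ∈ S, ‖β n‖ ^ 2 = ∑ i ∈ I, ‖γ i‖ ^ 2 := by
  refine ⟨fun n => ∑ i ∈ I.filter (fun i => m i = n), γ i, fun F => ?_, ?_⟩
  · rw [← Finset.sum_fiberwise_of_maps_to hS]
    refine Finset.sum_congr rfl fun n _ => ?_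
    rw [Finset.sum_mul]
    exact Finset.sum_congr rfl fun i hi => by rw [(Finset.mem_filter.1 hi).2]
  · rw [← Finset.sum_fiberwise_of_maps_to hS]
    refine Finset.sum_congr rfl fun n _ => ?_
    have hc : (I.filter (fun i => m i = n)).card ≤ 1 := by
      rw [Finset.card_le_one]
      intro a ha b hb
      rw [Finset.mem_filter] at ha hb
      exact hm ha.1 hb.1 (ha.2.trans hb.2.symm)
    rcases Finset.card_le_one_iff_subset_singleton.1 hc with ⟨a, ha⟩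
    rcases Finset.subset_singleton_iff.1 ha with e | e <;> simp [e]

/-- Every squarefree element is a small factor times a normalised squarefree element. -/
theorem Dual_decomp {a : O} (ha : Squarefree a) :
    ∃ e ∈ (ball 12).erase 0, ∃ k : O, SP 6 k ∧ a = e * k := by
  have ha0 := ha.ne_zero
  obtain ⟨u, j, hu, h⟩ := exists_eq_unit_lam_primary ha0
  have hr : ∏ p ∈ pf a, p ^ vp p a = ∏ p ∈ pf a, p := by
    refine Finset.prod_congr rfl fun p hp => ?_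
    have h1 := BasicB.vp_le_one ha (BasicB.pf_sub hp).1
    have h2 := BasicB.vp_ne_zero hp
    rw [show vp p a = 1 by omega, pow_one]
  rw [hr] at h
  have hj : j ≤ 1 := by
    by_contra hj
    have : lam * lam ∣ a := by
      rw [h, ← sq]
      exact ((pow_dvd_pow lam (by omega)).mul_left u).mul_right _
    exact prime_lam.not_isUnit (ha lam this)
  have hP : ∀ q ∈ (pf a).erase (-2), Prime q ∧ Primary q :=
    fun q hq => BasicB.pf_sub (Finset.mem_of_mem_erase hq)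
  have hk : SP 6 (∏ p ∈ (pf a).erase (-2), p) := by
    have h1 := squarefree_prod_primes hP
    refine ⟨h1.2.1, h1.1, ?_⟩
    rw [show (6 : O) = 2 * 3 by norm_num]
    refine IsCoprime.mul_right (IsCoprime.prod_left fun p hp => ?_) h1.2.1.isCoprime_three
    rcases RecipB.po_or (hP p hp).1 (hP p hp).2 with e | e
    · exact absurd e (Finset.ne_of_mem_erase hp)
    · exact e.2
  have hu1 : nm u = 1 := isUnit_iff_nm.1 hu
  have hl : nm (lam ^ j) ≤ 3 := by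
    rw [nm_pow, nm_lam]
    interval_cases j <;> norm_num
  by_cases h2 : (-2 : O) ∈ pf a
  · have e : a = u * lam ^ j * (-2) * ∏ p ∈ (pf a).erase (-2), p := by
      rw [mul_assoc (u * lam ^ j), Finset.mul_prod_erase _ (fun p => p) h2]
      exact h
    refine ⟨u * lam ^ j * (-2), CountAux.mem_erase_ball.2 ⟨?_, ?_⟩, _, hk, e⟩
    · intro h0; rw [h0, zero_mul] at e; exact ha0 e
    · have : nm (-2 : O) = 4 := by decide
      rw [nm_mul, nm_mul, hu1, this]; omega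
  · have e : a = u * lam ^ j * ∏ p ∈ (pf a).erase (-2), p := by
      rw [Finset.erase_eq_of_notMem h2]
      exact h
    refine ⟨u * lam ^ j, CountAux.mem_erase_ball.2 ⟨?_, ?_⟩, _, hk, e⟩
    · intro h0; rw [h0, zero_mul] at e; exact ha0 e
    · rw [nm_mul, hu1]; omega

theorem Dual_decomp' : ∃ E : Finset O, (E.card : ℝ) ≤ 84 ∧ (∀ e ∈ E, e ≠ 0) ∧
    ∀ a : O, Squarefree a → ∃ e ∈ E, ∃ k : O, SP 6 k ∧ a = e * k := by
  refine ⟨(ball 12).erase 0, ?_, fun e he => Finset.ne_of_mem_erase he, fun a ha => Dual_decomp ha⟩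
  have := CountAux.card_erase_le 12
  push_cast at this
  linarith

/-- Number of dyadic blocks. -/
theorem Dual_log_le {ε V : ℝ} (hε : 0 < ε) (hV : 1 ≤ V) :
    ((Nat.log 2 ⌊V⌋₊ + 1 : ℕ) : ℝ) ≤ (1 + 1 / (ε * Real.log 2)) * V ^ ε := by
  have hl : 0 < Real.log 2 := Real.log_pos one_lt_two
  have hf : ⌊V⌋₊ ≠ 0 := (Nat.floor_pos.2 hV).ne'
  have h1 : ((2 : ℝ)) ^ Nat.log 2 ⌊V⌋₊ ≤ V := by
    have := Nat.pow_log_le_self 2 hf
    exact le_trans (by exact_mod_cast this) (Nat.floor_le (by linarith))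
  have h2 : (Nat.log 2 ⌊V⌋₊ : ℝ) * Real.log 2 ≤ V ^ ε / ε := by
    rw [← Real.log_pow]
    exact (Real.log_le_log (by positivity) h1).trans (Real.log_le_rpow_div (by linarith) hε)
  have h3 : (Nat.log 2 ⌊V⌋₊ : ℝ) ≤ 1 / (ε * Real.log 2) * V ^ ε := by
    rw [one_div_mul_eq_div, le_div_iff₀ (by positivity)]
    rw [le_div_iff₀ hε] at h2
    linarith
  have h4 : 1 ≤ V ^ ε := Real.one_le_rpow hV hε.le
  push_cast
  linarith

/-- The dyadic decomposition of the rows. -/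
theorem Dual_dyadic {ξ ε C V N W : ℝ} (h0 : 0 ≤ ξ) (hε : 0 < ε) (hC : 0 < C) (hV : 1 ≤ V)
    (hN : 1 ≤ N) (hW : 0 ≤ W) (f : O → ℝ) (hf : ∀ k, 0 ≤ f k)
    (h : ∀ K : ℝ, 1 ≤ K → ∑ k ∈ sp 6 K, f k ≤ C * (K * N) ^ ε * (N + K ^ ξ) * W) :
    ∑ k ∈ sp 6 V, f k / (N + nr k ^ ξ) ≤
      ((Nat.log 2 ⌊V⌋₊ + 1 : ℕ) : ℝ) * (C * (2 * V * N) ^ ε * 2 ^ ξ * W) := by
  set J := Nat.log 2 ⌊V⌋₊ with hJ
  have hf0 : ⌊V⌋₊ ≠ 0 := (Nat.floor_pos.2 hV).ne'
  have hJV : ((2 : ℝ)) ^ J ≤ V := by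
    have := Nat.pow_log_le_self 2 hf0
    exact le_trans (by exact_mod_cast this) (Nat.floor_le (by linarith))
  have hmap : ∀ k ∈ sp 6 V, Nat.log 2 (nm k) ∈ Finset.range (J + 1) := fun k hk => by
    rw [Finset.mem_range, Nat.lt_succ_iff]
    refine Nat.log_mono_right ?_
    rw [Nat.le_floor_iff (by linarith)]
    exact ((mem_sp (by linarith)).1 hk).2
  rw [← Finset.sum_fiberwise_of_maps_to hmap]
  refine (Finset.sum_le_card_nsmul _ _ (C * (2 * V * N) ^ ε * 2 ^ ξ * W) fun j hj => ?_).trans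
    (le_of_eq (by rw [Finset.card_range, nsmul_eq_mul]))
  have hjJ : j ≤ J := by rwa [Finset.mem_range, Nat.lt_succ_iff] at hj
  have h2j : (1 : ℝ) ≤ 2 ^ j := one_le_pow₀ one_le_two
  have hjV : (2 : ℝ) ^ j ≤ V := (pow_le_pow_right₀ one_le_two hjJ).trans hJV
  have hD : 0 < N + ((2 : ℝ) ^ j) ^ ξ := by positivity
  have h1 : ∑ k ∈ (sp 6 V).filter (fun k => Nat.log 2 (nm k) = j), f k / (N + nr k ^ ξ) ≤
      (∑ k ∈ sp 6 (2 * 2 ^ j), f k) / (N + ((2 : ℝ) ^ j) ^ ξ) := by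
    rw [Finset.sum_div]
    refine (Finset.sum_le_sum fun k hk => ?_).trans
      (Finset.sum_le_sum_of_subset_of_nonneg (fun k hk => ?_) fun k _ _ => div_nonneg (hf k) hD.le)
    · obtain ⟨hk1, hk2⟩ := Finset.mem_filter.1 hk
      have hk0 : nm k ≠ 0 := fun e => ne_zero_of_SP (Dual_SP_of_mem hk1) (nm_eq_zero.1 e)
      have : (2 : ℝ) ^ j ≤ nr k := by
        have := Nat.pow_log_le_self 2 hk0
        rw [hk2] at this
        exact_mod_cast this
      gcongr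
      exact hf k
    · obtain ⟨hk1, hk2⟩ := Finset.mem_filter.1 hk
      rw [mem_sp (by positivity)]
      refine ⟨Dual_SP_of_mem hk1, ?_⟩
      have := Nat.lt_pow_succ_log_self one_lt_two (nm k)
      rw [hk2, Nat.succ_eq_add_one, pow_succ, mul_comm] at this
      exact_mod_cast this.le
  refine h1.trans ?_
  rw [div_le_iff₀ hD]
  refine (h _ (by linarith)).trans ?_
  have h2 : (2 * (2 : ℝ) ^ j * N) ^ ε ≤ (2 * V * N) ^ ε := by gcongr
  have h3 : N + (2 * (2 : ℝ) ^ j) ^ ξ ≤ 2 ^ ξ * (N + ((2 : ℝ) ^ j) ^ ξ) := by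
    rw [Real.mul_rpow (by norm_num) (by positivity), mul_add]
    have : (1 : ℝ) ≤ 2 ^ ξ := Real.one_le_rpow one_le_two h0
    nlinarith
  calc C * (2 * (2 : ℝ) ^ j * N) ^ ε * (N + (2 * (2 : ℝ) ^ j) ^ ξ) * W
      ≤ C * (2 * V * N) ^ ε * (2 ^ ξ * (N + ((2 : ℝ) ^ j) ^ ξ)) * W := by gcongr
    _ = _ := by ring

theorem LSw_of_LS {ξ : ℝ} (h0 : 0 ≤ ξ) (h : LS ξ) : LSw ξ := by
  intro ε hε
  have hε2 : 0 < ε / 2 := by positivity
  obtain ⟨C, hC, h⟩ := h.swap hε2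
  have hl : 0 < Real.log 2 := Real.log_pos one_lt_two
  refine ⟨84 * (1 + 1 / (ε / 2 * Real.log 2)) * (C * 2 ^ (ε / 2) * 2 ^ ξ), by positivity,
    fun V N hV hN N' hN' hNN I m γ hm hI => ?_⟩
  set W : ℝ := ∑ i ∈ I, ‖γ i‖ ^ 2 with hW
  have hW0 : 0 ≤ W := Finset.sum_nonneg fun _ _ => sq_nonneg _
  set D : ℝ := ((Nat.log 2 ⌊V⌋₊ + 1 : ℕ) : ℝ) * (C * (2 * V * N') ^ (ε / 2) * 2 ^ ξ * W) with hD
  have hden : ∀ a : O, 0 < N' + nr a ^ ξ := fun a => by positivity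
  obtain ⟨E, hc, hE0, hE⟩ := Dual_decomp'
  have he : ∀ e ∈ E,
      ∑ k ∈ sp 6 V, ‖∑ i ∈ I, γ i * quad (m i) (e * k)‖ ^ 2 / (N' + nr (e * k) ^ ξ) ≤ D := by
    intro e he
    have he0 : e ≠ 0 := hE0 e he
    obtain ⟨β, hβ1, hβ2⟩ := Dual_reindex (sp 6 N') I m (fun i => γ i * quad (m i) e) hm
      fun i hi => (mem_sp (by linarith)).2 (hI i hi)
    have hβ3 : ∑ n ∈ sp 6 N', ‖β n‖ ^ 2 ≤ W := by
      rw [hβ2]
      refine Finset.sum_le_sum fun i _ => ?_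
      rw [norm_mul]
      exact pow_le_pow_left₀ (by positivity)
        (mul_le_of_le_one_right (norm_nonneg _) (norm_quad_le _ _)) 2
    refine le_trans (Finset.sum_le_sum fun k hk => ?_) (Dual_dyadic h0 hε2 hC hV hN' hW0
      (fun k => ‖∑ n ∈ sp 6 N', β n * quad n k‖ ^ 2) (fun _ => sq_nonneg _) fun K hK => ?_)
    · have e1 : ∑ i ∈ I, γ i * quad (m i) (e * k) = ∑ n ∈ sp 6 N', β n * quad n k := by
        rw [hβ1 fun n => quad n k]
        refine Finset.sum_congr rfl fun i hi => ?_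
        rw [quad_mul_right (PO_of_SP (hI i hi).1), mul_assoc]
      have e2 : nr k ≤ nr (e * k) := by
        rw [nr_mul]
        exact le_mul_of_one_le_left (Nat.cast_nonneg _) (one_le_nr he0)
      rw [e1]
      gcongr
    · refine (h K N' β hK hN').trans ?_
      gcongr
  have h1 := CountAux.sum_le_prod E (sp 6 V) (fun e k => e * k) (S := sqf V)
    (fun a ha => by
      obtain ⟨ha1, ha2⟩ := (mem_sqf (by linarith)).1 ha
      obtain ⟨e, he, k, hk, rfl⟩ := hE a ha1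
      refine ⟨e, he, k, (mem_sp (by linarith)).2 ⟨hk, le_trans ?_ ha2⟩, rfl⟩
      rw [nr_mul]
      exact le_mul_of_one_le_left (Nat.cast_nonneg _) (one_le_nr (hE0 e he)))
    (fun a => ‖∑ i ∈ I, γ i * quad (m i) a‖ ^ 2 / (N' + nr a ^ ξ))
    (fun a => div_nonneg (sq_nonneg _) (hden a).le)
  refine h1.trans ((Finset.sum_le_card_nsmul _ _ D he).trans ?_)
  rw [nsmul_eq_mul]
  have h2 := Dual_log_le hε2 hV
  have h3 : V ^ (ε / 2) ≤ (V * N) ^ (ε / 2) := by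
    gcongr
    exact le_mul_of_one_le_right (by linarith) hN
  have h4 : (2 * V * N') ^ (ε / 2) ≤ 2 ^ (ε / 2) * (V * N) ^ (ε / 2) := by
    rw [← Real.mul_rpow (by norm_num) (by positivity), mul_assoc]
    gcongr
  have h5 : (V * N) ^ ε = (V * N) ^ (ε / 2) * (V * N) ^ (ε / 2) := by
    rw [← Real.rpow_add (by positivity)]; congr 1; ring
  calc (E.card : ℝ) * D
      ≤ 84 * (((1 + 1 / (ε / 2 * Real.log 2)) * (V * N) ^ (ε / 2)) *
          (C * (2 ^ (ε / 2) * (V * N) ^ (ε / 2)) * 2 ^ ξ * W)) := by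
        rw [hD]
        gcongr
        exact h2.trans (by gcongr)
    _ = _ := by rw [h5]; ring

end Crest.Agent.R17.LS2
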