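import Crest.Agent.R17.LS2Defs

/-!
# Row 17, module M4, part P1b: auxiliary lemmas (reindexing, Mellin separation, tails)
-/

set_option autoImplicit false

noncomputable section

namespace Crest.Agent.R17

open scoped ComplexConjugate

namespace P1b

open MeasureTheory

/-! ### Reindexing -/

theorem mem_sp_of_dvd {M n d : O} {R : ℝ} (hR : 0 ≤ R) (hn : n ∈ sp M R) (hd : Primary d)
    (h : d ∣ n) : d ∈ sp M R := by
  rw [LS2.mem_sp hR] at hn ⊢
  refine ⟨LS2.SP_of_dvd hn.1 hd h, le_trans ?_ hn.2⟩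
  exact_mod_cast nm_le_of_dvd h hn.1.1.ne_zero

theorem primary_of_mem {M n : O} {R : ℝ} (hR : 0 ≤ R) (hn : n ∈ sp M R) : Primary n :=
  ((LS2.mem_sp hR).1 hn).1.1

open Classical in
theorem sum_dvd {A : Type*} [AddCommMonoid A] {M h : O} {R : ℝ} (hR : 0 ≤ R) (hh : Primary h)
    (f : O → A) (hf : ∀ x, f x ≠ 0 → x ∈ sp M R) :
    ∑ x ∈ sp M R, (if h ∣ x then f x else 0) = ∑ a ∈ sp M R, f (h * a) := by
  symm
  refine Finset.sum_bij_ne_zero (fun a _ _ => h * a) ?_ ?_ ?_ ?_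
  · intro a _ ha; exact hf _ ha
  · intro a₁ _ _ a₂ _ _ e; exact mul_left_cancel₀ hh.ne_zero e
  · intro x hx hx0
    have hd : h ∣ x := by by_contra hn; exact hx0 (if_neg hn)
    rw [if_pos hd] at hx0
    obtain ⟨a, rfl⟩ := hd
    exact ⟨a, mem_sp_of_dvd hR hx (hh.of_mul (primary_of_mem hR hx)) (dvd_mul_left _ _), hx0, rfl⟩
  · intro a _ _; rw [if_pos (dvd_mul_right _ _)]

open Classical in
theorem sum_dvd2 {A : Type*} [AddCommMonoid A] {M h : O} {R : ℝ} (hR : 0 ≤ R) (hh : Primary h)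
    (G : O → O → A) (hG : ∀ x y, G x y ≠ 0 → x ∈ sp M R ∧ y ∈ sp M R) :
    ∑ x ∈ sp M R, ∑ y ∈ sp M R, (if h ∣ x ∧ h ∣ y then G x y else 0) =
      ∑ a ∈ sp M R, ∑ b ∈ sp M R, G (h * a) (h * b) := by
  have h1 : ∀ x, ∑ y ∈ sp M R, (if h ∣ x ∧ h ∣ y then G x y else 0) =
      if h ∣ x then ∑ b ∈ sp M R, G x (h * b) else 0 := by
    intro x
    by_cases hx : h ∣ x
    · simp only [hx, true_and, if_true]
      exact sum_dvd hR hh (G x) fun y hy => (hG x y hy).2
    · simp [hx]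
  simp only [h1]
  refine sum_dvd hR hh (fun x => ∑ b ∈ sp M R, G x (h * b)) fun x hx => ?_
  obtain ⟨b, -, hb⟩ := Finset.exists_ne_zero_of_sum_ne_zero hx
  exact (hG _ _ hb).1

open Classical in
/-- Reindexing of pairs by their gcd. -/
theorem sum_gcd {A : Type*} [AddCommMonoid A] {M : O} {R : ℝ} (hR : 0 ≤ R)
    (G : O → O → A) (hG : ∀ x y, G x y ≠ 0 → x ∈ sp M R ∧ y ∈ sp M R) :
    ∑ x ∈ sp M R, ∑ y ∈ sp M R, G x y =
      ∑ g ∈ sp M R, ∑ a ∈ sp M R, ∑ b ∈ sp M R,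
        if IsCoprime a b then G (g * a) (g * b) else 0 := by
  have h1 : ∀ x ∈ sp M R, ∀ y ∈ sp M R, G x y = ∑ g ∈ sp M R,
      if g ∣ x ∧ g ∣ y then (if pgcd x y = g then G x y else 0) else 0 := by
    intro x hx y hy
    have hx0 := (primary_of_mem hR hx).ne_zero
    have hy0 := (primary_of_mem hR hy).ne_zero
    have hd := (dvd_pgcd_iff hx0 hy0 (primary_pgcd x y)).1 dvd_rfl
    rw [Finset.sum_eq_single (pgcd x y)]
    · rw [if_pos hd, if_pos rfl]
    · intro g _ hg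
      rw [if_neg (Ne.symm hg), ite_self]
    · intro hn
      exact absurd (mem_sp_of_dvd hR hx (primary_pgcd x y) hd.1) hn
  rw [Finset.sum_congr rfl fun x hx => Finset.sum_congr rfl fun y hy => h1 x hx y hy]
  rw [Finset.sum_congr rfl fun x _ => Finset.sum_comm, Finset.sum_comm]
  refine Finset.sum_congr rfl fun g hg => ?_
  have hgp := primary_of_mem hR hg
  rw [sum_dvd2 hR hgp (fun x y => if pgcd x y = g then G x y else 0)]
  · refine Finset.sum_congr rfl fun a ha => Finset.sum_congr rfl fun b hb => ?_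
    have hap := primary_of_mem hR ha
    have hbp := primary_of_mem hR hb
    rw [pgcd_mul_left hgp hap.ne_zero hbp.ne_zero]
    refine if_congr ?_ rfl rfl
    rw [← pgcd_eq_one_iff hap hbp.ne_zero]
    exact mul_eq_left₀ hgp.ne_zero
  · intro x y h
    refine hG x y fun h0 => h ?_
    rw [h0, ite_self]

open Classical in
/-- Removing a coprimality condition. -/
theorem sum_cop {M : O} {R : ℝ} (hR : 0 ≤ R)
    (H : O → O → ℂ) (hH : ∀ x y, H x y ≠ 0 → x ∈ sp M R ∧ y ∈ sp M R) :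
    ∑ a ∈ sp M R, ∑ b ∈ sp M R, (if IsCoprime a b then H a b else 0) =
      ∑ h ∈ sp M R, mu h * ∑ a ∈ sp M R, ∑ b ∈ sp M R, H (h * a) (h * b) := by
  have h1 : ∀ a ∈ sp M R, ∀ b ∈ sp M R, (if IsCoprime a b then H a b else 0) =
      ∑ h ∈ sp M R, if h ∣ a ∧ h ∣ b then mu h * H a b else 0 := by
    intro a ha b hb
    have hap := primary_of_mem hR ha
    have hbp := primary_of_mem hR hb
    have e1 : (pdiv a).filter (· ∣ b) = (sp M R).filter (fun h => h ∣ a ∧ h ∣ b) := by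
      ext h
      simp only [Finset.mem_filter, mem_pdiv hap.ne_zero]
      constructor
      · rintro ⟨⟨h1, h2⟩, h3⟩
        exact ⟨mem_sp_of_dvd hR ha h1 h2, h2, h3⟩
      · rintro ⟨h1, h2, h3⟩
        exact ⟨⟨primary_of_mem hR h1, h2⟩, h3⟩
    have e2 := sum_mu_coprime hap hbp.ne_zero
    rw [← Finset.sum_filter, ← Finset.sum_mul, ← e1]
    convert_to _ = (if IsCoprime a b then (1 : ℂ) else 0) * H a b
    · congr 1
    · split_ifs <;> simp
  rw [Finset.sum_congr rfl fun a ha => Finset.sum_congr rfl fun b hb => h1 a ha b hb]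
  rw [Finset.sum_congr rfl fun x _ => Finset.sum_comm, Finset.sum_comm]
  refine Finset.sum_congr rfl fun h hh => ?_
  rw [sum_dvd2 hR (primary_of_mem hR hh) (fun x y => mu h * H x y)]
  · simp only [Finset.mul_sum]
  · intro x y h0
    exact hH x y (right_ne_zero_of_mul h0)

/-! ### Mellin separation -/

/-- A Dirichlet polynomial on a vertical line. -/
def DP (S : Finset O) (p : O → ℂ) (σ u : ℝ) : ℂ :=
  ∑ a ∈ S, p a * (nr a : ℂ) ^ ((σ : ℂ) + u * Complex.I)

theorem continuous_cpow {x : ℝ} (hx : 0 < x) (σ : ℝ) :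
    Continuous fun u : ℝ => (x : ℂ) ^ ((σ : ℂ) + u * Complex.I) :=
  Continuous.const_cpow (by fun_prop) (Or.inl (Complex.ofReal_ne_zero.2 hx.ne'))

theorem norm_cpow {x : ℝ} (hx : 0 < x) (σ u : ℝ) :
    ‖(x : ℂ) ^ ((σ : ℂ) + u * Complex.I)‖ = x ^ σ := by
  rw [Complex.norm_cpow_eq_rpow_re_of_pos hx]; simp

theorem continuous_DP {S : Finset O} (hS : ∀ a ∈ S, a ≠ 0) (p : O → ℂ) (σ : ℝ) :
    Continuous (DP S p σ) :=
  continuous_finsetSum _ fun a ha => continuous_const.mul (continuous_cpow (nr_pos (hS a ha)) σ)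

theorem norm_DP_le {S : Finset O} (hS : ∀ a ∈ S, a ≠ 0) (p : O → ℂ) (σ u : ℝ) :
    ‖DP S p σ u‖ ≤ ∑ a ∈ S, ‖p a‖ * nr a ^ σ := by
  refine (norm_sum_le _ _).trans (Finset.sum_le_sum fun a ha => ?_)
  rw [norm_mul, norm_cpow (nr_pos (hS a ha))]

theorem integrable_normGamma {σ : ℝ} (hσ : 0 < σ) :
    Integrable fun u : ℝ => ‖Complex.Gamma (σ + u * Complex.I)‖ := by
  simpa using integrable_Gamma_mul_pow hσ 0

theorem integrable_Gamma {σ : ℝ} (hσ : 0 < σ) :
    Integrable fun u : ℝ => Complex.Gamma (σ + u * Complex.I) :=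
  (integrable_norm_iff (WA.continuous_Gamma_line hσ).aestronglyMeasurable).1
    (integrable_normGamma hσ)

theorem integrable_DP {S : Finset O} (hS : ∀ a ∈ S, a ≠ 0) (p : O → ℂ) {σ : ℝ} (hσ : 0 < σ) :
    Integrable fun u : ℝ => ‖Complex.Gamma (σ + u * Complex.I)‖ * ‖DP S p σ u‖ ^ 2 := by
  refine (integrable_normGamma hσ).mul_bdd (c := (∑ a ∈ S, ‖p a‖ * nr a ^ σ) ^ 2)
    ((continuous_DP hS p σ).norm.pow 2).aestronglyMeasurable (Filter.Eventually.of_forall fun u => ?_)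
  rw [Real.norm_of_nonneg (by positivity)]
  exact pow_le_pow_left₀ (norm_nonneg _) (norm_DP_le hS p σ u) 2

theorem norm_Gamma_neg (σ u : ℝ) :
    ‖Complex.Gamma (σ + (-u : ℝ) * Complex.I)‖ = ‖Complex.Gamma (σ + u * Complex.I)‖ := by
  have : (σ + (-u : ℝ) * Complex.I : ℂ) = conj (σ + u * Complex.I : ℂ) := by simp
  rw [this, Complex.Gamma_conj, Complex.norm_conj]

theorem conj_cpow {x : ℝ} (hx : 0 < x) (σ u : ℝ) :
    conj ((x : ℂ) ^ ((σ : ℂ) + (-u : ℝ) * Complex.I)) = (x : ℂ) ^ ((σ : ℂ) + u * Complex.I) := by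
  rw [WA.cpow_eq hx, WA.cpow_eq hx, ← Complex.exp_conj]
  congr 1
  simp

theorem cpow_split {Z x y : ℝ} (hZ : 0 < Z) (hx : 0 < x) (hy : 0 < y) (s : ℂ) :
    ((Z / (x * y) : ℝ) : ℂ) ^ (-s) = (Z : ℂ) ^ (-s) * ((x : ℂ) ^ s * (y : ℂ) ^ s) := by
  rw [WA.cpow_eq (by positivity), WA.cpow_eq hZ, WA.cpow_eq hx, WA.cpow_eq hy, ← Complex.exp_add,
    ← Complex.exp_add, Real.log_div hZ.ne' (by positivity), Real.log_mul hx.ne' hy.ne']
  congr 1
  push_cast
  ring

/-- Mellin separation of a bilinear form with kernel `gw (Z / (N a N b))`. -/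
theorem mellin_bil {S : Finset O} (hS : ∀ a ∈ S, a ≠ 0) (p q : O → ℂ) {σ Z : ℝ} (hσ : 0 < σ)
    (hZ : 0 < Z) :
    ‖∑ a ∈ S, ∑ b ∈ S, (gw (Z / (nr a * nr b)) : ℂ) * (p a * conj (q b))‖ ≤
      Z ^ (-σ) * ((∫ u : ℝ, ‖Complex.Gamma (σ + u * Complex.I)‖ * ‖DP S p σ u‖ ^ 2) +
        ∫ u : ℝ, ‖Complex.Gamma (σ + u * Complex.I)‖ * ‖DP S q σ u‖ ^ 2) := by
  set c : ℝ := 2 * Real.pi / Real.sqrt 3 with hc
  have hc3 : 3 ≤ c := pois_three_le
  have hcZ : 0 < c * Z := by positivity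
  -- the summands of the integrand
  set T : O → O → ℝ → ℂ := fun a b u => Complex.Gamma (σ + u * Complex.I) *
    (((c * Z : ℝ) : ℂ) ^ (-((σ : ℂ) + u * Complex.I)) *
      ((p a * (nr a : ℂ) ^ ((σ : ℂ) + u * Complex.I)) *
        conj (q b * (nr b : ℂ) ^ ((σ : ℂ) + (-u : ℝ) * Complex.I)))) with hT
  have hneg : ∀ u : ℝ, ‖((c * Z : ℝ) : ℂ) ^ (-((σ : ℂ) + u * Complex.I))‖ = (c * Z) ^ (-σ) := by
    intro u
    rw [Complex.norm_cpow_eq_rpow_re_of_pos hcZ]; simp
  have hcn : Continuous fun u : ℝ => ((c * Z : ℝ) : ℂ) ^ (-((σ : ℂ) + u * Complex.I)) :=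
    Continuous.const_cpow (by fun_prop) (Or.inl (Complex.ofReal_ne_zero.2 hcZ.ne'))
  have hTi : ∀ a ∈ S, ∀ b ∈ S, Integrable (T a b) := by
    intro a ha b hb
    refine (integrable_Gamma hσ).mul_bdd
      (c := (c * Z) ^ (-σ) * ((‖p a‖ * nr a ^ σ) * (‖q b‖ * nr b ^ σ))) ?_
      (Filter.Eventually.of_forall fun u => ?_)
    · refine (hcn.mul ((continuous_const.mul (continuous_cpow (nr_pos (hS a ha)) σ)).mul
        (Complex.continuous_conj.comp (continuous_const.mul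
          ((continuous_cpow (nr_pos (hS b hb)) σ).comp continuous_neg))))).aestronglyMeasurable
    · rw [norm_mul, norm_mul, Complex.norm_conj, norm_mul, norm_mul, hneg,
        norm_cpow (nr_pos (hS a ha)), norm_cpow (nr_pos (hS b hb))]
  have h1 : ∀ a ∈ S, ∀ b ∈ S, (gw (Z / (nr a * nr b)) : ℂ) * (p a * conj (q b)) =
      (1 / (2 * Real.pi) : ℂ) * ∫ u, T a b u := by
    intro a ha b hb
    have ha' := nr_pos (hS a ha)
    have hb' := nr_pos (hS b hb)
    rw [gw_eq_integral (by positivity) hσ, mul_assoc, ← integral_mul_const]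
    congr 1
    refine integral_congr_ae (Filter.Eventually.of_forall fun u => ?_)
    simp only [hT]
    rw [← hc, ← mul_div_assoc, cpow_split hcZ ha' hb', map_mul, conj_cpow hb']
    ring
  rw [Finset.sum_congr rfl fun a ha => Finset.sum_congr rfl fun b hb => h1 a ha b hb]
  simp only [← Finset.mul_sum]
  rw [Finset.sum_congr rfl fun a ha => (integral_finsetSum S fun b hb => hTi a ha b hb).symm,
    ← integral_finsetSum S fun a ha => integrable_finsetSum S fun b hb => hTi a ha b hb]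
  have h2 : ∀ u : ℝ, ∑ a ∈ S, ∑ b ∈ S, T a b u = Complex.Gamma (σ + u * Complex.I) *
      (((c * Z : ℝ) : ℂ) ^ (-((σ : ℂ) + u * Complex.I)) * (DP S p σ u * conj (DP S q σ (-u)))) := by
    intro u
    rw [DP, DP, map_sum, Finset.sum_mul_sum]
    simp only [hT, Finset.mul_sum]
  simp only [h2]
  have hq := integrable_DP hS q hσ
  have hq' : Integrable fun u : ℝ => ‖Complex.Gamma (σ + u * Complex.I)‖ * ‖DP S q σ (-u)‖ ^ 2 := by
    have := hq.comp_neg
    simpa only [norm_Gamma_neg] using this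
  have hqe : ∫ u : ℝ, ‖Complex.Gamma (σ + u * Complex.I)‖ * ‖DP S q σ (-u)‖ ^ 2 =
      ∫ u : ℝ, ‖Complex.Gamma (σ + u * Complex.I)‖ * ‖DP S q σ u‖ ^ 2 := by
    rw [← integral_neg_eq_self
      (fun u : ℝ => ‖Complex.Gamma (σ + u * Complex.I)‖ * ‖DP S q σ u‖ ^ 2) volume]
    simp only [norm_Gamma_neg]
  have hle : (c * Z) ^ (-σ) ≤ Z ^ (-σ) :=
    Real.rpow_le_rpow_of_nonpos hZ (by nlinarith) (by linarith)
  have hpi : ‖(1 / (2 * Real.pi) : ℂ)‖ ≤ 1 := by
    rw [norm_div, norm_one, norm_mul, Complex.norm_real, Real.norm_of_nonneg Real.pi_pos.le]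
    have := Real.pi_gt_three
    rw [div_le_one (by simp; positivity)]
    simp; linarith
  rw [norm_mul, ← hqe, ← integral_add (integrable_DP hS p hσ) hq', ← integral_const_mul]
  refine (mul_le_of_le_one_left (norm_nonneg _) hpi).trans ?_
  refine norm_integral_le_of_norm_le (((integrable_DP hS p hσ).add hq').const_mul _)
    (Filter.Eventually.of_forall fun u => ?_)
  rw [norm_mul, norm_mul, norm_mul, Complex.norm_conj, hneg]
  have hz : 0 ≤ Z ^ (-σ) := by positivity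
  have hx := norm_nonneg (DP S p σ u)
  have hy := norm_nonneg (DP S q σ (-u))
  have hg := norm_nonneg (Complex.Gamma (σ + u * Complex.I))
  set x := ‖DP S p σ u‖
  set y := ‖DP S q σ (-u)‖
  set g := ‖Complex.Gamma (σ + u * Complex.I)‖
  calc g * ((c * Z) ^ (-σ) * (x * y)) ≤ g * (Z ^ (-σ) * (x ^ 2 + y ^ 2)) := by
        gcongr
        nlinarith [sq_nonneg (x - y), mul_nonneg hx hy]
    _ = _ := by ring

/-! ### The diagonal factor, the expansion of the square, splitting of a series -/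

theorem sum_pdiv {z : O} (hz : Primary z) (hs : Squarefree z) (F : O → ℂ) :
    ∑ d ∈ pdiv z, F d = ∑ S ∈ (pf z).powerset, F (∏ q ∈ S, q) := by
  have hn := hz.ne_zero
  refine Finset.sum_nbij' pf (fun s => ∏ q ∈ s, q) (fun d hd => ?_) (fun s hs => ?_)
    (fun d hd => ?_) (fun s hs => ?_) fun d hd => ?_
  · refine Finset.mem_powerset.2 fun p hp => ?_
    obtain ⟨h3, h4, h5⟩ := BasicB.of_mem_pf hp
    exact (mem_pf hn).2 ⟨h3, h4, h5.trans ((mem_pdiv hn).1 hd).2⟩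
  · have hs' := Finset.mem_powerset.1 hs
    have h2 := squarefree_prod_primes (s := s) fun q hq => BasicB.pf_sub (hs' hq)
    exact (mem_pdiv hn).2 ⟨h2.2.1, BasicB.prod_dvd_of_subset hn hs'⟩
  · exact ((mem_pdiv hn).1 hd).1.eq_rad (hs.squarefree_of_dvd ((mem_pdiv hn).1 hd).2)
  · exact (squarefree_prod_primes fun q hq => BasicB.pf_sub (Finset.mem_powerset.1 hs hq)).2.2
  · exact congrArg F (((mem_pdiv hn).1 hd).1.eq_rad
      (hs.squarefree_of_dvd ((mem_pdiv hn).1 hd).2)).symm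

theorem diag_factor {g : O} (hg : Primary g) (hs : Squarefree g) :
    ‖∑ e ∈ pdiv g, mu e * (((nr e)⁻¹ : ℝ) : ℂ)‖ ≤ 1 := by
  have h1 : ∑ e ∈ pdiv g, mu e * (((nr e)⁻¹ : ℝ) : ℂ) =
      ∏ p ∈ pf g, (1 + (-(((nr p)⁻¹ : ℝ) : ℂ))) := by
    rw [sum_pdiv hg hs, Finset.prod_one_add]
    refine Finset.sum_congr rfl fun S hS => ?_
    have h2 := squarefree_prod_primes (s := S)
      fun q hq => BasicB.pf_sub (Finset.mem_powerset.1 hS hq)
    rw [BasicB.mu_of_squarefree h2.1, h2.2.2, LS2.nr_prod, LS2.nP, Finset.prod_neg,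
      ← Finset.prod_inv_distrib, Complex.ofReal_prod]
  rw [h1, norm_prod]
  refine Finset.prod_le_one (fun _ _ => norm_nonneg _) fun p hp => ?_
  have h3 : 1 ≤ nr p := one_le_nr (BasicB.pf_sub hp).1.ne_zero
  have h4 : (nr p)⁻¹ ≤ 1 := inv_le_one_of_one_le₀ h3
  have h5 : 0 ≤ (nr p)⁻¹ := by positivity
  have : (1 + (-(((nr p)⁻¹ : ℝ) : ℂ))) = ((1 - (nr p)⁻¹ : ℝ) : ℂ) := by push_cast; ring
  rw [this, Complex.norm_real, Real.norm_of_nonneg (by linarith)]
  linarith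

theorem expand {X : ℝ} (hX : 0 < X) (S : Finset O) (β : O → ℂ) (f : O → O → ℂ)
    (hf : ∀ n m, ‖f n m‖ ≤ 1) :
    ((∑' m : O, gw (nr m / X) * ‖∑ n ∈ S, β n * f n m‖ ^ 2 : ℝ) : ℂ) =
      ∑ x ∈ S, ∑ y ∈ S, β x * conj (β y) *
        ∑' m : O, (gw (nr m / X) : ℂ) * (f x m * conj (f y m)) := by
  have hs : ∀ x y, Summable fun m : O => (gw (nr m / X) : ℂ) * (f x m * conj (f y m)) := by
    intro x y
    refine Summable.of_norm_bounded (summable_gw' hX) fun m => ?_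
    rw [norm_mul, norm_mul, Complex.norm_conj, Complex.norm_real,
      Real.norm_of_nonneg (gw_pos _).le]
    exact mul_le_of_le_one_right (gw_pos _).le
      (mul_le_one₀ (hf _ _) (norm_nonneg _) (hf _ _))
  simp only [← tsum_mul_left]
  rw [Finset.sum_congr rfl fun x _ =>
      (Summable.tsum_finsetSum fun y _ => (hs x y).mul_left _).symm,
    ← Summable.tsum_finsetSum fun x _ => summable_sum fun y _ => (hs x y).mul_left _,
    Complex.ofReal_tsum]
  refine tsum_congr fun m => ?_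
  rw [Complex.ofReal_mul, Complex.ofReal_pow, ← Complex.mul_conj', map_sum, Finset.sum_mul_sum,
    Finset.mul_sum]
  refine Finset.sum_congr rfl fun x _ => ?_
  rw [Finset.mul_sum]
  refine Finset.sum_congr rfl fun y _ => ?_
  rw [map_mul]; ring

open Classical in
theorem tsum_split {F : O → ℂ} (hF : Summable F) {K : ℝ} (hK : 0 ≤ K) :
    ∑' k, F k = F 0 + ∑ k ∈ (ball ⌊K⌋₊).erase 0, F k + ∑' k, if K < nr k then F k else 0 := by
  have h0 : (0 : O) ∈ ball ⌊K⌋₊ := by rw [mem_ball, nm_eq_zero.2 rfl]; exact Nat.zero_le _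
  rw [Finset.add_sum_erase _ _ h0, ← hF.sum_add_tsum_compl (s := ball ⌊K⌋₊), tsum_subtype]
  congr 1
  refine tsum_congr fun k => ?_
  rw [Set.indicator_apply]
  refine if_congr ?_ rfl rfl
  rw [Set.mem_compl_iff, Finset.mem_coe, mem_ball, Nat.le_floor_iff hK, not_le]

/-! ### Norms of the reciprocity factor -/

theorem norm_Rs {m n : O} (hm : IsCoprime m 2) (hn : IsCoprime n 2) : ‖Rs m n‖ = 1 := by
  rw [Rs, norm_mul, norm_mul, Complex.norm_conj, Complex.norm_conj, norm_g4 (hm.mul_left hn),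
    norm_g4 hm, norm_g4 hn]; simp

theorem odd_congr {x x' : O} (h : (4 : O) ∣ x - x') (hx : IsCoprime x 2) : IsCoprime x' 2 := by
  obtain ⟨c, hc⟩ := h
  have : x' = x + 2 * (-(2 * c)) := by linear_combination -hc
  rw [this]
  exact hx.add_mul_left_left _

open Classical in
/-- The class factor, truncated to the odd classes. -/
def cls (h x y : O) : ℂ :=
  if IsCoprime x 2 ∧ IsCoprime y 2 then
    Rs (h * x) (h * y) * Rs (h * y) (h * y) * (Rs h x * conj (Rs h y)) else 0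

theorem norm_cls_le {h : O} (hh : IsCoprime h 2) (x y : O) : ‖cls h x y‖ ≤ 1 := by
  unfold cls
  split_ifs with H
  · rw [norm_mul, norm_mul, norm_mul, Complex.norm_conj, norm_Rs (hh.mul_left H.1) (hh.mul_left H.2),
      norm_Rs (hh.mul_left H.2) (hh.mul_left H.2), norm_Rs hh H.1, norm_Rs hh H.2]; simp
  · simp

open Classical in
theorem cls_congr (h x x' y y' : O) (hx : (4 : O) ∣ x - x') (hy : (4 : O) ∣ y - y') :
    cls h x y = cls h x' y' := by
  have hx' : (4 : O) ∣ h * x - h * x' := by rw [← mul_sub]; exact hx.mul_left _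
  have hy' : (4 : O) ∣ h * y - h * y' := by rw [← mul_sub]; exact hy.mul_left _
  have h0 : (4 : O) ∣ h - h := by simp
  unfold cls
  refine if_congr ⟨fun H => ⟨odd_congr hx H.1, odd_congr hy H.2⟩,
    fun H => ⟨odd_congr (dvd_sub_comm.1 hx) H.1, odd_congr (dvd_sub_comm.1 hy) H.2⟩⟩ ?_ rfl
  rw [Rs_congr hx' hy', Rs_congr hy' hy', Rs_congr h0 hx, Rs_congr h0 hy]

theorem cpow_neg_half {x : ℝ} (hx : 0 ≤ x) :
    (x : ℂ) ^ (-(1 / 2) : ℂ) = (((Real.sqrt x)⁻¹ : ℝ) : ℂ) := by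
  rw [Complex.cpow_neg, WA.cpow_half hx, Complex.ofReal_inv]

end P1b

end Crest.Agent.R17
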