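import Crest.Agent.R17.LBasicAuxD3

/-!
# Row 17, reflection of plain sums (`Pln_reflect`): splitting the dual sum
-/

set_option autoImplicit false

noncomputable section

namespace Crest.Agent.R17.LBD

open scoped ComplexConjugate
open MeasureTheory Complex Classical

theorem D4_exists_split {m : O} (hm : m ≠ 0) (x : O) : x ≠ 0 →
    ∃ g h : O, (g ≠ 0 ∧ pf g ⊆ pf m) ∧ (Primary h ∧ IsCoprime h m) ∧ x = g * h := by
  induction x using UniqueFactorizationMonoid.induction_on_prime with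
  | h₁ => exact fun h => (h rfl).elim
  | h₂ x hx =>
    exact fun h0 => ⟨x, 1, ⟨h0, by rw [BasicB.pf_unit hx]; exact Finset.empty_subset _⟩,
      ⟨primary_one, isCoprime_one_left⟩, (mul_one x).symm⟩
  | h₃ a p ha hp ih =>
    intro _
    obtain ⟨g, h, ⟨hg, hg'⟩, ⟨hh, hh'⟩, rfl⟩ := ih ha
    by_cases hc : lam ∣ p ∨ p ∣ m
    · refine ⟨p * g, h, ⟨mul_ne_zero hp.ne_zero hg, ?_⟩, ⟨hh, hh'⟩, (mul_assoc _ _ _).symm⟩
      rw [pf_mul hp.ne_zero hg]
      refine Finset.union_subset (fun q hq => ?_) hg'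
      obtain ⟨q1, q2, q3⟩ := BasicB.of_mem_pf hq
      rcases hc with hc | hc
      · exact (q2.not_lam_dvd (hc.trans (q1.associated_of_dvd hp q3).symm.dvd)).elim
      · exact (mem_pf hm).2 ⟨q1, q2, q3.trans hc⟩
    · rw [not_or] at hc
      obtain ⟨u, hu, hup⟩ := exists_unit_primary hc.1
      obtain ⟨v, hv⟩ := hu.exists_right_inv
      have hv' : IsUnit v := IsUnit.of_mul_eq_one_right u hv
      refine ⟨v * g, u * p * h, ⟨mul_ne_zero hv'.ne_zero hg, by rwa [pf_unit_mul hv']⟩,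
        ⟨hup.mul hh, IsCoprime.mul_left ?_ hh'⟩, by linear_combination (-(p * g * h)) * hv⟩
      exact (isCoprime_mul_unit_left_left hu _ _).2 (hp.coprime_iff_not_dvd.2 hc.2)

theorem D4_dvd {m g h g' h' : O} (hg' : g' ≠ 0 ∧ pf g' ⊆ pf m) (hh : Primary h ∧ IsCoprime h m)
    (e : g * h = g' * h') : h ∣ h' :=
  (isCoprime_of_disjoint_pf hh.1 hg'.1
    ((disjoint_pf hh.2).mono_right hg'.2)).dvd_of_dvd_mul_left (e ▸ dvd_mul_left h g)

theorem D4_injective (m : O) : Function.Injective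
    fun z : {g : O // g ≠ 0 ∧ pf g ⊆ pf m} × {h : O // Primary h ∧ IsCoprime h m} =>
      z.1.1 * z.2.1 := by
  rintro ⟨⟨g, hg⟩, ⟨h, hh⟩⟩ ⟨⟨g', hg'⟩, ⟨h', hh'⟩⟩ e
  simp only at e
  obtain rfl : h = h' := hh.1.eq_of_associated hh'.1
    (associated_of_dvd_dvd (D4_dvd hg' hh e) (D4_dvd hg hh' e.symm))
  obtain rfl : g = g' := mul_right_cancel₀ hh.1.ne_zero e
  rfl

/-- Every non-zero element is uniquely `g h` with `pf g ⊆ pf m` and `h` primary, prime to `m`. -/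
theorem norm_tsum_smooth_le {m : O} (hm : m ≠ 0) {G : O → ℂ} (hG : Summable G) (h0 : G 0 = 0)
    {w : O → ℝ} {B : ℝ}
    (h : ∀ g : O, g ≠ 0 → pf g ⊆ pf m →
      ‖∑' h : O, if Primary h ∧ IsCoprime h m then G (g * h) else 0‖ ≤ w g)
    (hw : ∀ S : Finset O, (∀ g ∈ S, g ≠ 0 ∧ pf g ⊆ pf m) → ∑ g ∈ S, w g ≤ B) :
    ‖∑' h : O, G h‖ ≤ B := by
  have hinj := D4_injective m
  have hsupp : Function.support G ⊆ Set.range
      fun z : {g : O // g ≠ 0 ∧ pf g ⊆ pf m} × {h : O // Primary h ∧ IsCoprime h m} =>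
        z.1.1 * z.2.1 := by
    intro x hx
    obtain ⟨g, k, hg, hk, rfl⟩ := D4_exists_split hm x (fun h' => hx (h' ▸ h0))
    exact ⟨(⟨g, hg⟩, ⟨k, hk⟩), rfl⟩
  have hs2 : Summable
      fun z : {g : O // g ≠ 0 ∧ pf g ⊆ pf m} × {h : O // Primary h ∧ IsCoprime h m} =>
        G (z.1.1 * z.2.1) := hG.comp_injective hinj
  rw [← hinj.tsum_eq hsupp, hs2.tsum_prod]
  have hb : ∀ g : {g : O // g ≠ 0 ∧ pf g ⊆ pf m},
      ‖∑' k : {h : O // Primary h ∧ IsCoprime h m}, G (g.1 * k.1)‖ ≤ w g.1 := by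
    intro g
    have e := tsum_subtype {h : O | Primary h ∧ IsCoprime h m} fun k => G (g.1 * k)
    refine le_of_eq_of_le (congrArg norm (e.trans (tsum_congr fun k => ?_))) (h g.1 g.2.1 g.2.2)
    rw [Set.indicator_apply]
    rfl
  have hw0 : ∀ g : {g : O // g ≠ 0 ∧ pf g ⊆ pf m}, 0 ≤ w g.1 := fun g =>
    (norm_nonneg _).trans (hb g)
  have hw1 : ∀ S : Finset {g : O // g ≠ 0 ∧ pf g ⊆ pf m}, ∑ g ∈ S, w g.1 ≤ B := by
    intro S
    have := hw (S.map (Function.Embedding.subtype _)) fun g hg => by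
      obtain ⟨g', -, rfl⟩ := Finset.mem_map.1 hg
      exact g'.2
    rwa [Finset.sum_map] at this
  have hs : Summable fun g : {g : O // g ≠ 0 ∧ pf g ⊆ pf m} => w g.1 := summable_of_sum_le hw0 hw1
  exact (tsum_of_norm_bounded hs.hasSum hb).trans (hs.tsum_le_of_sum_le hw1)

/-- The dual coefficients on the elements prime to `M ∏ pun` are combinations of row characters. -/
theorem dual_expand {M : O} (hM : Adm M) [Fintype (Chr M)] {a : O} (ha : a ≠ 0) {Φ : O → ℂ}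
    (hΦ : ∀ x, ‖Φ x‖ ≤ nr M) (hp : ∀ x y, M ∣ x - y → Φ x = Φ y) (g : O) :
    ∃ β : Chr M → ℂ, (∀ ν, ‖β ν‖ ≤ nr M) ∧ ∀ h : O,
      (if Primary h ∧ IsCoprime h (M * ∏ p ∈ pun M a, p) then Φ (g * h) * sym (rr M a) (g * h)
        else 0) = ∑ ν, β ν * conj (rc ν a h) := by
  obtain ⟨ψ, hψ⟩ := rc_eq_Fr hM ha
  have hN : 0 < nr M := nr_pos hM.1
  have hN' : ((nr M : ℝ) : ℂ) ≠ 0 := Complex.ofReal_ne_zero.2 hN.ne'
  have hper : PerB M fun h => if IsCoprime h M then conj (Φ (g * h)) / ((nr M : ℝ) : ℂ) else 0 := by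
    refine ⟨fun n => ?_, fun n n' hn => ?_, fun n hn => if_neg hn⟩
    · dsimp only
      split_ifs
      · rw [norm_div, Complex.norm_conj, Complex.norm_real, Real.norm_of_nonneg hN.le,
          div_le_one hN]
        exact hΦ _
      · simp
    · by_cases hc : IsCoprime n M
      · simp only [if_pos hc, if_pos (LBA.coprime_congr hn hc)]
        rw [hp (g * n) (g * n') (by rw [← mul_sub]; exact hn.mul_left _)]
      · simp only [if_neg hc, if_neg fun h' => hc (LBA.coprime_congr (dvd_sub_comm.1 hn) h')]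
  obtain ⟨b, hb, hb'⟩ := hper.expand hM.1
  refine ⟨fun ν => ((nr M : ℝ) : ℂ) * conj (b (ν * ψ)) * sym (rr M a) g, fun ν => ?_, fun h => ?_⟩
  · rw [norm_mul, norm_mul, Complex.norm_conj, Complex.norm_real, Real.norm_of_nonneg hN.le,
      mul_assoc]
    exact mul_le_of_le_one_right hN.le (mul_le_one₀ (hb _) (norm_nonneg _) (norm_sym_le _ _))
  have hiff : IsCoprime h (M * ∏ p ∈ pun M a, p) ↔ IsCoprime h M ∧ ∀ p ∈ pun M a, ¬ p ∣ h := by
    rw [IsCoprime.mul_right_iff, IsCoprime.prod_right_iff]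
    refine and_congr_right fun _ => forall₂_congr fun p hp' => ?_
    rw [isCoprime_comm]
    exact (BasicB.pf_sub (Finset.mem_filter.1 hp').1).1.coprime_iff_not_dvd
  have hFr : ∀ (ν : Chr M) (r n : O),
      Fr ν r n = if Primary n then ev ν n * conj (sym r n) else 0 := fun _ _ _ => rfl
  simp only [hψ, hFr]
  by_cases h1 : Primary h
  swap
  · simp [h1]
  by_cases h2 : ∀ p ∈ pun M a, ¬ p ∣ h
  swap
  · rw [if_neg fun h' => h2 (hiff.1 h'.2).2]
    simp only [if_neg h2, map_zero, mul_zero, Finset.sum_const_zero]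
  simp only [if_pos h2, if_pos h1]
  have e : ∑ ν : Chr M, ((nr M : ℝ) : ℂ) * conj (b (ν * ψ)) * sym (rr M a) g *
        conj (ev (ν * ψ) h * conj (sym (rr M a) h))
      = ((nr M : ℝ) : ℂ) * sym (rr M a) (g * h) * conj (∑ ν : Chr M, b ν * ev ν h) := by
    rw [← Equiv.sum_comp (Equiv.mulRight ψ) fun ν => b ν * ev ν h, map_sum, Finset.mul_sum,
      sym_rr_mul hM]
    refine Finset.sum_congr rfl fun ν _ => ?_
    simp only [map_mul, Complex.conj_conj, Equiv.coe_mulRight]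
    ring
  rw [e, ← hb' h]
  by_cases h3 : IsCoprime h M
  · rw [if_pos ⟨h1, hiff.2 ⟨h3, h2⟩⟩]
    simp only [if_pos h3, map_div₀, Complex.conj_conj, Complex.conj_ofReal]
    field_simp
  · rw [if_neg fun h' => h3 (hiff.1 h'.2).1]
    simp only [if_neg h3, map_zero, mul_zero]

end Crest.Agent.R17.LBD
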