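import Crest.Agent.R17.LBasic
import Crest.Agent.R17.Count
import Crest.Agent.R17.LS2Ker

/-!
# Row 17, module M15a: smooth sums over squarefree elements (auxiliary file for `Gram`)
-/

set_option autoImplicit false

noncomputable section

namespace Crest.Agent.R17.GrA

open scoped ComplexConjugate Classical

/-- One-sided truncation of a smooth sum. -/
theorem trunc (A B σ : ℝ) (hB : 0 ≤ B) : ∃ C : ℝ, 0 < C ∧
    ∀ (b : O → ℂ) (H X L : ℝ) (s : ℂ), PolyB b H B → 0 < X → 1 ≤ L → |s.re| ≤ σ →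
      ‖Sm b X s - ∑ n ∈ ball ⌊X * L⌋₊, b n * Wc (nr n / X) s‖ ≤ C * H * X ^ (B + 1) * L ^ (-A) := by
  obtain ⟨C, hC, h⟩ := tsum_norm_Sm_tail_le A B σ hB
  refine ⟨C, hC, fun b H X L s hb hX hL hs => le_trans ?_ (h b H X L s hb hX hL hs)⟩
  have h1 := summable_Sm hb hX s
  have h2 : Summable fun n : O => if n ∈ ball ⌊X * L⌋₊ then b n * Wc (nr n / X) s else 0 :=
    summable_of_ne_finset_zero (s := ball ⌊X * L⌋₊) fun n hn => if_neg hn
  have h3 : Summable fun n : O =>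
      if X / L ≤ nr n ∧ nr n ≤ X * L then 0 else ‖b n * Wc (nr n / X) s‖ := by
    refine Summable.of_nonneg_of_le (fun n => ?_) (fun n => ?_) h1 <;> split_ifs
    exacts [le_rfl, norm_nonneg _, norm_nonneg _, le_rfl]
  have e : ∑ n ∈ ball ⌊X * L⌋₊, b n * Wc (nr n / X) s =
      ∑' n : O, if n ∈ ball ⌊X * L⌋₊ then b n * Wc (nr n / X) s else 0 := by
    rw [tsum_eq_sum (s := ball ⌊X * L⌋₊) fun n hn => if_neg hn]
    exact Finset.sum_congr rfl fun n hn => (if_pos hn).symm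
  rw [e, Sm, ← h1.of_norm.tsum_sub h2]
  refine tsum_of_norm_bounded h3.hasSum fun n => ?_
  by_cases hn : n ∈ ball ⌊X * L⌋₊
  · rw [if_pos hn, sub_self, norm_zero]
    split_ifs
    exacts [le_rfl, norm_nonneg _]
  · rw [if_neg hn, sub_zero, if_neg]
    rintro ⟨-, h4⟩
    exact hn (mem_ball.2 ((Nat.le_floor_iff (by positivity)).2 h4))

/-- Trivial bound. -/
theorem triv (B σ : ℝ) (hB : 0 ≤ B) : ∃ C : ℝ, 0 < C ∧
    ∀ (b : O → ℂ) (X : ℝ) (s : ℂ), PolyB b 1 B → 0 < X → |s.re| ≤ σ →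
      ∑' n : O, ‖b n * Wc (nr n / X) s‖ ≤ C * X ^ (B + 1) := by
  obtain ⟨C, hC, h⟩ := tsum_norm_Sm_le 0 B σ hB
  refine ⟨C, hC, fun b X s hb hX hs => (h b 1 X s hb hX hs).trans ?_⟩
  rw [mul_one]
  exact mul_le_mul_of_nonneg_left (min_le_left _ _) hC.le

theorem pln_im {M : O} (hM : Adm M) {δ : ℝ} (hδ : 0 < δ) (hδ' : δ ≤ 1 / 2) : ∃ C : ℝ, 0 < C ∧
    ∀ (ν : Chr M) (a : O) (N : ℝ) (s : ℂ), ¬ Exc M a → 0 < N → |s.re| ≤ 3 →
      ‖Pln ν a N s‖ ≤ C * (1 + |s.im|) * Real.sqrt (nr a) * N ^ (1 / 2 + δ) := by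
  obtain ⟨C₁, hC₁, h1⟩ := triv 0 3 le_rfl
  obtain ⟨C₂, hC₂, h2⟩ := Pln_decay hM hδ 0
  refine ⟨C₁ + C₂, by positivity, fun ν a N s ha hN hs => ?_⟩
  have ha1 : 1 ≤ nr a := one_le_nr (ne_zero_of_not_exc ha)
  have hr : 1 ≤ Real.sqrt (nr a) := Real.one_le_sqrt.2 ha1
  have ht : 1 ≤ 1 + |s.im| := le_add_of_nonneg_right (abs_nonneg _)
  have h3 : ‖Pln ν a N s‖ ≤ C₁ * N := by
    have := h1 _ N s (polyB_rc hM ν a) hN hs
    rw [zero_add, Real.rpow_one] at this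
    exact (norm_tsum_le_tsum_norm (summable_Sm (polyB_rc hM ν a) hN s)).trans this
  have key : N ≤ (1 + |s.im|) * Real.sqrt (nr a) * N ^ (1 / 2 + δ) →
      ‖Pln ν a N s‖ ≤ (C₁ + C₂) * (1 + |s.im|) * Real.sqrt (nr a) * N ^ (1 / 2 + δ) := fun h => by
    calc _ ≤ C₁ * ((1 + |s.im|) * Real.sqrt (nr a) * N ^ (1 / 2 + δ)) :=
          h3.trans (mul_le_mul_of_nonneg_left h hC₁.le)
      _ ≤ (C₁ + C₂) * ((1 + |s.im|) * Real.sqrt (nr a) * N ^ (1 / 2 + δ)) := by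
          gcongr; linarith
      _ = _ := by ring
  rcases le_total N 1 with hN1 | hN1
  · refine key ?_
    calc N = N ^ (1 : ℝ) := (Real.rpow_one N).symm
      _ ≤ N ^ (1 / 2 + δ) := Real.rpow_le_rpow_of_exponent_ge hN hN1 (by linarith)
      _ ≤ _ := le_mul_of_one_le_left (by positivity) (one_le_mul_of_one_le_of_one_le ht hr)
  have hd : 1 ≤ N ^ δ := Real.one_le_rpow hN1 hδ.le
  have e : N ^ (1 / 2 + δ) = Real.sqrt N * N ^ δ := by rw [Real.rpow_add hN, Real.sqrt_eq_rpow]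
  have key' : Real.sqrt N ≤ (1 + |s.im|) * Real.sqrt (nr a) * N ^ δ →
      ‖Pln ν a N s‖ ≤ (C₁ + C₂) * (1 + |s.im|) * Real.sqrt (nr a) * N ^ (1 / 2 + δ) := fun h => by
    refine key ?_
    calc N = Real.sqrt N * Real.sqrt N := (Real.mul_self_sqrt hN.le).symm
      _ ≤ Real.sqrt N * ((1 + |s.im|) * Real.sqrt (nr a) * N ^ δ) := by gcongr
      _ = _ := by rw [e]; ring
  by_cases h4 : nr a * N ^ δ * (1 + |s.im|) ^ 2 ≤ N
  · have h5 : |s.im| ≤ N := by
      have : (1 + |s.im|) ^ 2 ≤ N :=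
        (le_mul_of_one_le_left (by positivity) (one_le_mul_of_one_le_of_one_le ha1 hd)).trans h4
      nlinarith [abs_nonneg s.im]
    have h6 := h2 N N s ν a hN1 ha h4 le_rfl hs h5
    rw [neg_zero, Real.rpow_zero, mul_one] at h6
    calc _ ≤ (C₁ + C₂) * 1 * 1 * 1 := by linarith
      _ ≤ _ := by
        gcongr
        exact Real.one_le_rpow hN1 (by linarith)
  · refine key' (Real.sqrt_le_iff.2 ⟨by positivity, (not_le.1 h4).le.trans ?_⟩)
    rw [mul_pow, mul_pow, Real.sq_sqrt (by positivity)]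
    calc nr a * N ^ δ * (1 + |s.im|) ^ 2 = (1 + |s.im|) ^ 2 * nr a * (N ^ δ * 1) := by ring
      _ ≤ (1 + |s.im|) ^ 2 * nr a * (N ^ δ * N ^ δ) := by gcongr
      _ = _ := by ring

/-- A Pólya–Vinogradov type bound. -/
theorem pln_le {M : O} (hM : Adm M) {δ : ℝ} (hδ : 0 < δ) (hδ' : δ ≤ 1 / 2) : ∃ C : ℝ, 0 < C ∧
    ∀ (ν : Chr M) (a : O) (N : ℝ) (s : ℂ), ¬ Exc M a → 0 < N → |s.re| ≤ 4 →
      ‖Pln ν a N s‖ ≤ C * (1 + |s.im|) * Real.sqrt (nr a) * N ^ (1 / 2 + δ) := by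
  obtain ⟨C, hC, h⟩ := pln_im hM hδ hδ'
  refine ⟨Real.exp 4 * C * Real.exp 2, by positivity, fun ν a N s ha hN hs => ?_⟩
  have h1 := h ν a (N * Real.exp (s.re / 2)) (s.im * Complex.I) ha (by positivity) (by simp)
  have h2 : ((s.im : ℂ) * Complex.I).im = s.im := by simp
  have h3 := abs_le.1 hs
  rw [h2, Real.mul_rpow hN.le (Real.exp_pos _).le, Pln_eq_Sm] at h1
  rw [Pln_eq_Sm, WeightB.norm_Sm_eq _ (rc_zero ν a) hN]
  have h4 : Real.exp (s.re ^ 2 / 4) ≤ Real.exp 4 := Real.exp_le_exp.2 (by nlinarith)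
  have h5 : Real.exp (s.re / 2) ^ (1 / 2 + δ) ≤ Real.exp 2 := by
    rw [← Real.exp_mul]
    exact Real.exp_le_exp.2 (by nlinarith)
  calc _ ≤ Real.exp 4 * (C * (1 + |s.im|) * Real.sqrt (nr a) * (N ^ (1 / 2 + δ) * Real.exp 2)) := by
        refine mul_le_mul h4 (h1.trans ?_) (norm_nonneg _) (by positivity)
        gcongr
    _ = _ := by ring

/-- `∑_{j² ∣ m} μ(j) = μ²(m)`. -/
theorem sum_mu_sq {m : O} (hm : Primary m) :
    ∑' j : O, (if Primary j ∧ j ^ 2 ∣ m then mu j else 0) = if Squarefree m then 1 else 0 := by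
  set d := ∏ p ∈ (pf m).filter (fun p => 2 ≤ vp p m), p with hd
  have hp : ∀ q ∈ (pf m).filter (fun p => 2 ≤ vp p m), Prime q ∧ Primary q :=
    fun q hq => BasicB.pf_sub (Finset.mem_filter.1 hq).1
  obtain ⟨d1, d2, d3⟩ := squarefree_prod_primes hp
  rw [← hd] at d1 d2 d3
  have h1 : ∀ j, (if Primary j ∧ j ^ 2 ∣ m then mu j else 0) = if j ∈ pdiv d then mu j else 0 := by
    intro j
    by_cases hj : Squarefree j
    swap
    · simp [BasicB.mu_of_not hj]
    refine if_congr ?_ rfl rfl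
    rw [mem_pdiv d2.ne_zero]
    refine and_congr_right fun hj' => ?_
    rw [(hj'.pow 2).dvd_iff_vp hm.ne_zero, hj'.dvd_iff_vp d2.ne_zero, pf_pow two_ne_zero]
    refine forall₂_congr fun p hp' => ?_
    obtain ⟨p1, p2⟩ := BasicB.pf_sub hp'
    rw [vp_pow p1 hj'.ne_zero, (hj'.squarefree_iff.1 hj) p hp', Nat.one_le_iff_ne_zero,
      ← BasicB.mem_pf_iff d2.ne_zero p1 p2, d3, Finset.mem_filter,
      BasicB.mem_pf_iff hm.ne_zero p1 p2]
    omega
  rw [tsum_congr h1, tsum_eq_sum (s := pdiv d) fun j hj => if_neg hj,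
    Finset.sum_congr rfl fun j hj => if_pos hj, sum_mu_pdiv d2.ne_zero, d3]
  refine if_congr ?_ rfl rfl
  rw [hm.squarefree_iff, Finset.filter_eq_empty_iff]
  refine forall₂_congr fun p hp' => ?_
  have := BasicB.vp_ne_zero hp'
  omega

/-- Restriction of a smooth sum to the squarefree elements. -/
theorem sq_sieve {θ : ℝ} (hθ : 1 / 2 < θ) : ∃ C : ℝ, 0 < C ∧
    ∀ (χ : O → ℂ) (E Y : ℝ) (s : ℂ), PolyB χ 1 0 → (∀ n, ¬ Primary n → χ n = 0) →
      (∀ j c, Primary j → χ (j * c) = χ j * χ c) → (∀ N, 0 < N → ‖Sm χ N s‖ ≤ E * N ^ θ) → 0 < Y →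
      ‖Sm (fun m => if Squarefree m then χ m else 0) Y s‖ ≤ C * E * Y ^ θ := by
  have hz := summable_nr_rpow (σ := 2 * θ) (by linarith)
  have hz2 := summable_nr_rpow (σ := 2) (by linarith)
  refine ⟨∑' j : O, nr j ^ (-(2 * θ)) + 1, by positivity, fun χ E Y s hχ h0 hm hE hY => ?_⟩
  have hE0 : 0 ≤ E := by simpa using (norm_nonneg _).trans (hE 1 one_pos)
  obtain ⟨C, hC, h1⟩ := triv 0 |s.re| le_rfl
  have hχ1 : ∀ n, ‖χ n‖ ≤ 1 := fun n => by simpa using hχ.2 n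
  set g : O → O → ℂ := fun j m =>
    (if Primary j ∧ j ^ 2 ∣ m then mu j else 0) * (χ m * Wc (nr m / Y) s) with hg
  have hs := summable_Sm hχ hY s
  have e1 : ∀ j c, Primary j → g j (j ^ 2 * c) =
      mu j * χ (j ^ 2) * (χ c * Wc (nr c / (Y / nr j ^ 2)) s) := fun j c hj => by
    have : nr (j ^ 2 * c) / Y = nr c / (Y / nr j ^ 2) := by
      rw [nr_mul, nr_pow, div_div_eq_mul_div, mul_comm]
    simp only [hg, if_pos (And.intro hj (dvd_mul_right _ c)), hm _ c (hj.pow 2), this]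
    ring
  have hsupp : ∀ j, Primary j → ∀ {β : Type} [Zero β] (F : ℂ → β), F 0 = 0 →
      Function.support (fun m => F (g j m)) ⊆ Set.range fun c => j ^ 2 * c := by
    intro j _ β _ F hF m hm'
    by_contra h2
    refine hm' ?_
    simp only [hg, if_neg fun h3 : Primary j ∧ j ^ 2 ∣ m => h2 (h3.2.imp fun c hc => hc.symm),
      zero_mul, hF]
  have hc : ∀ j, ‖mu j * χ (j ^ 2)‖ ≤ 1 := fun j => by
    rw [norm_mul]
    exact mul_le_one₀ (norm_mu_le j) (norm_nonneg _) (hχ1 _)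
  have hfib : ∀ j, Summable fun m => ‖g j m‖ := fun j => by
    refine Summable.of_nonneg_of_le (fun _ => norm_nonneg _) (fun m => ?_) hs
    rw [hg, norm_mul]
    refine mul_le_of_le_one_left (norm_nonneg _) ?_
    split_ifs
    exacts [norm_mu_le j, by simp]
  have hzero : ∀ j, ¬ Primary j → ∀ m, g j m = 0 := fun j hj m => by simp [hg, hj]
  have hsum : Summable fun z : O × O => ‖g z.1 z.2‖ := by
    refine (summable_prod_of_nonneg fun _ => norm_nonneg _).2 ⟨hfib, ?_⟩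
    refine Summable.of_nonneg_of_le (fun _ => tsum_nonneg fun _ => norm_nonneg _) (fun j => ?_)
      (hz2.mul_left (C * Y))
    by_cases hj : Primary j
    swap
    · simp only [hzero j hj, norm_zero, tsum_zero]
      positivity
    have hN := nr_pos hj.ne_zero
    have hY' : 0 < Y / nr j ^ 2 := by positivity
    rw [← (mul_right_injective₀ (hj.pow 2).ne_zero).tsum_eq (hsupp j hj norm norm_zero)]
    simp only [e1 j _ hj]
    refine le_trans (Summable.tsum_le_tsum (fun c => ?_) ?_ (summable_Sm hχ hY' s))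
      ((h1 χ _ s hχ hY' le_rfl).trans_eq ?_)
    · rw [norm_mul]
      exact mul_le_of_le_one_left (norm_nonneg _) (hc j)
    · simp only [norm_mul (mu j * χ (j ^ 2))]
      exact (summable_Sm hχ hY' s).mul_left _
    · rw [zero_add, Real.rpow_one, Real.rpow_neg hN.le, Real.rpow_two]
      ring
  have e2 : Sm (fun m => if Squarefree m then χ m else 0) Y s = ∑' j, ∑' m, g j m := by
    rw [← (Summable.of_norm (f := Function.uncurry g) hsum).tsum_comm]
    refine tsum_congr fun m => ?_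
    simp only [hg]
    rw [tsum_mul_right]
    by_cases hp : Primary m
    · rw [sum_mu_sq hp]
      split_ifs <;> simp
    · simp [h0 m hp]
  rw [e2]
  refine (tsum_of_norm_bounded (hz.mul_right (E * Y ^ θ)).hasSum fun j => ?_).trans ?_
  · by_cases hj : Primary j
    swap
    · simp only [hzero j hj, norm_zero, tsum_zero]
      positivity
    have hN := nr_pos hj.ne_zero
    rw [← (mul_right_injective₀ (hj.pow 2).ne_zero).tsum_eq (hsupp j hj (fun z => z) rfl)]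
    simp only [e1 j _ hj]
    rw [tsum_mul_left, norm_mul]
    refine (mul_le_of_le_one_left (norm_nonneg _) (hc j)).trans
      ((hE (Y / nr j ^ 2) (by positivity)).trans_eq ?_)
    rw [Real.div_rpow hY.le (by positivity), ← Real.rpow_natCast_mul hN.le, Real.rpow_neg hN.le]
    push_cast
    ring
  · rw [tsum_mul_right, mul_assoc]
    exact mul_le_mul_of_nonneg_right (by linarith) (by positivity)

/-- The row character restricted to the squarefree elements prime to `h`. -/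
def sqc {M : O} (ν : Chr M) (a h m : O) : ℂ :=
  if Squarefree m ∧ IsCoprime m h then rc ν a m else 0

theorem polyB_sqc {M : O} (hM : Adm M) (ν : Chr M) (a h : O) : PolyB (sqc ν a h) 1 0 := by
  refine ⟨by simp [sqc], fun n => ?_⟩
  unfold sqc
  split_ifs
  · exact (polyB_rc hM ν a).2 n
  · simp

theorem sqc_le {M : O} (hM : Adm M) {δ : ℝ} (hδ : 0 < δ) (hδ' : δ ≤ 1 / 2) : ∃ C : ℝ, 0 < C ∧
    ∀ (ν : Chr M) (a h : O) (Y : ℝ) (s : ℂ), ¬ Exc M a → Primary h → 0 < Y → |s.re| ≤ 4 →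
      ‖Sm (sqc ν a h) Y s‖ ≤
        C * nr h ^ δ * (1 + |s.im|) * Real.sqrt (nr a) * Y ^ (1 / 2 + δ) := by
  obtain ⟨C₁, hC₁, h1⟩ := pln_le hM hδ hδ'
  obtain ⟨C₂, hC₂, h2⟩ := sq_sieve (θ := 1 / 2 + δ) (by linarith)
  obtain ⟨C₃, hC₃, h3⟩ := pow_card_pf_le hδ 2
  refine ⟨C₂ * C₃ * C₁, by positivity, fun ν a h Y s ha hh hY hs => ?_⟩
  have hpr : ∀ p ∈ pf h, Prime p ∧ Primary p := fun p => BasicB.pf_sub
  have h4 := LBC.Sm_sieve (polyB_rc hM ν a) (κ := 0) (s := s) (θ := 1 / 2 + δ) (by linarith)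
    (fun X hX => by simpa only [zero_mul, sub_zero, Pln_eq_Sm] using h1 ν a X s ha hX hs) (pf h) hpr
    fun p hp c => LBA.rc_mul' ν a (hpr p hp).2 c
  simp only [zero_mul, sub_zero] at h4
  have h5 := h2 (LBC.punct (rc ν a) (pf h)) _ Y s (LBC.polyB_punct (polyB_rc hM ν a) _)
    (fun n hn => by simp [LBC.punct, LBA.rc_neg ν a hn]) (fun j c hj => by
      have k : (∀ p ∈ pf h, ¬ p ∣ j * c) ↔ (∀ p ∈ pf h, ¬ p ∣ j) ∧ ∀ p ∈ pf h, ¬ p ∣ c := by
        simp only [← forall_and]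
        exact forall₂_congr fun p hp => by rw [(hpr p hp).1.dvd_mul, not_or]
      simp only [LBC.punct, k, LBA.rc_mul' ν a hj, ite_and]
      split_ifs <;> simp) h4 hY
  have e : sqc ν a h = fun m => if Squarefree m then LBC.punct (rc ν a) (pf h) m else 0 := by
    funext m
    simp only [sqc, LBC.punct, ite_and, isCoprime_comm (x := m), LS2.isCoprime_iff_pf hh]
  rw [e]
  refine h5.trans ?_
  have h6 := h3 h hh.ne_zero
  calc _ ≤ C₂ * (C₃ * nr h ^ δ * (C₁ * (1 + |s.im|) * Real.sqrt (nr a))) * Y ^ (1 / 2 + δ) := by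
        gcongr
    _ = _ := by ring

end Crest.Agent.R17.GrA
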