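import Crest.Agent.R17.Weight

/-!
# Row 17, module M10 B: shifting the Mellin contour inside a window

`Sm_window`, `Sm_class`: a smooth sum is bounded by `K X^σ` as soon as the Dirichlet series of the
coefficients continues to the window `σ ≤ Re w ≤ 2`, `|Im w + τ| ≤ U` and is bounded by `K` there.
-/

set_option autoImplicit false

noncomputable section

namespace Crest.Agent.R17

open scoped ComplexConjugate Interval
open MeasureTheory

namespace LZB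

theorem norm_ker {X : ℝ} (hX : 0 < X) (τ : ℝ) {w : ℂ} (h0 : 0 ≤ w.re) (h2 : w.re ≤ 2) :
    ‖Wm (w + τ * Complex.I) * (X : ℂ) ^ w‖ ≤
      Real.sqrt Real.pi * Real.exp 1 * X ^ w.re * Real.exp (-(w.im + τ) ^ 2 / 4) := by
  rw [norm_mul, norm_Wm, Complex.norm_cpow_eq_rpow_re_of_pos hX]
  have e1 : (w + τ * Complex.I).re = w.re := by simp
  have e2 : (w + τ * Complex.I).im = w.im + τ := by simp
  rw [e1, e2]
  have h3 : Real.exp ((w.re ^ 2 - (w.im + τ) ^ 2) / 4) ≤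
      Real.exp 1 * Real.exp (-(w.im + τ) ^ 2 / 4) := by
    rw [← Real.exp_add]
    exact Real.exp_le_exp.2 (by nlinarith)
  have h4 : 0 ≤ X ^ w.re := by positivity
  calc _ ≤ Real.sqrt Real.pi * (Real.exp 1 * Real.exp (-(w.im + τ) ^ 2 / 4)) * X ^ w.re := by
        gcongr
    _ = _ := by ring

/-- the Gaussian majorant -/
def gs8 (τ u : ℝ) : ℝ := Real.exp (-(1 / 8) * (u + τ) ^ 2)

theorem gs8_le_one (τ u : ℝ) : gs8 τ u ≤ 1 :=
  Real.exp_le_one_iff.2 (by nlinarith [sq_nonneg (u + τ)])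

theorem integrable_gs8 (τ : ℝ) : Integrable (gs8 τ) :=
  (integrable_exp_neg_mul_sq (b := 1 / 8) (by norm_num)).comp_add_right τ

theorem integral_gs8 (τ : ℝ) : ∫ u, gs8 τ u = Real.sqrt (Real.pi / (1 / 8)) := by
  rw [← integral_gaussian]
  exact integral_add_right_eq_self (fun u : ℝ => Real.exp (-(1 / 8) * u ^ 2)) τ

theorem norm_ker_in (κ : ℝ) {X : ℝ} (hX : 0 < X) (τ : ℝ) {w : ℂ} (h0 : 0 ≤ w.re) (h2 : w.re ≤ 2) :
    ‖Wm (w + τ * Complex.I) * (X : ℂ) ^ w‖ ≤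
      Real.sqrt Real.pi * Real.exp (1 + 8 * κ ^ 2) * X ^ w.re * gs8 τ w.im := by
  refine (norm_ker hX τ h0 h2).trans ?_
  have h4 : 0 ≤ X ^ w.re := by positivity
  unfold gs8
  gcongr
  · nlinarith [sq_nonneg κ]
  · nlinarith [sq_nonneg (w.im + τ)]

theorem norm_ker_out {κ X : ℝ} (hX : 1 ≤ X) (τ : ℝ) {w : ℂ} (h0 : 0 ≤ w.re) (h2 : w.re ≤ 2)
    (h : Real.log X ≤ κ * |w.im + τ|) :
    ‖Wm (w + τ * Complex.I) * (X : ℂ) ^ w‖ ≤
      Real.sqrt Real.pi * Real.exp (1 + 8 * κ ^ 2) * gs8 τ w.im := by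
  have hX0 : 0 < X := one_pos.trans_le hX
  refine (norm_ker hX0 τ h0 h2).trans ?_
  have hL := Real.log_nonneg hX
  rw [gs8, Real.rpow_def_of_pos hX0, mul_assoc, mul_assoc, mul_assoc, ← Real.exp_add,
    ← Real.exp_add, ← Real.exp_add]
  refine mul_le_mul_of_nonneg_left (Real.exp_le_exp.2 ?_) (Real.sqrt_nonneg _)
  nlinarith [sq_nonneg (|w.im + τ| - 8 * κ), mul_le_mul_of_nonneg_left h2 hL, sq_abs (w.im + τ)]

theorem norm_dir_le {b : O → ℂ} (hb : PolyB b 1 0) {w : ℂ} (hw : w.re = 2) :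
    ‖∑' n : O, b n * (nr n : ℂ) ^ (-w)‖ ≤ ∑' n : O, nr n ^ (-2 : ℝ) := by
  refine tsum_of_norm_bounded (summable_nr_rpow one_lt_two).hasSum fun n => ?_
  by_cases h0 : n = 0
  · rw [h0, hb.1, zero_mul, norm_zero]
    positivity
  · rw [norm_mul, Complex.norm_cpow_eq_rpow_re_of_pos (nr_pos h0), Complex.neg_re, hw]
    refine mul_le_of_le_one_left (by positivity) ?_
    simpa using hb.2 n

theorem norm_setIntegral_le {f : ℝ → ℂ} {s : Set ℝ} (hs : MeasurableSet s) {A : ℝ} (hA : 0 ≤ A)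
    (τ : ℝ) (h : ∀ u ∈ s, ‖f u‖ ≤ A * gs8 τ u) :
    ‖∫ u in s, f u‖ ≤ A * Real.sqrt (Real.pi / (1 / 8)) := by
  have hi := (integrable_gs8 τ).const_mul A
  refine (norm_integral_le_of_norm_le hi.integrableOn
    ((ae_restrict_iff' hs).2 (Filter.Eventually.of_forall h))).trans ?_
  refine (setIntegral_le_integral hi (Filter.Eventually.of_forall fun u => ?_)).trans_eq ?_
  · exact mul_nonneg hA (Real.exp_pos _).le
  · rw [integral_const_mul, integral_gs8]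

end LZB

open LZB

/-- **Contour shift in a window** (scales `X ≥ 1`, window of half-height `U ≥ (log X) / κ`). -/
theorem Sm_window_gen {κ : ℝ} (hκ : 0 ≤ κ) : ∃ C : ℝ, 0 < C ∧
    ∀ (b : O → ℂ) (F : ℂ → ℂ) (X τ σ U K : ℝ), PolyB b 1 0 →
    1 ≤ X → 0 ≤ σ → σ ≤ 2 → 0 ≤ U → Real.log X ≤ κ * U → 1 ≤ K →
    DifferentiableOn ℂ F {w | σ ≤ w.re ∧ w.re ≤ 2 ∧ |w.im + τ| ≤ U} →
    (∀ w : ℂ, w.re = 2 → |w.im + τ| ≤ U → F w = ∑' n : O, b n * (nr n : ℂ) ^ (-w)) →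
    (∀ w : ℂ, σ ≤ w.re → w.re ≤ 2 → |w.im + τ| ≤ U → ‖F w‖ ≤ K) →
    ‖Sm b X (τ * Complex.I)‖ ≤ C * K * X ^ σ := by
  set A := Real.sqrt Real.pi * Real.exp (1 + 8 * κ ^ 2) with hA
  set g := Real.sqrt (Real.pi / (1 / 8)) with hg
  set Z := ∑' n : O, nr n ^ (-2 : ℝ) with hZ
  have hA0 : 0 < A := by positivity
  have hg0 : 0 ≤ g := Real.sqrt_nonneg _
  have hZ0 : 0 ≤ Z := tsum_nonneg fun n => by positivity
  refine ⟨A * (g + 4 + Z * g), by positivity,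
    fun b F X τ σ U K hb hX hσ0 hσ2 hU0 hU hK hF hD hB => ?_⟩
  have hX0 : 0 < X := one_pos.trans_le hX
  have hXσ : 1 ≤ X ^ σ := Real.one_le_rpow hX hσ0
  have hK0 : 0 ≤ K := zero_le_one.trans hK
  have hab : -τ - U ≤ -τ + U := by linarith
  rw [Sm_eq_integral hb hX0 (σ := 2) (by norm_num), norm_mul]
  refine (mul_le_of_le_one_left (norm_nonneg _) ?_).trans ?_
  · rw [norm_div, norm_one, norm_mul, Complex.norm_real, Real.norm_of_nonneg Real.pi_pos.le,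
      Complex.norm_ofNat, div_le_one (by positivity)]
    linarith [Real.pi_gt_three]
  set f : ℝ → ℂ := fun u => Wm ((2 : ℝ) + u * Complex.I + τ * Complex.I) *
    (X : ℂ) ^ ((2 : ℝ) + u * Complex.I) *
      ∑' n : O, b n * (nr n : ℂ) ^ (-((2 : ℝ) + u * Complex.I)) with hf
  by_cases hi : Integrable f
  swap
  · rw [integral_undef hi, norm_zero]
    positivity
  rw [← integral_add_compl (measurableSet_Ioc (a := -τ - U) (b := -τ + U)) hi]
  set G : ℂ → ℂ := fun w => Wm (w + τ * Complex.I) * (X : ℂ) ^ w * F w with hG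
  have hre : ∀ x y : ℝ, ((x : ℂ) + y * Complex.I).re = x := fun x y => by simp
  have him : ∀ x y : ℝ, ((x : ℂ) + y * Complex.I).im = y := fun x y => by simp
  -- the tails
  have t1 : ‖∫ u in (Set.Ioc (-τ - U) (-τ + U))ᶜ, f u‖ ≤ A * Z * g := by
    refine norm_setIntegral_le measurableSet_Ioc.compl (by positivity) τ fun u hu => ?_
    have h1 := norm_ker_out (κ := κ) hX τ (w := (2 : ℝ) + u * Complex.I) (by rw [hre]; norm_num)
      (by rw [hre]) (by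
        rw [him]
        refine hU.trans (mul_le_mul_of_nonneg_left ?_ hκ)
        rw [Set.mem_compl_iff, Set.mem_Ioc, not_and_or, not_lt, not_le] at hu
        rcases hu with hu | hu
        · exact le_abs.2 (Or.inr (by linarith))
        · exact le_abs.2 (Or.inl (by linarith)))
    rw [him] at h1
    rw [hf, norm_mul]
    exact (mul_le_mul h1 (norm_dir_le hb (hre 2 u)) (norm_nonneg _)
      (mul_nonneg hA0.le (Real.exp_pos _).le)).trans_eq (by ring)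
  -- the window
  have e1 : ∫ u in Set.Ioc (-τ - U) (-τ + U), f u =
      ∫ u in (-τ - U)..(-τ + U), G ((2 : ℝ) + u * Complex.I) := by
    rw [intervalIntegral.integral_of_le hab]
    refine setIntegral_congr_fun measurableSet_Ioc fun u hu => ?_
    simp only [hf, hG]
    rw [hD _ (hre 2 u) (by rw [him, abs_le]; constructor <;> linarith [hu.1, hu.2])]
  have hGd : DifferentiableOn ℂ G ([[σ, 2]] ×ℂ [[-τ - U, -τ + U]]) := by
    refine DifferentiableOn.mul (Differentiable.differentiableOn ?_) (hF.mono fun w hw => ?_)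
    · exact (differentiable_Wm.comp (by fun_prop)).mul
        (differentiable_id.const_cpow (Or.inl (Complex.ofReal_ne_zero.2 hX0.ne')))
    · rw [Set.uIcc_of_le hσ2, Set.uIcc_of_le hab] at hw
      obtain ⟨⟨h1, h2⟩, h3, h4⟩ := hw
      exact ⟨h1, h2, abs_le.2 ⟨by linarith, by linarith⟩⟩
  have e2 := Complex.integral_boundary_rect_eq_zero_of_differentiableOn G ⟨σ, -τ - U⟩ ⟨2, -τ + U⟩ hGd
  dsimp only at e2
  have hor : ∀ y : ℝ, |y + τ| = U → ‖∫ x in σ..2, G (x + y * Complex.I)‖ ≤ A * K * 2 := by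
    intro y hy
    refine (intervalIntegral.norm_integral_le_of_norm_le_const (C := A * K) fun x hx => ?_).trans ?_
    · rw [Set.uIoc_of_le hσ2] at hx
      have h1 := norm_ker_out (κ := κ) hX τ (w := x + y * Complex.I) (by rw [hre]; linarith [hx.1])
        (by rw [hre]; exact hx.2) (by rw [him, hy]; exact hU)
      rw [hG, norm_mul]
      refine mul_le_mul (h1.trans (mul_le_of_le_one_right hA0.le (gs8_le_one _ _)))
        (hB _ (by rw [hre]; exact hx.1.le) (by rw [hre]; exact hx.2) (by rw [him, hy]))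
        (norm_nonneg _) hA0.le
    · refine mul_le_mul_of_nonneg_left ?_ (by positivity)
      rw [abs_of_nonneg (by linarith)]
      linarith
  have ver : ‖∫ y in (-τ - U)..(-τ + U), G (σ + y * Complex.I)‖ ≤ A * X ^ σ * K * g := by
    rw [intervalIntegral.integral_of_le hab]
    refine norm_setIntegral_le measurableSet_Ioc (by positivity) τ fun u hu => ?_
    have h1 := norm_ker_in κ hX0 τ (w := σ + u * Complex.I) (by rw [hre]; exact hσ0)
      (by rw [hre]; exact hσ2)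
    rw [him, hre] at h1
    rw [hG, norm_mul]
    refine (mul_le_mul h1 (hB _ (by rw [hre]) (by rw [hre]; exact hσ2)
      (by rw [him, abs_le]; constructor <;> linarith [hu.1, hu.2])) (norm_nonneg _)
      (mul_nonneg (by positivity) (Real.exp_pos _).le)).trans_eq (by ring)
  have t2 : ‖∫ u in (-τ - U)..(-τ + U), G ((2 : ℝ) + u * Complex.I)‖ ≤
      A * K * 2 + A * K * 2 + A * X ^ σ * K * g := by
    have e3 : Complex.I • ∫ u in (-τ - U)..(-τ + U), G ((2 : ℝ) + u * Complex.I) =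
        (∫ x in σ..2, G (x + (-τ + U : ℝ) * Complex.I)) -
          (∫ x in σ..2, G (x + (-τ - U : ℝ) * Complex.I)) +
          Complex.I • ∫ y in (-τ - U)..(-τ + U), G (σ + y * Complex.I) := by
      linear_combination e2
    have e4 := congrArg norm e3
    rw [norm_smul, Complex.norm_I, one_mul] at e4
    rw [e4]
    refine (norm_add_le _ _).trans (add_le_add ((norm_sub_le _ _).trans
      (add_le_add (hor _ ?_) (hor _ ?_))) ?_)
    · rw [show -τ + U + τ = U by ring, abs_of_nonneg hU0]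
    · rw [show -τ - U + τ = -U by ring, abs_neg, abs_of_nonneg hU0]
    · rwa [norm_smul, Complex.norm_I, one_mul]
  refine (norm_add_le _ _).trans ?_
  rw [e1]
  have h5 : 1 ≤ K * X ^ σ := one_le_mul_of_one_le_of_one_le hK hXσ
  have h6 : A * K * 1 ≤ A * K * X ^ σ := by gcongr
  have h7 : A * Z * g * 1 ≤ A * Z * g * (K * X ^ σ) := by gcongr
  nlinarith

/-- **Contour shift in a window** (scales `X ≥ 1`). -/
theorem Sm_window : ∃ C : ℝ, 0 < C ∧ ∀ (b : O → ℂ) (F : ℂ → ℂ) (X τ σ U K : ℝ), PolyB b 1 0 →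
    1 ≤ X → 0 ≤ σ → σ ≤ 2 → Real.log X ≤ U → 1 ≤ K →
    DifferentiableOn ℂ F {w | σ ≤ w.re ∧ w.re ≤ 2 ∧ |w.im + τ| ≤ U} →
    (∀ w : ℂ, w.re = 2 → |w.im + τ| ≤ U → F w = ∑' n : O, b n * (nr n : ℂ) ^ (-w)) →
    (∀ w : ℂ, σ ≤ w.re → w.re ≤ 2 → |w.im + τ| ≤ U → ‖F w‖ ≤ K) →
    ‖Sm b X (τ * Complex.I)‖ ≤ C * K * X ^ σ := by
  obtain ⟨C, hC, h⟩ := Sm_window_gen zero_le_one
  exact ⟨C, hC, fun b F X τ σ U K hb hX hσ0 hσ2 hU => h b F X τ σ U K hb hX hσ0 hσ2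
    ((Real.log_nonneg hX).trans hU) (by rwa [one_mul])⟩

/-- **Class bound**: all scales `0 < X ≤ R ^ k`, window `σ + δ ≤ Re w ≤ 2`, `|Im w + τ| ≤ log R`. -/
theorem Sm_class_gen (k : ℕ) : ∃ C : ℝ, 0 < C ∧
    ∀ (b : O → ℂ) (F : ℂ → ℂ) (R X τ σ δ K : ℝ), PolyB b 1 0 →
    1 ≤ R → 0 < X → X ≤ R ^ k → 0 ≤ σ → σ ≤ 1 → 0 ≤ δ → δ ≤ 1 → 1 ≤ K →
    DifferentiableOn ℂ F {w | σ + δ ≤ w.re ∧ w.re ≤ 2 ∧ |w.im + τ| ≤ Real.log R} →
    (∀ w : ℂ, w.re = 2 → |w.im + τ| ≤ Real.log R → F w = ∑' n : O, b n * (nr n : ℂ) ^ (-w)) →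
    (∀ w : ℂ, σ + δ ≤ w.re → w.re ≤ 2 → |w.im + τ| ≤ Real.log R → ‖F w‖ ≤ K) →
    ‖Sm b X (τ * Complex.I)‖ ≤ C * K * R ^ (k * δ) * X ^ σ := by
  obtain ⟨C₁, hC₁, h₁⟩ := Sm_window_gen (Nat.cast_nonneg k)
  obtain ⟨C₂, hC₂, h₂⟩ := tsum_norm_Sm_le 0 0 0 le_rfl
  refine ⟨C₁ + C₂, by positivity, fun b F R X τ σ δ K hb hR hX hXR hσ0 hσ1 hδ0 hδ1 hK hF hD hB => ?_⟩
  have hK0 : 0 ≤ K := zero_le_one.trans hK
  rcases le_total 1 X with h1 | h1
  · refine (h₁ b F X τ (σ + δ) (Real.log R) K hb h1 (by linarith) (by linarith)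
      (Real.log_nonneg hR) ((Real.log_le_log hX hXR).trans_eq (Real.log_pow _ _)) hK hF hD
      hB).trans ?_
    rw [Real.rpow_add hX, mul_comm (X ^ σ), ← mul_assoc, Real.rpow_natCast_mul (by linarith)]
    gcongr
    linarith
  · have h3 := h₂ b 1 X (τ * Complex.I) hb hX (by simp)
    refine ((norm_tsum_le_tsum_norm (summable_Sm hb hX _)).trans h3).trans ?_
    have h4 : min (X ^ ((0 : ℝ) + 1)) (X ^ ((0 : ℝ) + 1 + |0|)) ≤ X ^ σ :=
      (min_le_left _ _).trans (Real.rpow_le_rpow_of_exponent_ge hX h1 (by linarith))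
    have h5 : 1 ≤ R ^ (k * δ) := Real.one_le_rpow hR (by positivity)
    calc _ ≤ C₂ * 1 * 1 * X ^ σ := by rw [mul_one (C₂ * 1)]; gcongr
      _ ≤ _ := by gcongr; linarith

/-- **Class bound**: all scales `0 < X ≤ R`, window `σ + δ ≤ Re w ≤ 2`, `|Im w + τ| ≤ log R`. -/
theorem Sm_class : ∃ C : ℝ, 0 < C ∧ ∀ (b : O → ℂ) (F : ℂ → ℂ) (R X τ σ δ K : ℝ), PolyB b 1 0 →
    1 ≤ R → 0 < X → X ≤ R → 0 ≤ σ → σ ≤ 1 → 0 ≤ δ → δ ≤ 1 → 1 ≤ K →
    DifferentiableOn ℂ F {w | σ + δ ≤ w.re ∧ w.re ≤ 2 ∧ |w.im + τ| ≤ Real.log R} →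
    (∀ w : ℂ, w.re = 2 → |w.im + τ| ≤ Real.log R → F w = ∑' n : O, b n * (nr n : ℂ) ^ (-w)) →
    (∀ w : ℂ, σ + δ ≤ w.re → w.re ≤ 2 → |w.im + τ| ≤ Real.log R → ‖F w‖ ≤ K) →
    ‖Sm b X (τ * Complex.I)‖ ≤ C * K * R ^ δ * X ^ σ := by
  simpa only [pow_one, Nat.cast_one, one_mul] using Sm_class_gen 1

end Crest.Agent.R17
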