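import Crest.Agent.R17.Weight

/-!
# Row 17: shifting vertical contours (with or without a simple pole)
-/

set_option autoImplicit false

noncomputable section

namespace Crest.Agent.R17

open MeasureTheory Filter Topology Complex

/-- The closed vertical strip `σ₀ ≤ Re w ≤ σ₁`. -/
def strip (σ₀ σ₁ : ℝ) : Set ℂ := {w | σ₀ ≤ w.re ∧ w.re ≤ σ₁}

namespace Contour

theorem line_mem {σ₀ σ₁ σ : ℝ} (h0 : σ₀ ≤ σ) (h1 : σ ≤ σ₁) (u : ℝ) :
    (σ : ℂ) + u * I ∈ strip σ₀ σ₁ := by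
  constructor <;> simpa

theorem integrable_line {F : ℂ → ℂ} {σ₀ σ₁ σ K : ℝ} (h0 : σ₀ ≤ σ) (h1 : σ ≤ σ₁)
    (hF : ContinuousOn F (strip σ₀ σ₁))
    (hb : ∀ w ∈ strip σ₀ σ₁, ‖F w‖ ≤ K / (1 + w.im ^ 2)) :
    Integrable fun u : ℝ => F (σ + u * I) := by
  have hc : Continuous fun u : ℝ => F (σ + u * I) :=
    hF.comp_continuous (by fun_prop) (line_mem h0 h1)
  refine (integrable_inv_one_add_sq.const_mul K).mono' hc.aestronglyMeasurable
    (Eventually.of_forall fun u => ?_)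
  simpa [div_eq_mul_inv] using hb _ (line_mem h0 h1 u)

/-- A bound far from the real axis extends to the whole strip. -/
theorem bound_of_far {F : ℂ → ℂ} {σ₀ σ₁ K T : ℝ} (hF : ContinuousOn F (strip σ₀ σ₁))
    (hb : ∀ w ∈ strip σ₀ σ₁, T ≤ |w.im| → ‖F w‖ ≤ K / (1 + w.im ^ 2)) :
    ∃ K' : ℝ, ∀ w ∈ strip σ₀ σ₁, ‖F w‖ ≤ K' / (1 + w.im ^ 2) := by
  have hc : IsCompact (Set.Icc σ₀ σ₁ ×ℂ Set.Icc (-T) T) := isCompact_Icc.reProdIm isCompact_Icc
  obtain ⟨M, hM⟩ := hc.exists_bound_of_continuousOn (hF.mono fun w hw => hw.1)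
  refine ⟨max K (max M 0 * (1 + T ^ 2)), fun w hw => ?_⟩
  have hp : 0 < 1 + w.im ^ 2 := by positivity
  rcases le_total T |w.im| with h | h
  · exact (hb w hw h).trans (div_le_div_of_nonneg_right (le_max_left _ _) hp.le)
  · refine (hM w ⟨hw, abs_le.1 h⟩).trans ((le_max_left M 0).trans ?_)
    rw [le_div_iff₀ hp]
    refine le_trans ?_ (le_max_right _ _)
    have : w.im ^ 2 ≤ T ^ 2 := by rw [← sq_abs]; gcongr
    gcongr

theorem integral_lorentz {a : ℝ} (ha : a ≠ 0) :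
    ∫ u : ℝ, a / (a ^ 2 + u ^ 2) = Real.pi * (|a| / a) := by
  have h := Measure.integral_comp_div (fun x : ℝ => (1 + x ^ 2)⁻¹) a
  rw [integral_univ_inv_one_add_sq, smul_eq_mul] at h
  have e : ∀ u : ℝ, a / (a ^ 2 + u ^ 2) = a⁻¹ * (1 + (u / a) ^ 2)⁻¹ := fun u => by
    field_simp
  simp_rw [e]
  rw [integral_const_mul, h]
  field_simp

theorem integrable_lorentz {a : ℝ} (ha : a ≠ 0) : Integrable fun u : ℝ => a / (a ^ 2 + u ^ 2) := by
  have e : ∀ u : ℝ, a / (a ^ 2 + u ^ 2) = a⁻¹ * (1 + (u / a) ^ 2)⁻¹ := fun u => by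
    field_simp
  simp_rw [e]
  exact (integrable_inv_one_add_sq.comp_div ha).const_mul _

theorem ne_line {a : ℝ} (ha : a ≠ 0) (u : ℝ) : (a : ℂ) + u * I ≠ 0 := fun h =>
  ha (by simpa using congrArg Complex.re h)

theorem integrable_pair {a b : ℝ} (ha : a ≠ 0) (hb : b ≠ 0) :
    Integrable fun u : ℝ => 1 / ((a : ℂ) + u * I) - 1 / ((b : ℂ) + u * I) := by
  have hc : Continuous fun u : ℝ => 1 / ((a : ℂ) + u * I) - 1 / ((b : ℂ) + u * I) :=
    (continuous_const.div (by fun_prop) (ne_line ha)).sub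
      (continuous_const.div (by fun_prop) (ne_line hb))
  have hm : 0 < min (a ^ 2) (b ^ 2) := lt_min (by positivity) (by positivity)
  set m := √(min (a ^ 2) (b ^ 2)) with hmd
  have hm0 : 0 < m := Real.sqrt_pos.2 hm
  have hm2 : m ^ 2 = min (a ^ 2) (b ^ 2) := Real.sq_sqrt hm.le
  refine ((integrable_lorentz hm0.ne').const_mul (|b - a| / m)).mono' hc.aestronglyMeasurable
    (Eventually.of_forall fun u => ?_)
  have e : 1 / ((a : ℂ) + u * I) - 1 / ((b : ℂ) + u * I) =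
      ((b - a : ℝ) : ℂ) / (((a : ℂ) + u * I) * ((b : ℂ) + u * I)) := by
    have := ne_line ha u
    have := ne_line hb u
    field_simp
    push_cast
    ring
  have n : ∀ c : ℝ, m ^ 2 ≤ c ^ 2 → √(m ^ 2 + u ^ 2) ≤ ‖(c : ℂ) + u * I‖ := fun c hc => by
    rw [Complex.norm_add_mul_I]
    gcongr
  have n1 := n a (hm2 ▸ min_le_left _ _)
  have n2 := n b (hm2 ▸ min_le_right _ _)
  have hp : 0 < m ^ 2 + u ^ 2 := by positivity
  have n3 : m ^ 2 + u ^ 2 ≤ ‖(a : ℂ) + u * I‖ * ‖(b : ℂ) + u * I‖ := by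
    rw [← Real.mul_self_sqrt hp.le]
    exact mul_le_mul n1 n2 (Real.sqrt_nonneg _) (norm_nonneg _)
  rw [e, norm_div, norm_mul, Complex.norm_real, Real.norm_eq_abs]
  calc |b - a| / (‖(a : ℂ) + u * I‖ * ‖(b : ℂ) + u * I‖) ≤ |b - a| / (m ^ 2 + u ^ 2) := by gcongr
    _ = |b - a| / m * (m / (m ^ 2 + u ^ 2)) := by field_simp

theorem integral_pair {a b : ℝ} (ha : a ≠ 0) (hb : b ≠ 0) :
    ∫ u : ℝ, (1 / ((a : ℂ) + u * I) - 1 / ((b : ℂ) + u * I)) =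
      ((Real.pi * (|a| / a) - Real.pi * (|b| / b) : ℝ) : ℂ) := by
  have hi := integrable_pair ha hb
  have h1 := integral_neg_eq_self
    (fun u : ℝ => 1 / ((a : ℂ) + u * I) - 1 / ((b : ℂ) + u * I)) volume
  have h2 := integral_add hi hi.comp_neg
  rw [h1] at h2
  have key : ∀ c : ℝ, c ≠ 0 → ∀ u : ℝ, 1 / ((c : ℂ) + u * I) + 1 / ((c : ℂ) + ((-u : ℝ) : ℂ) * I) =
      2 * ((c / (c ^ 2 + u ^ 2) : ℝ) : ℂ) := fun c hc u => by
    have k1 := ne_line hc u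
    have k2 := ne_line hc (-u)
    have k3 : ((c : ℂ) + u * I) * ((c : ℂ) + ((-u : ℝ) : ℂ) * I) = ((c ^ 2 + u ^ 2 : ℝ) : ℂ) := by
      push_cast
      linear_combination (-(u : ℂ) ^ 2) * Complex.I_sq
    rw [div_add_div _ _ k1 k2, k3]
    push_cast
    ring
  have e : ∀ u : ℝ, (1 / ((a : ℂ) + u * I) - 1 / ((b : ℂ) + u * I)) +
      (1 / ((a : ℂ) + ((-u : ℝ) : ℂ) * I) - 1 / ((b : ℂ) + ((-u : ℝ) : ℂ) * I)) =
      ((2 * (a / (a ^ 2 + u ^ 2) - b / (b ^ 2 + u ^ 2)) : ℝ) : ℂ) := fun u => by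
    have k1 := key a ha u
    have k2 := key b hb u
    push_cast at k1 k2 ⊢
    linear_combination k1 - k2
  simp_rw [e] at h2
  rw [integral_complex_ofReal, integral_const_mul,
    integral_sub (integrable_lorentz ha) (integrable_lorentz hb), integral_lorentz ha,
    integral_lorentz hb] at h2
  have h3 : ((2 * (Real.pi * (|a| / a) - Real.pi * (|b| / b)) : ℝ) : ℂ) =
      2 * ((Real.pi * (|a| / a) - Real.pi * (|b| / b) : ℝ) : ℂ) := by push_cast; ring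
  have h4 : ((2 * (Real.pi * (|a| / a) - Real.pi * (|b| / b)) : ℝ) : ℂ) =
      (∫ u : ℝ, (1 / ((a : ℂ) + u * I) - 1 / ((b : ℂ) + u * I))) +
        ∫ u : ℝ, (1 / ((a : ℂ) + u * I) - 1 / ((b : ℂ) + u * I)) := h2
  linear_combination (h3 - h4) / 2

end Contour

open Contour

/-- **Contour shift**, no pole. -/
theorem contour_shift {F : ℂ → ℂ} {σ₀ σ₁ K T : ℝ} (h01 : σ₀ ≤ σ₁)
    (hF : DifferentiableOn ℂ F (strip σ₀ σ₁))
    (hb : ∀ w ∈ strip σ₀ σ₁, T ≤ |w.im| → ‖F w‖ ≤ K / (1 + w.im ^ 2)) :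
    ∫ u : ℝ, F (σ₁ + u * I) = ∫ u : ℝ, F (σ₀ + u * I) := by
  obtain ⟨K', hK⟩ := bound_of_far hF.continuousOn hb
  have i0 := integrable_line le_rfl h01 hF.continuousOn hK
  have i1 := integrable_line h01 le_rfl hF.continuousOn hK
  have t0 := intervalIntegral_tendsto_integral i0 tendsto_neg_atTop_atBot tendsto_id
  have t1 := intervalIntegral_tendsto_integral i1 tendsto_neg_atTop_atBot tendsto_id
  have hz : Tendsto (fun T : ℝ => K' / (1 + T ^ 2) * |σ₁ - σ₀|) atTop (𝓝 0) := by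
    have : Tendsto (fun T : ℝ => 1 + T ^ 2) atTop atTop :=
      tendsto_atTop_add_const_left _ _ (tendsto_pow_atTop two_ne_zero)
    simpa using (this.const_div_atTop K').mul_const |σ₁ - σ₀|
  have hor : ∀ ε : ℝ, ε ^ 2 = 1 →
      Tendsto (fun T : ℝ => ∫ x in σ₀..σ₁, F (x + ((ε * T : ℝ) : ℂ) * I)) atTop (𝓝 0) := by
    intro ε hε
    refine squeeze_zero_norm (fun T => ?_) hz
    refine intervalIntegral.norm_integral_le_of_norm_le_const fun x hx => ?_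
    rw [Set.uIoc_of_le h01] at hx
    have := hK _ (line_mem hx.1.le hx.2 (ε * T))
    simpa [mul_pow, hε] using this
  have hlim := (((hor (-1) (by norm_num)).sub (hor 1 (by norm_num))).add
    (t1.const_smul I)).sub (t0.const_smul I)
  have hzero : ∀ T : ℝ, (∫ x in σ₀..σ₁, F (x + ((-1 * T : ℝ) : ℂ) * I)) -
      (∫ x in σ₀..σ₁, F (x + ((1 * T : ℝ) : ℂ) * I)) +
      I • (∫ u in (-T)..(id T), F (σ₁ + u * I)) - I • (∫ u in (-T)..(id T), F (σ₀ + u * I)) = 0 := by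
    intro T
    have := Complex.integral_boundary_rect_eq_zero_of_differentiableOn F ⟨σ₀, -T⟩ ⟨σ₁, T⟩
      (hF.mono fun w hw => by
        have := hw.1
        simp only [Set.mem_preimage, Set.uIcc_of_le h01] at this
        exact this)
    simpa using this
  simp_rw [hzero] at hlim
  have := tendsto_nhds_unique hlim tendsto_const_nhds
  simp only [sub_self, zero_add, smul_eq_mul] at this
  have h2 : I * ((∫ u : ℝ, F (σ₁ + u * I)) - ∫ u : ℝ, F (σ₀ + u * I)) = 0 := by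
    linear_combination this
  exact sub_eq_zero.1 ((mul_eq_zero.1 h2).resolve_left I_ne_zero)

/-- **Contour shift** across a simple pole at `ρ`. -/
theorem contour_shift_pole {G : ℂ → ℂ} {σ₀ σ₁ K T : ℝ} {ρ : ℂ} (h0 : σ₀ < ρ.re) (h1 : ρ.re < σ₁)
    (hG : DifferentiableOn ℂ G (strip σ₀ σ₁))
    (hb : ∀ w ∈ strip σ₀ σ₁, T ≤ |w.im| → ‖G w‖ ≤ K / (1 + w.im ^ 2)) :
    ∫ u : ℝ, G (σ₁ + u * I) / (σ₁ + u * I - ρ) =
      (∫ u : ℝ, G (σ₀ + u * I) / (σ₀ + u * I - ρ)) + 2 * Real.pi * G ρ := by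
  obtain ⟨K', hK⟩ := bound_of_far hG.continuousOn hb
  set c : ℝ := ρ.re - σ₀ + 1 with hc
  have hc0 : 0 < c := by linarith
  have hne : ∀ w ∈ strip σ₀ σ₁, w - ρ + c ≠ 0 := fun w hw h => by
    have := congrArg Complex.re h
    simp only [add_re, sub_re, ofReal_re, zero_re] at this
    linarith [hw.1]
  set H : ℂ → ℂ := fun w => G w - G ρ * c / (w - ρ + c) with hH
  have hHd : DifferentiableOn ℂ H (strip σ₀ σ₁) :=
    hG.sub ((differentiableOn_const _).div (by fun_prop) hne)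
  have hnb : strip σ₀ σ₁ ∈ 𝓝 ρ := by
    refine mem_of_superset ((isOpen_lt continuous_const continuous_re).inter
      (isOpen_lt continuous_re continuous_const) |>.mem_nhds ⟨h0, h1⟩) fun w hw => ⟨hw.1.le, hw.2.le⟩
  have hFd : DifferentiableOn ℂ (dslope H ρ) (strip σ₀ σ₁) :=
    (Complex.differentiableOn_dslope hnb).2 hHd
  have hc' : (c : ℂ) ≠ 0 := by exact_mod_cast hc0.ne'
  have hH0 : H ρ = 0 := by simp [hH, hc']
  have hF : ∀ w ∈ strip σ₀ σ₁, w ≠ ρ →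
      dslope H ρ w = G w / (w - ρ) - G ρ * (1 / (w - ρ) - 1 / (w - ρ + c)) := fun w hw hw' => by
    have k1 := hne w hw
    have k2 : w - ρ ≠ 0 := sub_ne_zero.2 hw'
    rw [dslope_of_ne _ hw', slope_def_field, hH0]
    simp only [hH]
    field_simp
    ring
  have hK0 : 0 ≤ K' := by
    have := (norm_nonneg _).trans (hK ρ ⟨h0.le, h1.le⟩)
    exact (div_nonneg_iff.1 this).elim (fun h => h.1) fun h => by nlinarith [h.2, sq_nonneg ρ.im]
  have hbF : ∀ w ∈ strip σ₀ σ₁, 2 * |ρ.im| + 2 ≤ |w.im| →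
      ‖dslope H ρ w‖ ≤ (K' + 8 * ‖G ρ‖ * c) / (1 + w.im ^ 2) := fun w hw hT => by
    have a1 : |w.im| / 2 + 1 ≤ |w.im - ρ.im| := by
      have := abs_sub_abs_le_abs_sub w.im ρ.im
      linarith
    have a2 : |w.im| / 2 + 1 ≤ ‖w - ρ‖ := a1.trans (by simpa using abs_im_le_norm (w - ρ))
    have a3 : |w.im| / 2 + 1 ≤ ‖w - ρ + c‖ := a1.trans (by simpa using abs_im_le_norm (w - ρ + c))
    have a0 := abs_nonneg w.im
    have hw' : w ≠ ρ := by
      rintro rfl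
      rw [sub_self, norm_zero] at a2
      linarith
    have k1 := hne w hw
    have k2 : w - ρ ≠ 0 := sub_ne_zero.2 hw'
    have e : 1 / (w - ρ) - 1 / (w - ρ + c) = c / ((w - ρ) * (w - ρ + c)) := by
      field_simp
      ring
    have hp : 0 < 1 + w.im ^ 2 := by positivity
    have b1 : ‖G w / (w - ρ)‖ ≤ K' / (1 + w.im ^ 2) := by
      rw [norm_div]
      exact (div_le_self (norm_nonneg _) (by linarith)).trans (hK w hw)
    have b2 : (1 + w.im ^ 2) / 8 ≤ ‖w - ρ‖ * ‖w - ρ + c‖ := by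
      refine le_trans ?_ (mul_le_mul a2 a3 (by linarith) (norm_nonneg _))
      rw [← sq_abs]
      nlinarith
    have b3 : ‖G ρ * (c / ((w - ρ) * (w - ρ + c)))‖ ≤ 8 * ‖G ρ‖ * c / (1 + w.im ^ 2) := by
      rw [norm_mul, norm_div, norm_mul, Complex.norm_real, Real.norm_of_nonneg hc0.le]
      calc ‖G ρ‖ * (c / (‖w - ρ‖ * ‖w - ρ + c‖)) ≤ ‖G ρ‖ * (c / ((1 + w.im ^ 2) / 8)) := by gcongr
        _ = _ := by field_simp
    rw [hF w hw hw', e, add_div]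
    exact (norm_sub_le _ _).trans (add_le_add b1 b3)
  have hs := contour_shift (h0.trans h1).le hFd hbF
  obtain ⟨K'', hK''⟩ := bound_of_far hFd.continuousOn hbF
  have line : ∀ σ : ℝ, σ₀ ≤ σ → σ ≤ σ₁ → σ ≠ ρ.re →
      ∫ u : ℝ, G (σ + u * I) / (σ + u * I - ρ) = (∫ u : ℝ, dslope H ρ (σ + u * I)) +
        G ρ * ((Real.pi * (|σ - ρ.re| / (σ - ρ.re)) - Real.pi : ℝ) : ℂ) := fun σ s0 s1 s2 => by
    have ha : σ - ρ.re ≠ 0 := sub_ne_zero.2 s2
    have hb0 : 0 < σ - ρ.re + c := by linarith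
    have p1 := (integrable_pair ha hb0.ne').comp_sub_right ρ.im
    have p2 := integral_sub_right_eq_self (μ := volume) (fun u : ℝ =>
      1 / (((σ - ρ.re : ℝ) : ℂ) + u * I) - 1 / (((σ - ρ.re + c : ℝ) : ℂ) + u * I)) ρ.im
    rw [integral_pair ha hb0.ne', abs_of_pos hb0, div_self hb0.ne', mul_one] at p2
    rw [← p2, ← integral_const_mul,
      ← integral_add (integrable_line s0 s1 hFd.continuousOn hK'') (p1.const_mul _)]
    refine integral_congr_ae (Eventually.of_forall fun u => ?_)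
    have hw' : (σ : ℂ) + u * I ≠ ρ := fun h => s2 (by simpa using congrArg Complex.re h)
    have q1 : ((σ - ρ.re : ℝ) : ℂ) + ((u - ρ.im : ℝ) : ℂ) * I = σ + u * I - ρ := by
      conv_rhs => rw [← Complex.re_add_im ρ]
      push_cast; ring
    have q2 : ((σ - ρ.re + c : ℝ) : ℂ) + ((u - ρ.im : ℝ) : ℂ) * I = σ + u * I - ρ + c := by
      rw [← q1]; push_cast; ring
    simp only
    rw [hF _ (line_mem s0 s1 u) hw', q1, q2]
    ring
  rw [line σ₁ (h0.trans h1).le le_rfl h1.ne', line σ₀ le_rfl (h0.trans h1).le h0.ne, hs,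
    abs_of_pos (sub_pos.2 h1), abs_of_neg (sub_neg.2 h0), div_self (sub_pos.2 h1).ne',
    neg_div, div_self (sub_neg.2 h0).ne]
  push_cast
  ring

/-! ### The Gaussian kernel `Wm` against functions of polynomial growth -/

namespace Contour

theorem one_add_le (u τ : ℝ) : 1 + |u| ≤ (1 + |τ|) * (1 + |u + τ|) := by
  have := abs_sub_abs_le_abs_sub u (-τ)
  rw [abs_neg, sub_neg_eq_add] at this
  nlinarith [abs_nonneg τ, abs_nonneg (u + τ)]

theorem gauss_pow (J : ℕ) : ∃ A : ℝ, 0 < A ∧ ∀ v : ℝ, Real.exp (-v ^ 2 / 4) * (1 + |v|) ^ J ≤ A := by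
  refine ⟨Real.exp ((J : ℝ) ^ 2), Real.exp_pos _, fun v => ?_⟩
  have h1 : (1 + |v|) ^ J ≤ Real.exp (J * |v|) := by
    rw [Real.exp_nat_mul]
    gcongr
    linarith [Real.add_one_le_exp |v|]
  calc Real.exp (-v ^ 2 / 4) * (1 + |v|) ^ J ≤ Real.exp (-v ^ 2 / 4) * Real.exp (J * |v|) := by
        gcongr
    _ ≤ _ := by
        rw [← Real.exp_add, Real.exp_le_exp, ← sq_abs v]
        nlinarith [sq_nonneg (|v| / 2 - J)]

end Contour

/-- Pointwise majorant, uniform for bounded real parts. -/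
theorem norm_Wm_mul_le (B : ℝ) (J : ℕ) : ∃ A : ℝ, 0 < A ∧ ∀ w t : ℂ, |(w + t).re| ≤ B →
    ‖Wm (w + t)‖ * (1 + |w.im|) ^ J ≤ A * (1 + |t.im|) ^ J / (1 + (w.im + t.im) ^ 2) := by
  obtain ⟨A, hA, h⟩ := gauss_pow (J + 2)
  refine ⟨√Real.pi * Real.exp (B ^ 2 / 4) * A, by have := Real.pi_pos; positivity,
    fun w t hB => ?_⟩
  set v := w.im + t.im with hv
  have h1 : ‖Wm (w + t)‖ ≤ √Real.pi * Real.exp (B ^ 2 / 4) * Real.exp (-v ^ 2 / 4) := by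
    rw [norm_Wm, mul_assoc, ← Real.exp_add, add_im, ← hv]
    have : (w + t).re ^ 2 ≤ B ^ 2 := by rw [← sq_abs]; gcongr
    gcongr
    linarith
  have h2 : (1 + |w.im|) ^ J ≤ (1 + |t.im|) ^ J * (1 + |v|) ^ J := by
    rw [← mul_pow]
    gcongr
    exact one_add_le _ _
  have h3 : 1 + v ^ 2 ≤ (1 + |v|) ^ 2 := by
    rw [← sq_abs]; nlinarith [abs_nonneg v]
  rw [le_div_iff₀ (by positivity)]
  calc ‖Wm (w + t)‖ * (1 + |w.im|) ^ J * (1 + v ^ 2)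
      ≤ (√Real.pi * Real.exp (B ^ 2 / 4) * Real.exp (-v ^ 2 / 4)) *
        ((1 + |t.im|) ^ J * (1 + |v|) ^ J) * (1 + |v|) ^ 2 := by gcongr
    _ = √Real.pi * Real.exp (B ^ 2 / 4) * (Real.exp (-v ^ 2 / 4) * (1 + |v|) ^ (J + 2)) *
        (1 + |t.im|) ^ J := by ring
    _ ≤ _ := by gcongr; exact h v

theorem norm_cpow_line {X : ℝ} (hX : 0 < X) (w : ℂ) : ‖(X : ℂ) ^ w‖ = X ^ w.re :=
  Complex.norm_cpow_eq_rpow_re_of_pos hX w

/-- Decay of `Wm (w + t) X^w G(w)` in a strip. -/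
theorem Wm_decay {G : ℂ → ℂ} {σ₀ σ₁ C T X : ℝ} {J : ℕ} (hX : 0 < X) (t : ℂ)
    (hb : ∀ w ∈ strip σ₀ σ₁, T ≤ |w.im| → ‖G w‖ ≤ C * (1 + |w.im|) ^ J) :
    ∃ K : ℝ, ∀ w ∈ strip σ₀ σ₁, T ≤ |w.im| →
      ‖Wm (w + t) * (X : ℂ) ^ w * G w‖ ≤ K / (1 + w.im ^ 2) := by
  obtain ⟨A, hA, h⟩ := norm_Wm_mul_le (|σ₀| + |σ₁| + |t.re|) (J + 2)
  refine ⟨A * (1 + |t.im|) ^ (J + 2) * (X ^ σ₀ + X ^ σ₁) * |C|, fun w hw hT => ?_⟩
  have h1 := h w t (by
    rw [add_re]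
    refine (abs_add_le _ _).trans (add_le_add_left ?_ _)
    rw [abs_le]
    constructor <;> linarith [hw.1, hw.2, neg_abs_le σ₀, le_abs_self σ₁, abs_nonneg σ₀, abs_nonneg σ₁])
  have h2 : ‖Wm (w + t)‖ * (1 + |w.im|) ^ (J + 2) ≤ A * (1 + |t.im|) ^ (J + 2) :=
    h1.trans (div_le_self (by positivity) (by nlinarith [sq_nonneg (w.im + t.im)]))
  have h3 : X ^ w.re ≤ X ^ σ₀ + X ^ σ₁ := by
    have p0 := Real.rpow_nonneg hX.le σ₀
    have p1 := Real.rpow_nonneg hX.le σ₁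
    rcases le_total 1 X with h | h
    · linarith [Real.rpow_le_rpow_of_exponent_le h hw.2]
    · linarith [Real.rpow_le_rpow_of_exponent_ge hX h hw.1]
  have h4 : ‖G w‖ ≤ |C| * (1 + |w.im|) ^ J := (hb w hw hT).trans (by gcongr; exact le_abs_self _)
  have h5 : 1 + w.im ^ 2 ≤ (1 + |w.im|) ^ 2 := by
    rw [← sq_abs]; nlinarith [abs_nonneg w.im]
  rw [le_div_iff₀ (by positivity), norm_mul, norm_mul, norm_cpow_line hX]
  calc ‖Wm (w + t)‖ * X ^ w.re * ‖G w‖ * (1 + w.im ^ 2)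
      ≤ ‖Wm (w + t)‖ * (X ^ σ₀ + X ^ σ₁) * (|C| * (1 + |w.im|) ^ J) * (1 + |w.im|) ^ 2 := by
        gcongr
    _ = ‖Wm (w + t)‖ * (1 + |w.im|) ^ (J + 2) * (X ^ σ₀ + X ^ σ₁) * |C| := by ring
    _ ≤ _ := by gcongr

theorem differentiable_Wm_cpow {X : ℝ} (hX : 0 < X) (t : ℂ) :
    Differentiable ℂ fun w : ℂ => Wm (w + t) * (X : ℂ) ^ w :=
  (differentiable_Wm.comp (differentiable_id.add_const t)).mul
    (differentiable_id.const_cpow (Or.inl (by exact_mod_cast hX.ne')))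

/-- Contour shift for `Wm (w + t) X^w G(w)`, `G` of polynomial growth. -/
theorem Wm_shift {G : ℂ → ℂ} {σ₀ σ₁ C T X : ℝ} {J : ℕ} (h01 : σ₀ ≤ σ₁) (hX : 0 < X) (t : ℂ)
    (hG : DifferentiableOn ℂ G (strip σ₀ σ₁))
    (hb : ∀ w ∈ strip σ₀ σ₁, T ≤ |w.im| → ‖G w‖ ≤ C * (1 + |w.im|) ^ J) :
    ∫ u : ℝ, Wm (σ₁ + u * I + t) * (X : ℂ) ^ ((σ₁ : ℂ) + u * I) * G (σ₁ + u * I) =
      ∫ u : ℝ, Wm (σ₀ + u * I + t) * (X : ℂ) ^ ((σ₀ : ℂ) + u * I) * G (σ₀ + u * I) := by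
  obtain ⟨K, hK⟩ := Wm_decay hX t hb
  exact contour_shift (F := fun w => Wm (w + t) * (X : ℂ) ^ w * G w) h01
    ((differentiable_Wm_cpow hX t).differentiableOn.mul hG) hK

/-- Contour shift for `Wm (w + t) X^w G(w) / (w - ρ)`, `G` of polynomial growth. -/
theorem Wm_shift_pole {G : ℂ → ℂ} {σ₀ σ₁ C T X : ℝ} {J : ℕ} {ρ : ℂ} (h0 : σ₀ < ρ.re)
    (h1 : ρ.re < σ₁) (hX : 0 < X) (t : ℂ) (hG : DifferentiableOn ℂ G (strip σ₀ σ₁))
    (hb : ∀ w ∈ strip σ₀ σ₁, T ≤ |w.im| → ‖G w‖ ≤ C * (1 + |w.im|) ^ J) :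
    ∫ u : ℝ, Wm (σ₁ + u * I + t) * (X : ℂ) ^ ((σ₁ : ℂ) + u * I) * G (σ₁ + u * I) /
        (σ₁ + u * I - ρ) =
      (∫ u : ℝ, Wm (σ₀ + u * I + t) * (X : ℂ) ^ ((σ₀ : ℂ) + u * I) * G (σ₀ + u * I) /
        (σ₀ + u * I - ρ)) + 2 * Real.pi * (Wm (ρ + t) * (X : ℂ) ^ ρ * G ρ) := by
  obtain ⟨K, hK⟩ := Wm_decay hX t hb
  exact contour_shift_pole (G := fun w => Wm (w + t) * (X : ℂ) ^ w * G w) h0 h1
    ((differentiable_Wm_cpow hX t).differentiableOn.mul hG) hK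

/-- Size of the integral on a vertical line (no measurability needed). -/
theorem norm_integral_Wm_le (B : ℝ) (J : ℕ) : ∃ A : ℝ, 0 < A ∧
    ∀ (g : ℝ → ℂ) (σ C X : ℝ) (t : ℂ), 0 < X → |σ + t.re| ≤ B →
      (∀ u : ℝ, ‖g u‖ ≤ C * (1 + |u|) ^ J) →
      ‖∫ u : ℝ, Wm (σ + u * I + t) * (X : ℂ) ^ ((σ : ℂ) + u * I) * g u‖ ≤
        A * C * (1 + |t.im|) ^ J * X ^ σ := by
  obtain ⟨A, hA, h⟩ := norm_Wm_mul_le B J
  refine ⟨A * Real.pi, by have := Real.pi_pos; positivity, fun g σ C X t hX hB hg => ?_⟩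
  have hC : 0 ≤ C := by simpa using (norm_nonneg _).trans (hg 0)
  have hi := (integrable_inv_one_add_sq.comp_add_right t.im).const_mul
    (A * C * (1 + |t.im|) ^ J * X ^ σ)
  refine (norm_integral_le_of_norm_le hi (Eventually.of_forall fun u => ?_)).trans_eq ?_
  · have h1 := h (σ + u * I) t (by simpa using hB)
    have e1 : ((σ : ℂ) + u * I).im = u := by simp
    have e2 : ((σ : ℂ) + u * I).re = σ := by simp
    rw [e1] at h1
    rw [norm_mul, norm_mul, norm_cpow_line hX, e2]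
    calc ‖Wm (σ + u * I + t)‖ * X ^ σ * ‖g u‖
        ≤ ‖Wm (σ + u * I + t)‖ * X ^ σ * (C * (1 + |u|) ^ J) := by gcongr; exact hg u
      _ = ‖Wm (σ + u * I + t)‖ * (1 + |u|) ^ J * (C * X ^ σ) := by ring
      _ ≤ A * (1 + |t.im|) ^ J / (1 + (u + t.im) ^ 2) * (C * X ^ σ) := by gcongr
      _ = _ := by ring
  · rw [integral_const_mul, integral_add_right_eq_self (fun x : ℝ => (1 + x ^ 2)⁻¹),
      integral_univ_inv_one_add_sq]
    ring

end Crest.Agent.R17
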