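import Crest.Agent.R17.LBasicAuxA

/-!
# Row 17, module M9, part B: continuation and functional equation for periodic coefficients
-/

set_option autoImplicit false

noncomputable section

namespace Crest.Agent.R17.LBB

open scoped ComplexConjugate
open Filter Topology Asymptotics Set MeasureTheory

/-- The constant `c = 2π/√3` of the Gaussian `gw x = exp (-c x)`. -/
def cc : ℝ := 2 * Real.pi / Real.sqrt 3

theorem cc_pos : 0 < cc := by
  have h3 : 0 < Real.sqrt 3 := Real.sqrt_pos.2 (by norm_num)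
  have := Real.pi_pos
  unfold cc; positivity

theorem gw_eq (x : ℝ) : gw x = Real.exp (-cc * x) := rfl

/-- The theta function `∑_n f n · gw (r t N n)`. -/
def Th (f : O → ℂ) (r t : ℝ) : ℂ := ∑' n : O, f n * (gw (r * t * nr n) : ℂ)

theorem summable_gw_mul {Y : ℝ} (hY : 0 < Y) : Summable fun n : O => gw (Y * nr n) := by
  have := summable_gw' (inv_pos.2 hY)
  simpa only [div_inv_eq_mul, mul_comm _ Y] using this

theorem norm_term_le {f : O → ℂ} {B : ℝ} (hf : ∀ n, ‖f n‖ ≤ B) (x : ℝ) (n : O) :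
    ‖f n * (gw x : ℂ)‖ ≤ B * gw x := by
  rw [norm_mul, Complex.norm_real, Real.norm_of_nonneg (gw_pos _).le]
  exact mul_le_mul_of_nonneg_right (hf n) (gw_pos _).le

theorem summable_Th {f : O → ℂ} {B : ℝ} (hf : ∀ n, ‖f n‖ ≤ B) {Y : ℝ} (hY : 0 < Y) :
    Summable fun n : O => f n * (gw (Y * nr n) : ℂ) :=
  Summable.of_norm_bounded ((summable_gw_mul hY).mul_left B) fun n => norm_term_le hf _ n

theorem continuousOn_Th {f : O → ℂ} {B : ℝ} (hf : ∀ n, ‖f n‖ ≤ B) {r : ℝ} (hr : 0 < r) :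
    ContinuousOn (Th f r) (Ioi 0) := by
  have hB : 0 ≤ B := (norm_nonneg _).trans (hf 0)
  intro t ht
  have ht : 0 < t := ht
  have h1 : ContinuousOn (Th f r) (Ici (t / 2)) := by
    refine continuousOn_tsum (u := fun n : O => B * gw (r * (t / 2) * nr n)) (fun n => ?_)
      ((summable_gw_mul (by positivity)).mul_left B) fun n x hx => ?_
    · simp only [gw]
      fun_prop
    · refine (norm_term_le hf _ n).trans (mul_le_mul_of_nonneg_left (gw_antitone ?_) hB)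
      have hx : t / 2 ≤ x := hx
      gcongr
  exact (h1.continuousAt (Ici_mem_nhds (by linarith))).continuousWithinAt

theorem Th_sub {f : O → ℂ} {B : ℝ} (hf : ∀ n, ‖f n‖ ≤ B) {r t : ℝ} (hr : 0 < r) (ht : 0 < t) :
    HasSum (fun n : O => (if n = 0 then 0 else f n) * (gw (r * t * nr n) : ℂ))
      (Th f r t - f 0) := by
  classical
  have h := hasSum_ite_sub_hasSum (summable_Th hf (mul_pos hr ht)).hasSum 0
  simp only [nr, nm_zero, Nat.cast_zero, mul_zero, gw_zero, Complex.ofReal_one, mul_one] at h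
  refine h.congr_fun fun n => ?_
  split_ifs <;> simp

theorem isBigO_Th {f : O → ℂ} {B : ℝ} (hf : ∀ n, ‖f n‖ ≤ B) {r : ℝ} (hr : 0 < r) (ρ : ℝ) :
    (fun t => Th f r t - f 0) =O[atTop] (fun t : ℝ => t ^ ρ) := by
  have hB : 0 ≤ B := (norm_nonneg _).trans (hf 0)
  obtain ⟨C, hC, h⟩ := tsum_gw_ne_zero_le (-ρ)
  refine IsBigO.of_bound (B * C * r ^ ρ) ?_
  filter_upwards [eventually_ge_atTop r⁻¹] with t ht
  have ht0 : 0 < t := (inv_pos.2 hr).trans_le ht
  have h1 : 1 ≤ r * t := by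
    have := mul_le_mul_of_nonneg_left ht hr.le
    rwa [mul_inv_cancel₀ hr.ne'] at this
  have h2 := h _ h1
  have hs : Summable fun n : O => (if n = 0 then 0 else gw (r * t * nr n)) := by
    refine Summable.of_nonneg_of_le (fun n => ?_) (fun n => ?_) (summable_gw_mul (mul_pos hr ht0))
    · split_ifs
      · exact le_rfl
      · exact (gw_pos _).le
    · split_ifs
      · exact (gw_pos _).le
      · exact le_rfl
  have h3 : ‖Th f r t - f 0‖ ≤ B * ∑' n : O, (if n = 0 then 0 else gw (r * t * nr n)) := by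
    refine (Th_sub hf hr ht0).norm_le_of_bounded (hs.hasSum.mul_left B) fun n => ?_
    split_ifs
    · simp
    · exact norm_term_le hf _ n
  rw [neg_neg, Real.mul_rpow hr.le ht0.le] at h2
  rw [Real.norm_of_nonneg (Real.rpow_nonneg ht0.le _)]
  calc _ ≤ B * (C * (r ^ ρ * t ^ ρ)) := h3.trans (mul_le_mul_of_nonneg_left h2 hB)
    _ = _ := by ring

theorem summable_ser {f : O → ℂ} {B : ℝ} (hf : ∀ n, ‖f n‖ ≤ B) {s : ℂ} (hs : 1 < s.re) :
    Summable fun n : O => ‖f n * (nr n : ℂ) ^ (-s)‖ := by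
  refine Summable.of_nonneg_of_le (fun _ => norm_nonneg _) (fun n => ?_)
    ((summable_nr_rpow hs).mul_left B)
  rw [norm_mul, Complex.norm_cpow_eq_rpow_re_of_nonneg (Nat.cast_nonneg _)
    (by simp only [Complex.neg_re]; linarith), Complex.neg_re]
  exact mul_le_mul_of_nonneg_right (hf n) (Real.rpow_nonneg (Nat.cast_nonneg _) _)

theorem mellin_Th {f : O → ℂ} {B : ℝ} (hf : ∀ n, ‖f n‖ ≤ B) {r : ℝ} (hr : 0 < r) {s : ℂ}
    (hs : 1 < s.re) : mellin (fun t => Th f r t - f 0) s =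
      Complex.Gamma s * ((cc * r : ℝ) : ℂ) ^ (-s) * ∑' n : O, f n * (nr n : ℂ) ^ (-s) := by
  have hc : 0 < cc * r := mul_pos cc_pos hr
  have hs0 : s ≠ 0 := by rintro rfl; norm_num at hs
  have H := hasSum_mellin (a := fun n : O => if n = 0 then 0 else f n)
    (p := fun n => cc * r * nr n) (F := fun t => Th f r t - f 0) (s := s) (fun n => ?_)
    (by linarith) (fun t ht => ?_) ?_
  · rw [← H.tsum_eq, ← tsum_mul_left]
    refine tsum_congr fun n => ?_
    split_ifs with hn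
    · subst hn
      simp [nr, hs0]
    · rw [Complex.ofReal_mul (cc * r), Complex.mul_cpow_ofReal_nonneg hc.le (nr_pos hn).le,
        Complex.cpow_neg, Complex.cpow_neg]
      ring
  · by_cases hn : n = 0
    · left; exact if_pos hn
    · right; exact mul_pos hc (nr_pos hn)
  · convert Th_sub hf hr ht using 4 with n
    rw [gw_eq]; congr 1; ring
  · refine Summable.of_nonneg_of_le (fun n => by positivity) (fun n => ?_)
      ((summable_nr_rpow hs).mul_left (B * (cc * r) ^ (-s.re)))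
    have hB : 0 ≤ B := (norm_nonneg _).trans (hf 0)
    split_ifs with hn
    · simp only [norm_zero, zero_div]; positivity
    · have := nr_pos hn
      rw [Real.mul_rpow hc.le this.le, Real.rpow_neg hc.le, Real.rpow_neg this.le, div_eq_mul_inv,
        mul_inv, ← mul_assoc]
      gcongr
      exact hf n

theorem bound_of_periodic {q : O} (hq : q ≠ 0) {f : O → ℂ} (hf : ∀ x y, q ∣ x - y → f x = f y)
    (k : O) : ‖f k‖ ≤ ∑ x ∈ res q, ‖f x‖ := by
  obtain ⟨r, ⟨hr, hr'⟩, -⟩ := exists_unique_res hq k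
  rw [hf k r hr']
  exact Finset.single_le_sum (f := fun x => ‖f x‖) (fun _ _ => norm_nonneg _) hr

theorem norm_ft_le (q : O) (f : O → ℂ) (h : O) : ‖ft q f h‖ ≤ ∑ x ∈ res q, ‖f x‖ := by
  refine (norm_sum_le _ _).trans (le_of_eq (Finset.sum_congr rfl fun x _ => ?_))
  rw [norm_mul, norm_eq, mul_one]

theorem ft_zero (q : O) (f : O → ℂ) : ft q f 0 = ∑ x ∈ res q, f x := by
  simp [ft, eq_zero_left]

/-- The functional-equation pair of a periodic function. -/
def pair {q : O} (hq : q ≠ 0) {f : O → ℂ} (hf : ∀ x y, q ∣ x - y → f x = f y) : WeakFEPair ℂ where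
  f := Th f 1
  g := Th (ft q f) (nr q)⁻¹
  k := 1
  ε := ((nr q)⁻¹ : ℝ)
  f₀ := f 0
  g₀ := ft q f 0
  hf_int := (continuousOn_Th (bound_of_periodic hq hf) one_pos).locallyIntegrableOn
    measurableSet_Ioi
  hg_int := (continuousOn_Th (norm_ft_le q f) (inv_pos.2 (nr_pos hq))).locallyIntegrableOn
    measurableSet_Ioi
  hk := one_pos
  hε := Complex.ofReal_ne_zero.2 (inv_pos.2 (nr_pos hq)).ne'
  h_feq := fun x hx => by
    have hx : 0 < x := hx
    have H := poisson hq f hf hx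
    unfold Th
    simp only [Real.rpow_one, smul_eq_mul]
    have e1 : ∀ n : O, 1 * (1 / x) * nr n = nr n / x := fun n => by ring
    have e2 : ∀ n : O, (nr q)⁻¹ * x * nr n = x * nr n / nr q := fun n => by ring
    simp only [e1, e2, H]
    congr 1
    push_cast; ring
  hf_top := isBigO_Th (bound_of_periodic hq hf) one_pos
  hg_top := isBigO_Th (norm_ft_le q f) (inv_pos.2 (nr_pos hq))

/-- `Λ₀` is bounded on vertical strips. -/
theorem Λ₀_bounded (P : WeakFEPair ℂ) (a b : ℝ) :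
    ∃ C : ℝ, ∀ s : ℂ, a ≤ s.re → s.re ≤ b → ‖P.Λ₀ s‖ ≤ C := by
  have hc : ∀ s : ℂ, MellinConvergent P.f_modif s := fun s =>
    (P.isStrongFEPair_toStrongFEPair.hasMellin s).1
  have ha := (hc a).norm
  have hb := (hc b).norm
  refine ⟨∫ t in Ioi (0 : ℝ), (‖(t : ℂ) ^ ((a : ℂ) - 1) • P.f_modif t‖ +
    ‖(t : ℂ) ^ ((b : ℂ) - 1) • P.f_modif t‖), fun s h1 h2 => ?_⟩
  refine norm_integral_le_of_norm_le (ha.add hb) ?_
  refine (ae_restrict_iff' measurableSet_Ioi).2 (Eventually.of_forall fun t ht => ?_)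
  have ht : 0 < t := ht
  simp only [norm_smul, Complex.norm_cpow_eq_rpow_re_of_pos ht, Complex.sub_re, Complex.ofReal_re,
    Complex.one_re]
  rw [← add_mul]
  refine mul_le_mul_of_nonneg_right ?_ (norm_nonneg _)
  have p1 := Real.rpow_pos_of_pos ht (a - 1)
  have p2 := Real.rpow_pos_of_pos ht (b - 1)
  rcases le_total 1 t with h | h
  · have := Real.rpow_le_rpow_of_exponent_le h (show s.re - 1 ≤ b - 1 by linarith)
    linarith
  · have := Real.rpow_le_rpow_of_exponent_ge ht h (show a - 1 ≤ s.re - 1 by linarith)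
    linarith

open Classical in
/-- The entire part of the completed L-function of a function `f` periodic modulo `q`. -/
def Lam0 (q : O) (f : O → ℂ) : ℂ → ℂ :=
  if h : q ≠ 0 ∧ ∀ x y, q ∣ x - y → f x = f y then (pair h.1 h.2).Λ₀ else 0

/-- The mean value of `f` modulo `q`. -/
def avg (q : O) (f : O → ℂ) : ℂ := (∑ x ∈ res q, f x) / (nr q : ℂ)

/-- The continuation of `∑_{n ≠ 0} f n · N n^{-s}` for `f` periodic modulo `q`. -/
def Lf (q : O) (f : O → ℂ) (s : ℂ) : ℂ :=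
  (cc : ℂ) ^ s * ((Complex.Gamma s)⁻¹ * (Lam0 q f s + avg q f / (s - 1)) -
    (Complex.Gamma (s + 1))⁻¹ * f 0)

/-- `(s - 1) L(s)` as an entire function. -/
def GLf (q : O) (f : O → ℂ) (s : ℂ) : ℂ :=
  (cc : ℂ) ^ s * ((Complex.Gamma s)⁻¹ * ((s - 1) * Lam0 q f s + avg q f) -
    (s - 1) * (Complex.Gamma (s + 1))⁻¹ * f 0)

theorem Lam0_eq {q : O} (hq : q ≠ 0) {f : O → ℂ} (hf : ∀ x y, q ∣ x - y → f x = f y) :
    Lam0 q f = (pair hq hf).Λ₀ := dif_pos ⟨hq, hf⟩

theorem differentiable_Lam0 (q : O) (f : O → ℂ) : Differentiable ℂ (Lam0 q f) := by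
  unfold Lam0
  split_ifs
  · exact WeakFEPair.differentiable_Λ₀ _
  · exact differentiable_const _

/-- `Lam0` is bounded on every vertical strip. -/
theorem Lam0_bounded (q : O) (f : O → ℂ) (a b : ℝ) :
    ∃ C : ℝ, ∀ s : ℂ, a ≤ s.re → s.re ≤ b → ‖Lam0 q f s‖ ≤ C := by
  unfold Lam0
  split_ifs
  · exact Λ₀_bounded _ a b
  · exact ⟨0, fun s _ _ => by simp⟩

theorem differentiable_cc_pow : Differentiable ℂ fun s : ℂ => (cc : ℂ) ^ s :=
  fun _ => differentiableAt_id.const_cpow (Or.inl (Complex.ofReal_ne_zero.2 cc_pos.ne'))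

theorem differentiable_inv_Gamma_add_one :
    Differentiable ℂ fun s : ℂ => (Complex.Gamma (s + 1))⁻¹ :=
  Complex.differentiable_one_div_Gamma.comp (differentiable_id.add_const 1)

theorem differentiable_GLf (q : O) (f : O → ℂ) : Differentiable ℂ (GLf q f) :=
  differentiable_cc_pow.mul ((Complex.differentiable_one_div_Gamma.mul
    (((differentiable_id.sub_const 1).mul (differentiable_Lam0 q f)).add_const _)).sub
    (((differentiable_id.sub_const 1).mul differentiable_inv_Gamma_add_one).mul_const _))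

theorem GLf_one (q : O) (f : O → ℂ) : GLf q f 1 = cc * avg q f := by
  simp [GLf]

theorem GLf_eq (q : O) (f : O → ℂ) {s : ℂ} (hs : s ≠ 1) : GLf q f s = (s - 1) * Lf q f s := by
  have : s - 1 ≠ 0 := sub_ne_zero.2 hs
  unfold GLf Lf
  field_simp

theorem differentiableAt_Lf (q : O) (f : O → ℂ) {s : ℂ} (hs : s ≠ 1 ∨ avg q f = 0) :
    DifferentiableAt ℂ (Lf q f) s := by
  have h1 : DifferentiableAt ℂ (fun s : ℂ => avg q f / (s - 1)) s := by
    rcases hs with hs | hs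
    · exact (differentiableAt_const _).div (differentiableAt_id.sub_const 1) (sub_ne_zero.2 hs)
    · simp [hs]
  exact (differentiable_cc_pow s).mul (((Complex.differentiable_one_div_Gamma s).mul
    ((differentiable_Lam0 q f s).add h1)).sub ((differentiable_inv_Gamma_add_one s).mul_const _))

theorem Lf_eq_Λ {q : O} (hq : q ≠ 0) {f : O → ℂ} (hf : ∀ x y, q ∣ x - y → f x = f y) {s : ℂ}
    (hs : s ≠ 0) : Lf q f s = (cc : ℂ) ^ s * (Complex.Gamma s)⁻¹ * (pair hq hf).Λ s := by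
  unfold Lf WeakFEPair.Λ avg
  rw [Lam0_eq hq hf, Complex.Gamma_add_one s hs, ← ft_zero]
  simp only [pair, smul_eq_mul, Complex.ofReal_one, Complex.ofReal_inv]
  rw [← neg_sub s 1, div_neg]
  ring

/-- `Lf` is the Dirichlet series for `Re s > 1`. -/
theorem Lf_eq_tsum {q : O} (hq : q ≠ 0) {f : O → ℂ} (hf : ∀ x y, q ∣ x - y → f x = f y) {s : ℂ}
    (hs : 1 < s.re) : Lf q f s = ∑' n : O, f n * (nr n : ℂ) ^ (-s) := by
  have hs0 : s ≠ 0 := by rintro rfl; norm_num at hs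
  have h1 := ((pair hq hf).hasMellin (s := s) hs).2
  have h2 := mellin_Th (bound_of_periodic hq hf) one_pos hs
  have h3 : (pair hq hf).Λ s = _ := h1.symm.trans h2
  have h4 : Complex.Gamma s ≠ 0 := Complex.Gamma_ne_zero_of_re_pos (by linarith)
  have h5 : (cc : ℂ) ^ s ≠ 0 := by
    rw [Ne, Complex.cpow_eq_zero_iff, not_and_or]
    exact Or.inl (Complex.ofReal_ne_zero.2 cc_pos.ne')
  rw [Lf_eq_Λ hq hf hs0, h3, mul_one, Complex.cpow_neg]
  field_simp

/-- The functional equation. -/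
theorem Lf_fe {q : O} (hq : q ≠ 0) {f : O → ℂ} (hf : ∀ x y, q ∣ x - y → f x = f y) {s : ℂ}
    (hs : s.re < 0) : Lf q f s = (nr q : ℂ) ^ (-s) * (cc : ℂ) ^ (2 * s - 1) *
      (Complex.Gamma (1 - s) / Complex.Gamma s) * ∑' h : O, ft q f h * (nr h : ℂ) ^ (s - 1) := by
  have hs0 : s ≠ 0 := by rintro rfl; norm_num at hs
  have hs1 : 1 < (1 - s).re := by simp only [Complex.sub_re, Complex.one_re]; linarith
  have hq0 := nr_pos hq
  have h1 := ((pair hq hf).symm.hasMellin (s := 1 - s) hs1).2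
  have h2 := mellin_Th (norm_ft_le q f) (inv_pos.2 hq0) hs1
  have h3 : (pair hq hf).symm.Λ (1 - s) = _ := h1.symm.trans h2
  have h4 := (pair hq hf).functional_equation (1 - s)
  have h5 : ((pair hq hf).k : ℂ) - (1 - s) = s := by simp [pair]
  rw [h5, h3] at h4
  rw [Lf_eq_Λ hq hf hs0, h4]
  have hc : (cc : ℂ) ≠ 0 := Complex.ofReal_ne_zero.2 cc_pos.ne'
  have hq1 : (nr q : ℂ) ≠ 0 := Complex.ofReal_ne_zero.2 hq0.ne'
  have e1 : ((cc * (nr q)⁻¹ : ℝ) : ℂ) ^ (-(1 - s)) =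
      (cc : ℂ) ^ (s - 1) * ((nr q : ℂ) * (nr q : ℂ) ^ (-s)) := by
    rw [Complex.ofReal_mul, Complex.mul_cpow_ofReal_nonneg cc_pos.le (inv_pos.2 hq0).le, neg_sub,
      Complex.ofReal_inv, Complex.inv_cpow _ _ (by
        rw [Complex.arg_ofReal_of_nonneg hq0.le]; exact Real.pi_pos.ne), ← Complex.cpow_neg,
      show -(s - 1) = 1 + -s by ring, Complex.cpow_add _ _ hq1, Complex.cpow_one]
  have e2 : (cc : ℂ) ^ (2 * s - 1) = (cc : ℂ) ^ s * (cc : ℂ) ^ (s - 1) := by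
    rw [← Complex.cpow_add _ _ hc]; congr 1; ring
  rw [e1, e2, neg_sub]
  simp only [pair, smul_eq_mul, Complex.ofReal_inv]
  field_simp

/-! ## Row characters -/

theorem eq_of_eq_right {L L' : ℂ → ℂ} (h : DifferentiableOn ℂ L {1}ᶜ)
    (h' : DifferentiableOn ℂ L' {1}ᶜ) (he : ∀ s : ℂ, 1 < s.re → L s = L' s) {s : ℂ} (hs : s ≠ 1) :
    L s = L' s := by
  have ho : IsOpen ({1}ᶜ : Set ℂ) := isOpen_compl_singleton
  have hp : IsPreconnected ({1}ᶜ : Set ℂ) :=
    (isConnected_compl_singleton_of_one_lt_rank (by simp) (1 : ℂ)).isPreconnected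
  refine (h.analyticOnNhd ho).eqOn_of_preconnected_of_eventuallyEq (h'.analyticOnNhd ho) hp
    (z₀ := 2) (by norm_num) ?_ hs
  have : {s : ℂ | 1 < s.re} ∈ 𝓝 (2 : ℂ) :=
    (isOpen_lt continuous_const Complex.continuous_re).mem_nhds (by norm_num)
  filter_upwards [this] with s hs using he s hs

theorem eq_of_eq_right' {L L' : ℂ → ℂ} (h : Differentiable ℂ L) (h' : Differentiable ℂ L')
    (he : ∀ s : ℂ, 1 < s.re → L s = L' s) (s : ℂ) : L s = L' s := by
  refine (h.differentiableOn.analyticOnNhd isOpen_univ).eqOn_of_preconnected_of_eventuallyEq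
    (h'.differentiableOn.analyticOnNhd isOpen_univ) isPreconnected_univ
    (z₀ := 2) (mem_univ _) ?_ (mem_univ s)
  have : {s : ℂ | 1 < s.re} ∈ 𝓝 (2 : ℂ) :=
    (isOpen_lt continuous_const Complex.continuous_re).mem_nhds (by norm_num)
  filter_upwards [this] with s hs using he s hs

theorem IsL_unique {M : O} {ν : Chr M} {a : O} {L L' : ℂ → ℂ} (h : IsL ν a L) (h' : IsL ν a L')
    {s : ℂ} (hs : s ≠ 1 ∨ ¬ Princ ν a) : L s = L' s := by
  have he : ∀ s : ℂ, 1 < s.re → L s = L' s := fun s hs => (h.2.1 s hs).trans (h'.2.1 s hs).symm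
  rcases hs with hs | hs
  · exact eq_of_eq_right h.1 h'.1 he hs
  · exact eq_of_eq_right' (h.2.2 hs) (h'.2.2 hs) he s

theorem mul_rad_ne_zero {M : O} (hM : Adm M) (a : O) : M * rad a ≠ 0 :=
  mul_ne_zero hM.1 (primary_rad a).ne_zero

theorem rc_per {M : O} (hM : Adm M) (ν : Chr M) {a : O} (ha : a ≠ 0) :
    ∀ x y, M * rad a ∣ x - y → rc ν a x = rc ν a y := fun _ _ h => LBA.rc_periodic hM ν ha h

theorem avg_rc_eq_zero {M : O} (hM : Adm M) (ν : Chr M) {a : O} (ha : a ≠ 0) (h : ¬ Princ ν a) :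
    avg (M * rad a) (rc ν a) = 0 := by
  rw [avg, LBA.sum_rc_eq_zero hM ν ha h, zero_div]

theorem isL_Lf {M : O} (hM : Adm M) (ν : Chr M) {a : O} (ha : a ≠ 0) :
    IsL ν a (Lf (M * rad a) (rc ν a)) :=
  ⟨fun _ hs => (differentiableAt_Lf _ _ (Or.inl hs)).differentiableWithinAt,
    fun _ hs => Lf_eq_tsum (mul_rad_ne_zero hM a) (rc_per hM ν ha) hs,
    fun h _ => differentiableAt_Lf _ _ (Or.inr (avg_rc_eq_zero hM ν ha h))⟩

theorem isL_Lc {M : O} (hM : Adm M) (ν : Chr M) {a : O} (ha : a ≠ 0) : IsL ν a (Lc ν a) :=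
  Classical.epsilon_spec (p := IsL ν a) ⟨_, isL_Lf hM ν ha⟩

theorem Lc_eq_Lf {M : O} (hM : Adm M) (ν : Chr M) {a : O} (ha : a ≠ 0) {s : ℂ}
    (hs : s ≠ 1 ∨ ¬ Princ ν a) : Lc ν a s = Lf (M * rad a) (rc ν a) s :=
  IsL_unique (isL_Lc hM ν ha) (isL_Lf hM ν ha) hs

/-- `L(s) = c^s Γ(s)⁻¹ (Λ₀(s) + r/(s-1))`, with `Λ₀ = Lam0 ..` entire (`differentiable_Lam0`) and
bounded on vertical strips (`Lam0_bounded`). -/
theorem Lc_eq_Lam0 {M : O} (hM : Adm M) (ν : Chr M) {a : O} (ha : a ≠ 0) {s : ℂ}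
    (hs : s ≠ 1 ∨ ¬ Princ ν a) : Lc ν a s = (cc : ℂ) ^ s * (Complex.Gamma s)⁻¹ *
      (Lam0 (M * rad a) (rc ν a) s + avg (M * rad a) (rc ν a) / (s - 1)) := by
  rw [Lc_eq_Lf hM ν ha hs, Lf, LBA.rc_zero]
  ring

/-- The functional equation of the row L-function. -/
theorem Lc_fe {M : O} (hM : Adm M) (ν : Chr M) {a : O} (ha : a ≠ 0) {s : ℂ} (hs : s.re < 0) :
    Lc ν a s = (nr (M * rad a) : ℂ) ^ (-s) * (cc : ℂ) ^ (2 * s - 1) *
      (Complex.Gamma (1 - s) / Complex.Gamma s) *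
      ∑' h : O, ft (M * rad a) (rc ν a) h * (nr h : ℂ) ^ (s - 1) := by
  have h1 : s ≠ 1 := by rintro rfl; norm_num at hs
  rw [Lc_eq_Lf hM ν ha (Or.inl h1), Lf_fe (mul_rad_ne_zero hM a) (rc_per hM ν ha) hs]

theorem rc_princ {M : O} {ν : Chr M} {a : O} (h : Princ ν a) (n : O) :
    rc ν a n = 0 ∨ rc ν a n = 1 := by
  by_cases h1 : Primary n
  · by_cases h2 : IsCoprime n (M * a)
    · exact Or.inr (h n h1 h2)
    · exact Or.inl (LBA.rc_eq_zero ν h2)
  · exact Or.inl (LBA.rc_neg ν a h1)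

theorem avg_princ {M : O} (hM : Adm M) (ν : Chr M) {a : O} (ha : a ≠ 0) (h : Princ ν a) :
    ∃ κ : ℝ, 0 < κ ∧ κ ≤ 1 ∧ avg (M * rad a) (rc ν a) = κ := by
  classical
  have hq := mul_rad_ne_zero hM a
  have hq0 := nr_pos hq
  set S := (res (M * rad a)).filter fun x => rc ν a x = 1 with hS
  have e : ∑ x ∈ res (M * rad a), rc ν a x = (S.card : ℂ) := by
    rw [hS, Finset.card_filter]
    push_cast
    refine Finset.sum_congr rfl fun x _ => ?_
    rcases rc_princ h x with h1 | h1 <;> simp [h1]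
  obtain ⟨r, ⟨hr, hr'⟩, -⟩ := exists_unique_res hq 1
  have h1 : r ∈ S := Finset.mem_filter.2 ⟨hr, by rw [← rc_per hM ν ha 1 r hr', LBA.rc_one]⟩
  have h2 : (0 : ℝ) < S.card := Nat.cast_pos.2 (Finset.card_pos.2 ⟨r, h1⟩)
  refine ⟨S.card / nr (M * rad a), div_pos h2 hq0, ?_, ?_⟩
  · rw [div_le_one hq0, nr, ← card_res hq]
    exact Nat.cast_le.2 (Finset.card_filter_le _ _)
  · rw [avg, e]; push_cast; rfl

theorem princ_pole {M : O} (hM : Adm M) (ν : Chr M) {a : O} (ha : a ≠ 0) (h : Princ ν a) :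
    ∃ (κ : ℝ) (G : ℂ → ℂ), 0 < κ ∧ Differentiable ℂ G ∧ G 1 = κ ∧
      ∀ s, s ≠ 1 → G s = (s - 1) * Lc ν a s := by
  obtain ⟨κ, hκ, -, hκ'⟩ := avg_princ hM ν ha h
  refine ⟨cc * κ, GLf (M * rad a) (rc ν a), mul_pos cc_pos hκ, differentiable_GLf _ _, ?_,
    fun s hs => ?_⟩
  · rw [GLf_one, hκ']; push_cast; rfl
  · rw [GLf_eq _ _ hs, Lc_eq_Lf hM ν ha (Or.inl hs)]

theorem zeroFree_one : ZeroFree 1 := by
  intro M hM ν a ha s hs _ h0
  have h := LBA.Lser_mul_mob hM ν a hs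
  rw [← (isL_Lc hM ν ha).2.1 s hs, h0, zero_mul] at h
  exact zero_ne_one h

theorem zeroFree_iff_one (β : ℝ) : ZeroFree β ↔ ∀ (M : O), Adm M → ∀ (ψ : Chr M) (s : ℂ),
    β < s.re → (s ≠ 1 ∨ ¬ Princ ψ 1) → Lc ψ 1 s ≠ 0 := by
  refine ⟨fun h M hM ψ s => h M hM ψ 1 one_ne_zero s, fun h M hM ν a ha s hs hs' => ?_⟩
  obtain ⟨hM', ν', hν⟩ := LBA.exists_chr_row hM ν ha
  have hP : Princ ν' 1 ↔ Princ ν a := by
    unfold Princ
    rw [hν, mul_one]
  have hL : IsL ν' 1 = IsL ν a := by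
    ext L
    unfold IsL Lser
    rw [hP, hν]
  have hc : Lc ν' 1 = Lc ν a := by
    unfold Lc
    rw [hL]
  rw [← hc]
  exact h _ hM' ν' s hs (by rwa [hP])

end Crest.Agent.R17.LBB
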