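import Crest.Agent.R17.Defs

/-!
# Row 17, module M1: arithmetic of `O = ℤ[ω]` (part A: norms, units, primary elements,
factorisation, Möbius function, residue systems)
-/

set_option autoImplicit false

noncomputable section

namespace Crest.Agent.R17

open scoped ComplexConjugate

instance : Countable O := (QuadraticAlgebra.equivProd (-1 : ℤ) (-1)).countable_iff.2 inferInstance

/-! ## norms and units -/

section normsA
open QuadraticAlgebra

@[simp] theorem nm_one : nm 1 = 1 := by simp [nm]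
@[simp] theorem nm_zero : nm 0 = 0 := by simp [nm]
@[simp] theorem nm_neg (z : O) : nm (-z) = nm z := by simp [nm]
theorem nm_pow (z : O) (k : ℕ) : nm (z ^ k) = nm z ^ k := by
  induction k with
  | zero => simp
  | succ k ih => rw [pow_succ, nm_mul, ih, pow_succ]
theorem nm_prod {α : Type*} (s : Finset α) (f : α → O) : nm (∏ i ∈ s, f i) = ∏ i ∈ s, nm (f i) := by
  classical
  induction s using Finset.induction_on with
  | empty => simp
  | insert a s ha ih => rw [Finset.prod_insert ha, Finset.prod_insert ha, nm_mul, ih]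
theorem nr_mul (z w : O) : nr (z * w) = nr z * nr w := by
  simp only [nr, nm_mul, Nat.cast_mul]
theorem nr_pow (z : O) (k : ℕ) : nr (z ^ k) = nr z ^ k := by
  simp only [nr, nm_pow, Nat.cast_pow]
theorem one_le_nr {z : O} (hz : z ≠ 0) : 1 ≤ nr z := by
  have : nm z ≠ 0 := fun h => hz (nm_eq_zero.1 h)
  exact_mod_cast Nat.pos_of_ne_zero this
theorem nr_pos {z : O} (hz : z ≠ 0) : 0 < nr z := lt_of_lt_of_le one_pos (one_le_nr hz)
theorem nm_le_of_dvd {z w : O} (h : z ∣ w) (hw : w ≠ 0) : nm z ≤ nm w := by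
  obtain ⟨c, rfl⟩ := h
  have : nm (z * c) ≠ 0 := fun h => hw (nm_eq_zero.1 h)
  exact Nat.le_of_dvd (Nat.pos_of_ne_zero this) ⟨nm c, nm_mul z c⟩
theorem nm_dvd_of_dvd {z w : O} (h : z ∣ w) : nm z ∣ nm w := by
  obtain ⟨c, rfl⟩ := h
  exact ⟨nm c, nm_mul z c⟩
theorem nm_natCast (n : ℕ) : nm (n : O) = n ^ 2 := by
  apply Int.natCast_inj.mp
  rw [nm_cast]
  simp
theorem nm_lam : nm lam = 3 := by simp [nm, lam]
theorem lam_sq : lam ^ 2 = -3 := by
  ext <;> simp [lam, sq]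
theorem om_cube : om ^ 3 = 1 := by
  ext <;> simp [om, pow_succ]
theorem om_sq_add : om ^ 2 + om + 1 = 0 := by
  ext <;> simp [om, pow_succ]
/-- An element of norm one is a unit. -/
theorem BasicA.isUnit_of_nm {z : O} (h : nm z = 1) : IsUnit z :=
  IsUnit.of_mul_eq_one (cj z) (by rw [mul_cj, h, Nat.cast_one])
/-- A unit has norm one. -/
theorem BasicA.nm_of_isUnit {z : O} (h : IsUnit z) : nm z = 1 := by
  obtain ⟨w, hw⟩ := h.exists_right_inv
  have h1 : nm z * nm w = 1 := by rw [← nm_mul, hw, nm_one]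
  exact Nat.eq_one_of_mul_eq_one_right h1
/-- An element of prime norm is prime. -/
theorem BasicA.prime_of_nm {z : O} (h : (nm z).Prime) : Prime z := by
  refine Irreducible.prime ⟨fun hu => h.one_lt.ne' (BasicA.nm_of_isUnit hu), fun a b hab => ?_⟩
  have h1 : nm z = nm a * nm b := by rw [hab, nm_mul]
  rcases h.eq_one_or_self_of_dvd (nm a) ⟨_, h1⟩ with h2 | h2
  · exact Or.inl (BasicA.isUnit_of_nm h2)
  · refine Or.inr (BasicA.isUnit_of_nm ?_)
    rw [h2] at h1
    exact (Nat.mul_eq_left h.ne_zero).1 h1.symm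
/-- An element of even norm is even. -/
theorem BasicA.two_dvd_of_nm {z : O} (h : 2 ∣ nm z) : (2 : O) ∣ z := by
  have h1 : (2 : ℤ) ∣ z.re ^ 2 - z.re * z.im + z.im ^ 2 := by
    rw [← nm_cast]; exact_mod_cast h
  have h2 : (2 : ℤ) ∣ z.re ∧ (2 : ℤ) ∣ z.im := by
    rcases Int.even_or_odd' z.re with ⟨a, ha | ha⟩ <;>
      rcases Int.even_or_odd' z.im with ⟨b, hb | hb⟩ <;> rw [ha, hb] at h1 ⊢
    · exact ⟨⟨a, rfl⟩, ⟨b, rfl⟩⟩
    · exfalso
      have : (2 * a) ^ 2 - 2 * a * (2 * b + 1) + (2 * b + 1) ^ 2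
          = 2 * (2 * a ^ 2 - a * (2 * b + 1) + 2 * b ^ 2 + 2 * b) + 1 := by ring
      omega
    · exfalso
      have : (2 * a + 1) ^ 2 - (2 * a + 1) * (2 * b) + (2 * b) ^ 2
          = 2 * (2 * a ^ 2 + 2 * a - (2 * a + 1) * b + 2 * b ^ 2) + 1 := by ring
      omega
    · exfalso
      have : (2 * a + 1) ^ 2 - (2 * a + 1) * (2 * b + 1) + (2 * b + 1) ^ 2
          = 2 * (2 * a ^ 2 + a - 2 * a * b + 2 * b ^ 2 + b) + 1 := by ring
      omega
  obtain ⟨⟨a, ha⟩, ⟨b, hb⟩⟩ := h2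
  exact ⟨⟨a, b⟩, by ext <;> simp [ha, hb]⟩
theorem BasicA.nm_two : nm (2 : O) = 4 := by simp [nm]
theorem prime_lam : Prime lam := BasicA.prime_of_nm (by rw [nm_lam]; norm_num)
theorem prime_neg_two : Prime (-2 : O) := by
  have h4 : nm (-2 : O) = 4 := by rw [nm_neg, BasicA.nm_two]
  refine Irreducible.prime ⟨fun hu => ?_, fun a b hab => ?_⟩
  · have := BasicA.nm_of_isUnit hu
    omega
  · have h1 : nm a * nm b = 4 := by rw [← nm_mul, ← hab, h4]
    by_cases h2 : 2 ∣ nm a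
    · have h3 := nm_dvd_of_dvd (BasicA.two_dvd_of_nm h2)
      rw [BasicA.nm_two] at h3
      obtain ⟨c, hc⟩ := h3
      rw [hc, mul_assoc] at h1
      have h5 : c * nm b = 1 := by omega
      exact Or.inr (BasicA.isUnit_of_nm (Nat.eq_one_of_mul_eq_one_left h5))
    · have h3 : nm a ≤ 4 := Nat.le_of_dvd (by norm_num) ⟨_, h1.symm⟩
      refine Or.inl (BasicA.isUnit_of_nm ?_)
      interval_cases h : nm a <;> omega
theorem norm_ι_sq (z : O) : ‖ι z‖ ^ 2 = nr z := by
  have h : Real.sqrt 3 * Real.sqrt 3 = 3 := Real.mul_self_sqrt (by norm_num)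
  have h1 : nr z = (z.re : ℝ) ^ 2 - z.re * z.im + (z.im : ℝ) ^ 2 := by
    have := nm_cast z
    unfold nr
    exact_mod_cast this
  rw [h1, Complex.sq_norm, Complex.normSq_apply]
  simp [ι, omC]
  linear_combination ((z.im : ℝ) ^ 2 / 4) * h
theorem norm_ι (z : O) : ‖ι z‖ = Real.sqrt (nr z) := by
  rw [← norm_ι_sq, Real.sqrt_sq (norm_nonneg _)]
theorem ι_injective : Function.Injective ι := by
  rw [injective_iff_map_eq_zero]
  intro z hz
  have h := norm_ι_sq z
  rw [hz] at h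
  have h1 : (nm z : ℝ) = 0 := by simpa using h.symm
  exact nm_eq_zero.1 (by exact_mod_cast h1)
theorem ι_om : ι om = omC := by simp [ι, om]
theorem ι_cj (z : O) : ι (cj z) = conj (ι z) := by
  apply Complex.ext <;> simp [ι, cj, omC]
  ring
theorem isUnit_iff_nm {z : O} : IsUnit z ↔ nm z = 1 := ⟨BasicA.nm_of_isUnit, BasicA.isUnit_of_nm⟩
/-- The six units in coordinates. -/
theorem BasicA.unit_cases {u : O} (h : IsUnit u) :
    u = ⟨1, 0⟩ ∨ u = ⟨0, -1⟩ ∨ u = ⟨-1, -1⟩ ∨ u = ⟨-1, 0⟩ ∨ u = ⟨0, 1⟩ ∨ u = ⟨1, 1⟩ := by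
  have h1 : u.re ^ 2 - u.re * u.im + u.im ^ 2 = 1 := by
    rw [← nm_cast, BasicA.nm_of_isUnit h]; rfl
  obtain ⟨x, y⟩ := u
  simp only at h1
  have hx1 : x ≤ 1 := by nlinarith [sq_nonneg (x - 2 * y)]
  have hx2 : -1 ≤ x := by nlinarith [sq_nonneg (x - 2 * y)]
  have hy1 : y ≤ 1 := by nlinarith [sq_nonneg (2 * x - y)]
  have hy2 : -1 ≤ y := by nlinarith [sq_nonneg (2 * x - y)]
  interval_cases x <;> interval_cases y <;> simp at h1 ⊢
theorem isUnit_iff_pow {u : O} : IsUnit u ↔ ∃ k < 6, u = (-om) ^ k := by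
  constructor
  · intro h
    rcases BasicA.unit_cases h with rfl | rfl | rfl | rfl | rfl | rfl
    · exact ⟨0, by norm_num, by ext <;> simp⟩
    · exact ⟨1, by norm_num, by ext <;> simp [om]⟩
    · exact ⟨2, by norm_num, by ext <;> simp [om, pow_succ]⟩
    · exact ⟨3, by norm_num, by ext <;> simp [om, pow_succ]⟩
    · exact ⟨4, by norm_num, by ext <;> simp [om, pow_succ]⟩
    · exact ⟨5, by norm_num, by ext <;> simp [om, pow_succ]⟩
  · rintro ⟨k, -, rfl⟩
    exact (BasicA.isUnit_of_nm (by simp [nm, om])).pow k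
theorem norm_arg {n : O} (hn : n ≠ 0) : ‖arg n‖ = 1 := by
  have h : ι n ≠ 0 := fun h => hn (ι_injective (by rw [h, map_zero]))
  rw [arg, norm_div, Complex.norm_real, norm_norm, div_self (norm_ne_zero_iff.2 h)]
theorem arg_mul (m n : O) : arg (m * n) = arg m * arg n := by
  rw [arg, arg, arg, map_mul, norm_mul, Complex.ofReal_mul, mul_div_mul_comm]
theorem mem_ball {X : ℕ} {z : O} : z ∈ ball X ↔ nm z ≤ X := by
  simp only [ball, Finset.mem_filter, Finset.mem_image, Finset.mem_product, Finset.mem_Icc,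
    and_iff_right_iff_imp]
  intro h
  have h1 : z.re ^ 2 - z.re * z.im + z.im ^ 2 ≤ X := by
    rw [← nm_cast]; exact_mod_cast h
  have hX : (0 : ℤ) ≤ X := Int.natCast_nonneg X
  have key : ∀ t : ℤ, 3 * t ^ 2 ≤ 4 * X → -2 * (X : ℤ) ≤ t ∧ t ≤ 2 * X := by
    intro t ht
    constructor <;> nlinarith
  exact ⟨(z.re, z.im), ⟨key _ (by nlinarith [sq_nonneg (z.re - 2 * z.im)]),
    key _ (by nlinarith [sq_nonneg (2 * z.re - z.im)])⟩, rfl⟩
theorem card_ball_le (X : ℕ) : (ball X).card ≤ 7 * X + 1 := by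
  classical
  set s : ℕ := Nat.sqrt (4 * X / 3) with hs
  have hs1 : 3 * (s * s) ≤ 4 * X := by
    have := Nat.sqrt_le (4 * X / 3)
    rw [← hs] at this
    omega
  have hs2 : 4 * X < 3 * ((s + 1) * (s + 1)) := by
    have := Nat.lt_succ_sqrt (4 * X / 3)
    rw [← hs, Nat.succ_eq_add_one] at this
    omega
  have hs3 : s ≤ X := by nlinarith
  have key : ∀ t : ℤ, 3 * t ^ 2 ≤ 4 * X → -(s : ℤ) ≤ t ∧ t ≤ s := by
    intro t ht
    have h2 : (4 * X : ℤ) < 3 * ((s + 1) * (s + 1)) := by exact_mod_cast hs2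
    have h0 : (0 : ℤ) ≤ s := Int.natCast_nonneg s
    constructor <;> nlinarith
  set R : Finset (ℤ × ℤ) := Finset.Icc (1 : ℤ) s ×ˢ Finset.Icc (0 : ℤ) s with hR
  have hRc : R.card = s * (s + 1) := by
    rw [hR, Finset.card_product, Int.card_Icc, Int.card_Icc]
    congr 1 <;> omega
  have hsub : ball X ⊆ insert (0 : O) (R.image (fun v => (⟨v.1, v.2⟩ : O)) ∪
      R.image (fun v => (⟨-v.2, v.1 - v.2⟩ : O)) ∪ R.image (fun v => (⟨v.2 - v.1, -v.1⟩ : O))) := by
    rintro ⟨x, y⟩ hz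
    rw [mem_ball] at hz
    have h1 : x ^ 2 - x * y + y ^ 2 ≤ X := by
      have := nm_cast ⟨x, y⟩
      simp only at this
      rw [← this]; exact_mod_cast hz
    have hx := key x (by nlinarith [sq_nonneg (x - 2 * y)])
    have hy := key y (by nlinarith [sq_nonneg (2 * x - y)])
    have hxy := key (x - y) (by nlinarith [sq_nonneg (x + y)])
    simp only [hR, Finset.mem_insert, Finset.mem_union, Finset.mem_image, Finset.mem_product,
      Finset.mem_Icc]
    by_cases c1 : 1 ≤ x ∧ 0 ≤ y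
    · exact Or.inr (Or.inl (Or.inl ⟨(x, y), by dsimp only; omega, rfl⟩))
    by_cases c2 : x ≤ 0 ∧ x < y
    · exact Or.inr (Or.inl (Or.inr ⟨(y - x, -x), by dsimp only; omega, by ext <;> simp⟩))
    by_cases c3 : y ≤ -1 ∧ y ≤ x
    · exact Or.inr (Or.inr ⟨(-y, x - y), by dsimp only; omega, by ext <;> simp⟩)
    left
    ext
    · simp only [re_zero]; omega
    · simp only [im_zero]; omega
  have h1 := Finset.card_le_card hsub
  have h2 := Finset.card_insert_le (0 : O) (R.image (fun v => (⟨v.1, v.2⟩ : O)) ∪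
      R.image (fun v => (⟨-v.2, v.1 - v.2⟩ : O)) ∪ R.image (fun v => (⟨v.2 - v.1, -v.1⟩ : O)))
  have h3 := Finset.card_union_le (R.image (fun v => (⟨v.1, v.2⟩ : O)) ∪
      R.image (fun v => (⟨-v.2, v.1 - v.2⟩ : O))) (R.image (fun v => (⟨v.2 - v.1, -v.1⟩ : O)))
  have h4 := Finset.card_union_le (R.image (fun v => (⟨v.1, v.2⟩ : O)))
      (R.image (fun v => (⟨-v.2, v.1 - v.2⟩ : O)))
  have h5 : (R.image (fun v => (⟨v.1, v.2⟩ : O))).card ≤ R.card := Finset.card_image_le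
  have h6 : (R.image (fun v => (⟨-v.2, v.1 - v.2⟩ : O))).card ≤ R.card := Finset.card_image_le
  have h7 : (R.image (fun v => (⟨v.2 - v.1, -v.1⟩ : O))).card ≤ R.card := Finset.card_image_le
  rw [hRc, mul_add, mul_one] at h5 h6 h7
  omega

/-! ## primary elements -/

/-- Primary elements in coordinates. -/
theorem BasicA.primary_iff {n : O} : Primary n ↔ n.re % 3 = 1 ∧ n.im % 3 = 0 := by
  constructor
  · rintro ⟨c, hc⟩
    have h1 := congrArg QuadraticAlgebra.re hc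
    have h2 := congrArg QuadraticAlgebra.im hc
    simp at h1 h2
    omega
  · rintro ⟨h1, h2⟩
    refine ⟨⟨n.re / 3, n.im / 3⟩, ?_⟩
    ext <;> simp <;> omega
/-- Divisibility by `λ` in coordinates. -/
theorem BasicA.lam_dvd_iff {n : O} : lam ∣ n ↔ (n.re + n.im) % 3 = 0 := by
  constructor
  · rintro ⟨c, rfl⟩
    simp [lam]
    omega
  · intro h
    refine ⟨⟨n.re + 2 * (((n.re + n.im) / 3) - n.re), ((n.re + n.im) / 3) - n.re⟩, ?_⟩
    ext <;> simp [lam] <;> omega
theorem Primary.mul {m n : O} (hm : Primary m) (hn : Primary n) : Primary (m * n) := by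
  obtain ⟨a, ha⟩ := hm
  obtain ⟨b, hb⟩ := hn
  exact ⟨a * n + b, by linear_combination n * ha + hb⟩
theorem primary_one : Primary 1 := ⟨0, by simp⟩
theorem Primary.pow {m : O} (hm : Primary m) (k : ℕ) : Primary (m ^ k) := by
  induction k with
  | zero => simpa using primary_one
  | succ k ih => rw [pow_succ]; exact ih.mul hm
theorem Primary.prod {α : Type*} {s : Finset α} {f : α → O} (h : ∀ i ∈ s, Primary (f i)) :
    Primary (∏ i ∈ s, f i) :=
  Finset.prod_induction f Primary (fun _ _ => Primary.mul) primary_one h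
theorem Primary.of_mul {m n : O} (hm : Primary m) (hmn : Primary (m * n)) : Primary n := by
  obtain ⟨a, ha⟩ := hm
  obtain ⟨b, hb⟩ := hmn
  exact ⟨b - a * n, by linear_combination hb - n * ha⟩
theorem Primary.ne_zero {n : O} (hn : Primary n) : n ≠ 0 := by
  rintro rfl
  simpa using BasicA.primary_iff.1 hn
theorem Primary.not_lam_dvd {n : O} (hn : Primary n) : ¬ lam ∣ n := by
  rw [BasicA.lam_dvd_iff]
  have := BasicA.primary_iff.1 hn
  omega
theorem Primary.isCoprime_three {n : O} (hn : Primary n) : IsCoprime n 3 := by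
  obtain ⟨a, ha⟩ := hn
  exact ⟨1, -a, by linear_combination ha⟩
theorem BasicA.eq_one_of_isUnit {n : O} (hn : Primary n) (h : IsUnit n) : n = 1 := by
  have h1 := BasicA.primary_iff.1 hn
  rcases BasicA.unit_cases h with rfl | rfl | rfl | rfl | rfl | rfl
  · rfl
  all_goals simp at h1
theorem Primary.eq_of_associated {m n : O} (hm : Primary m) (hn : Primary n)
    (h : Associated m n) : m = n := by
  obtain ⟨u, rfl⟩ := h
  rw [BasicA.eq_one_of_isUnit (hm.of_mul hn) u.isUnit, mul_one]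
theorem Primary.eq_one_of_isUnit {n : O} (hn : Primary n) (h : IsUnit n) : n = 1 :=
  BasicA.eq_one_of_isUnit hn h
theorem exists_unit_primary {n : O} (hn : ¬ lam ∣ n) : ∃ u : O, IsUnit u ∧ Primary (u * n) := by
  rw [BasicA.lam_dvd_iff] at hn
  have hc : (n.re % 3 = 1 ∧ n.im % 3 = 0) ∨ (n.re % 3 = 2 ∧ n.im % 3 = 0) ∨
      (n.re % 3 = 0 ∧ n.im % 3 = 1) ∨ (n.re % 3 = 0 ∧ n.im % 3 = 2) ∨
      (n.re % 3 = 1 ∧ n.im % 3 = 1) ∨ (n.re % 3 = 2 ∧ n.im % 3 = 2) := by omega
  rcases hc with h | h | h | h | h | h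
  · exact ⟨⟨1, 0⟩, BasicA.isUnit_of_nm (by simp [nm]), BasicA.primary_iff.2 (by simp; omega)⟩
  · exact ⟨⟨-1, 0⟩, BasicA.isUnit_of_nm (by simp [nm]), BasicA.primary_iff.2 (by simp; omega)⟩
  · exact ⟨⟨-1, -1⟩, BasicA.isUnit_of_nm (by simp [nm]), BasicA.primary_iff.2 (by simp; omega)⟩
  · exact ⟨⟨1, 1⟩, BasicA.isUnit_of_nm (by simp [nm]), BasicA.primary_iff.2 (by simp; omega)⟩
  · exact ⟨⟨0, -1⟩, BasicA.isUnit_of_nm (by simp [nm]), BasicA.primary_iff.2 (by simp; omega)⟩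
  · exact ⟨⟨0, 1⟩, BasicA.isUnit_of_nm (by simp [nm]), BasicA.primary_iff.2 (by simp; omega)⟩
/-- Cubes of primary elements are `1` modulo `9`. -/
theorem Primary.nine_dvd_cube {n : O} (hn : Primary n) : (9 : O) ∣ n ^ 3 - 1 := by
  obtain ⟨a, ha⟩ := hn
  have h : n = 1 + 3 * a := by linear_combination ha
  exact ⟨a + 3 * a ^ 2 + 3 * a ^ 3, by rw [h]; ring⟩
/-- The sixth power of an element prime to `λ` is primary. -/
theorem primary_pow_six {n : O} (hn : ¬ lam ∣ n) : Primary (n ^ 6) := by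
  obtain ⟨u, hu, h⟩ := exists_unit_primary hn
  obtain ⟨k, -, rfl⟩ := isUnit_iff_pow.1 hu
  have h6 : ((-om) ^ k) ^ 6 = 1 := by
    rw [← pow_mul, mul_comm, pow_mul, show (-om) ^ 6 = (om ^ 3) ^ 2 by ring, om_cube, one_pow,
      one_pow]
  have := h.pow 6
  rwa [mul_pow, h6, one_mul] at this
/-- The norm of a primary element is `1` modulo `3`. -/
theorem BasicA.nm_primary_mod {n : O} (h : Primary n) : nm n % 3 = 1 := by
  obtain ⟨h1, h2⟩ := BasicA.primary_iff.1 h
  obtain ⟨a, ha⟩ : ∃ a, n.re = 3 * a + 1 := ⟨n.re / 3, by omega⟩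
  obtain ⟨b, hb⟩ : ∃ b, n.im = 3 * b := ⟨n.im / 3, by omega⟩
  have h3 : (nm n : ℤ) = 3 * (3 * a ^ 2 + 2 * a - (3 * a + 1) * b + 3 * b ^ 2) + 1 := by
    rw [nm_cast, ha, hb]; ring
  omega
/-- A primary prime has norm `≡ 1 (mod 3)`, and `≡ 1 (mod 6)`, `≥ 7` unless it is `-2`. -/
theorem nm_prime_mod {p : O} (hp : Prime p) (h : Primary p) : nm p % 3 = 1 :=
  BasicA.nm_primary_mod h
theorem nm_prime_mod_six {p : O} (hp : Prime p) (h : Primary p) (h2 : p ≠ -2) :
    nm p % 6 = 1 ∧ 7 ≤ nm p := by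
  have h3 := nm_prime_mod hp h
  have h4 : ¬ 2 ∣ nm p := by
    intro hd
    have h5 : (-2 : O) ∣ p := (neg_dvd).2 (BasicA.two_dvd_of_nm hd)
    have h6 : Primary (-2 : O) := ⟨-1, by ring⟩
    exact h2 (h6.eq_of_associated h
      (prime_neg_two.irreducible.associated_of_dvd hp.irreducible h5)).symm
  have h5 : nm p ≠ 1 := fun h1 => hp.not_isUnit (BasicA.isUnit_of_nm h1)
  omega

end normsA

/-! ## factorisation -/

theorem mem_pf {n p : O} (hn : n ≠ 0) : p ∈ pf n ↔ Prime p ∧ Primary p ∧ p ∣ n := by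
  classical
  rw [pf, Finset.mem_filter, mem_ball]
  exact ⟨fun h => h.2, fun h => ⟨nm_le_of_dvd h.2.2 hn, h⟩⟩
theorem BasicB.of_mem_pf {n p : O} (h : p ∈ pf n) : Prime p ∧ Primary p ∧ p ∣ n := by
  classical
  rw [pf, Finset.mem_filter] at h
  exact h.2
theorem BasicB.pf_sub {n p : O} (h : p ∈ pf n) : Prime p ∧ Primary p :=
  ⟨(BasicB.of_mem_pf h).1, (BasicB.of_mem_pf h).2.1⟩
theorem BasicB.pf_unit {u : O} (hu : IsUnit u) : pf u = ∅ :=
  Finset.eq_empty_of_forall_notMem fun _ h =>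
    (BasicB.of_mem_pf h).1.not_isUnit (isUnit_of_dvd_unit (BasicB.of_mem_pf h).2.2 hu)
@[simp] theorem pf_one : pf 1 = ∅ := BasicB.pf_unit isUnit_one
@[simp] theorem pf_zero : pf 0 = ∅ := by
  classical
  refine Finset.eq_empty_of_forall_notMem fun p h => ?_
  rw [pf, Finset.mem_filter, mem_ball, nm_zero, Nat.le_zero, nm_eq_zero] at h
  exact h.2.1.ne_zero h.1
theorem pf_mul {m n : O} (hm : m ≠ 0) (hn : n ≠ 0) : pf (m * n) = pf m ∪ pf n := by
  ext p
  rw [Finset.mem_union, mem_pf (mul_ne_zero hm hn), mem_pf hm, mem_pf hn, ← and_or_left,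
    ← and_or_left]
  exact and_congr_right fun hp => and_congr_right fun _ => hp.dvd_mul
theorem pf_pow {n : O} {k : ℕ} (hk : k ≠ 0) : pf (n ^ k) = pf n := by
  rcases eq_or_ne n 0 with rfl | hn
  · rw [zero_pow hk]
  ext p
  rw [mem_pf (pow_ne_zero k hn), mem_pf hn]
  exact and_congr_right fun hp => and_congr_right fun _ => hp.dvd_pow_iff_dvd hk
theorem BasicB.eq_of_dvd {p q : O} (hp : Prime p) (hq : Prime q) (hp' : Primary p)
    (hq' : Primary q) (h : p ∣ q) : p = q :=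
  hp'.eq_of_associated hq' (hp.associated_of_dvd hq h)
theorem pf_prime {p : O} (hp : Prime p) (h : Primary p) : pf p = {p} := by
  ext q
  rw [mem_pf hp.ne_zero, Finset.mem_singleton]
  exact ⟨fun hq => BasicB.eq_of_dvd hq.1 hp hq.2.1 h hq.2.2, fun hq => by rw [hq]; exact ⟨hp, h, dvd_rfl⟩⟩
theorem pf_unit_mul {u n : O} (hu : IsUnit u) : pf (u * n) = pf n := by
  rcases eq_or_ne n 0 with rfl | hn
  · rw [mul_zero]
  rw [pf_mul hu.ne_zero hn, BasicB.pf_unit hu, Finset.empty_union]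
theorem BasicB.pf_lam_pow (j : ℕ) : pf (lam ^ j) = ∅ :=
  Finset.eq_empty_of_forall_notMem fun _ h => by
    obtain ⟨h1, h2, h3⟩ := BasicB.of_mem_pf h
    exact h2.not_lam_dvd (h1.associated_of_dvd prime_lam (h1.dvd_of_dvd_pow h3)).symm.dvd
theorem disjoint_pf {m n : O} (h : IsCoprime m n) : Disjoint (pf m) (pf n) :=
  Finset.disjoint_left.2 fun _ h1 h2 => (BasicB.of_mem_pf h1).1.not_isUnit
    (h.isUnit_of_dvd' (BasicB.of_mem_pf h1).2.2 (BasicB.of_mem_pf h2).2.2)
theorem isCoprime_of_disjoint_pf {m n : O} (hm : Primary m) (hn : n ≠ 0)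
    (h : Disjoint (pf m) (pf n)) : IsCoprime m n := by
  refine isCoprime_of_prime_dvd (fun h0 => hn h0.2) fun p hp h1 h2 => ?_
  obtain ⟨u, hu, hup⟩ := exists_unit_primary (n := p) fun hl => hm.not_lam_dvd (hl.trans h1)
  have hp' : Prime (u * p) := (associated_unit_mul_right p u hu).prime hp
  exact Finset.disjoint_left.1 h
    ((mem_pf hm.ne_zero).2 ⟨hp', hup, (hu.mul_left_dvd).2 h1⟩)
    ((mem_pf hn).2 ⟨hp', hup, (hu.mul_left_dvd).2 h2⟩)
theorem pow_dvd_iff_le_vp {p n : O} (hp : Prime p) (hn : n ≠ 0) {k : ℕ} :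
    p ^ k ∣ n ↔ k ≤ vp p n :=
  (FiniteMultiplicity.of_prime_left hp hn).pow_dvd_iff_le_multiplicity
set_option linter.unusedVariables false in
theorem vp_eq_zero_iff {p n : O} (hp : Prime p) (hn : n ≠ 0) : vp p n = 0 ↔ ¬ p ∣ n :=
  multiplicity_eq_zero
theorem vp_mul {p m n : O} (hp : Prime p) (hm : m ≠ 0) (hn : n ≠ 0) :
    vp p (m * n) = vp p m + vp p n :=
  multiplicity_mul hp (FiniteMultiplicity.of_prime_left hp (mul_ne_zero hm hn))
theorem BasicB.vp_unit {p u : O} (hp : Prime p) (hu : IsUnit u) : vp p u = 0 :=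
  (vp_eq_zero_iff hp hu.ne_zero).2 fun h => hp.not_isUnit (isUnit_of_dvd_unit h hu)
theorem vp_pow {p n : O} (hp : Prime p) (hn : n ≠ 0) (k : ℕ) : vp p (n ^ k) = k * vp p n := by
  induction k with
  | zero => rw [pow_zero, BasicB.vp_unit hp isUnit_one, zero_mul]
  | succ k ih => rw [pow_succ, vp_mul hp (pow_ne_zero k hn) hn, ih, add_one_mul]
set_option linter.unusedVariables false in
theorem vp_self {p : O} (hp : Prime p) : vp p p = 1 := multiplicity_self
theorem vp_of_ne {p q : O} (hp : Prime p) (hq : Prime q) (hp' : Primary p) (hq' : Primary q)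
    (h : p ≠ q) : vp p q = 0 :=
  (vp_eq_zero_iff hp hq.ne_zero).2 fun hd => h (BasicB.eq_of_dvd hp hq hp' hq' hd)
theorem BasicB.primary_prod_pow {s : Finset O} (hs : ∀ q ∈ s, Prime q ∧ Primary q) (e : O → ℕ) :
    Primary (∏ q ∈ s, q ^ e q) := Primary.prod fun q hq => (hs q hq).2.pow _
theorem vp_prod_pow {s : Finset O} (hs : ∀ q ∈ s, Prime q ∧ Primary q) (e : O → ℕ) {p : O}
    (hp : Prime p) (hp' : Primary p) :
    vp p (∏ q ∈ s, q ^ e q) = if p ∈ s then e p else 0 := by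
  induction s using Finset.induction_on with
  | empty => rw [Finset.prod_empty, BasicB.vp_unit hp isUnit_one, if_neg (Finset.notMem_empty p)]
  | insert q s hq ih =>
    have hs' : ∀ r ∈ s, Prime r ∧ Primary r := fun r hr => hs r (Finset.mem_insert_of_mem hr)
    obtain ⟨h1, h2⟩ := hs q (Finset.mem_insert_self q s)
    rw [Finset.prod_insert hq, vp_mul hp (pow_ne_zero _ h1.ne_zero)
      (BasicB.primary_prod_pow hs' e).ne_zero, vp_pow hp h1.ne_zero, ih hs']
    by_cases h : p = q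
    · subst h
      rw [vp_self hp, if_neg hq, if_pos (Finset.mem_insert_self p s), mul_one, add_zero]
    · rw [vp_of_ne hp h1 hp' h2 h, mul_zero, zero_add]
      simp only [Finset.mem_insert, h, false_or]
theorem BasicB.mem_pf_iff {n p : O} (hn : n ≠ 0) (hp : Prime p) (hp' : Primary p) :
    p ∈ pf n ↔ vp p n ≠ 0 := by
  rw [mem_pf hn, Ne, vp_eq_zero_iff hp hn, not_not]
  exact ⟨fun h => h.2.2, fun h => ⟨hp, hp', h⟩⟩
theorem BasicB.vp_ne_zero {n p : O} (h : p ∈ pf n) : vp p n ≠ 0 :=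
  fun h0 => multiplicity_eq_zero.1 h0 (BasicB.of_mem_pf h).2.2
/-- Induction over primary elements. -/
theorem Primary.induction {P : O → Prop} (h1 : P 1)
    (hmul : ∀ p n, Prime p → Primary p → Primary n → P n → P (p * n)) {n : O} (hn : Primary n) :
    P n := by
  have key : ∀ a : O, ∀ u : O, IsUnit u → Primary (u * a) → P (u * a) := by
    intro a
    induction a using UniqueFactorizationMonoid.induction_on_prime with
    | h₁ => exact fun u _ h => absurd (mul_zero u) h.ne_zero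
    | h₂ x hx => exact fun u hu h => (h.eq_one_of_isUnit (hu.mul hx)).symm ▸ h1
    | h₃ a p _ hp ih =>
      intro u hu h
      obtain ⟨v, hv, hvp⟩ := exists_unit_primary (n := p) fun hl =>
        h.not_lam_dvd ((hl.mul_right a).mul_left u)
      obtain ⟨w, hw⟩ := hv.exists_right_inv
      have e : u * (p * a) = v * p * (u * w * a) := by linear_combination (-(u * p * a)) * hw
      rw [e] at h ⊢
      exact hmul _ _ ((associated_unit_mul_right p v hv).prime hp) hvp (hvp.of_mul h)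
        (ih _ (hu.mul (IsUnit.of_mul_eq_one_right v hw)) (hvp.of_mul h))
  have := key n 1 isUnit_one (by rwa [one_mul])
  rwa [one_mul] at this
theorem BasicB.prod_superset {n : O} (hn : n ≠ 0) {s : Finset O}
    (hs : ∀ q ∈ s, Prime q ∧ Primary q) (h : pf n ⊆ s) :
    ∏ p ∈ s, p ^ vp p n = ∏ p ∈ pf n, p ^ vp p n := by
  refine (Finset.prod_subset h fun p hp hp' => ?_).symm
  rw [BasicB.mem_pf_iff hn (hs p hp).1 (hs p hp).2, not_not] at hp'
  rw [hp', pow_zero]
theorem BasicB.prod_mul {m n : O} (hm : m ≠ 0) (hn : n ≠ 0) :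
    ∏ p ∈ pf (m * n), p ^ vp p (m * n) =
      (∏ p ∈ pf m, p ^ vp p m) * ∏ p ∈ pf n, p ^ vp p n := by
  have hs : ∀ q ∈ pf (m * n), Prime q ∧ Primary q := fun q => BasicB.pf_sub
  rw [← BasicB.prod_superset hm hs (pf_mul hm hn ▸ Finset.subset_union_left),
    ← BasicB.prod_superset hn hs (pf_mul hm hn ▸ Finset.subset_union_right),
    ← Finset.prod_mul_distrib]
  exact Finset.prod_congr rfl fun p hp => by rw [vp_mul (hs p hp).1 hm hn, pow_add]
theorem Primary.eq_prod {n : O} (hn : Primary n) : n = ∏ p ∈ pf n, p ^ vp p n := by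
  refine Primary.induction (P := fun n => n = ∏ p ∈ pf n, p ^ vp p n) (by simp)
    (fun p n hp hp' hn ih => ?_) hn
  rw [BasicB.prod_mul hp.ne_zero hn.ne_zero, ← ih, pf_prime hp hp', Finset.prod_singleton,
    vp_self hp, pow_one]
theorem exists_eq_unit_lam_primary {n : O} (hn : n ≠ 0) :
    ∃ (u : O) (j : ℕ), IsUnit u ∧ n = u * lam ^ j * ∏ p ∈ pf n, p ^ vp p n := by
  obtain ⟨c, hc, hc'⟩ :=
    (FiniteMultiplicity.of_prime_left prime_lam hn).exists_eq_pow_mul_and_not_dvd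
  obtain ⟨v, hv, hvc⟩ := exists_unit_primary hc'
  obtain ⟨w, hw⟩ := hv.exists_right_inv
  have hw' : IsUnit w := IsUnit.of_mul_eq_one_right v hw
  generalize multiplicity lam n = j at hc
  have e : n = w * lam ^ j * (v * c) := by rw [hc]; linear_combination (-(lam ^ j * c)) * hw
  refine ⟨w, j, hw', ?_⟩
  have h0 : w * lam ^ j ≠ 0 := mul_ne_zero hw'.ne_zero (pow_ne_zero j prime_lam.ne_zero)
  have h1 := BasicB.prod_mul h0 hvc.ne_zero
  rw [← e, pf_unit_mul hw', BasicB.pf_lam_pow, Finset.prod_empty, one_mul, ← hvc.eq_prod] at h1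
  rw [h1]
  exact e
theorem BasicB.prod_dvd {n : O} (hn : n ≠ 0) : ∏ p ∈ pf n, p ^ vp p n ∣ n := by
  obtain ⟨u, j, -, h⟩ := exists_eq_unit_lam_primary hn
  exact Dvd.intro_left _ h.symm
theorem Primary.ext_vp {m n : O} (hm : Primary m) (hn : Primary n)
    (h : ∀ p, Prime p → Primary p → vp p m = vp p n) : m = n := by
  have e : pf m = pf n := by
    ext p
    by_cases hp : Prime p ∧ Primary p
    · rw [BasicB.mem_pf_iff hm.ne_zero hp.1 hp.2, BasicB.mem_pf_iff hn.ne_zero hp.1 hp.2,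
        h p hp.1 hp.2]
    · exact iff_of_false (fun h => hp (BasicB.pf_sub h)) fun h => hp (BasicB.pf_sub h)
  rw [hm.eq_prod, hn.eq_prod.trans rfl, ← hm.eq_prod]
  conv_lhs => rw [hm.eq_prod, e]
  exact Finset.prod_congr rfl fun p hp => by
    rw [h p (BasicB.pf_sub hp).1 (BasicB.pf_sub hp).2]
theorem BasicB.vp_le_of_dvd {p m n : O} (hp : Prime p) (hn : n ≠ 0) (h : m ∣ n) :
    vp p m ≤ vp p n :=
  (pow_dvd_iff_le_vp hp hn).1 ((pow_multiplicity_dvd p m).trans h)
theorem Primary.dvd_iff_vp {m n : O} (hm : Primary m) (hn : n ≠ 0) :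
    m ∣ n ↔ ∀ p ∈ pf m, vp p m ≤ vp p n := by
  refine ⟨fun h p hp => BasicB.vp_le_of_dvd (BasicB.pf_sub hp).1 hn h, fun h => ?_⟩
  have hsub : pf m ⊆ pf n := fun p hp => by
    rw [BasicB.mem_pf_iff hn (BasicB.pf_sub hp).1 (BasicB.pf_sub hp).2]
    have h1 := BasicB.vp_ne_zero hp
    have h2 := h p hp
    omega
  calc m = ∏ p ∈ pf m, p ^ vp p m := hm.eq_prod
    _ ∣ ∏ p ∈ pf m, p ^ vp p n := Finset.prod_dvd_prod_of_dvd _ _ fun p hp => pow_dvd_pow p (h p hp)
    _ ∣ ∏ p ∈ pf n, p ^ vp p n := Finset.prod_dvd_prod_of_subset _ _ _ hsub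
    _ ∣ n := BasicB.prod_dvd hn
theorem squarefree_prod_primes {s : Finset O} (hs : ∀ q ∈ s, Prime q ∧ Primary q) :
    Squarefree (∏ q ∈ s, q) ∧ Primary (∏ q ∈ s, q) ∧ pf (∏ q ∈ s, q) = s := by
  have h1 : Primary (∏ q ∈ s, q) := Primary.prod fun q hq => (hs q hq).2
  refine ⟨Finset.squarefree_prod_of_pairwise_isCoprime (fun p hp q hq hpq => ?_)
    fun q hq => (hs q hq).1.squarefree, h1, ?_⟩
  · exact (hs p hp).1.irreducible.isRelPrime_iff_not_dvd.2 fun h =>
      hpq (BasicB.eq_of_dvd (hs p hp).1 (hs q hq).1 (hs p hp).2 (hs q hq).2 h)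
  · ext p
    rw [mem_pf h1.ne_zero]
    refine ⟨fun h => ?_, fun h => ⟨(hs p h).1, (hs p h).2, Finset.dvd_prod_of_mem _ h⟩⟩
    obtain ⟨q, hq, hpq⟩ := (h.1.dvd_finsetProd_iff _).1 h.2.2
    rwa [BasicB.eq_of_dvd h.1 (hs q hq).1 h.2.1 (hs q hq).2 hpq]
theorem BasicB.vp_le_one {n p : O} (h : Squarefree n) (hp : Prime p) : vp p n ≤ 1 := by
  by_contra h1
  have h2 := (pow_dvd_iff_le_vp hp h.ne_zero (k := 2)).2 (by omega)
  exact hp.not_isUnit (h p (by rwa [← sq]))
theorem BasicB.eq_rad {n : O} (hn : Primary n) (h : ∀ p ∈ pf n, vp p n = 1) : rad n = n := by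
  conv_rhs => rw [hn.eq_prod]
  exact Finset.prod_congr rfl fun p hp => by rw [h p hp, pow_one]
theorem squarefree_rad (n : O) : Squarefree (rad n) :=
  (squarefree_prod_primes fun _ => BasicB.pf_sub).1
theorem Primary.squarefree_iff {n : O} (hn : Primary n) :
    Squarefree n ↔ ∀ p ∈ pf n, vp p n = 1 := by
  refine ⟨fun h p hp => ?_, fun h => BasicB.eq_rad hn h ▸ squarefree_rad n⟩
  have h1 := BasicB.vp_le_one h (BasicB.pf_sub hp).1
  have h2 := BasicB.vp_ne_zero hp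
  omega
theorem Primary.eq_rad {n : O} (hn : Primary n) (h : Squarefree n) : rad n = n :=
  BasicB.eq_rad hn (hn.squarefree_iff.1 h)
theorem primary_rad (n : O) : Primary (rad n) :=
  (squarefree_prod_primes fun _ => BasicB.pf_sub).2.1
theorem pf_rad (n : O) : pf (rad n) = pf n :=
  (squarefree_prod_primes fun _ => BasicB.pf_sub).2.2
theorem BasicB.prod_dvd_of_subset {n : O} (hn : n ≠ 0) {s : Finset O} (h : s ⊆ pf n) :
    ∏ q ∈ s, q ∣ n :=
  (Finset.prod_dvd_prod_of_subset _ _ _ h).trans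
    ((Finset.prod_dvd_prod_of_dvd _ _ fun _ hp => dvd_pow_self _ (BasicB.vp_ne_zero hp)).trans
      (BasicB.prod_dvd hn))
theorem rad_dvd (n : O) : rad n ∣ n := by
  rcases eq_or_ne n 0 with rfl | hn
  · exact dvd_zero _
  · exact BasicB.prod_dvd_of_subset hn subset_rfl

/-- Theta indices: `μ = m d³`. -/
theorem sq1_cu {m d : O} (hm : Primary m) (hm' : Squarefree m) (hd : Primary d) :
    sq1 (m * d ^ 3) = m ∧ cu (m * d ^ 3) = d ∧ ∀ p ∈ pf (m * d ^ 3), vp p (m * d ^ 3) % 3 ≠ 2 := by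
  have hv : ∀ p, Prime p → vp p (m * d ^ 3) = vp p m + 3 * vp p d ∧ vp p m ≤ 1 := fun p hp =>
    ⟨by rw [vp_mul hp hm.ne_zero (pow_ne_zero 3 hd.ne_zero), vp_pow hp hd.ne_zero],
      BasicB.vp_le_one hm' hp⟩
  have hpf : pf (m * d ^ 3) = pf m ∪ pf d := by
    rw [pf_mul hm.ne_zero (pow_ne_zero 3 hd.ne_zero), pf_pow (by norm_num)]
  refine ⟨?_, ?_, fun p hp => ?_⟩
  · conv_rhs => rw [← hm.eq_rad hm']
    refine Finset.prod_congr ?_ fun _ _ => rfl
    ext p
    rw [Finset.mem_filter]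
    constructor
    · rintro ⟨h1, h2⟩
      obtain ⟨h3, h4⟩ := BasicB.pf_sub h1
      rw [BasicB.mem_pf_iff hm.ne_zero h3 h4]
      have := hv p h3
      omega
    · intro h1
      have h2 := hv p (BasicB.pf_sub h1).1
      have h3 := BasicB.vp_ne_zero h1
      exact ⟨hpf ▸ Finset.mem_union_left _ h1, by omega⟩
  · conv_rhs => rw [hd.eq_prod, ← BasicB.prod_superset (s := pf (m * d ^ 3)) hd.ne_zero
      (fun _ => BasicB.pf_sub) (hpf ▸ Finset.subset_union_right)]
    refine Finset.prod_congr rfl fun p hp => ?_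
    have := hv p (BasicB.pf_sub hp).1
    congr 1
    omega
  · have := hv p (BasicB.pf_sub hp).1
    omega
theorem BasicB.eq_mod_mul_div {n : O} (hn : Primary n) (k : ℕ) :
    n = (∏ p ∈ pf n, p ^ (vp p n % k)) * (∏ p ∈ pf n, p ^ (vp p n / k)) ^ k := by
  rw [← Finset.prod_pow, ← Finset.prod_mul_distrib]
  refine hn.eq_prod.trans (Finset.prod_congr rfl fun p _ => ?_)
  rw [← pow_mul, ← pow_add, Nat.mod_add_div']
theorem eq_sq1_mul_cu {n : O} (hn : Primary n) (h : ∀ p ∈ pf n, vp p n % 3 ≠ 2) :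
    n = sq1 n * cu n ^ 3 ∧ Primary (sq1 n) ∧ Squarefree (sq1 n) ∧ Primary (cu n) := by
  have h1 := squarefree_prod_primes (s := (pf n).filter fun p => vp p n % 3 = 1)
    fun q hq => BasicB.pf_sub (Finset.mem_filter.1 hq).1
  refine ⟨(BasicB.eq_mod_mul_div hn 3).trans ?_, h1.2.1, h1.1,
    BasicB.primary_prod_pow (fun _ => BasicB.pf_sub) _⟩
  congr 1
  rw [sq1, Finset.prod_filter]
  refine Finset.prod_congr rfl fun p hp => ?_
  have := h p hp
  split_ifs with h2
  · rw [h2, pow_one]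
  · rw [show vp p n % 3 = 0 by omega, pow_zero]

/-- Every primary element is `r c⁶` with `r` primary sixth-power free, `c` primary (uniquely). -/
theorem exists_sixth {a : O} (ha : Primary a) :
    ∃ r c : O, Primary r ∧ Primary c ∧ (∀ p ∈ pf r, vp p r < 6) ∧ a = r * c ^ 6 := by
  refine ⟨_, _, BasicB.primary_prod_pow (fun _ => BasicB.pf_sub) _,
    BasicB.primary_prod_pow (fun _ => BasicB.pf_sub) _, fun p hp => ?_,
    BasicB.eq_mod_mul_div ha 6⟩
  rw [vp_prod_pow (fun _ => BasicB.pf_sub) _ (BasicB.pf_sub hp).1 (BasicB.pf_sub hp).2]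
  split_ifs <;> omega

/-! ## primary divisors, gcd and the Möbius function -/

open Classical in
/-- The primary divisors of `n ≠ 0`. -/
def pdiv (n : O) : Finset O := (ball (nm n)).filter (fun d => Primary d ∧ d ∣ n)

theorem mem_pdiv {n d : O} (hn : n ≠ 0) : d ∈ pdiv n ↔ Primary d ∧ d ∣ n := by
  classical
  rw [pdiv, Finset.mem_filter, mem_ball]
  exact ⟨fun h => h.2, fun h => ⟨nm_le_of_dvd h.2 hn, h⟩⟩

/-- The primary gcd (prime-to-`λ` part of the gcd). -/
def pgcd (m n : O) : O := ∏ p ∈ pf m ∩ pf n, p ^ min (vp p m) (vp p n)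

theorem primary_pgcd (m n : O) : Primary (pgcd m n) :=
  BasicB.primary_prod_pow (fun _ h => BasicB.pf_sub (Finset.mem_inter.1 h).1) _
theorem BasicB.vp_pgcd {m n p : O} (hm : m ≠ 0) (hn : n ≠ 0) (hp : Prime p) (hp' : Primary p) :
    vp p (pgcd m n) = min (vp p m) (vp p n) := by
  rw [pgcd, vp_prod_pow (fun _ h => BasicB.pf_sub (Finset.mem_inter.1 h).1) _ hp hp']
  split_ifs with h
  · rfl
  · rw [Finset.mem_inter, BasicB.mem_pf_iff hm hp hp', BasicB.mem_pf_iff hn hp hp'] at h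
    omega
theorem dvd_pgcd_iff {m n d : O} (hm : m ≠ 0) (hn : n ≠ 0) (hd : Primary d) :
    d ∣ pgcd m n ↔ d ∣ m ∧ d ∣ n := by
  rw [hd.dvd_iff_vp (primary_pgcd m n).ne_zero, hd.dvd_iff_vp hm, hd.dvd_iff_vp hn,
    ← forall₂_and]
  exact forall₂_congr fun p hp => by
    rw [BasicB.vp_pgcd hm hn (BasicB.pf_sub hp).1 (BasicB.pf_sub hp).2, le_min_iff]
theorem pgcd_eq_one_iff {m n : O} (hm : Primary m) (hn : n ≠ 0) :
    pgcd m n = 1 ↔ IsCoprime m n := by
  constructor
  · intro h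
    refine isCoprime_of_disjoint_pf hm hn (Finset.disjoint_left.2 fun p h1 h2 => ?_)
    obtain ⟨h3, h4, h5⟩ := BasicB.of_mem_pf h1
    have := (dvd_pgcd_iff hm.ne_zero hn h4).2 ⟨h5, (BasicB.of_mem_pf h2).2.2⟩
    rw [h] at this
    exact h3.not_dvd_one this
  · intro h
    rw [pgcd, Finset.disjoint_iff_inter_eq_empty.1 (disjoint_pf h), Finset.prod_empty]
theorem pgcd_mul_left {g m n : O} (hg : Primary g) (hm : m ≠ 0) (hn : n ≠ 0) :
    pgcd (g * m) (g * n) = g * pgcd m n := by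
  refine (primary_pgcd _ _).ext_vp (hg.mul (primary_pgcd _ _)) fun p hp hp' => ?_
  rw [BasicB.vp_pgcd (mul_ne_zero hg.ne_zero hm) (mul_ne_zero hg.ne_zero hn) hp hp',
    vp_mul hp hg.ne_zero hm, vp_mul hp hg.ne_zero hn,
    vp_mul hp hg.ne_zero (primary_pgcd _ _).ne_zero, BasicB.vp_pgcd hm hn hp hp', min_add_add_left]

theorem BasicB.mu_of_squarefree {n : O} (h : Squarefree n) : mu n = (-1) ^ (pf n).card := if_pos h
theorem BasicB.mu_of_not {n : O} (h : ¬ Squarefree n) : mu n = 0 := if_neg h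
@[simp] theorem mu_one : mu 1 = 1 := by
  rw [BasicB.mu_of_squarefree squarefree_one, pf_one, Finset.card_empty, pow_zero]
theorem mu_prime {p : O} (hp : Prime p) (h : Primary p) : mu p = -1 := by
  rw [BasicB.mu_of_squarefree hp.squarefree, pf_prime hp h, Finset.card_singleton, pow_one]
theorem mu_mul {m n : O} (hm : Primary m) (hn : Primary n) (h : IsCoprime m n) :
    mu (m * n) = mu m * mu n := by
  by_cases h1 : Squarefree m
  · by_cases h2 : Squarefree n
    · rw [BasicB.mu_of_squarefree h1, BasicB.mu_of_squarefree h2,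
        BasicB.mu_of_squarefree (squarefree_mul_iff.2 ⟨h.isRelPrime, h1, h2⟩),
        pf_mul hm.ne_zero hn.ne_zero, Finset.card_union_of_disjoint (disjoint_pf h), pow_add]
    · rw [BasicB.mu_of_not h2, BasicB.mu_of_not fun h3 => h2 h3.of_mul_right, mul_zero]
  · rw [BasicB.mu_of_not h1, BasicB.mu_of_not fun h3 => h1 h3.of_mul_left, zero_mul]
theorem mu_mul_of_not_coprime {m n : O} (h : ¬ IsCoprime m n) : mu (m * n) = 0 :=
  BasicB.mu_of_not fun h1 => h (IsRelPrime.of_squarefree_mul h1).isCoprime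
theorem norm_mu_le (n : O) : ‖mu n‖ ≤ 1 := by
  by_cases h : Squarefree n
  · simp [BasicB.mu_of_squarefree h]
  · simp [BasicB.mu_of_not h]
theorem mu_sq {n : O} (h : Squarefree n) : mu n * mu n = 1 := by
  rw [BasicB.mu_of_squarefree h, ← mul_pow, neg_one_mul, neg_neg, one_pow]
theorem conj_mu (n : O) : conj (mu n) = mu n := by
  by_cases h : Squarefree n
  · simp [BasicB.mu_of_squarefree h]
  · simp [BasicB.mu_of_not h]
open Classical in
theorem sum_mu_pdiv {n : O} (hn : n ≠ 0) :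
    ∑ d ∈ pdiv n, mu d = if pf n = ∅ then 1 else 0 := by
  have h1 : ∑ d ∈ pdiv n, mu d = ∑ s ∈ (pf n).powerset, (-1 : ℂ) ^ s.card := by
    rw [← Finset.sum_filter_of_ne (p := Squarefree)
      fun d _ h => by_contra fun h' => h (BasicB.mu_of_not h')]
    refine Finset.sum_nbij' pf (fun s => ∏ q ∈ s, q) (fun d hd => ?_) (fun s hs => ?_)
      (fun d hd => ?_) (fun s hs => ?_) fun d hd => ?_
    · obtain ⟨h2, -⟩ := Finset.mem_filter.1 hd
      refine Finset.mem_powerset.2 fun p hp => ?_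
      obtain ⟨h3, h4, h5⟩ := BasicB.of_mem_pf hp
      exact (mem_pf hn).2 ⟨h3, h4, h5.trans ((mem_pdiv hn).1 h2).2⟩
    · have hs' := Finset.mem_powerset.1 hs
      have h2 := squarefree_prod_primes (s := s) fun q hq => BasicB.pf_sub (hs' hq)
      exact Finset.mem_filter.2
        ⟨(mem_pdiv hn).2 ⟨h2.2.1, BasicB.prod_dvd_of_subset hn hs'⟩, h2.1⟩
    · obtain ⟨h2, h3⟩ := Finset.mem_filter.1 hd
      exact ((mem_pdiv hn).1 h2).1.eq_rad h3
    · exact (squarefree_prod_primes fun q hq => BasicB.pf_sub (Finset.mem_powerset.1 hs hq)).2.2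
    · exact BasicB.mu_of_squarefree (Finset.mem_filter.1 hd).2
  have h2 := congrArg (Int.cast : ℤ → ℂ) (Finset.sum_powerset_neg_one_pow_card (x := pf n))
  push_cast at h2
  rw [h1, h2]
open Classical in
/-- Detecting coprimality. -/
theorem sum_mu_coprime {m n : O} (hm : Primary m) (hn : n ≠ 0) :
    ∑ d ∈ (pdiv m).filter (· ∣ n), mu d = if IsCoprime m n then 1 else 0 := by
  have hg := primary_pgcd m n
  have h1 : (pdiv m).filter (· ∣ n) = pdiv (pgcd m n) := by
    ext d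
    rw [Finset.mem_filter, mem_pdiv hm.ne_zero, mem_pdiv hg.ne_zero, and_assoc]
    exact and_congr_right fun hd => (dvd_pgcd_iff hm.ne_zero hn hd).symm
  rw [h1, sum_mu_pdiv hg.ne_zero]
  refine if_congr ?_ rfl rfl
  rw [← pgcd_eq_one_iff hm hn]
  refine ⟨fun h => ?_, fun h => by rw [h, pf_one]⟩
  rw [hg.eq_prod, h, Finset.prod_empty]

/-! ## residue systems -/

theorem rdiv_add_mul (a k : ℤ) {n : ℤ} (hn : n ≠ 0) : rdiv (a + n * k) n = rdiv a n + k := by
  unfold rdiv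
  have : 2 * (a + n * k) + n = 2 * a + n + 2 * n * k := by ring
  rw [this, Int.add_mul_ediv_left _ _ (by omega)]

theorem quo_add_mul {n : O} (hn : n ≠ 0) (x k : O) : quo (x + n * k) n = quo x n + k := by
  have hN : ((nm n : ℕ) : ℤ) ≠ 0 := by
    have : nm n ≠ 0 := fun h => hn (nm_eq_zero.1 h)
    omega
  have key : (x + n * k) * cj n = x * cj n + (nm n : O) * k := by
    rw [← mul_cj]; ring
  ext
  · have : ((x + n * k) * cj n).re = (x * cj n).re + (nm n : ℤ) * k.re := by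
      rw [key]; simp
    simp only [quo, this, rdiv_add_mul _ _ hN, QuadraticAlgebra.re_add]
  · have : ((x + n * k) * cj n).im = (x * cj n).im + (nm n : ℤ) * k.im := by
      rw [key]; simp
    simp only [quo, this, rdiv_add_mul _ _ hN, QuadraticAlgebra.im_add]

theorem mod_def (x n : O) : x % n = x - n * quo x n := rfl

theorem mod_congr {n : O} (hn : n ≠ 0) {x y : O} (h : n ∣ x - y) : x % n = y % n := by
  obtain ⟨k, hk⟩ := h
  have : x = y + n * k := by rw [← hk]; ring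
  rw [this, mod_def, mod_def, quo_add_mul hn]
  ring

theorem dvd_sub_mod' (x n : O) : n ∣ x - x % n := ⟨quo x n, by rw [mod_def]; ring⟩

theorem mem_res {n : O} (hn : n ≠ 0) {x : O} : x ∈ res n ↔ x % n = x := by
  classical
  unfold res
  rw [Finset.mem_filter, mem_ball]
  refine ⟨fun h => h.2, fun h => ⟨?_, h⟩⟩
  rw [← h]
  exact (nm_sub_mul_quo_lt x hn).le

theorem exists_unique_res_aux {n : O} (hn : n ≠ 0) (x : O) : ∃! r, r ∈ res n ∧ n ∣ x - r := by
  refine ⟨x % n, ⟨(mem_res hn).2 (mod_congr hn ?_), dvd_sub_mod' x n⟩, fun r hr => ?_⟩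
  · rw [← dvd_neg, neg_sub]
    exact dvd_sub_mod' x n
  · rw [mod_congr hn hr.2, (mem_res hn).1 hr.1]

theorem mk_eq_mk_iff {n x y : O} :
    Ideal.Quotient.mk (Ideal.span {n}) x = Ideal.Quotient.mk (Ideal.span {n}) y ↔ n ∣ x - y := by
  rw [Ideal.Quotient.eq, Ideal.mem_span_singleton]

theorem bijOn_res {n : O} {S : Finset O} (hS : ∀ x, ∃! r, r ∈ S ∧ n ∣ x - r) :
    Set.BijOn (Ideal.Quotient.mk (Ideal.span {n})) (S : Set O) Set.univ := by
  refine ⟨fun _ _ => Set.mem_univ _, fun x hx y hy h => ?_, fun q _ => ?_⟩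
  · exact (hS x).unique ⟨hx, by simp⟩ ⟨hy, mk_eq_mk_iff.1 h⟩
  · obtain ⟨x, rfl⟩ := Ideal.Quotient.mk_surjective q
    obtain ⟨r, ⟨hr, hr'⟩, -⟩ := hS x
    exact ⟨r, hr, (mk_eq_mk_iff.2 hr').symm⟩

theorem card_quot_aux (n : O) : Nat.card (O ⧸ Ideal.span {n}) = nm n := by
  have h1 := Ideal.absNorm_span_singleton n
  rw [Ideal.absNorm_apply, Submodule.cardQuot_apply] at h1
  rw [h1, Algebra.norm_apply]
  have h2 : (LinearMap.mul ℤ O n) = DistribSMul.toLinearMap ℤ O n := by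
    ext x <;> simp
  have h3 : LinearMap.det (Algebra.lmul ℤ O n) = (nm n : ℤ) := by
    have : (Algebra.lmul ℤ O n : O →ₗ[ℤ] O) = DistribSMul.toLinearMap ℤ O n := h2
    rw [this, QuadraticAlgebra.det_toLinearMap_eq_norm, nm_cast, QuadraticAlgebra.norm_def]
    ring
  rw [h3, Int.natAbs_natCast]

theorem card_res {n : O} (hn : n ≠ 0) : (res n).card = nm n := by
  rw [← card_quot_aux, ← Nat.card_univ, ← Nat.card_congr (bijOn_res (exists_unique_res_aux hn)).equiv]
  simp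
theorem exists_unique_res {n : O} (hn : n ≠ 0) (x : O) : ∃! r, r ∈ res n ∧ n ∣ x - r :=
  exists_unique_res_aux hn x

theorem sum_eq_of_systems {n : O} (f : O → ℂ) (hf : ∀ x y, n ∣ x - y → f x = f y)
    {S T : Finset O} (hS : ∀ x, ∃! r, r ∈ S ∧ n ∣ x - r) (hT : ∀ x, ∃! r, r ∈ T ∧ n ∣ x - r) :
    ∑ x ∈ S, f x = ∑ x ∈ T, f x := by
  refine Finset.sum_bij' (fun x _ => (hT x).choose) (fun x _ => (hS x).choose)
    (fun x _ => (hT x).choose_spec.1.1) (fun x _ => (hS x).choose_spec.1.1)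
    (fun x hx => ?_) (fun x hx => ?_) (fun x _ => hf _ _ (hT x).choose_spec.1.2)
  · refine ((hS _).choose_spec.2 x ⟨hx, ?_⟩).symm
    rw [← dvd_neg, neg_sub]
    exact (hT x).choose_spec.1.2
  · refine ((hT _).choose_spec.2 x ⟨hx, ?_⟩).symm
    rw [← dvd_neg, neg_sub]
    exact (hS x).choose_spec.1.2

/-- Any complete residue system computes the sum of a periodic function. -/
theorem sum_res_eq {n : O} (hn : n ≠ 0) (f : O → ℂ) (hf : ∀ x y, n ∣ x - y → f x = f y)
    (S : Finset O) (hS : ∀ x, ∃! r, r ∈ S ∧ n ∣ x - r) : ∑ x ∈ res n, f x = ∑ x ∈ S, f x :=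
  sum_eq_of_systems f hf (exists_unique_res hn) hS

/-- Parametrised complete residue systems. -/
theorem sum_res_param {n : O} (hn : n ≠ 0) (f : O → ℂ) (hf : ∀ x y, n ∣ x - y → f x = f y)
    {α : Type*} (s : Finset α) (g : α → O) (hg : ∀ x, ∃! a, a ∈ s ∧ n ∣ x - g a) :
    ∑ x ∈ res n, f x = ∑ a ∈ s, f (g a) := by
  classical
  have hinj : ∀ a ∈ s, ∀ b ∈ s, g a = g b → a = b := fun a ha b hb h =>
    (hg (g a)).unique ⟨ha, by simp⟩ ⟨hb, by rw [h]; simp⟩
  rw [← Finset.sum_image (f := f) (g := g) hinj]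
  refine sum_res_eq hn f hf _ fun x => ?_
  obtain ⟨a, ⟨ha, ha'⟩, hu⟩ := hg x
  refine ⟨g a, ⟨Finset.mem_image_of_mem _ ha, ha'⟩, ?_⟩
  rintro r ⟨hr, hr'⟩
  obtain ⟨b, hb, rfl⟩ := Finset.mem_image.1 hr
  rw [hu b ⟨hb, hr'⟩]

theorem sum_res_affine {n : O} (hn : n ≠ 0) (f : O → ℂ) (hf : ∀ x y, n ∣ x - y → f x = f y)
    {a : O} (ha : IsCoprime a n) (b : O) : ∑ x ∈ res n, f (a * x + b) = ∑ x ∈ res n, f x := by
  refine (sum_res_param hn f hf (res n) (fun x => a * x + b) fun x => ?_).symm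
  obtain ⟨u, v, huv⟩ := id ha
  obtain ⟨r, ⟨hr, k, hk⟩, hu⟩ := exists_unique_res hn (u * (x - b))
  refine ⟨r, ⟨hr, a * k + v * (x - b), ?_⟩, ?_⟩
  · linear_combination a * hk - (x - b) * huv
  · rintro r' ⟨hr', k', hk'⟩
    refine hu r' ⟨hr', u * k' - v * r', ?_⟩
    linear_combination u * hk' + r' * huv
/-- Chinese remainder theorem, additive form. -/
theorem sum_res_crt {m n : O} (hm : m ≠ 0) (hn : n ≠ 0) (h : IsCoprime m n) (f : O → ℂ)
    (hf : ∀ x y, m * n ∣ x - y → f x = f y) :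
    ∑ x ∈ res (m * n), f x = ∑ x ∈ res m, ∑ y ∈ res n, f (n * x + m * y) := by
  rw [← Finset.sum_product']
  refine sum_res_param (mul_ne_zero hm hn) f hf (res m ×ˢ res n)
    (fun z => n * z.1 + m * z.2) fun x => ?_
  obtain ⟨u, v, huv⟩ := id h
  obtain ⟨r, ⟨hr, k, hk⟩, hu⟩ := exists_unique_res hm (v * x)
  obtain ⟨s, ⟨hs, l, hl⟩, hu'⟩ := exists_unique_res hn (u * x)
  refine ⟨(r, s), ⟨Finset.mem_product.2 ⟨hr, hs⟩, k + l, ?_⟩, ?_⟩
  · linear_combination n * hk + m * hl - x * huv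
  · rintro ⟨r', s'⟩ ⟨hrs, k', hk'⟩
    obtain ⟨hr', hs'⟩ := Finset.mem_product.1 hrs
    simp only at hr' hs' hk'
    have e1 := hu r' ⟨hr', v * n * k' + v * s' - u * r', by linear_combination v * hk' + r' * huv⟩
    have e2 := hu' s' ⟨hs', u * m * k' + u * r' - v * s', by linear_combination u * hk' + s' * huv⟩
    rw [e1, e2]
/-- Lifting a sum to a multiple of the modulus. -/
theorem sum_res_mul {m n : O} (hm : m ≠ 0) (hn : n ≠ 0) (f : O → ℂ)
    (hf : ∀ x y, m * n ∣ x - y → f x = f y) :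
    ∑ x ∈ res (m * n), f x = ∑ x ∈ res m, ∑ y ∈ res n, f (x + m * y) := by
  rw [← Finset.sum_product']
  refine sum_res_param (mul_ne_zero hm hn) f hf (res m ×ˢ res n)
    (fun z => z.1 + m * z.2) fun x => ?_
  obtain ⟨r, ⟨hr, k, hk⟩, hu⟩ := exists_unique_res hm x
  obtain ⟨s, ⟨hs, l, hl⟩, hu'⟩ := exists_unique_res hn k
  refine ⟨(r, s), ⟨Finset.mem_product.2 ⟨hr, hs⟩, l, ?_⟩, ?_⟩
  · linear_combination hk + m * hl
  · rintro ⟨r', s'⟩ ⟨hrs, k', hk'⟩
    obtain ⟨hr', hs'⟩ := Finset.mem_product.1 hrs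
    simp only at hr' hs' hk'
    have e1 := hu r' ⟨hr', n * k' + s', by linear_combination hk'⟩
    subst e1
    have e2 := hu' s' ⟨hs', k', mul_left_cancel₀ hm (by linear_combination hk' - hk)⟩
    rw [e2]
theorem sum_res_assoc {m n : O} (hm : m ≠ 0) (h : Associated m n) (f : O → ℂ)
    (hf : ∀ x y, m ∣ x - y → f x = f y) : ∑ x ∈ res m, f x = ∑ x ∈ res n, f x := by
  have hn : n ≠ 0 := h.ne_zero_iff.1 hm
  refine sum_res_eq hm f hf _ fun x => ?_
  simp only [h.dvd_iff_dvd_left]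
  exact exists_unique_res hn x
instance finite_quot (n : O) [h : Fact (n ≠ 0)] : Finite (O ⧸ Ideal.span {n}) := by
  apply Nat.finite_of_card_ne_zero
  rw [card_quot_aux]
  exact fun h' => h.out (nm_eq_zero.1 h')
theorem card_quot {n : O} (hn : n ≠ 0) : Nat.card (O ⧸ Ideal.span {n}) = nm n := card_quot_aux n
theorem sum_res_eq_quot {n : O} (hn : n ≠ 0) [Fintype (O ⧸ Ideal.span {n})]
    (f : O ⧸ Ideal.span {n} → ℂ) :
    ∑ x ∈ res n, f (Ideal.Quotient.mk _ x) = ∑ y, f y := by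
  have hb := bijOn_res (exists_unique_res hn)
  refine Finset.sum_nbij (Ideal.Quotient.mk _) (fun _ _ => Finset.mem_univ _) hb.injOn ?_
    fun _ _ => rfl
  simpa using hb.surjOn

/-! ## the additive character -/

theorem eC_add (z w : ℂ) : eC (z + w) = eC z * eC w := by
  unfold eC
  rw [← Complex.exp_add]
  congr 1
  simp only [Complex.add_im]
  push_cast
  ring
@[simp] theorem eC_zero : eC 0 = 1 := by simp [eC]
theorem eC_eq (z : ℂ) :
    eC z = Complex.exp (((4 * Real.pi * z.im / Real.sqrt 3 : ℝ) : ℂ) * Complex.I) := by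
  unfold eC
  congr 1
  push_cast
  ring
theorem norm_eC (z : ℂ) : ‖eC z‖ = 1 := by
  rw [eC_eq, Complex.norm_exp_ofReal_mul_I]
theorem eC_neg (z : ℂ) : eC (-z) = conj (eC z) := by
  rw [eC_eq, eC_eq, ← Complex.exp_conj]
  congr 1
  simp only [map_mul, Complex.conj_ofReal, Complex.conj_I, Complex.neg_im]
  push_cast
  ring
theorem ι_im (x : O) : (ι x).im = x.im * (Real.sqrt 3 / 2) := by
  show ((x.re : ℂ) + (x.im : ℂ) * omC).im = _
  simp [omC]
theorem eC_ι_div (x : O) (N : ℝ) :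
    eC (ι x / N) = Complex.exp (2 * Real.pi * Complex.I * x.im / N) := by
  unfold eC
  congr 1
  rw [Complex.div_ofReal_im, ι_im]
  have h3 : ((Real.sqrt 3 : ℝ) : ℂ) ≠ 0 := by
    exact_mod_cast (Real.sqrt_pos.2 (by norm_num : (0 : ℝ) < 3)).ne'
  push_cast
  field_simp
  ring
theorem eC_ι (x : O) : eC (ι x) = 1 := by
  have := eC_ι_div x 1
  simp only [Complex.ofReal_one, div_one] at this
  rw [this, mul_comm]
  exact Complex.exp_int_mul_two_pi_mul_I _
theorem eq_add (x y n : O) : eq (x + y) n = eq x n * eq y n := by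
  unfold eq
  rw [map_add, add_div, eC_add]
theorem eq_congr {x y n : O} (h : n ∣ x - y) : eq x n = eq y n := by
  obtain ⟨k, hk⟩ := h
  have hx : x = y + n * k := by rw [← hk]; ring
  by_cases hn : n = 0
  · rw [hx, hn]; simp
  · have : ι n ≠ 0 := (map_ne_zero_iff ι ι_injective).2 hn
    rw [hx, eq_add]
    unfold eq
    rw [map_mul, mul_div_cancel_left₀ _ this, eC_ι, mul_one]
theorem eq_mul_mul {g : O} (hg : g ≠ 0) (x n : O) : eq (g * x) (g * n) = eq x n := by
  have : ι g ≠ 0 := (map_ne_zero_iff ι ι_injective).2 hg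
  unfold eq
  rw [map_mul, map_mul, mul_div_mul_left _ _ this]
theorem eq_neg (x n : O) : eq (-x) n = conj (eq x n) := by
  unfold eq
  rw [map_neg, neg_div, eC_neg]
theorem norm_eq (x n : O) : ‖eq x n‖ = 1 := norm_eC _
theorem eq_crt {m n : O} (hm : m ≠ 0) (hn : n ≠ 0) (x y : O) :
    eq (n * x + m * y) (m * n) = eq x m * eq y n := by
  rw [eq_add, eq_mul_mul hm, mul_comm m n, eq_mul_mul hn]
theorem eq_zero_left (n : O) : eq 0 n = 1 := by simp [eq]
theorem cj_ne_zero {n : O} (hn : n ≠ 0) : cj n ≠ 0 := by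
  intro h
  apply hn
  have h1 := congrArg QuadraticAlgebra.re h
  have h2 := congrArg QuadraticAlgebra.im h
  simp only [cj, QuadraticAlgebra.re_zero, QuadraticAlgebra.im_zero] at h1 h2
  ext
  · simp only [QuadraticAlgebra.re_zero]; omega
  · simp only [QuadraticAlgebra.im_zero]; omega
theorem eq_eq_exp {n : O} (hn : n ≠ 0) (x : O) :
    eq x n = Complex.exp (2 * Real.pi * Complex.I * (x * cj n).im / (nm n : ℕ)) := by
  rw [← eq_mul_mul (cj_ne_zero hn), mul_comm (cj n) n, mul_cj, mul_comm (cj n) x]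
  unfold eq
  have := eC_ι_div (x * cj n) (nm n : ℕ)
  rw [map_natCast]
  simpa using this
theorem eq_eq_one_iff {n : O} (hn : n ≠ 0) (x : O) :
    eq x n = 1 ↔ ((nm n : ℕ) : ℤ) ∣ (x * cj n).im := by
  have hN : nm n ≠ 0 := fun h => hn (nm_eq_zero.1 h)
  have hN' : ((nm n : ℕ) : ℂ) ≠ 0 := by exact_mod_cast hN
  rw [eq_eq_exp hn, Complex.exp_eq_one_iff]
  have hπ : (2 * Real.pi * Complex.I : ℂ) ≠ 0 := Complex.two_pi_I_ne_zero
  constructor
  · rintro ⟨k, hk⟩
    refine ⟨k, ?_⟩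
    have : (((x * cj n).im : ℤ) : ℂ) = (nm n : ℕ) * (k : ℂ) := by
      field_simp at hk
      linear_combination hk
    exact_mod_cast this
  · rintro ⟨k, hk⟩
    refine ⟨k, ?_⟩
    rw [hk]
    push_cast
    field_simp
theorem dvd_of_eq_eq_one {n k : O} (hn : n ≠ 0) (h1 : eq k n = 1) (h2 : eq (k * om) n = 1) :
    n ∣ k := by
  rw [eq_eq_one_iff hn] at h1 h2
  have e : (k * om * cj n).im = (k * cj n).re - (k * cj n).im := by
    rw [mul_right_comm]
    simp only [om, QuadraticAlgebra.im_mul (k * cj n)]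
    ring
  rw [e] at h2
  obtain ⟨b, hb⟩ := h1
  obtain ⟨a, ha⟩ := h2
  have : k * cj n = n * (⟨a + b, b⟩ : O) * cj n := by
    rw [mul_right_comm, mul_cj]
    ext
    · simp only [QuadraticAlgebra.re_mul (nm n : O), QuadraticAlgebra.re_natCast,
        QuadraticAlgebra.im_natCast]
      linear_combination ha + hb
    · simp only [QuadraticAlgebra.im_mul (nm n : O), QuadraticAlgebra.re_natCast,
        QuadraticAlgebra.im_natCast]
      linear_combination hb
  exact ⟨_, mul_right_cancel₀ (cj_ne_zero hn) this⟩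
open Classical in
/-- Orthogonality of additive characters. -/
theorem sum_res_eq_char {n : O} (hn : n ≠ 0) (k : O) :
    ∑ x ∈ res n, eq (k * x) n = if n ∣ k then (nm n : ℂ) else 0 := by
  split_ifs with h
  · rw [Finset.sum_congr rfl (g := fun _ => (1 : ℂ))]
    · simp [card_res hn]
    · intro x _
      rw [← eq_zero_left n]
      exact eq_congr (by simpa using h.mul_right x)
  · obtain ⟨y, hy⟩ : ∃ y, eq (k * y) n ≠ 1 := by
      by_contra hc
      push Not at hc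
      exact h (dvd_of_eq_eq_one hn (by simpa using hc 1) (hc om))
    have h1 := sum_res_affine hn (fun x => eq (k * x) n)
      (fun x y hxy => eq_congr (by rw [← mul_sub]; exact hxy.mul_left k)) isCoprime_one_left y
    simp only [one_mul, mul_add, eq_add, ← Finset.sum_mul] at h1
    exact eq_zero_of_mul_eq_self_right hy h1

/-! ## characters modulo `M` -/

theorem isUnit_mk_iff {M n : O} :
    IsUnit (Ideal.Quotient.mk (Ideal.span {M}) n) ↔ IsCoprime n M := by
  constructor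
  · intro h
    obtain ⟨q, hq⟩ := h.exists_left_inv
    obtain ⟨u, rfl⟩ := Ideal.Quotient.mk_surjective q
    rw [← map_mul, ← map_one (Ideal.Quotient.mk (Ideal.span {M})), mk_eq_mk_iff] at hq
    obtain ⟨k, hk⟩ := hq
    exact ⟨u, -k, by linear_combination hk⟩
  · rintro ⟨u, v, h⟩
    refine IsUnit.of_mul_eq_one_right (Ideal.Quotient.mk _ u) ?_
    rw [← map_mul, ← map_one (Ideal.Quotient.mk (Ideal.span {M})), mk_eq_mk_iff]
    exact ⟨-v, by linear_combination h⟩

theorem ev_mul {M : O} (ν : Chr M) (m n : O) : ev ν (m * n) = ev ν m * ev ν n := by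
  simp only [ev, map_mul]
theorem ev_one {M : O} (ν : Chr M) : ev ν 1 = 1 := by
  simp only [ev, map_one]
theorem ev_congr {M : O} (ν : Chr M) {m n : O} (h : M ∣ m - n) : ev ν m = ev ν n := by
  unfold ev
  rw [mk_eq_mk_iff.2 h]
theorem ev_eq_zero {M : O} (ν : Chr M) {n : O} (h : ¬ IsCoprime n M) : ev ν n = 0 :=
  ν.map_nonunit fun h' => h (isUnit_mk_iff.1 h')
theorem norm_mulChar_unit {R : Type*} [CommRing R] [Finite R] (χ : MulChar R ℂ) {a : R}
    (ha : IsUnit a) : ‖χ a‖ = 1 := by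
  obtain ⟨u, rfl⟩ := ha
  classical
  have : Fintype Rˣ := Fintype.ofFinite _
  have h1 : χ u ^ Fintype.card Rˣ = 1 := by
    rw [← map_pow, ← Units.val_pow_eq_pow_val, pow_card_eq_one, Units.val_one, map_one]
  exact Complex.norm_eq_one_of_pow_eq_one h1 Fintype.card_ne_zero
theorem norm_ev {M : O} (hM : M ≠ 0) (ν : Chr M) {n : O} (h : IsCoprime n M) : ‖ev ν n‖ = 1 := by
  have : Fact (M ≠ 0) := ⟨hM⟩
  exact norm_mulChar_unit ν (isUnit_mk_iff.2 h)
theorem norm_ev_le {M : O} (hM : M ≠ 0) (ν : Chr M) (n : O) : ‖ev ν n‖ ≤ 1 := by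
  by_cases h : IsCoprime n M
  · exact (norm_ev hM ν h).le
  · rw [ev_eq_zero ν h]; simp
theorem ev_inv {M : O} (hM : M ≠ 0) (ν : Chr M) (n : O) : ev ν⁻¹ n = conj (ev ν n) := by
  have : Fact (M ≠ 0) := ⟨hM⟩
  exact (MulChar.star_apply' ν _).symm
theorem ev_mul_chr {M : O} (ν ν' : Chr M) (n : O) : ev (ν * ν') n = ev ν n * ev ν' n :=
  MulChar.mul_apply ν ν' _
theorem finite_chr {M : O} (hM : M ≠ 0) : Finite (Chr M) := by
  have : Fact (M ≠ 0) := ⟨hM⟩
  infer_instance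
open Classical in
theorem sum_mulChar_apply {R : Type*} [CommRing R] [Finite R] [Fintype (MulChar R ℂ)] (a : R) :
    ∑ χ : MulChar R ℂ, χ a = if a = 1 then (Nat.card Rˣ : ℂ) else 0 := by
  have : NeZero ((Monoid.exponent Rˣ : ℕ) : ℂ) :=
    ⟨by exact_mod_cast Monoid.exponent_ne_zero_of_finite⟩
  split_ifs with ha
  · simp only [ha, map_one, Finset.sum_const, Finset.card_univ, nsmul_eq_mul, mul_one,
      ← Nat.card_eq_fintype_card]
    rw [MulChar.card_eq_card_units_of_hasEnoughRootsOfUnity R ℂ]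
  · obtain ⟨χ, hχ⟩ := MulChar.exists_apply_ne_one_of_hasEnoughRootsOfUnity R ℂ ha
    refine eq_zero_of_mul_eq_self_left hχ ?_
    simp only [Finset.mul_sum, ← MulChar.mul_apply]
    exact Fintype.sum_bijective _ (Group.mulLeft_bijective χ) _ _ fun χ' ↦ rfl
theorem exists_mulChar_expansion {R : Type*} [CommRing R] [Finite R] [Fintype (MulChar R ℂ)]
    (F : R → ℂ) (h1 : ∀ a, ‖F a‖ ≤ 1) (h0 : ∀ a, ¬ IsUnit a → F a = 0) :
    ∃ b : MulChar R ℂ → ℂ, (∀ χ, ‖b χ‖ ≤ 1) ∧ ∀ a, F a = ∑ χ, b χ * χ a := by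
  classical
  have : Fintype Rˣ := Fintype.ofFinite _
  have hc : (0 : ℝ) < Fintype.card Rˣ := by exact_mod_cast Fintype.card_pos
  have hc' : (Fintype.card Rˣ : ℂ) ≠ 0 := by exact_mod_cast Fintype.card_ne_zero
  refine ⟨fun χ => (Fintype.card Rˣ : ℂ)⁻¹ * ∑ u : Rˣ, F u * χ (u⁻¹ : Rˣ), fun χ => ?_,
    fun a => ?_⟩
  · rw [norm_mul, norm_inv, Complex.norm_natCast, inv_mul_le_iff₀ hc, mul_one]
    refine (norm_sum_le _ _).trans ?_
    calc ∑ u : Rˣ, ‖F u * χ (u⁻¹ : Rˣ)‖ ≤ ∑ _u : Rˣ, (1 : ℝ) := by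
          refine Finset.sum_le_sum fun u _ => ?_
          rw [norm_mul, norm_mulChar_unit χ (Units.isUnit _), mul_one]
          exact h1 _
      _ = _ := by simp
  · have e : ∑ χ : MulChar R ℂ, (Fintype.card Rˣ : ℂ)⁻¹ * (∑ u : Rˣ, F u * χ (u⁻¹ : Rˣ)) * χ a
        = (Fintype.card Rˣ : ℂ)⁻¹ * ∑ u : Rˣ, F u * ∑ χ : MulChar R ℂ, χ ((u⁻¹ : Rˣ) * a) := by
      simp only [Finset.mul_sum, Finset.sum_mul, map_mul]
      rw [Finset.sum_comm]
      refine Finset.sum_congr rfl fun u _ => Finset.sum_congr rfl fun χ _ => ?_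
      ring
    rw [e]
    simp only [sum_mulChar_apply, Units.inv_mul_eq_one, Nat.card_eq_fintype_card]
    by_cases ha : IsUnit a
    · obtain ⟨v, rfl⟩ := ha
      rw [Finset.sum_eq_single v]
      · simp only [if_true]
        field_simp
      · intro u _ hu
        rw [if_neg (fun h => hu (Units.ext h)), mul_zero]
      · simp
    · rw [h0 a ha, Finset.sum_eq_zero, mul_zero]
      intro u _
      rw [if_neg (fun h : (u : R) = a => ha (h ▸ u.isUnit)), mul_zero]
/-- Every bounded periodic function supported on the classes prime to `M` is a combination of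
characters with coefficients bounded by `1`. -/
theorem PerB.expand {M : O} (hM : M ≠ 0) [Fintype (Chr M)] {φ : O → ℂ} (h : PerB M φ) :
    ∃ b : Chr M → ℂ, (∀ ν, ‖b ν‖ ≤ 1) ∧ ∀ n, φ n = ∑ ν, b ν * ev ν n := by
  have : Fact (M ≠ 0) := ⟨hM⟩
  obtain ⟨h1, h2, h3⟩ := h
  choose s hs using (Ideal.Quotient.mk_surjective (I := Ideal.span {M}))
  obtain ⟨b, hb, hb'⟩ := exists_mulChar_expansion (R := O ⧸ Ideal.span {M}) (fun q => φ (s q))
    (fun q => h1 _) (fun q hq => h3 _ fun hc => hq (hs q ▸ isUnit_mk_iff.2 hc))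
  refine ⟨b, hb, fun n => ?_⟩
  have := hb' (Ideal.Quotient.mk _ n)
  rw [h2 _ n (mk_eq_mk_iff.1 (hs _))] at this
  exact this
/-- A multiplicative periodic function is a character. -/
theorem exists_chr {M : O} (f : O → ℂ) (h1 : f 1 = 1)
    (hmul : ∀ m n, IsCoprime m M → IsCoprime n M → f (m * n) = f m * f n)
    (hper : ∀ m n, IsCoprime m M → M ∣ m - n → f m = f n) :
    ∃ ν : Chr M, ∀ n, IsCoprime n M → ev ν n = f n := by
  classical
  choose s hs using (Ideal.Quotient.mk_surjective (I := Ideal.span {M}))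
  have hco : ∀ q, IsUnit q → IsCoprime (s q) M := fun q hq => isUnit_mk_iff.1 ((hs q).symm ▸ hq)
  have hval : ∀ n, IsCoprime n M → f (s (Ideal.Quotient.mk _ n)) = f n := fun n hn =>
    hper _ _ (hco _ (isUnit_mk_iff.2 hn)) (mk_eq_mk_iff.1 (hs _))
  refine ⟨⟨⟨⟨fun q => if IsUnit q then f (s q) else 0, ?_⟩, fun q q' => ?_⟩, fun q hq => ?_⟩,
    fun n hn => ?_⟩
  · rw [if_pos isUnit_one, ← map_one (Ideal.Quotient.mk (Ideal.span {M})),
      hval 1 isCoprime_one_left, h1]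
  · by_cases hq : IsUnit q
    · by_cases hq' : IsUnit q'
      · simp only [if_pos hq, if_pos hq', if_pos (hq.mul hq')]
        rw [← hmul _ _ (hco q hq) (hco q' hq'), ← hval _ ((hco q hq).mul_left (hco q' hq')),
          map_mul, hs, hs]
      · simp only [if_neg hq', mul_zero]
        exact if_neg fun h => hq' (isUnit_of_mul_isUnit_right h)
    · simp only [if_neg hq, zero_mul]
      exact if_neg fun h => hq (isUnit_of_mul_isUnit_left h)
  · exact if_neg hq
  · show (if IsUnit (Ideal.Quotient.mk (Ideal.span {M}) n) then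
      f (s (Ideal.Quotient.mk _ n)) else 0) = f n
    rw [if_pos (isUnit_mk_iff.2 hn), hval n hn]

end Crest.Agent.R17
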