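import Crest.Agent.R17.HSideF

/-!
# Row 17, module M15c: the dual side of the probe

Fix the primes `p_i` and `J`; `z = ∏_{i ∉ J} p_i`, `π = ∏_{i ∈ J} p_i`.  For fixed `(n, x)` apply
`poisson` with `q = M n x` to `a ↦ xiR(a) · ft (n x) f a`, `f(k) = χ_n(k) conj (gs 5 x k)`
(`ft_mul`, `ft_ft`): with `A' = A N n/(B N z)`,
`∑_a xiR(a) ft f(a) gw(N a/A') = (A'/N M) conj χ_n(M) χ_x(M) ∑_k ξ̂(k) f(-k) gw(A N k/(N M · B N z N x))`
(up to the exact placement of the signs), where `ξ̂ = ft M xiR` does not depend on `n, x` because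
`xiR` is invariant under primary units.  So the term is
`(A √(B N z)/(N M B N z)) ∑_k ξ̂(k) [∑_n 1_{z∣n} th(n) φ(n) χ_n(k) Wc(N n/(B N z), 1/2)]
 · [∑_x N x^{-1} χ_x(M) Rs(n,x) conj (gs 5 x (-k)) W(N x N π/X)] gw(…)`.
Split `x` in classes modulo `4` (or use `Rs_expand`), discard `k = 0` (only `n = 1`), the primes far
from the slot centres (`sum_cw_tail`), `N x ≥ X B^{ε'}/N π` and `N k ≥ K_J B^{ε'}`,
`K_J = B^{5/6}/P_J²`, `P_J = ∏_{i ∈ J} P_i`; separate `k, z, x` by `gw_eq_integral` with small `σ`.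
Sum over `z` inside (coefficients `c(z)`, dyadic pieces of `N z`; `prod_slot_eq`-type
parametrisation), sum over `π` outside (trivially: `≪ P_J` terms), Cauchy–Schwarz in `k`,
`energy` with `D = B`, `Z ≈ B^{1/6}/P_J`, `h₀ = 1` (the bracket is `≪ K_J B^{O(ε')}`: at `J = ∅` the
terms are `B^{5/6}, B^{5/6}, B^{2/3}, B^{5/6}`), and `gram` with `X_J = X/N π` (`X_J³ ≤ K_J²`,
`X_J²/K_J ≈ B^{1/8}`).  Total `≪ P_J · B · Z_J · X_J · B^{1/96} ≤ B^{1+1/96} B^{1/6} X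
= NrmB B · B^{7/8}` since `A^{1/6} = B^{13/96}`.
-/

set_option autoImplicit false

noncomputable section

namespace Crest.Agent.R17

open Finset HS in
theorem hside {M : O} (hM : Adm M) (ψ : Chr M) (K₀ : ℕ) (hK : 1 ≤ K₀) {ε : ℝ} (hε : 0 < ε) :
    ∃ C : ℝ, 0 < C ∧ ∀ B : ℝ, 1 ≤ B →
      ‖∑' a : O, xiR M a * Ia ψ K₀ B a‖ ≤ C * NrmB B * B ^ (7 / 8 + ε) := by
  classical
  obtain ⟨κ, S, φ, ν, θ, hφ, hθ, hd⟩ := dual_eq hM ψ
  obtain ⟨C₁, hC₁, h₁⟩ := piece hM (half_pos hε)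
  obtain ⟨C₂, hC₂, h₂⟩ := slots hM ψ hK
  obtain ⟨C₃, hC₃, h₃⟩ := dyadic_norm (half_pos hε)
  refine ⟨2 ^ K₀ * ((S.card + 1) * C₃ * (C₁ * C₂) * (8 * C₂)), by positivity, fun B hB => ?_⟩
  have hB0 : 0 < B := by linarith
  have hN0 : 0 < NrmB B := by unfold NrmB Apar Xpar; positivity
  have hne : ∀ p ∈ Fintype.piFinset (fun i : Fin K₀ => Pset M K₀ B i), ∀ I : Finset (Fin K₀),
      ∏ i ∈ I, p i ≠ 0 := fun p hp I => prod_ne_zero_iff.2 fun i _ =>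
    ((mem_Pset hB0).1 (Fintype.mem_piFinset.1 hp i)).1.ne_zero
  have e : ∑' a : O, xiR M a * Ia ψ K₀ B a = ∑ J : Finset (Fin K₀),
      ∑ p ∈ Fintype.piFinset (fun i : Fin K₀ => Pset M K₀ B i),
        (∏ i : Fin K₀, cw K₀ B i (p i)) * (∏ i ∈ Jᶜ, -(starRingEnd ℂ) (ev ψ (p i))) *
          ∑' a : O, xiR M a * Irow ψ B a (∏ i ∈ Jᶜ, p i) (∏ i ∈ J, p i) := by
    rw [sum_comm]
    simp only [← tsum_mul_left]
    have hs : ∀ p ∈ Fintype.piFinset (fun i : Fin K₀ => Pset M K₀ B i),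
        ∀ J : Finset (Fin K₀), Summable fun a : O =>
          (∏ i : Fin K₀, cw K₀ B i (p i)) * (∏ i ∈ Jᶜ, -(starRingEnd ℂ) (ev ψ (p i))) *
            (xiR M a * Irow ψ B a (∏ i ∈ Jᶜ, p i) (∏ i ∈ J, p i)) := fun p hp J =>
      (summable_row hM ψ hB0 (hne p hp _) (hne p hp _)).mul_left _
    rw [sum_congr rfl fun p hp => (Summable.tsum_finsetSum fun J _ => hs p hp J).symm,
      ← Summable.tsum_finsetSum fun p hp => summable_sum fun J _ => hs p hp J]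
    refine tsum_congr fun a => ?_
    rw [Ia, mul_sum]
    refine sum_congr rfl fun p _ => ?_
    rw [mul_sum]
    exact sum_congr rfl fun J _ => by ring
  rw [e]
  refine (norm_sum_le _ _).trans ((sum_le_card_nsmul _ _ ((S.card + 1) * C₃ * (C₁ * C₂) *
    (8 * C₂) * NrmB B * B ^ (7 / 8 + ε)) fun J _ => ?_).trans_eq ?_)
  swap
  · rw [card_univ, Fintype.card_finset, Fintype.card_fin, nsmul_eq_mul]
    push_cast
    ring
  obtain ⟨P, Q, π, w, Zs, c, hP, -, hπ, hZs, hZπ, hw, hc, hF⟩ := h₂ B J hB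
  have hP0 : 0 < P := by linarith
  rw [hF fun z π => ∑' a : O, xiR M a * Irow ψ B a z π]
  set Y := NrmB B * B ^ (7 / 8 : ℝ) / P with hY
  have hY0 : 0 < Y := by positivity
  have h5 : B ^ (5 / 24 : ℝ) ≤ B := Real.rpow_le_self_of_one_le hB (by norm_num)
  have key : ∀ q ∈ Q, ‖∑ z ∈ Zs, c z * ∑' a : O, xiR M a * Irow ψ B a z (π q)‖ ≤
      (S.card + 1) * (C₃ * B ^ (ε / 2) *
        (C₁ * C₂ * B ^ (ε / 2) * (nr (π q) / P + (nr (π q) / P)⁻¹) ^ 3 * Y)) := by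
    intro q hq
    have hq0 := nr_pos (hπ q hq).1
    rw [sum_congr rfl fun z hz => by
      rw [hd B z (π q) hB0 (hZs z hz).1.1.ne_zero (hπ q hq).1, mul_sum, mul_sum], sum_comm]
    refine (norm_sum_le _ _).trans ((sum_le_card_nsmul _ _ _ fun i _ =>
      h₃ B _ Zs _ hB (by positivity) (fun z hz => ⟨(hZs z hz).1.1.ne_zero, (hZs z hz).2.trans h5⟩)
        fun Z T hZ hT hT' hT'' => h₁ B P Z (nr (π q)) C₂ (φ i) (ν i) θ T c hB hP hZ
          (one_le_nr (hπ q hq).1) (hπ q hq).2 hC₂ (hφ i) hθ hT'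
          (fun z hz => ⟨(hZs z (hT hz)).1, (hZs z (hT hz)).2, hZπ q hq z (hT hz), hT'' z hz⟩)
          fun σ hσ z hz => hc σ hσ z (hT hz)).trans ?_)
    rw [nsmul_eq_mul]
    gcongr
    linarith
  have e4 := hw 3 (by norm_num)
  have e5 := hw (-3) (by norm_num)
  have e6 : ∑ q ∈ Q, ‖w q‖ * (nr (π q) / P + (nr (π q) / P)⁻¹) ^ 3 ≤ 8 * C₂ * P := by
    calc _ ≤ ∑ q ∈ Q, 4 * (‖w q‖ * (nr (π q) / P) ^ (3 : ℝ) +
          ‖w q‖ * (nr (π q) / P) ^ (-3 : ℝ)) := by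
          refine sum_le_sum fun q hq => ?_
          have := cube_le (div_pos (nr_pos (hπ q hq).1) hP0)
          nlinarith [norm_nonneg (w q)]
      _ ≤ _ := by rw [← mul_sum, sum_add_distrib]; linarith
  have e7 : B ^ (7 / 8 + ε) = B ^ (7 / 8 : ℝ) * (B ^ (ε / 2) * B ^ (ε / 2)) := by
    rw [← Real.rpow_add hB0, ← Real.rpow_add hB0, add_halves]
  calc _ ≤ ∑ q ∈ Q, (S.card + 1) * (C₃ * B ^ (ε / 2) * (C₁ * C₂ * B ^ (ε / 2) * Y)) *
        (‖w q‖ * (nr (π q) / P + (nr (π q) / P)⁻¹) ^ 3) := by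
        refine (norm_sum_le _ _).trans (sum_le_sum fun q hq => ?_)
        rw [norm_mul]
        refine (mul_le_mul_of_nonneg_left (key q hq) (norm_nonneg _)).trans_eq ?_
        ring
    _ ≤ (S.card + 1) * (C₃ * B ^ (ε / 2) * (C₁ * C₂ * B ^ (ε / 2) * Y)) * (8 * C₂ * P) := by
        rw [← mul_sum]; gcongr
    _ = _ := by rw [e7, hY]; field_simp

end Crest.Agent.R17
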