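import Crest.Agent.R17.LZeroAuxC

/-!
# Row 17, module M15e: the Mellin argument (`mellin_contra`)
-/

set_option autoImplicit false

noncomputable section

namespace Crest.Agent.R17.PrM

open MeasureTheory Filter Topology

/-- the averaged smooth sum -/
def fm (b bb : O → ℂ) (B : ℝ) : ℂ := ∑' j : O, bb j * Sm b (B / nr j) (1 / 6)

theorem term_le (A : ℝ) (hA : 0 ≤ A) : ∃ C : ℝ, 0 < C ∧ ∀ (b bb : O → ℂ), PolyB b 1 0 → bb 0 = 0 →
    ∀ B : ℝ, 0 < B → ∀ j : O, ‖bb j * Sm b (B / nr j) (1 / 6)‖ ≤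
      C * B ^ (1 + A) * (‖bb j‖ * nr j ^ (-(7 / 8) : ℝ)) := by
  obtain ⟨C, hC, h⟩ := tsum_norm_Sm_le A 0 1 le_rfl
  refine ⟨C, hC, fun b bb hb h0 B hB j => ?_⟩
  rcases eq_or_ne j 0 with rfl | hj
  · simp [h0]
  have hN := nr_pos hj
  have hX : 0 < B / nr j := div_pos hB hN
  have h1 := (norm_tsum_le_tsum_norm (summable_Sm hb hX (1 / 6))).trans
    (h b 1 _ (1 / 6) hb hX (by norm_num))
  rw [mul_one, zero_add, abs_of_nonneg hA] at h1
  have h2 : ‖Sm b (B / nr j) (1 / 6)‖ ≤ C * (B / nr j) ^ (1 + A) :=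
    h1.trans (mul_le_mul_of_nonneg_left (min_le_right _ _) hC.le)
  have h3 : (B / nr j) ^ (1 + A) ≤ B ^ (1 + A) * nr j ^ (-(7 / 8) : ℝ) := by
    rw [Real.div_rpow hB.le hN.le, div_eq_mul_inv, ← Real.rpow_neg hN.le]
    exact mul_le_mul_of_nonneg_left
      (Real.rpow_le_rpow_of_exponent_le (one_le_nr hj) (by linarith)) (by positivity)
  rw [norm_mul]
  calc ‖bb j‖ * ‖Sm b (B / nr j) (1 / 6)‖
      ≤ ‖bb j‖ * (C * (B ^ (1 + A) * nr j ^ (-(7 / 8) : ℝ))) :=
        mul_le_mul_of_nonneg_left (h2.trans (mul_le_mul_of_nonneg_left h3 hC.le)) (norm_nonneg _)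
    _ = _ := by ring

theorem continuousOn_Sm {b : O → ℂ} (hb : PolyB b 1 0) :
    ContinuousOn (fun X : ℝ => Sm b X (1 / 6)) (Set.Ioi 0) := by
  have h0 := LZC.continuous_Sm hb 0
  have h1 : ContinuousOn (fun X : ℝ => Real.log X + (1 / 6 : ℝ) / 2) (Set.Ioi 0) :=
    (Real.continuousOn_log.mono fun x hx => ne_of_gt hx).add continuousOn_const
  refine ((h0.comp_continuousOn h1).const_smul (Complex.exp (((1 / 6 : ℝ) : ℂ) ^ 2 / 4 +
    ((0 : ℝ) * Complex.I) * ((1 / 6 : ℝ) : ℂ) / 2))).congr fun X hX => ?_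
  have h2 := Sm_shift b hb.1 hX ((0 : ℝ) * Complex.I) (1 / 6)
  have e : ((0 : ℝ) * Complex.I + ((1 / 6 : ℝ) : ℂ) : ℂ) = 1 / 6 := by simp
  rw [e] at h2
  simp only [Function.comp, Pi.smul_apply, smul_eq_mul, Real.exp_add, Real.exp_log hX]
  exact h2

variable {b bb : O → ℂ}

theorem continuousOn_fm (hb : PolyB b 1 0) (h0 : bb 0 = 0)
    (hs : Summable fun j => ‖bb j‖ * nr j ^ (-(7 / 8) : ℝ)) :
    ContinuousOn (fm b bb) (Set.Ioi 0) := by
  obtain ⟨C, hC, h⟩ := term_le 0 le_rfl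
  intro x hx
  have hx0 : (0 : ℝ) < x := hx
  have h1 : ContinuousOn (fm b bb) (Set.Ioo 0 (x + 1)) := by
    refine continuousOn_tsum (u := fun j => C * (x + 1) * (‖bb j‖ * nr j ^ (-(7 / 8) : ℝ)))
      (fun j => ?_) (hs.mul_left _) fun j y hy => ?_
    · rcases eq_or_ne j 0 with rfl | hj
      · simpa [h0] using continuousOn_const
      · refine continuousOn_const.mul ((continuousOn_Sm hb).comp
          (continuous_id.div_const _).continuousOn fun y hy => ?_)
        exact div_pos hy.1 (nr_pos hj)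
    · refine (h b bb hb h0 y hy.1 j).trans ?_
      rw [add_zero, Real.rpow_one]
      have := hy.2.le
      gcongr
  exact (h1.continuousAt (Ioo_mem_nhds hx0 (lt_add_one x))).continuousWithinAt

theorem differentiableAt_mellin (hb : PolyB b 1 0) (h0 : bb 0 = 0)
    (hs : Summable fun j => ‖bb j‖ * nr j ^ (-(7 / 8) : ℝ)) {θ C B₀ : ℝ}
    (h : ∀ B ≥ B₀, ‖fm b bb B‖ ≤ C * B ^ θ) {z : ℂ} (hz : θ < z.re) :
    DifferentiableAt ℂ (fun z => mellin (fm b bb) (-z)) z := by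
  refine DifferentiableAt.comp z (g := mellin (fm b bb)) ?_ differentiable_neg.differentiableAt
  refine mellin_differentiableAt_of_isBigO_rpow (a := -θ) (b := -(1 + |z.re|))
    ((continuousOn_fm hb h0 hs).locallyIntegrableOn measurableSet_Ioi) ?_ (by simpa using hz) ?_
    (by rw [Complex.neg_re]; linarith [le_abs_self z.re])
  · refine Asymptotics.IsBigO.of_bound C ?_
    filter_upwards [eventually_ge_atTop B₀, eventually_gt_atTop 0] with X hX hX0
    rw [Real.norm_of_nonneg (by positivity), neg_neg]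
    exact h X hX
  · obtain ⟨C', hC', h'⟩ := term_le |z.re| (abs_nonneg _)
    refine Asymptotics.IsBigO.of_bound (C' * ∑' j, ‖bb j‖ * nr j ^ (-(7 / 8) : ℝ)) ?_
    filter_upwards [self_mem_nhdsWithin] with X hX
    have hX0 : 0 < X := hX
    rw [Real.norm_of_nonneg (by positivity), neg_neg]
    refine (tsum_of_norm_bounded (hs.mul_left (C' * X ^ (1 + |z.re|))).hasSum
      (h' b bb hb h0 X hX0)).trans_eq ?_
    rw [tsum_mul_left]
    ring

theorem mellin_exp (f : ℝ → ℂ) (s : ℂ) :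
    mellin f (-s) = ∫ w : ℝ, Complex.exp (-s * w) * f (Real.exp w) := by
  have h := integral_image_eq_integral_abs_deriv_smul (s := Set.univ) (f := Real.exp)
    (f' := Real.exp) MeasurableSet.univ (fun x _ => (Real.hasDerivAt_exp x).hasDerivWithinAt)
    Real.exp_injective.injOn (fun X : ℝ => (X : ℂ) ^ (-s - 1) • f X)
  rw [Set.image_univ, Real.range_exp, Measure.restrict_univ] at h
  rw [mellin, h]
  refine integral_congr_ae (Eventually.of_forall fun w => ?_)
  have h1 := LZC.cpow_eq (Real.exp_pos w) (s + 1)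
  rw [Real.log_exp, neg_add'] at h1
  simp only [h1, abs_of_pos (Real.exp_pos w), smul_eq_mul, Complex.real_smul]
  rw [Complex.ofReal_exp, ← mul_assoc, ← Complex.exp_add]
  congr 2
  ring

theorem integral_hc_ne (z : ℂ) : ∫ y, LZC.hc z y ≠ 0 := by
  rw [LZC.hc_eq, integral_cexp_quadratic (by simp) z 0]
  refine mul_ne_zero ?_ (Complex.exp_ne_zero _)
  simp [Real.pi_ne_zero]

theorem norm_coef_le (h0 : bb 0 = 0) {s : ℂ} (hs : 7 / 8 ≤ s.re) (j : O) :
    ‖bb j * (nr j : ℂ) ^ (-s)‖ ≤ ‖bb j‖ * nr j ^ (-(7 / 8) : ℝ) := by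
  rcases eq_or_ne j 0 with rfl | hj
  · simp [h0]
  · rw [norm_mul, Complex.norm_cpow_eq_rpow_re_of_pos (nr_pos hj), Complex.neg_re]
    exact mul_le_mul_of_nonneg_left
      (Real.rpow_le_rpow_of_exponent_le (one_le_nr hj) (by linarith)) (norm_nonneg _)

theorem mellin_fm (h0 : bb 0 = 0)
    (hs : Summable fun j => ‖bb j‖ * nr j ^ (-(7 / 8) : ℝ)) {s : ℂ} (hs' : 7 / 8 ≤ s.re)
    (hi : Integrable (LZC.Tt b s (1 / 6))) :
    mellin (fm b bb) (-s) =
      (∑' j : O, bb j * (nr j : ℂ) ^ (-s)) * ∫ w, LZC.Tt b s (1 / 6) w := by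
  have e : ∀ w : ℝ, Complex.exp (-s * w) * fm b bb (Real.exp w) =
      ∑' j : O, bb j * (nr j : ℂ) ^ (-s) * LZC.Tt b s (1 / 6) (w - Real.log (nr j)) := by
    intro w
    rw [fm, ← tsum_mul_left]
    refine tsum_congr fun j => ?_
    rcases eq_or_ne j 0 with rfl | hj
    · simp [h0]
    · rw [LZC.Tt, LZC.cpow_eq (nr_pos hj), Real.exp_sub, Real.exp_log (nr_pos hj)]
      have : Complex.exp (-s * w) = Complex.exp (-s * Real.log (nr j)) *
          Complex.exp (-s * ((w - Real.log (nr j) : ℝ) : ℂ)) := by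
        rw [← Complex.exp_add]
        congr 1
        push_cast
        ring
      rw [this]
      ring
  rw [mellin_exp]
  simp only [e]
  rw [← integral_tsum_of_summable_integral_norm, ← tsum_mul_right]
  · refine tsum_congr fun j => ?_
    rw [integral_const_mul, integral_sub_right_eq_self]
  · exact fun j => (hi.comp_sub_right _).const_mul _
  · refine Summable.of_nonneg_of_le (fun n => integral_nonneg fun _ => norm_nonneg _)
      (fun j => ?_) (hs.mul_right (∫ w, ‖LZC.Tt b s (1 / 6) w‖))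
    simp only [norm_mul (bb j * _)]
    rw [integral_const_mul, integral_sub_right_eq_self (fun w => ‖LZC.Tt b s (1 / 6) w‖)]
    exact mul_le_mul_of_nonneg_right (norm_coef_le h0 hs' j)
      (integral_nonneg fun _ => norm_nonneg _)

theorem differentiableOn_D (h0 : bb 0 = 0)
    (hs : Summable fun j => ‖bb j‖ * nr j ^ (-(7 / 8) : ℝ)) :
    DifferentiableOn ℂ (fun s : ℂ => ∑' j : O, bb j * (nr j : ℂ) ^ (-s)) {s | 7 / 8 < s.re} := by
  refine Complex.differentiableOn_tsum_of_summable_norm hs (fun j => ?_)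
    (isOpen_lt continuous_const Complex.continuous_re) fun j s hs => norm_coef_le h0 (le_of_lt hs) j
  rcases eq_or_ne j 0 with rfl | hj
  · simp [h0]
  · refine Differentiable.differentiableOn (Differentiable.const_mul ?_ _)
    exact differentiable_neg.const_cpow (Or.inl (Complex.ofReal_ne_zero.2 (nr_pos hj).ne'))

theorem main {M : O} (hM : Adm M) (ψ : Chr M) (h0 : bb 0 = 0)
    (hs : Summable fun j => ‖bb j‖ * nr j ^ (-(7 / 8) : ℝ)) {θ C B₀ : ℝ} (hθ : 7 / 8 ≤ θ)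
    (h : ∀ B ≥ B₀, ‖fm (fun n => mu n * rc ψ 1 n) bb B‖ ≤ C * B ^ θ) {G e : ℂ → ℂ}
    (hG : Differentiable ℂ G) (he : Differentiable ℂ e)
    (hGe : ∀ z : ℂ, 1 < z.re → G z = e z * Lser ψ 1 z) {s : ℂ} (hs' : θ < s.re) :
    mellin (fm (fun n => mu n * rc ψ 1 n) bb) (-s) * G s =
      e s * ((∑' j : O, bb j * (nr j : ℂ) ^ (-s)) * ∫ y, LZC.hc (s + 1 / 6) y) := by
  have hb := polyB_mu_rc hM ψ 1
  have hU : IsOpen {z : ℂ | θ < z.re} := isOpen_lt continuous_const Complex.continuous_re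
  have h1 : DifferentiableOn ℂ
      (fun z => mellin (fm (fun n => mu n * rc ψ 1 n) bb) (-z) * G z) {z : ℂ | θ < z.re} :=
    fun z hz => ((differentiableAt_mellin hb h0 hs h hz).mul (hG z)).differentiableWithinAt
  have h2 : DifferentiableOn ℂ (fun z => e z * ((∑' j : O, bb j * (nr j : ℂ) ^ (-z)) *
      ∫ y, LZC.hc (z + 1 / 6) y)) {z : ℂ | θ < z.re} :=
    he.differentiableOn.mul (((differentiableOn_D h0 hs).mono fun z hz => lt_of_le_of_lt hθ hz).mul
      (LZC.differentiable_integral_hc.comp (differentiable_id.add_const _)).differentiableOn)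
  have h3 : θ < (((θ + 1 : ℝ) : ℂ)).re := by simp
  refine (h1.analyticOnNhd hU).eqOn_of_preconnected_of_eventuallyEq (h2.analyticOnNhd hU)
    (convex_halfSpace_re_gt θ).isPreconnected h3 ?_ hs'
  have : ∀ᶠ z : ℂ in 𝓝 ((θ + 1 : ℝ) : ℂ), 1 < z.re :=
    (isOpen_lt continuous_const Complex.continuous_re).mem_nhds (by simp; linarith)
  filter_upwards [this] with z hz
  have h4 := Lser_mul_mob hM ψ 1 hz
  have h5 := LZC.integral_Tt hb hz (1 / 6)
  have hi : Integrable (LZC.Tt (fun n => mu n * rc ψ 1 n) z (1 / 6)) := by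
    refine Integrable.of_integral_ne_zero ?_
    rw [h5]
    exact mul_ne_zero (right_ne_zero_of_mul_eq_one h4) (integral_hc_ne _)
  rw [mellin_fm h0 hs (by linarith) hi, h5, hGe z hz]
  linear_combination (e z * (∑' j : O, bb j * (nr j : ℂ) ^ (-z)) *
    ∫ y, LZC.hc (z + 1 / 6) y) * h4

theorem contra {M : O} (hM : Adm M) (ψ : Chr M) (h0 : bb 0 = 0)
    (hs : Summable fun j => ‖bb j‖ * nr j ^ (-(7 / 8) : ℝ))
    (hne : ∀ s : ℂ, 7 / 8 < s.re → ∑' j : O, bb j * (nr j : ℂ) ^ (-s) ≠ 0) {θ C B₀ : ℝ}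
    (hθ : 7 / 8 ≤ θ) (h : ∀ B ≥ B₀, ‖fm (fun n => mu n * rc ψ 1 n) bb B‖ ≤ C * B ^ θ) {s : ℂ}
    (hs' : θ < s.re) (hs1 : s ≠ 1 ∨ ¬ Princ ψ 1) : Lc ψ 1 s ≠ 0 := by
  intro hL
  obtain ⟨-, h2, h3⟩ := isL_Lc hM ψ (one_ne_zero (α := O))
  have hD := mul_ne_zero (hne s (lt_of_le_of_lt hθ hs')) (integral_hc_ne (s + 1 / 6))
  by_cases hP : Princ ψ 1
  · have h1 : s ≠ 1 := hs1.resolve_right (not_not.2 hP)
    obtain ⟨κ, G, -, hG, -, hG'⟩ := princ_pole hM ψ one_ne_zero hP
    have key := main hM ψ h0 hs hθ h hG (e := fun z => z - 1) (differentiable_id.sub_const _)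
      (fun z hz => by
        rw [hG' z (by rintro rfl; simp at hz), h2 z hz]) hs'
    rw [hG' s h1, hL, mul_zero, mul_zero] at key
    exact mul_ne_zero (sub_ne_zero.2 h1) hD key.symm
  · have key := main hM ψ h0 hs hθ h (h3 hP) (e := fun _ => 1) (differentiable_const _)
      (fun z hz => by rw [h2 z hz, one_mul]) hs'
    rw [hL, mul_zero, one_mul] at key
    exact hD key.symm

end Crest.Agent.R17.PrM
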