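import Crest.Agent.R17.P3Main
import Crest.Agent.R17.PrincAuxM

/-!
# Row 17, module M15e: the principal rows `a = c⁶`, and the Mellin argument

The rows with `xiR a ≠ 0` and `Exc M a` are `a = c⁶`, `c` primary coprime to `M` (`c` unique).
`f₃(n, x, c) = cf ψ (c⁶) n x` is multiplicative in the triple (`cf_mul`, `cf_row_mul`).  As in
`RowB` (same operators `T_p`) write the slot factor as `F_p + Err'_p` (`Err'_p = X(1 - Y)` for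
`p ∤ c`, `Err'_p = -conj ψ(p) N p^s F^{mark} + Y F - F` for `p ∣ c`), so that the sum is
`∑_S ∏_{i ∉ S} (∑_p cw p) ∑_{p_S} ∏ cw ⟨f_{p_S}, Φ⟩`.  Deconvolve
`f = b₃ * (μ rc ψ 1 ⊗ rc 1 1 ⊗ rc 1 1)`; `∑ |b₃| N j₁^{-7/8} N j₂^{-θ} N j₃^{-θ} < ∞` for
`θ = 9/10` (local factor `(1-X)^{-1}(1-Y)(1-U) ∑_m F(6m) U^m = 1 + O(N p^{-1-δ})`; use
`F(6m) = 1 - (N p-1) X Y + O(N p^{-5/4})` for `m ≥ 1`, from `cf_ram_one_one` and the size lemmas at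
`|X| ≤ N p^{-7/8}`), and an error slot has local sum `O(N p^{-7/8})` (for `p ∣ c` one gains
`|U| = N p^{-θ}`).  The `x`-sum is `Pln 1 1 (X/N j₂) 0 = m (X/N j₂) Wm(1) + O((X/N j₂)^θ)`
(`Pln_exc`, `m ≠ 0`); the `c`-sum `∑_c rc 1 1 c · gw((N c N j₃)⁶/Y)`, `Y = A N n/B`, equals
`(1/2π)∫ Γ(u) (2π/√3)^{-u} Y^u N j₃^{-6u} Lc 1 1 (6u)` on `Re u = 1`; move to `Re u = θ/6`
(`princ_pole`, `Lc_growth`, `Contour.lean`): residue `κ' Y^{1/6}/N j₃`; the factor `(N n/B)^u` is a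
twist of the Möbius sum, bounded by `Mob_of_zeroFree`.  Main term: `S = ∅` and both residues;
`bb(j₁) = ∑_{j₂,j₃} b₃/(N j₂ N j₃)`, whose Dirichlet series is the Euler product of
`h_p(s) = (1-X)^{-1}(1-1/N p)² ∑_m F(6m) N p^{-m}`, and at `Y = U = 1/N p`
`∑_m F(6m) U^m = (N p+1)/(N p-1) - X (1 + 1/N p) + O(small) ≠ 0` for `N p ≥ 7`, `|X| ≤ N p^{-7/8}`.
Savings: `X^{-(1-θ)}`, `A^{-(1-θ)/6}`, `P_i^{-7/8} ≤ B^{-7/(64 K₀)}`.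
-/

set_option autoImplicit false

noncomputable section

namespace Crest.Agent.R17

/-- The averaged Möbius sum that appears in the main term. -/
def fmain {M : O} (ψ : Chr M) (bb : O → ℂ) (B : ℝ) : ℂ :=
  ∑' j : O, bb j * Mob ψ 1 (B / nr j) (1 / 6)

/-- Admissible coefficients. -/
def BB (bb : O → ℂ) : Prop :=
  bb 0 = 0 ∧ Summable (fun j => ‖bb j‖ * nr j ^ (-(7 / 8) : ℝ)) ∧
    ∀ s : ℂ, 7 / 8 < s.re → ∑' j : O, bb j * (nr j : ℂ) ^ (-s) ≠ 0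

open Classical in
theorem princ_rows (K₀ : ℕ) (hK : 1 ≤ K₀) : ∃ m : ℝ, 0 < m ∧ ∀ β : ℝ, 7 / 8 ≤ β → β ≤ 1 →
    ZeroFree β → ∀ {M : O}, Adm M → ∀ ψ : Chr M, ∃ (bb : O → ℂ) (κ : ℂ) (C : ℝ),
      BB bb ∧ κ ≠ 0 ∧ ∀ B : ℝ, 1 ≤ B →
        ‖∑' a : O, (if Exc M a then xiR M a * Ia ψ K₀ B a else 0) -
          κ * (Apar B ^ (1 / 6 : ℝ) * Xpar B : ℝ) * Pt M K₀ B * fmain ψ bb B‖ ≤
          C * NrmB B * B ^ (β - m) := by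
  obtain ⟨m, hm, h⟩ := P3.main_est K₀ hK
  refine ⟨m, hm, fun β hβ hβ1 hZ M hM ψ => ?_⟩
  obtain ⟨κ, C, hκ, h⟩ := h β hβ hβ1 hZ hM ψ
  exact ⟨P3.bbOf (P3.b3 ψ), κ, C,
    ⟨P3.bb_zero hM ψ, P3.bb_summable hM ψ, fun s hs => P3.bb_ne hM ψ hs⟩, hκ, h⟩

/-- `F(s) = ∫_0^∞ fmain(B) B^{-s-1} dB` is holomorphic for `Re s > θ` (`fmain(B) ≪ B^A` for
`B ≤ 1`, bounded on compact sets), and `F(s) Lser(s) = Wm(s + 1/6) ∑ bb(j) N j^{-s}` for `Re s > 1`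
(`mellin_Wc`, `Lser_mul_mob`); continue the identity to `{Re s > θ} ∖ {1}`. -/
theorem mellin_contra {M : O} (hM : Adm M) (ψ : Chr M) {bb : O → ℂ} (hb : BB bb) {θ C B₀ : ℝ}
    (hθ : 7 / 8 ≤ θ) (h : ∀ B ≥ B₀, ‖fmain ψ bb B‖ ≤ C * B ^ θ) {s : ℂ} (hs : θ < s.re)
    (hs1 : s ≠ 1 ∨ ¬ Princ ψ 1) : Lc ψ 1 s ≠ 0 :=
  PrM.contra hM ψ hb.1 hb.2.1 hb.2.2 hθ h hs hs1

end Crest.Agent.R17
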