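import Crest.Agent.R17.RowBAuxE

/-!
# Row 17, `RowB`, part F: the products of the local bounds
-/

set_option autoImplicit false

noncomputable section

namespace Crest.Agent.R17.RB

open scoped ComplexConjugate

theorem nr_eq_prod {n : O} (hn : Primary n) {s : Finset O} (hs : ∀ q ∈ s, Prime q ∧ Primary q)
    (h : pf n ⊆ s) : ∏ p ∈ s, nr p ^ vp p n = nr n := by
  have e := congrArg nr ((BasicB.prod_superset hn.ne_zero hs h).trans hn.eq_prod.symm)
  rw [nr, nm_prod, Nat.cast_prod] at e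
  rw [← e]
  exact Finset.prod_congr rfl fun p _ => (nr_pow p _).symm

theorem lin_le {δ : ℝ} (hδ : 0 < δ) : ∃ K : ℝ, 0 < K ∧ ∀ (v : ℕ) (y : ℝ), 2 ≤ y →
    9 * ((v : ℝ) + 2) ≤ K * (y ^ v) ^ δ := by
  have hl : 0 < δ * Real.log 2 := mul_pos hδ (Real.log_pos one_lt_two)
  refine ⟨9 * (2 + 1 / (δ * Real.log 2)), by positivity, fun v y hy => ?_⟩
  have h1 : 1 + v * (δ * Real.log 2) ≤ (y ^ v) ^ δ := by
    refine le_trans ?_ (Real.rpow_le_rpow (by positivity) (pow_le_pow_left₀ zero_le_two hy v) hδ.le)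
    rw [Real.rpow_def_of_pos (by positivity), Real.log_pow]
    have := Real.add_one_le_exp (v * Real.log 2 * δ)
    linarith
  have h2 : (v : ℝ) + 2 ≤ (2 + 1 / (δ * Real.log 2)) * (1 + v * (δ * Real.log 2)) := by
    have : (2 + 1 / (δ * Real.log 2)) * (1 + v * (δ * Real.log 2)) =
        v + 2 + (1 / (δ * Real.log 2) + 2 * (v * (δ * Real.log 2))) := by
      have := (Real.log_pos one_lt_two).ne'
      field_simp
      ring
    rw [this]
    exact le_add_of_nonneg_right (by positivity)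
  rw [mul_assoc]
  exact mul_le_mul_of_nonneg_left
    (h2.trans (mul_le_mul_of_nonneg_left h1 (by positivity))) (by norm_num)

theorem prod_lin_le {η : ℝ} (hη : 0 < η) : ∃ C : ℝ, 0 < C ∧ ∀ a : O, Primary a →
    ∏ p ∈ pf a, 9 * ((vp p a : ℝ) + 2) ≤ C * nr a ^ η := by
  obtain ⟨K, hK, h⟩ := lin_le (half_pos hη)
  obtain ⟨C, hC, h'⟩ := pow_card_pf_le (half_pos hη) K
  refine ⟨C, hC, fun a ha => ?_⟩
  have h0 := nr_pos ha.ne_zero
  calc _ ≤ ∏ p ∈ pf a, K * (nr p ^ vp p a) ^ (η / 2) :=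
        Finset.prod_le_prod (fun p _ => by positivity) fun p hp => h _ _ (by
          exact_mod_cast CountAux.two_le_nm (BasicB.pf_sub hp).1)
    _ = K ^ (pf a).card * nr a ^ (η / 2) := by
        rw [Finset.prod_mul_distrib, Finset.prod_const,
          Real.finsetProd_rpow _ _ fun p _ => by positivity,
          nr_eq_prod ha (fun p hp => BasicB.pf_sub hp) le_rfl]
    _ ≤ C * nr a ^ (η / 2) * nr a ^ (η / 2) := by gcongr; exact h' a ha.ne_zero
    _ = _ := by rw [mul_assoc, ← Real.rpow_add h0, add_halves]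

/-- The local bound at the primes of the row. -/
def b1 (σ : ℝ) (a p : O) : ℝ := 9 * (vp p a + 2) * nr p ^ (vp p a / 6 : ℕ) *
  nr p ^ (((vp p a % 6 - 1 : ℕ) : ℝ) * (σ - 1 / 2))

theorem b1_nonneg (σ : ℝ) (a p : O) : 0 ≤ b1 σ a p := by unfold b1; positivity

theorem prod_b1_le {η : ℝ} (hη : 0 < η) : ∃ C : ℝ, 0 < C ∧ ∀ (r c : O) (σ : ℝ), Primary r →
    Primary c → (∀ p ∈ pf r, vp p r < 6) →
    (∏ p ∈ pf (r * c ^ 6), b1 σ (r * c ^ 6) p) * (∏ p ∈ pf r, nr p) ^ (σ - 1 / 2) ≤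
      C * nr (r * c ^ 6) ^ η * nr c * nr r ^ (σ - 1 / 2) := by
  classical
  obtain ⟨C, hC, h⟩ := prod_lin_le hη
  refine ⟨C, hC, fun r c σ hr hc h6 => ?_⟩
  have hpf : pf (r * c ^ 6) = pf r ∪ pf c := by
    rw [pf_mul hr.ne_zero (hc.pow 6).ne_zero, pf_pow (by norm_num)]
  have hP : ∀ p ∈ pf (r * c ^ 6), Prime p ∧ Primary p := fun p hp => BasicB.pf_sub hp
  have hv : ∀ p ∈ pf (r * c ^ 6),
      vp p (r * c ^ 6) / 6 = vp p c ∧ vp p (r * c ^ 6) % 6 = vp p r := fun p hp => by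
    obtain ⟨h1, h2⟩ := hP p hp
    have : vp p r < 6 := by
      by_cases h0 : vp p r = 0
      · omega
      · exact h6 p ((BasicB.mem_pf_iff hr.ne_zero h1 h2).2 h0)
    rw [vp_mul h1 hr.ne_zero (hc.pow 6).ne_zero, vp_pow h1 hc.ne_zero]
    omega
  have e1 : ∏ p ∈ pf (r * c ^ 6), nr p ^ (vp p (r * c ^ 6) / 6 : ℕ) = nr c := by
    rw [← nr_eq_prod hc hP (hpf ▸ Finset.subset_union_right)]
    exact Finset.prod_congr rfl fun p hp => by rw [(hv p hp).1]
  have e2 : (∏ p ∈ pf (r * c ^ 6), nr p ^ (((vp p (r * c ^ 6) % 6 - 1 : ℕ) : ℝ) * (σ - 1 / 2))) *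
      (∏ p ∈ pf r, nr p) ^ (σ - 1 / 2) = nr r ^ (σ - 1 / 2) := by
    have e3 : ∏ p ∈ pf (r * c ^ 6), nr p ^ (((vp p (r * c ^ 6) % 6 - 1 : ℕ) : ℝ) * (σ - 1 / 2)) =
        (∏ p ∈ pf r, nr p ^ (vp p r - 1)) ^ (σ - 1 / 2) := by
      rw [← Real.finsetProd_rpow _ _ fun p _ => pow_nonneg (Nat.cast_nonneg _) _]
      refine (Finset.prod_congr rfl fun p hp => ?_).trans (Finset.prod_subset
        (hpf ▸ Finset.subset_union_left : pf r ⊆ pf (r * c ^ 6)) fun p hp hp' => ?_).symm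
      · rw [(hv p hp).2, Real.rpow_natCast_mul (Nat.cast_nonneg _)]
      · have : vp p r = 0 := by
          by_contra h0
          exact hp' ((BasicB.mem_pf_iff hr.ne_zero (hP p hp).1 (hP p hp).2).2 h0)
        simp [this]
    rw [e3, ← Real.mul_rpow (Finset.prod_nonneg fun p _ => pow_nonneg (Nat.cast_nonneg _) _)
      (Finset.prod_nonneg fun p _ => Nat.cast_nonneg _), ← Finset.prod_mul_distrib,
      ← nr_eq_prod hr (fun p hp => BasicB.pf_sub hp) le_rfl]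
    refine congrArg (· ^ (σ - 1 / 2)) (Finset.prod_congr rfl fun p hp => ?_)
    rw [← pow_succ, Nat.sub_add_cancel (Nat.one_le_iff_ne_zero.2 (BasicB.vp_ne_zero hp))]
  simp only [b1, Finset.prod_mul_distrib (f := fun p => 9 * ((vp p (r * c ^ 6) : ℝ) + 2) *
    nr p ^ (vp p (r * c ^ 6) / 6 : ℕ)),
    Finset.prod_mul_distrib (f := fun p => 9 * ((vp p (r * c ^ 6) : ℝ) + 2))]
  rw [mul_assoc, e1, e2]
  exact mul_le_mul_of_nonneg_right (mul_le_mul_of_nonneg_right (h _ (hr.mul (hc.pow 6)))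
    (Nat.cast_nonneg _)) (Real.rpow_nonneg (Nat.cast_nonneg _) _)

open Classical in
/-- The extra factor at an error prime. -/
def uu (a p : O) : ℝ := if p ∣ a then nr p ^ (1 / 2 : ℝ) else 2 * nr p ^ (-(1 / 2) : ℝ)

theorem uu_nonneg (a p : O) : 0 ≤ uu a p := by unfold uu; split_ifs <;> positivity

theorem sum_uu_le : ∃ C : ℝ, 1 ≤ C ∧ ∀ (M a : O) (K₀ i : ℕ) (B : ℝ), a ≠ 0 → 0 < B →
    ∑ p ∈ Pset M K₀ B i, ‖cw K₀ B i p‖ * uu a p ≤
      C * 2 ^ (pf a).card * Real.sqrt (Pw K₀ B i) := by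
  classical
  obtain ⟨C, hC, h⟩ := sum_cw_le 1
  refine ⟨2 * C + 1, by linarith, fun M a K₀ i B ha hB => ?_⟩
  have h1 := (h M K₀ i B (-(1 / 2)) hB (by rw [abs_le]; constructor <;> norm_num)).1
  have h2 := (h M K₀ i B (1 / 2) hB (by rw [abs_le]; constructor <;> norm_num)).2
  rw [show (1 : ℝ) + -(1 / 2) = 1 / 2 by norm_num, ← Real.sqrt_eq_rpow] at h1
  rw [← Real.sqrt_eq_rpow (Pw K₀ B i)] at h2
  have hs := Real.sqrt_nonneg (Pw K₀ B i)
  have h3 : ∑ p ∈ Pset M K₀ B i, ‖cw K₀ B i p‖ * uu a p ≤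
      ∑ p ∈ Pset M K₀ B i, (2 * (‖cw K₀ B i p‖ * nr p ^ (-(1 / 2) : ℝ)) +
        if p ∈ pf a then C * Real.sqrt (Pw K₀ B i) else 0) := by
    refine Finset.sum_le_sum fun p hp => ?_
    obtain ⟨hp1, hp2, -⟩ := (mem_Pset hB).1 hp
    unfold uu
    by_cases hd : p ∣ a
    · rw [if_pos hd, if_pos ((mem_pf ha).2 ⟨hp1, hp2, hd⟩)]
      exact (h2 p hp1.ne_zero).trans (le_add_of_nonneg_left (by positivity))
    · rw [if_neg hd, if_neg fun h' => hd (BasicB.of_mem_pf h').2.2]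
      exact le_of_eq (by ring)
  rw [Finset.sum_add_distrib, ← Finset.mul_sum, Finset.sum_ite_mem, Finset.sum_const,
    nsmul_eq_mul] at h3
  have h4 : (((Pset M K₀ B i ∩ pf a).card : ℕ) : ℝ) + 1 ≤ 2 ^ (pf a).card := by
    have := (Finset.card_le_card (Finset.inter_subset_right (s₁ := Pset M K₀ B i))).trans_lt
      (Nat.lt_two_pow_self (n := (pf a).card))
    exact_mod_cast this
  have h5 : (1 : ℝ) ≤ 2 ^ (pf a).card := one_le_pow₀ one_le_two
  have h6 := mul_nonneg hC.le hs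
  nlinarith [mul_le_mul_of_nonneg_right h4 h6, mul_le_mul_of_nonneg_right h5 h6,
    mul_nonneg (zero_le_one.trans h5) hs]

theorem nr_slot_le {M : O} {K₀ : ℕ} {B : ℝ} (hB : 1 ≤ B) {S : Finset (Fin K₀)} {p : S → O}
    (hp : p ∈ Fintype.piFinset (fun i : S => Pset M K₀ B (i : Fin K₀))) :
    (∏ i : S, nr (p i)) ^ 6 ≤ B ^ 2 := by
  have hB0 : 0 < B := one_pos.trans_le hB
  have h1 : ∀ i : S, nr (p i) ≤ B ^ (1 / (3 * (K₀ : ℝ))) := fun i => by
    refine ((mem_Pset hB0).1 (Fintype.mem_piFinset.1 hp i)).2.2.2.2.trans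
      (Real.rpow_le_rpow_of_exponent_le hB ((ell_bounds i.1.2).2.trans ?_))
    have : (0 : ℝ) < K₀ := by exact_mod_cast i.1.pos
    rw [div_le_div_iff₀ (by positivity) (by positivity)]
    linarith
  have h2 : 1 ≤ B ^ (1 / (3 * (K₀ : ℝ))) := Real.one_le_rpow hB (by positivity)
  have h3 : ∏ i : S, nr (p i) ≤ B ^ (1 / 3 : ℝ) := by
    calc _ ≤ ∏ _i : S, B ^ (1 / (3 * (K₀ : ℝ))) :=
          Finset.prod_le_prod (fun i _ => by positivity) fun i _ => h1 i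
      _ ≤ (B ^ (1 / (3 * (K₀ : ℝ)))) ^ K₀ := by
          rw [Finset.prod_const]
          refine pow_le_pow_right₀ h2 ?_
          simpa using S.card_le_univ
      _ ≤ _ := by
          rw [← Real.rpow_mul_natCast hB0.le]
          refine Real.rpow_le_rpow_of_exponent_le hB ?_
          rcases Nat.eq_zero_or_pos K₀ with h | h
          · simp [h]
          · have : (0 : ℝ) < K₀ := by exact_mod_cast h
            exact le_of_eq (by field_simp)
  calc _ ≤ (B ^ (1 / 3 : ℝ)) ^ 6 := by gcongr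
    _ = _ := by rw [← Real.rpow_mul_natCast hB0.le, ← Real.rpow_natCast]; norm_num

open Classical in
/-- The bound for one choice of the error primes. -/
theorem pair_bound {M : O} (hM : Adm M) {η : ℝ} (hη : 0 < η) : ∃ C : ℝ, 0 < C ∧
    ∀ (ψ : Chr M) (B σ : ℝ) (r c : O) (Z : Finset O), 1 ≤ B → r ∈ RS M B → Primary c →
      IsCoprime c M → nr (r * c ^ 6) ≤ B → 1 / 2 ≤ σ → σ ≤ 1 → ZF M r σ (Real.log B ^ 2) →
      (∀ p ∈ Z, Prime p ∧ Primary p ∧ ¬ p ∣ M) → (∏ p ∈ Z, nr p) ^ 6 ≤ B ^ 2 →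
      ‖pairF (cfE ψ (r * c ^ 6) (fun p => conj (sym p r)) Z) (Phi B (r * c ^ 6))‖ ≤
        C * B ^ η * nr c * (B ^ σ * Xpar B ^ (1 - σ) * nr r ^ (σ - 1 / 2)) *
          ∏ p ∈ Z, uu (r * c ^ 6) p := by
  obtain ⟨C₁, hC₁, h₁⟩ := Gd_le hM (half_pos hη)
  obtain ⟨C₂, hC₂, h₂⟩ := prod_b1_le (half_pos hη)
  refine ⟨C₁ * C₂, by positivity, fun ψ B σ r c Z hB hr hc hcM ha h1 h2 hz hZ hZB => ?_⟩
  have hB0 : 0 < B := one_pos.trans_le hB
  obtain ⟨-, hr1, hrM, -, hr6⟩ := Finset.mem_filter.1 hr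
  have hZ' : ∀ p ∈ Z, Prime p ∧ Primary p := fun p hp => ⟨(hZ p hp).1, (hZ p hp).2.1⟩
  have hap : Primary (r * c ^ 6) := hr1.mul (hc.pow 6)
  have haM : IsCoprime (r * c ^ 6) M := hrM.mul_left hcM.pow_left
  have hX0 : 0 < Xpar B := Real.rpow_pos_of_pos hB0 _
  have hX : Xpar B ≤ B := Real.rpow_le_self_of_one_le hB (by norm_num)
  have hA0 : 0 < Apar B := Real.rpow_pos_of_pos hB0 _
  have hA : Apar B ≤ B := Real.rpow_le_self_of_one_le hB (by norm_num)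
  have key := pair_le hM ψ hap.ne_zero (fun p => conj (sym p r)) hZ' (σ := σ)
    (K := C₁ * B ^ (η / 2) * B ^ σ * Xpar B ^ (1 - σ) * (∏ p ∈ pf r, nr p) ^ (σ - 1 / 2)) hB0
    (by positivity) (fun p => (if p ∈ pf (r * c ^ 6) then b1 σ (r * c ^ 6) p else 1) *
      if p ∈ Z then uu (r * c ^ 6) p else 1) (fun y₁ y₂ hy₁ hy₂ => ?_) fun p hp T => ?_
  · rw [Finset.prod_mul_distrib, Finset.prod_ite_mem, Finset.prod_ite_mem,
      Finset.union_inter_cancel_left, Finset.union_inter_cancel_right] at key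
    have h3 := (h₂ r c σ hr1 hc hr6).trans (show _ ≤ C₂ * B ^ (η / 2) * nr c * nr r ^ (σ - 1 / 2) by
      gcongr)
    have h4 : 0 ≤ ∏ p ∈ Z, uu (r * c ^ 6) p := Finset.prod_nonneg fun p _ => uu_nonneg _ _
    have e : B ^ η = B ^ (η / 2) * B ^ (η / 2) := by rw [← Real.rpow_add hB0, add_halves]
    refine key.trans ?_
    calc _ = C₁ * B ^ (η / 2) * B ^ σ * Xpar B ^ (1 - σ) * ((∏ p ∈ pf (r * c ^ 6),
          b1 σ (r * c ^ 6) p) * (∏ p ∈ pf r, nr p) ^ (σ - 1 / 2)) *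
          ∏ p ∈ Z, uu (r * c ^ 6) p := by ring
      _ ≤ C₁ * B ^ (η / 2) * B ^ σ * Xpar B ^ (1 - σ) *
          (C₂ * B ^ (η / 2) * nr c * nr r ^ (σ - 1 / 2)) * ∏ p ∈ Z, uu (r * c ^ 6) p := by gcongr
      _ = _ := by rw [e]; ring
  · have hy₁' : 0 < y₁ := one_pos.trans_le hy₁
    have hy₂' : 0 < y₂ := one_pos.trans_le hy₂
    have e : r * c ^ 6 * (∏ p ∈ Z, p) ^ 6 = r * (c * ∏ p ∈ Z, p) ^ 6 := by ring
    have := h₁ ψ r (c * ∏ p ∈ Z, p) B σ (nr (r * c ^ 6) / Apar B) (B / y₁) (Xpar B / y₂) hB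
      (not_exc_of_RS hr) (hc.mul (Primary.prod fun p hp => (hZ' p hp).2)) (by
        rw [← e, nr_mul, nr_pow (∏ p ∈ Z, p) 6, pow_succ' B 2,
          show nr (∏ p ∈ Z, p) = ∏ p ∈ Z, nr p by rw [nr, nm_prod, Nat.cast_prod]]
        exact mul_le_mul ha hZB (by positivity) hB0.le) h1 h2 hz (by
        rw [inv_eq_one_div]
        exact div_le_div₀ (by positivity) (one_le_nr hap.ne_zero) hA0 hA) (by positivity)
      (div_le_self hB0.le hy₁) (by positivity) ((div_le_self hX0.le hy₂).trans hX)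
    rw [e]
    refine this.trans (le_of_eq ?_)
    rw [Real.div_rpow hB0.le hy₁'.le, Real.div_rpow hX0.le hy₂'.le, Real.rpow_neg hy₁'.le,
      Real.rpow_neg hy₂'.le]
    ring
  · by_cases hpa : p ∈ pf (r * c ^ 6)
    · obtain ⟨hp1, hp2, hd⟩ := BasicB.of_mem_pf hpa
      have hpM : ¬ p ∣ M := fun h => hp1.not_isUnit (haM.isUnit_of_dvd' hd h)
      rw [if_pos hpa]
      by_cases hpZ : p ∈ Z
      · simp only [cfLE, if_pos hpZ, uu, if_pos hd]
        exact sum_err_ram_le hM ψ hp1 hp2 hpM hd hap.ne_zero h1 h2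
          (by rw [norm_neg, Complex.norm_conj]; exact norm_ev_le hM.1 ψ p)
          (by rw [Complex.norm_conj]; exact norm_sym_le p r) T
      · simp only [cfLE, if_neg hpZ, mul_one]
        refine (sum_ram_le hM ψ hp1 hp2 hpM hd hap.ne_zero h1 h2 T).trans ?_
        refine le_trans ?_ (le_mul_of_one_le_right (by positivity)
          (Real.one_le_rpow (one_le_nr hp1.ne_zero) (mul_nonneg (Nat.cast_nonneg _) (by linarith))))
        gcongr
        norm_num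
    · have hpZ : p ∈ Z := (Finset.mem_union.1 hp).resolve_right hpa
      obtain ⟨hp1, hp2, hpM⟩ := hZ p hpZ
      have hd : ¬ p ∣ r * c ^ 6 := fun h => hpa ((mem_pf hap.ne_zero).2 ⟨hp1, hp2, h⟩)
      have hpo : PO p := PO.of_adm hM hp2 (hp1.irreducible.coprime_iff_not_dvd.2 hpM)
      have hs : sym p (r * c ^ 6) = sym p r := by
        rw [sym_mul_right hpo, sym_pow_right hpo, sym_pow_six hp2
          (hp1.irreducible.coprime_iff_not_dvd.2 fun h =>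
            hd ((h.trans (dvd_pow_self _ (by norm_num))).mul_left _)), mul_one]
      simp only [cfLE, if_pos hpZ, if_neg hpa, uu, if_neg hd, one_mul, ← hs]
      exact sum_err_unram_le hM ψ hp1 hp2 hpM hd h1 h2 T

end Crest.Agent.R17.RB
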