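import Crest.Agent.R17.RowTail
import Crest.Agent.R17.RowBAuxF

/-!
# Row 17, module M15d: bound for a non-exceptional row

Notation at a prime `p ∤ M`: `χ = sym p a`, `X = ψ(p) N p^{-s}`, `Y = N p^{-w}`,
`F_p = ∑_{i,j} cf(p^i, p^j) N p^{-is-jw}`, `F_p^{mark}` the part `i ≥ 1`.  The slot prime `p` replaces
`F_p` by `-conj ψ(p) N p^s F_p^{mark} + Y F_p = conj χ · F_p + Err_p`, where for `p ∤ a`
(`cf_unram`: `F = 1/(1-χY) - conj χ X`) **`Err_p = conj χ X (conj χ - Y)`**, and for `p ∣ a`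
(`χ = 0`) `Err_p` is the whole expression.  Hence (the slots are disjoint)
`Ia a = ∑_{S ⊆ slots} ∏_{i ∉ S} slt_i(a) ∑_{p_i, i ∈ S} ∏ cw(p_i) ⟨f_{p_S}, Phi⟩`, where `f_{p_S}` is
the function on pairs `(n, x)` with local factors `cf` away from `p_S` and `Err_p` at `p ∈ p_S`
(formally: the operator `(T_p f)(n,x) = -conj ψ(p) f(p n, x) + 1_{p ∣ x} f(n, x/p)` satisfies
`⟨T_p f, Φ⟩ = -conj ψ(p) ∑_{p ∣ n} f Φ(N n/N p, N x) + ∑ f Φ(N n, N x N p)`; these operators commute;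
`E_p = T_p - conj χ_p(a)`).  Deconvolve: `f_{p_S} = b * (μ rc ψ r ⊗ conj (rc 1 r))`, so
`⟨f, Phi⟩ = ∑_{j₁, j₂} b(j₁,j₂) · [∑_n μ rc ψ r (n) W(N n N j₁/B) gw(N a B/(A N n N j₁))] ·
conj (Pln 1 r (X/N j₂) 0)`.  Expand the Gaussian by `gw_eq_integral` (small `σ`), use `Mob_class`
for `|u| ≤ (log B)²/2` and `norm_Gamma_le_exp` with the trivial bound beyond, and `Pln_class'`:
`≪ B^ε (B/N j₁)^{σ+ε'} (X/N j₂)^{1-σ} cond^{σ-1/2}` (write `D^σ ≤ B^{ε'}`-loss `D^{σ+ε'}` for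
`D ≥ 1/B`, trivial bound for smaller `D`).  It remains to bound
`∑ |b| N j₁^{-σ-ε'} N j₂^{σ-1} ≤ ∏_p (local sums)`: for `p ∤ a`, `p ∉ p_S`:
`F (1-χY)/(1 - conj χ X) = 1 + XY/(1 - conj χ X) = 1 + O(N p^{-1-ε'})`; for `p ∤ a`, `p ∈ p_S`:
`O(N p^{-σ})`; for `p ∣ a`, `v_p(a) = 6 m + v_p(r)`: the sum of the absolute values of the terms of
`F_p` is `≤ C N p^m` (`norm_cf_ram_zero`, `norm_cf_ram_one`; every exponent is decreasing in `σ`,
check `σ = 1/2`), and of `Err_p` it is `≤ C N p^{1/2+ε'} N p^m N p^{(v_p(r)-1)_+ (σ-1/2)}` (a term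
`(i,j)` with `i > j` loses `N p^{-(σ-1/2)}` compared with `σ = 1/2`; the term `(1,1)` has size
`N p^{-1}` if `v = 1` and `1` if `v ≥ 2`).  `cond · ∏_{p ∣ r} N p^{v_p(r)-1} = N r`,
`C^{ω(a)} ≪ B^ε`, `sum_cw_le`, and `|slt_i(r c⁶) - slt_i(r)| ≤ ω(c)`.
-/

set_option autoImplicit false

noncomputable section

namespace Crest.Agent.R17

open scoped ComplexConjugate in
theorem row_bound {M : O} (hM : Adm M) (ψ : Chr M) (K₀ : ℕ) {ε : ℝ} (hε : 0 < ε) :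
    ∃ C : ℝ, 0 < C ∧ ∀ (B σ : ℝ) (r c : O), 1 ≤ B → r ∈ RS M B → Primary c → IsCoprime c M →
      nr (r * c ^ 6) ≤ B → 1 / 2 ≤ σ → σ ≤ 1 → ZF M r σ (Real.log B ^ 2) →
      ‖Ia ψ K₀ B (r * c ^ 6)‖ ≤ C * B ^ ε * nr c * (B ^ σ * Xpar B ^ (1 - σ) * nr r ^ (σ - 1 / 2) *
        ∏ i : Fin K₀, (‖slt M K₀ B i r‖ + Real.sqrt (Pw K₀ B i))) := by
  classical
  obtain ⟨C₁, hC₁, h₁⟩ := RB.pair_bound hM (half_pos hε)
  obtain ⟨C₂, hC₂, h₂⟩ := RB.sum_uu_le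
  obtain ⟨C₃, hC₃, h₃⟩ := pow_card_pf_le (half_pos hε) (2 ^ K₀)
  refine ⟨C₁ * (C₂ ^ K₀ * C₃), by positivity, fun B σ r c hB hr hc hcM ha h1 h2 hz => ?_⟩
  have hB0 : 0 < B := one_pos.trans_le hB
  have hap : Primary (r * c ^ 6) := (Finset.mem_filter.1 hr).2.1.mul (hc.pow 6)
  have hX0 : 0 < Xpar B := Real.rpow_pos_of_pos hB0 _
  have hn0 : ∀ z : O, 0 ≤ nr z := fun z => Nat.cast_nonneg _
  obtain ⟨K, hK⟩ : ∃ K : ℝ, K = C₁ * B ^ (ε / 2) * nr c *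
    (B ^ σ * Xpar B ^ (1 - σ) * nr r ^ (σ - 1 / 2)) := ⟨_, rfl⟩
  have hK0 : 0 ≤ K := by rw [hK]; positivity
  obtain ⟨U, hU⟩ : ∃ U : Fin K₀ → ℝ, ∀ i,
    U i = ∑ p ∈ Pset M K₀ B i, ‖cw K₀ B i p‖ * RB.uu (r * c ^ 6) p := ⟨_, fun _ => rfl⟩
  have hU0 : ∀ i, 0 ≤ U i := fun i => by
    rw [hU]
    exact Finset.sum_nonneg fun p _ => mul_nonneg (norm_nonneg _) (RB.uu_nonneg _ _)
  have step1 : ‖Ia ψ K₀ B (r * c ^ 6)‖ ≤ K * ∏ i : Fin K₀, (U i + ‖slt M K₀ B i r‖) := by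
    rw [Ia_eq hM ψ K₀ hB _ fun p => conj (sym p r), Fintype.prod_add, Finset.mul_sum]
    refine norm_sum_le_of_le _ fun S _ => ?_
    rw [norm_mul, norm_prod, mul_comm, ← mul_assoc]
    refine mul_le_mul_of_nonneg_right ?_ (Finset.prod_nonneg fun _ _ => norm_nonneg _)
    simp only [hU]
    rw [← Finset.prod_coe_sort S, Finset.prod_univ_sum, Finset.mul_sum]
    refine norm_sum_le_of_le _ fun p hp => ?_
    have hinj := (injective_of_mem_piFinset hB hp).injOn (s := (Finset.univ : Finset S))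
    have := h₁ ψ B σ r c (Finset.univ.image p) hB hr hc hcM ha h1 h2 hz (fun q hq => by
      obtain ⟨i, -, rfl⟩ := Finset.mem_image.1 hq
      have := (mem_Pset hB0).1 (Fintype.mem_piFinset.1 hp i)
      exact ⟨this.1, this.2.1, this.2.2.1⟩) (by
      rw [Finset.prod_image hinj]
      exact RB.nr_slot_le hB hp)
    rw [Finset.prod_image hinj, ← hK] at this
    rw [norm_mul, norm_prod, Finset.prod_mul_distrib, mul_left_comm]
    exact mul_le_mul_of_nonneg_left this (Finset.prod_nonneg fun _ _ => norm_nonneg _)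
  have h4 : (1 : ℝ) ≤ C₂ * 2 ^ (pf (r * c ^ 6)).card :=
    one_le_mul_of_one_le_of_one_le hC₂ (one_le_pow₀ one_le_two)
  have step2 : ∏ i : Fin K₀, (U i + ‖slt M K₀ B i r‖) ≤ C₂ ^ K₀ * C₃ * B ^ (ε / 2) *
      ∏ i : Fin K₀, (‖slt M K₀ B i r‖ + Real.sqrt (Pw K₀ B i)) := by
    calc _ ≤ ∏ i : Fin K₀, C₂ * 2 ^ (pf (r * c ^ 6)).card *
          (‖slt M K₀ B i r‖ + Real.sqrt (Pw K₀ B i)) := by
          refine Finset.prod_le_prod (fun i _ => add_nonneg (hU0 i) (norm_nonneg _)) fun i _ => ?_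
          rw [mul_add, add_comm, hU]
          exact add_le_add (le_mul_of_one_le_left (norm_nonneg _) h4)
            (h₂ M _ K₀ i B hap.ne_zero hB0)
      _ = C₂ ^ K₀ * (2 ^ K₀) ^ (pf (r * c ^ 6)).card *
          ∏ i : Fin K₀, (‖slt M K₀ B i r‖ + Real.sqrt (Pw K₀ B i)) := by
          rw [Finset.prod_mul_distrib, Finset.prod_const, Finset.card_univ, Fintype.card_fin,
            mul_pow, ← pow_mul, ← pow_mul, mul_comm K₀]
      _ ≤ _ := by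
          refine mul_le_mul_of_nonneg_right ?_
            (Finset.prod_nonneg fun _ _ => add_nonneg (norm_nonneg _) (Real.sqrt_nonneg _))
          rw [mul_assoc]
          refine mul_le_mul_of_nonneg_left ((h₃ _ hap.ne_zero).trans ?_)
            (pow_nonneg (zero_le_one.trans hC₂) _)
          exact mul_le_mul_of_nonneg_left (Real.rpow_le_rpow (hn0 _) ha (half_pos hε).le) hC₃.le
  have e : B ^ ε = B ^ (ε / 2) * B ^ (ε / 2) := by rw [← Real.rpow_add hB0, add_halves]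
  refine (step1.trans (mul_le_mul_of_nonneg_left step2 hK0)).trans (le_of_eq ?_)
  rw [hK, e]
  ring

end Crest.Agent.R17
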