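import Crest.Agent.R17.Counts
import Crest.Agent.R17.HSide
import Crest.Agent.R17.RowB
import Crest.Agent.R17.PrincR

/-!
# Row 17, module M15f: the bootstrap
-/

set_option autoImplicit false

noncomputable section

namespace Crest.Agent.R17

theorem Boot.exc_pow {M c : O} (hc : c ≠ 0) : Exc M (c ^ 6) := fun p hp _ => by
  rw [vp_pow ((mem_pf (pow_ne_zero 6 hc)).1 hp).1 hc]
  exact Dvd.intro _ rfl

theorem Boot.norm_xiR_le (M a : O) : ‖xiR M a‖ ≤ 1 := by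
  unfold xiR
  split_ifs <;> simp

theorem Boot.one_le_NrmB {B : ℝ} (hB : 1 ≤ B) : 1 ≤ NrmB B := by
  unfold NrmB Apar Xpar
  refine one_le_mul_of_one_le_of_one_le (one_le_mul_of_one_le_of_one_le ?_ ?_) ?_
  · exact Real.one_le_rpow (Real.one_le_rpow hB (by norm_num)) (by norm_num)
  · exact Real.one_le_rpow hB (by norm_num)
  · exact Real.one_le_rpow hB (by norm_num)

open Classical in
/-- every non-exceptional row is `r c⁶` -/
theorem Boot.sum_rows_le (M : O) {A : ℝ} (hA : 0 ≤ A) (g : O → ℝ) (hg : ∀ a, 0 ≤ g a) :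
    ∑ a ∈ (rows A).filter (fun a => ¬ Exc M a ∧ Primary a ∧ IsCoprime a M), g a ≤
      ∑ r ∈ RS M A, ∑ c ∈ (rows ((A / nr r) ^ (1 / 6 : ℝ))).filter
        (fun c => Primary c ∧ IsCoprime c M ∧ nr (r * c ^ 6) ≤ A), g (r * c ^ 6) := by
  rw [Finset.sum_sigma']
  refine le_trans (Finset.sum_le_sum_of_subset_of_nonneg ?_ fun a _ _ => hg a)
    (Finset.sum_image_le_of_nonneg (g := fun x : (Σ _ : O, O) => x.1 * x.2 ^ 6) fun a _ => hg a)
  intro a ha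
  rw [Finset.mem_filter, mem_rows hA] at ha
  obtain ⟨⟨-, a2⟩, a3, a4, a5⟩ := ha
  obtain ⟨r, c, hr, hc, h6, rfl⟩ := exists_sixth a4
  have hr0 := nr_pos hr.ne_zero
  have hc1 := one_le_nr hc.ne_zero
  have e : nr (r * c ^ 6) = nr r * nr c ^ 6 := by rw [nr_mul, nr_pow]
  refine Finset.mem_image.2 ⟨⟨r, c⟩, Finset.mem_sigma.2 ⟨?_, ?_⟩, rfl⟩
  · refine Finset.mem_filter.2 ⟨(mem_rows hA).2 ⟨hr.ne_zero, le_trans ?_ a2⟩, hr,
      a5.of_mul_left_left, ?_, h6⟩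
    · rw [e]
      exact le_mul_of_one_le_right hr0.le (one_le_pow₀ hc1)
    · rintro rfl
      rw [one_mul] at a3
      exact a3 (Boot.exc_pow hc.ne_zero)
  · refine Finset.mem_filter.2 ⟨(mem_rows (by positivity)).2 ⟨hc.ne_zero, ?_⟩, hc,
      (IsCoprime.pow_left_iff (by norm_num)).1 a5.of_mul_left_right, a2⟩
    rw [one_div, Real.le_rpow_inv_iff_of_pos (by positivity) (by positivity) (by norm_num),
      le_div_iff₀ hr0, mul_comm]
    rw [e] at a2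
    exact_mod_cast a2

theorem Boot.sum_nr_le : ∃ C : ℝ, 0 < C ∧ ∀ Y : ℝ, 1 ≤ Y →
    ∑ c ∈ rows (Y ^ (1 / 6 : ℝ)), nr c ≤ C * Y ^ (1 / 3 : ℝ) := by
  obtain ⟨C, hC, h⟩ := sum_nr_rpow_le (σ := 1) (by norm_num)
  refine ⟨C, hC, fun Y hY => ?_⟩
  have h1 : 1 ≤ Y ^ (1 / 6 : ℝ) := Real.one_le_rpow hY (by norm_num)
  have h2 := h ⌊Y ^ (1 / 6 : ℝ)⌋₊ (Nat.le_floor (by exact_mod_cast h1))
  simp only [Real.rpow_one] at h2
  refine h2.trans (mul_le_mul_of_nonneg_left ?_ hC.le)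
  refine (Real.rpow_le_rpow (by positivity) (Nat.floor_le (by positivity)) (by norm_num)).trans_eq ?_
  rw [← Real.rpow_mul (by linarith)]
  norm_num

open Classical in
/-- The non-exceptional rows: `a = r c⁶` (`exists_sixth`), `row_bound`,
`∑_{N c ≤ Y} N c ≪ Y²` (`sum_nr_rpow_le`), `row_sum`, `row_tail`. -/
theorem nonprinc_rows : ∃ (m : ℝ) (K₀ : ℕ), 0 < m ∧ 1 ≤ K₀ ∧ ∀ β : ℝ, 7 / 8 ≤ β → β ≤ 1 →
    ZeroFree β → ∀ {M : O}, Adm M → ∀ ψ : Chr M, ∃ C B₀ : ℝ, ∀ B ≥ B₀,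
      ‖∑' a : O, (if Exc M a then 0 else xiR M a * Ia ψ K₀ B a)‖ ≤ C * NrmB B * B ^ (β - m) := by
  obtain ⟨m, K₀, hm, hm', hK, H⟩ := row_sum
  refine ⟨m / 2, K₀, by positivity, hK, fun β h1 h2 hZ M hM ψ => ?_⟩
  obtain ⟨C₃, B₀, H⟩ := H β h1 h2 hZ hM
  obtain ⟨C₁, hC₁, H₁⟩ := row_bound hM ψ K₀ (show 0 < m / 2 by positivity)
  obtain ⟨C₂, hC₂, H₂⟩ := Boot.sum_nr_le
  obtain ⟨C₄, hC₄, H₄⟩ := row_tail hM ψ K₀ hm
  refine ⟨C₁ * C₂ * C₃ + C₄, max 1 B₀, fun B hB => ?_⟩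
  have hB1 : 1 ≤ B := (le_max_left _ _).trans hB
  have hB0 : 0 < B := one_pos.trans_le hB1
  obtain ⟨σ, hσ, hsum⟩ := H B ((le_max_right _ _).trans hB)
  have h4 := H₄ B hB1
  have hAB : Apar B * B ^ m ≤ B := by
    rw [Apar, ← Real.rpow_add hB0]
    exact Real.rpow_le_self_of_one_le hB1 (by linarith)
  have hA0 : 0 ≤ Apar B * B ^ m := by unfold Apar; positivity
  generalize Apar B * B ^ m = A at *
  have hs := summable_Ia hM ψ K₀ hB0
  set S := (rows A).filter (fun a => ¬ Exc M a ∧ Primary a ∧ IsCoprime a M) with hS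
  have s1 : Summable fun a : O => if a ∈ S then ‖Ia ψ K₀ B a‖ else 0 :=
    summable_of_ne_finset_zero (s := S) fun a ha => if_neg ha
  have s2 : Summable fun a : O => if A < nr a then ‖Ia ψ K₀ B a‖ else 0 :=
    Summable.of_nonneg_of_le (fun a => by positivity)
      (fun a => by split_ifs; exacts [le_rfl, norm_nonneg _]) hs
  have b1 : ‖∑' a : O, (if Exc M a then 0 else xiR M a * Ia ψ K₀ B a)‖ ≤
      ∑ a ∈ S, ‖Ia ψ K₀ B a‖ + C₄ := by
    refine (tsum_of_norm_bounded (s1.add s2).hasSum fun a => ?_).trans ?_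
    · have n0 := norm_nonneg (Ia ψ K₀ B a)
      by_cases e1 : Exc M a
      · rw [if_pos e1, norm_zero]
        positivity
      by_cases e2 : Primary a ∧ IsCoprime a M
      · rw [if_neg e1, xiR, if_pos e2, one_mul]
        by_cases e3 : A < nr a
        · rw [if_pos e3]
          split_ifs <;> linarith
        · rw [if_neg e3, if_pos (Finset.mem_filter.2
            ⟨(mem_rows hA0).2 ⟨e2.1.ne_zero, not_lt.1 e3⟩, e1, e2⟩), add_zero]
      · rw [if_neg e1, xiR, if_neg e2, zero_mul, norm_zero]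
        positivity
    · rw [s1.tsum_add s2, tsum_eq_sum (s := S) fun a ha => if_neg ha,
        Finset.sum_congr rfl fun a ha => if_pos ha]
      linarith
  have b2 : ∑ a ∈ S, ‖Ia ψ K₀ B a‖ ≤ C₁ * B ^ (m / 2) * C₂ * (C₃ * NrmB B * B ^ (β - m)) := by
    refine (Boot.sum_rows_le M hA0 _ fun a => norm_nonneg _).trans
      (le_trans ?_ (mul_le_mul_of_nonneg_left hsum (by positivity)))
    rw [Finset.mul_sum]
    refine Finset.sum_le_sum fun r hr => ?_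
    obtain ⟨σ1, σ2, σ3⟩ := hσ r hr
    have hr' := Finset.mem_filter.1 hr
    rw [mem_rows hA0] at hr'
    have hr0 := nr_pos hr'.1.1
    have hrB : r ∈ RS M B :=
      Finset.mem_filter.2 ⟨(mem_rows hB0.le).2 ⟨hr'.1.1, hr'.1.2.trans hAB⟩, hr'.2⟩
    have hE : 0 ≤ B ^ σ r * Xpar B ^ (1 - σ r) * nr r ^ (σ r - 1 / 2) *
        ∏ i : Fin K₀, (‖slt M K₀ B i r‖ + Real.sqrt (Pw K₀ B i)) := by
      unfold Xpar
      positivity
    refine (Finset.sum_le_sum fun c hc => H₁ B (σ r) r c hB1 hrB (Finset.mem_filter.1 hc).2.1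
      (Finset.mem_filter.1 hc).2.2.1 ((Finset.mem_filter.1 hc).2.2.2.trans hAB) σ1 σ2 σ3).trans ?_
    rw [← Finset.sum_mul, ← Finset.mul_sum, mul_assoc (C₁ * B ^ (m / 2)) C₂,
      mul_assoc (C₁ * B ^ (m / 2)), ← mul_assoc C₂]
    refine mul_le_mul_of_nonneg_left (mul_le_mul_of_nonneg_right ?_ hE) (by positivity)
    exact (Finset.sum_le_sum_of_subset_of_nonneg (Finset.filter_subset _ _)
      fun _ _ _ => Nat.cast_nonneg _).trans (H₂ _ ((one_le_div hr0).2 hr'.1.2))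
  have b3 : C₄ ≤ C₄ * (NrmB B * B ^ (β - m / 2)) := le_mul_of_one_le_right hC₄.le
    (one_le_mul_of_one_le_of_one_le (Boot.one_le_NrmB hB1) (Real.one_le_rpow hB1 (by linarith)))
  have e : B ^ (β - m / 2) = B ^ (m / 2) * B ^ (β - m) := by
    rw [← Real.rpow_add hB0]
    congr 1
    ring
  calc _ ≤ C₁ * B ^ (m / 2) * C₂ * (C₃ * NrmB B * B ^ (β - m)) +
        C₄ * (NrmB B * B ^ (β - m / 2)) := by linarith
    _ = _ := by rw [e]; ring

/-- `hside`, `nonprinc_rows`, `princ_rows`, `Pt_lower` give `fmain(B) ≪ B^{β'}` with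
`β' = max(7/8 + (β - 7/8)/2, β - m/2)`; `mellin_contra`, `zeroFree_iff_one`. -/
theorem boot {β : ℝ} (h₁ : 7 / 8 < β) (h₂ : β ≤ 1) (h : ZeroFree β) :
    ∃ β' < β, ZeroFree β' := by
  classical
  obtain ⟨m₁, K₀, hm₁, hK, H₁⟩ := nonprinc_rows
  obtain ⟨m₂, hm₂, H₂⟩ := princ_rows K₀ hK
  obtain ⟨d, hd, d1, d2, d3⟩ : ∃ d : ℝ, 0 < d ∧ 3 * d ≤ β - 7 / 8 ∧ 2 * d ≤ m₁ ∧ 2 * d ≤ m₂ := by
    refine ⟨min (β - 7 / 8) (min m₁ m₂) / 3, by
      have : 0 < min (β - 7 / 8) (min m₁ m₂) := lt_min (by linarith) (lt_min hm₁ hm₂)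
      positivity, ?_, ?_, ?_⟩
    · linarith [min_le_left (β - 7 / 8) (min m₁ m₂)]
    · linarith [min_le_right (β - 7 / 8) (min m₁ m₂), min_le_left m₁ m₂]
    · linarith [min_le_right (β - 7 / 8) (min m₁ m₂), min_le_right m₁ m₂]
  refine ⟨β - d, by linarith, (zeroFree_iff_one _).2 fun M hM ψ s hs hs1 => ?_⟩
  obtain ⟨C₁, B₁, H₁⟩ := H₁ β h₁.le h₂ h hM ψ
  obtain ⟨bb, κ, C₂, hbb, hκ, H₂⟩ := H₂ β h₁.le h₂ h hM ψ
  obtain ⟨C₃, hC₃, H₃⟩ := hside hM ψ K₀ hK hd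
  obtain ⟨B₄, H₄⟩ := Pt_lower hM hK hd
  refine mellin_contra hM ψ hbb (θ := β - d) (C := ‖κ‖⁻¹ * (|C₁| + |C₂| + C₃))
    (B₀ := max 1 (max B₁ B₄)) (by linarith) (fun B hB => ?_) hs hs1
  simp only [ge_iff_le, max_le_iff] at hB
  obtain ⟨hB1, hB2, hB4⟩ := hB
  have hB0 : 0 < B := one_pos.trans_le hB1
  have a1 := H₁ B hB2
  have a2 := H₂ B hB1
  have a3 := H₃ B hB1
  have a4 := H₄ B hB4
  have hs := summable_Ia hM ψ K₀ hB0
  have hsum : ∀ f : O → ℂ, (∀ a, f a = 0 ∨ f a = xiR M a * Ia ψ K₀ B a) → Summable f := by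
    refine fun f hf => Summable.of_norm_bounded hs fun a => ?_
    rcases hf a with e | e <;> rw [e]
    · simp
    · rw [norm_mul]
      exact mul_le_of_le_one_left (norm_nonneg _) (Boot.norm_xiR_le M a)
  have e1 : ∑' a : O, xiR M a * Ia ψ K₀ B a =
      ∑' a : O, (if Exc M a then xiR M a * Ia ψ K₀ B a else 0) +
        ∑' a : O, (if Exc M a then 0 else xiR M a * Ia ψ K₀ B a) := by
    rw [← (hsum _ fun a => by split_ifs <;> simp).tsum_add (hsum _ fun a => by split_ifs <;> simp)]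
    exact tsum_congr fun a => by split_ifs <;> simp
  have hN : 0 < NrmB B := one_pos.trans_le (Boot.one_le_NrmB hB1)
  have hle : ∀ (C t : ℝ), t ≤ β - 2 * d → C * NrmB B * B ^ t ≤ |C| * NrmB B * B ^ (β - 2 * d) :=
    fun C t ht => mul_le_mul (mul_le_mul_of_nonneg_right (le_abs_self C) hN.le)
      (Real.rpow_le_rpow_of_exponent_le hB1 ht) (by positivity) (by positivity)
  have b1 := a1.trans (hle C₁ _ (by linarith))
  have b2 := a2.trans (hle C₂ _ (by linarith))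
  have b3 := a3.trans (hle C₃ _ (by linarith))
  rw [abs_of_pos hC₃, e1] at b3
  generalize ∑' a : O, (if Exc M a then xiR M a * Ia ψ K₀ B a else 0) = P at *
  generalize ∑' a : O, (if Exc M a then 0 else xiR M a * Ia ψ K₀ B a) = N at *
  have hAX : 0 < Apar B ^ (1 / 6 : ℝ) * Xpar B := by unfold Apar Xpar; positivity
  have b4 : ‖κ * (Apar B ^ (1 / 6 : ℝ) * Xpar B : ℝ) * Pt M K₀ B * fmain ψ bb B‖ ≤
      (|C₁| + |C₂| + C₃) * NrmB B * B ^ (β - 2 * d) := by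
    generalize κ * (Apar B ^ (1 / 6 : ℝ) * Xpar B : ℝ) * Pt M K₀ B * fmain ψ bb B = Q at *
    have : Q = (P + N) - N - (P - Q) := by ring
    rw [this]
    have t1 := norm_sub_le (P + N - N) (P - Q)
    have t2 := norm_sub_le (P + N) N
    linarith
  rw [norm_mul, norm_mul, norm_mul, Complex.norm_real, Real.norm_eq_abs, abs_of_pos hAX] at b4
  have hκ0 : 0 < ‖κ‖ := norm_pos_iff.2 hκ
  have e2 : NrmB B * B ^ (β - 2 * d) =
      Apar B ^ (1 / 6 : ℝ) * Xpar B * B ^ (1 / 6 - d) * B ^ (β - d) := by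
    rw [NrmB, mul_assoc _ (B ^ _), mul_assoc _ (B ^ _), ← Real.rpow_add hB0, ← Real.rpow_add hB0]
    congr 2
    ring
  have hw : 0 < ‖κ‖ * (Apar B ^ (1 / 6 : ℝ) * Xpar B) * B ^ (1 / 6 - d) := by positivity
  refine le_of_mul_le_mul_left ?_ hw
  calc _ ≤ ‖κ‖ * (Apar B ^ (1 / 6 : ℝ) * Xpar B) * ‖Pt M K₀ B‖ * ‖fmain ψ bb B‖ := by gcongr
    _ ≤ _ := b4
    _ = _ := by
      rw [mul_assoc, e2]
      field_simp

/-- Take the infimum of the `β ∈ [7/8, 1]` with `ZeroFree β`. -/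
theorem zeroFree_78 : ZeroFree (7 / 8) := by
  have mono : ∀ {β β' : ℝ}, β ≤ β' → ZeroFree β → ZeroFree β' :=
    fun hle h M hM ν a ha s hs => h M hM ν a ha s (hle.trans_lt hs)
  set S : Set ℝ := {β | 7 / 8 ≤ β ∧ ZeroFree β} with hS
  have h1 : (1 : ℝ) ∈ S := ⟨by norm_num, zeroFree_one⟩
  have hb : BddBelow S := ⟨7 / 8, fun β hβ => hβ.1⟩
  have hZ : ZeroFree (sInf S) := fun M hM ν a ha s hs => by
    obtain ⟨β, hβ, hlt⟩ := exists_lt_of_csInf_lt ⟨1, h1⟩ hs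
    exact hβ.2 M hM ν a ha s hlt
  by_contra hne
  have hlt : 7 / 8 < sInf S := by
    by_contra hc
    exact hne (mono (not_lt.1 hc) hZ)
  obtain ⟨β', hβ', h'⟩ := boot hlt (csInf_le hb h1) hZ
  have := csInf_le hb (show max β' (7 / 8) ∈ S from ⟨le_max_right _ _, mono (le_max_left _ _) h'⟩)
  exact absurd (max_lt hβ' hlt) (not_lt.2 this)

end Crest.Agent.R17
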