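import Crest.Agent.R17.EnH

/-!
# Row 17, module M8: the reflected energy estimate
-/

set_option autoImplicit false

noncomputable section

namespace Crest.Agent.R17

open scoped ComplexConjugate

namespace EnergyAux

open Finset

theorem pf_prod_subset {s : Finset O} (hs : ∀ q ∈ s, Prime q ∧ Primary q) (e : O → ℕ) :
    pf (∏ q ∈ s, q ^ e q) ⊆ s := by
  intro p hp
  have h1 := BasicB.vp_ne_zero hp
  have h2 := BasicB.pf_sub hp
  rw [vp_prod_pow hs _ h2.1 h2.2] at h1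
  by_contra h
  exact h1 (if_neg h)

theorem decomp {M h₀ k : O} (hM : M ≠ 0) (h0 : h₀ ≠ 0) (hk : k ≠ 0) :
    ∃ s h₃ q k₁ : O, k = s * h₃ * q * k₁ ∧ pf s ⊆ pf M ∧ Primary h₃ ∧ IsCoprime h₃ M ∧
      pf h₃ ⊆ pf h₀ ∧ Powerful q ∧ IsCoprime q M ∧ SP (M * (h₃ * q * h₀)) k₁ := by
  classical
  obtain ⟨u, j, hu, e⟩ := exists_eq_unit_lam_primary hk
  set A := (pf k).filter (· ∈ pf M) with hA
  set B := ((pf k).filter (· ∉ pf M)).filter (· ∈ pf h₀) with hB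
  set C := ((pf k).filter (· ∉ pf M)).filter (· ∉ pf h₀) with hC
  have hA' : ∀ q ∈ A, Prime q ∧ Primary q := fun q hq => BasicB.pf_sub (mem_filter.1 hq).1
  have hB' : ∀ q ∈ B, Prime q ∧ Primary q := fun q hq =>
    BasicB.pf_sub (mem_filter.1 (mem_filter.1 hq).1).1
  have hC' : ∀ q ∈ C, Prime q ∧ Primary q := fun q hq =>
    BasicB.pf_sub (mem_filter.1 (mem_filter.1 hq).1).1
  have pA := BasicB.primary_prod_pow hA' fun p => vp p k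
  have pB := BasicB.primary_prod_pow hB' fun p => vp p k
  have pC := BasicB.primary_prod_pow hC' fun p => vp p k
  have sA := pf_prod_subset hA' fun p => vp p k
  have sB := pf_prod_subset hB' fun p => vp p k
  have sC := pf_prod_subset hC' fun p => vp p k
  obtain ⟨k₁, q, h1, h2, h3, h4, h5⟩ := exists_sqfree_powerful pC
  have c1 : IsCoprime (k₁ * q) M := h5 ▸ isCoprime_of_disjoint_pf pC hM
    (disjoint_left.2 fun p hp => (mem_filter.1 (mem_filter.1 (sC hp)).1).2)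
  have c2 : IsCoprime (k₁ * q) h₀ := h5 ▸ isCoprime_of_disjoint_pf pC h0
    (disjoint_left.2 fun p hp => (mem_filter.1 (sC hp)).2)
  have c3 : IsCoprime (k₁ * q) (∏ p ∈ B, p ^ vp p k) := h5 ▸ isCoprime_of_disjoint_pf pC pB.ne_zero
    (disjoint_left.2 fun p hp hp' => (mem_filter.1 (sC hp)).2 (mem_filter.1 (sB hp')).2)
  refine ⟨u * lam ^ j * ∏ p ∈ A, p ^ vp p k, ∏ p ∈ B, p ^ vp p k, q, k₁, ?_, ?_, pB,
    isCoprime_of_disjoint_pf pB hM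
      (disjoint_left.2 fun p hp => (mem_filter.1 (mem_filter.1 (sB hp)).1).2),
    fun p hp => (mem_filter.1 (sB hp)).2, h3, c1.of_mul_left_right, h1, h2,
    c1.of_mul_left_left.mul_right
      ((c3.of_mul_left_left.mul_right h4).mul_right c2.of_mul_left_left)⟩
  · conv_lhs => rw [e, ← prod_filter_mul_prod_filter_not (pf k) (· ∈ pf M),
      ← prod_filter_mul_prod_filter_not ((pf k).filter (· ∉ pf M)) (· ∈ pf h₀), ← hA, ← hB, ← hC,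
      h5]
    ring
  · rw [mul_assoc, pf_unit_mul hu, pf_mul (pow_ne_zero _ prime_lam.ne_zero) pA.ne_zero,
      BasicB.pf_lam_pow, empty_union]
    exact fun p hp => (mem_filter.1 (sA hp)).2

theorem twist {M s : O} (hM : Adm M) (hs : s ≠ 0) (h : pf s ⊆ pf M) {φ : O → ℂ} (hφ : PerB M φ) :
    ∃ φ' : O → ℂ, PerB M φ' ∧ ∀ (Zs : Finset O) (c : O → ℂ) (D : ℝ) (s' : ℂ) (r : O),
      Tc φ Zs c D s' (s * r) = Tc φ' Zs c D s' r := by
  obtain ⟨ν, hν⟩ := exists_chr_sym hM hs fun p hp => (BasicB.of_mem_pf (h hp)).2.2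
  refine ⟨fun n => φ n * ev ν n, ⟨fun n => ?_, fun n n' hn => ?_, fun n hn => ?_⟩,
    fun Zs c D s' r => ?_⟩
  · rw [norm_mul]
    exact mul_le_one₀ (hφ.1 n) (norm_nonneg _) (norm_ev_le hM.1 ν n)
  · simp only [hφ.2.1 n n' hn, ev_congr ν hn]
  · simp only [hφ.2.2 n hn, zero_mul]
  · refine sum_congr rfl fun z _ => congrArg _ (tsum_congr fun n => ?_)
    split_ifs with hz
    · by_cases h1 : Primary n
      · by_cases h2 : IsCoprime n M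
        · simp only [sym_mul_right (PO.of_adm hM h1 h2), hν n h1 h2]
          ring
        · simp only [hφ.2.2 n h2, mul_zero, zero_mul]
      · have : th n = 0 := if_neg fun h' => h1 h'.1
        simp only [this, zero_mul]
    · rfl

theorem rad_sq_le {h₃ q h₀ : O} (h3 : h₃ ≠ 0) (h0 : h₀ ≠ 0) (hq : Powerful q)
    (h : pf h₃ ⊆ pf h₀) : nr (rad (h₃ * q * h₀)) ^ 2 ≤ nr q * nr h₀ ^ 2 := by
  classical
  have q0 : q ≠ 0 := hq.1.ne_zero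
  have r0 : rad q ≠ 0 := (primary_rad q).ne_zero
  have h1 : rad (h₃ * q * h₀) ∣ rad q * h₀ := by
    refine BasicB.prod_dvd_of_subset (mul_ne_zero r0 h0) ?_
    rw [pf_mul (mul_ne_zero h3 q0) h0, pf_mul h3 q0, pf_mul r0 h0, pf_rad]
    exact union_subset (union_subset (h.trans subset_union_right) subset_union_left)
      subset_union_right
  have h2 := En.nr_le_of_dvd h1 (mul_ne_zero r0 h0)
  rw [nr_mul] at h2
  refine (pow_le_pow_left₀ (Nat.cast_nonneg _) h2 2).trans ?_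
  rw [mul_pow]
  exact mul_le_mul_of_nonneg_right hq.nr_rad_sq_le (sq_nonneg _)

end EnergyAux

open EnergyAux Finset

/-- **Reflected energy.**  With `B'' = K² Z / D`:
`∑_{0 < N k ≤ K} |T(k h₀)|² ≪ D Z (K + B'' + min(Z² √K, K Z²/√D) + min(K Z, √K Z D^{1/4}))`. -/
theorem energy {M : O} (hM : Adm M) {ε : ℝ} (hε : 0 < ε) : ∃ (C : ℝ) (J : ℕ), 0 < C ∧
    ∀ (R K D Z : ℝ) (φ : O → ℂ) (h₀ : O) (Zs : Finset O) (c : O → ℂ) (s : ℂ),
      1 ≤ K → K ≤ R → 1 ≤ Z → Z ≤ R → 0 < D → D ≤ R → D⁻¹ ≤ R → nr h₀ ≤ R →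
      PerB M φ → Primary h₀ → IsCoprime h₀ M →
      (∀ z ∈ Zs, SP M z ∧ Z ≤ nr z ∧ nr z ≤ 2 * Z) → (∀ z, ‖c z‖ ≤ 1) → |s.re| ≤ 3 →
      ∑ k ∈ (ball ⌊K⌋₊).erase 0, ‖Tc φ Zs c D s (k * h₀)‖ ^ 2 ≤
        C * R ^ ε * nr h₀ ^ J * (1 + |s.im|) ^ J * (D * Z) *
          (K + K ^ 2 * Z / D + min (Z ^ 2 * Real.sqrt K) (K * Z ^ 2 / Real.sqrt D) +
            min (K * Z) (Real.sqrt K * Z * D ^ (1 / 4 : ℝ))) := by
  classical
  have hε' : 0 < ε / 7 := by positivity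
  obtain ⟨C₁, J, hC₁, h₁⟩ := En.fixed hM hε'
  obtain ⟨C₂, hC₂, h₂⟩ := card_smooth_le hε'
  obtain ⟨C₃, hC₃, h₃⟩ := sum_powerful_le hε'
  have hNM := nr_pos hM.1
  refine ⟨C₁ * C₂ * C₂ * C₃ * nr M ^ (ε / 7), J + 2, by positivity,
    fun R K D Z φ h₀ Zs c s hK hKR hZ hZR hD hDR hDR' hh hφ hp hc hZs hc1 hs => ?_⟩
  set F := K + K ^ 2 * Z / D + min (Z ^ 2 * Real.sqrt K) (K * Z ^ 2 / Real.sqrt D) +
    min (K * Z) (Real.sqrt K * Z * D ^ (1 / 4 : ℝ)) with hF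
  have hK0 : 0 ≤ K := by linarith
  have hZ0 : 0 ≤ Z := by linarith
  have hR : 1 ≤ R := hK.trans hKR
  have hR0 : 0 < R := by linarith
  have hF0 : 0 ≤ F := by positivity
  have hR3 : R ≤ R ^ 3 := le_self_pow₀ hR three_ne_zero
  have h0 := hp.ne_zero
  have hN0 := one_le_nr h0
  have hX : 1 ≤ ⌊K⌋₊ := (Nat.one_le_floor_iff K).2 hK
  have hXR : (⌊K⌋₊ : ℝ) ≤ R := (Nat.floor_le hK0).trans hKR
  set As := (ball ⌊K⌋₊).filter (fun j => j ≠ 0 ∧ pf j ⊆ pf M) with hAs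
  set Ah := (ball ⌊K⌋₊).filter (fun j => j ≠ 0 ∧ pf j ⊆ pf h₀) with hAh
  set Pw := (ball ⌊K⌋₊).filter Powerful with hPw
  set T := (As ×ˢ Ah ×ˢ Pw).filter
    (fun t => Primary t.2.1 ∧ IsCoprime t.2.1 M ∧ IsCoprime t.2.2 M) with hT
  set B := C₁ * (R ^ 3) ^ (ε / 7) * (1 + |s.im|) ^ J * (D * Z) * (nr h₀ ^ 2 * F) with hB
  have hB0 : 0 ≤ B := by positivity
  have hsub : (ball ⌊K⌋₊).erase 0 ⊆
      (T.sigma fun t => sp (M * (t.2.1 * t.2.2 * h₀)) (K / nr t.2.2)).image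
        fun x => x.1.1 * x.1.2.1 * x.1.2.2 * x.2 := by
    intro k hk
    obtain ⟨hk0, hk⟩ := mem_erase.1 hk
    rw [En.mem_ball_floor hK0] at hk
    obtain ⟨s₀, h3, q, k₁, e, a1, a2, a3, a4, a5, a6, a7⟩ := decomp hM.1 h0 hk0
    have s0 : s₀ ≠ 0 := fun h => hk0 (by rw [e, h]; ring)
    have hb : ∀ y, y ∣ k → y ∈ ball ⌊K⌋₊ := fun y hy =>
      (En.mem_ball_floor hK0).2 ((En.nr_le_of_dvd hy hk0).trans hk)
    have hq := nr_pos a5.1.ne_zero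
    refine mem_image.2 ⟨⟨(s₀, h3, q), k₁⟩, mem_sigma.2 ⟨mem_filter.2 ⟨mem_product.2
      ⟨mem_filter.2 ⟨hb _ ⟨h3 * q * k₁, by rw [e]; ring⟩, s0, a1⟩, mem_product.2
        ⟨mem_filter.2 ⟨hb _ ⟨s₀ * q * k₁, by rw [e]; ring⟩, a2.ne_zero, a4⟩,
          mem_filter.2 ⟨hb _ ⟨s₀ * h3 * k₁, by rw [e]; ring⟩, a5⟩⟩⟩, a2, a3, a6⟩,
      (En.mem_sp (by positivity)).2 ⟨a7, ?_⟩⟩, e.symm⟩
    rw [le_div_iff₀ hq, ← nr_mul]
    exact (En.nr_le_of_dvd ⟨s₀ * h3, by rw [e]; ring⟩ hk0).trans hk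
  have hfib : ∀ t ∈ T, ∑ k₁ ∈ sp (M * (t.2.1 * t.2.2 * h₀)) (K / nr t.2.2),
      ‖Tc φ Zs c D s (t.1 * t.2.1 * t.2.2 * k₁ * h₀)‖ ^ 2 ≤ B * nr t.2.2 ^ (-(1 / 2 : ℝ)) := by
    rintro ⟨s₀, h3, q⟩ ht
    obtain ⟨ht, a2, a3, a6⟩ := mem_filter.1 ht
    obtain ⟨t1, ht⟩ := mem_product.1 ht
    obtain ⟨t2, t3⟩ := mem_product.1 ht
    obtain ⟨-, s0, a1⟩ := mem_filter.1 t1
    obtain ⟨b2, -, a4⟩ := mem_filter.1 t2
    obtain ⟨b3, a5⟩ := mem_filter.1 t3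
    rw [En.mem_ball_floor hK0] at b2 b3
    simp only at *
    have hq := one_le_nr a5.1.ne_zero
    obtain ⟨φ', hφ', hT'⟩ := twist hM s0 a1 hφ
    have e : ∀ k₁, Tc φ Zs c D s (s₀ * h3 * q * k₁ * h₀) =
        Tc φ' Zs c D s (k₁ * (h3 * q * h₀)) := fun k₁ => by
      rw [← hT']
      congr 1
      ring
    simp only [e]
    refine (h₁ (R ^ 3) (K / nr q) D Z φ' (h3 * q * h₀) Zs c s
      ((one_le_div (by linarith)).2 b3) ((div_le_self hK0 hq).trans (hKR.trans hR3)) hZ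
      (hZR.trans hR3) hD (hDR'.trans hR3) ?_ hφ' ((a2.mul a5.1).mul hp)
      ((a3.mul_left a6).mul_left hc) hZs hc1 hs).trans ?_
    · rw [nr_mul, nr_mul, pow_three']
      have := b2.trans hKR
      have := b3.trans hKR
      gcongr
    · refine (mul_le_mul_of_nonneg_left (En.Fb_le hD hZ0 hq b3 hN0
        (rad_sq_le a2.ne_zero h0 a5 a4)) (by positivity)).trans_eq ?_
      rw [hB]
      ring
  have hA1 : (As.card : ℝ) ≤ C₂ * (R ^ (ε / 7) * nr M ^ (ε / 7)) := by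
    refine (h₂ M _ hM.1 hX).trans ?_
    rw [← Real.mul_rpow hR0.le hNM.le]
    gcongr
  have hA2 : (Ah.card : ℝ) ≤ C₂ * (R ^ (ε / 7) * R ^ (ε / 7)) := by
    refine (h₂ h₀ _ h0 hX).trans ?_
    rw [← Real.mul_rpow hR0.le hR0.le]
    gcongr
  have hA3 : ∑ q ∈ Pw, nr q ^ (-(1 / 2 : ℝ)) ≤ C₃ * R ^ (ε / 7) := by
    refine (h₃ _ hX).trans ?_
    gcongr
  have e7 : R ^ ε = (R ^ (ε / 7)) ^ 7 := by
    rw [← Real.rpow_natCast, ← Real.rpow_mul hR0.le]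
    congr 1
    push_cast
    ring
  have e3 : (R ^ 3) ^ (ε / 7) = (R ^ (ε / 7)) ^ 3 := by
    rw [← Real.rpow_natCast, ← Real.rpow_natCast, ← Real.rpow_mul hR0.le, ← Real.rpow_mul hR0.le,
      mul_comm]
  have h1s : 1 ≤ 1 + |s.im| := le_add_of_nonneg_right (abs_nonneg _)
  refine (sum_le_sum_of_subset_of_nonneg hsub fun _ _ _ => sq_nonneg _).trans
    ((sum_image_le_of_nonneg fun _ _ => sq_nonneg _).trans ?_)
  calc _ ≤ ∑ t ∈ T, B * nr t.2.2 ^ (-(1 / 2 : ℝ)) := by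
        rw [sum_sigma]
        exact sum_le_sum hfib
    _ ≤ ∑ t ∈ As ×ˢ Ah ×ˢ Pw, B * nr t.2.2 ^ (-(1 / 2 : ℝ)) :=
        sum_le_sum_of_subset_of_nonneg (filter_subset _ _) fun _ _ _ => by positivity
    _ = As.card * (Ah.card * (B * ∑ q ∈ Pw, nr q ^ (-(1 / 2 : ℝ)))) := by
        simp only [sum_product, sum_const, nsmul_eq_mul, ← mul_sum]
        ring
    _ ≤ C₂ * (R ^ (ε / 7) * nr M ^ (ε / 7)) * (C₂ * (R ^ (ε / 7) * R ^ (ε / 7)) *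
          (B * (C₃ * R ^ (ε / 7)))) := by
        have : 0 ≤ ∑ q ∈ Pw, nr q ^ (-(1 / 2 : ℝ)) := sum_nonneg fun _ _ => by positivity
        gcongr
    _ = C₁ * C₂ * C₂ * C₃ * nr M ^ (ε / 7) * R ^ ε * nr h₀ ^ 2 * (1 + |s.im|) ^ J * (D * Z) *
          F := by
        rw [hB, e7, e3]
        ring
    _ ≤ _ := by gcongr <;> omega

end Crest.Agent.R17
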