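import Crest.Agent.R17.Basic

/-!
# Row 17: the finset of non-zero rows
-/

set_option autoImplicit false

noncomputable section

namespace Crest.Agent.R17

/-- The non-zero elements of norm at most `A`. -/
def rows (A : ℝ) : Finset O := (ball ⌊A⌋₊).erase 0

theorem mem_rows {A : ℝ} (hA : 0 ≤ A) {a : O} : a ∈ rows A ↔ a ≠ 0 ∧ nr a ≤ A := by
  rw [rows, Finset.mem_erase, mem_ball, Nat.le_floor_iff hA]

end Crest.Agent.R17
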