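import Crest.Agent.R17.LBasic
import Crest.Agent.R17.Count
import Crest.Agent.R17.Rows

/-!
# Row 17, module M12: amplification (the long inverse moment from the unmarked inverse moment)
-/

set_option autoImplicit false

noncomputable section

namespace Crest.Agent.R17.InvL

open scoped ComplexConjugate Classical

theorem rc_six {M : O} (hM : Adm M) (ν : Chr M) (a : O) {p : O} (hp : Prime p) (n : O) :
    rc ν (a * p ^ 6) n = if p ∣ n then 0 else rc ν a n := by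
  split_ifs with h
  · exact rc_eq_zero ν fun h1 => hp.not_isUnit (h1.isUnit_of_dvd' h
      (((dvd_pow_self p (by norm_num)).mul_left a).mul_left M))
  · by_cases hn : Primary n
    · by_cases h1 : IsCoprime n M
      · rw [rc_mul_row hM, sym_pow_right (PO.of_adm hM hn h1),
          sym_pow_six hn (hp.irreducible.coprime_iff_not_dvd.2 h).symm, map_one, mul_one]
      · rw [LBA.rc_pos ν _ hn, LBA.rc_pos ν _ hn, ev_eq_zero ν h1, zero_mul, zero_mul]
    · rw [LBA.rc_neg ν _ hn, LBA.rc_neg ν _ hn]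

theorem Mob_split {M : O} (hM : Adm M) (ν : Chr M) (a : O) {p : O} (hp : Prime p)
    (hp' : Primary p) {D : ℝ} (hD : 0 < D) (s : ℂ) :
    Mob ν a D s = Mob ν (a * p ^ 6) D s - rc ν a p * Mob ν (a * p ^ 6) (D / nr p) s := by
  have h1 := (summable_Sm (polyB_mu_rc hM ν a) hD s).of_norm
  have h2 := (summable_Sm (polyB_mu_rc hM ν (a * p ^ 6)) hD s).of_norm
  rw [eq_sub_iff_add_eq, ← eq_sub_iff_add_eq', eq_comm, Mob, Mob, Mob, ← h2.tsum_sub h1,
    ← (mul_right_injective₀ hp.ne_zero).tsum_eq, ← tsum_mul_left]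
  · refine tsum_congr fun m => ?_
    have e : nr (p * m) / D = nr m / (D / nr p) := by
      rw [nr_mul, div_div_eq_mul_div, mul_comm]
    rw [rc_six hM ν a hp, rc_six hM ν a hp, if_pos (dvd_mul_right p m), LBA.rc_mul' ν a hp', e]
    split_ifs with h
    · rw [mu_mul_of_not_coprime fun h3 => hp.irreducible.coprime_iff_not_dvd.1 h3 h]
      ring
    · by_cases hm : Primary m
      · rw [mu_mul hp' hm (hp.irreducible.coprime_iff_not_dvd.2 h), mu_prime hp hp']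
        ring
      · rw [LBA.rc_neg ν _ hm]
        ring
  · intro n hn
    by_contra h
    refine hn ?_
    simp only
    rw [rc_six hM ν a hp, if_neg fun ⟨c, hc⟩ => h ⟨c, hc.symm⟩, sub_self]

theorem sq_Mob_le {M : O} (hM : Adm M) (ν : Chr M) (a : O) {p : O} (hp : Prime p)
    (hp' : Primary p) {D : ℝ} (hD : 0 < D) (s : ℂ) :
    ‖Mob ν a D s‖ ^ 2 ≤
      2 * ‖Mob ν (a * p ^ 6) D s‖ ^ 2 + 2 * ‖Mob ν (a * p ^ 6) (D / nr p) s‖ ^ 2 := by
  have h1 : ‖Mob ν a D s‖ ≤ ‖Mob ν (a * p ^ 6) D s‖ + ‖Mob ν (a * p ^ 6) (D / nr p) s‖ := by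
    rw [Mob_split hM ν a hp hp' hD]
    refine (norm_sub_le _ _).trans (add_le_add_right ?_ _)
    rw [norm_mul]
    exact mul_le_of_le_one_left (norm_nonneg _) (norm_rc_le hM ν a p)
  nlinarith [norm_nonneg (Mob ν a D s),
    sq_nonneg (‖Mob ν (a * p ^ 6) D s‖ - ‖Mob ν (a * p ^ 6) (D / nr p) s‖)]

theorem sum_mul_le {A B : ℝ} (hA : 0 ≤ A) (hB : 0 ≤ B) {p : O} (hp : Prime p) (hp' : Primary p)
    (h : A * nr p ^ 6 ≤ B) {f : O → ℝ} (hf : ∀ b, 0 ≤ f b) :
    ∑ a ∈ rows A, f (a * p ^ 6) ≤ ∑ b ∈ (rows B).filter (fun b => p ∈ pf b), f b := by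
  have h6 : p ^ 6 ≠ 0 := pow_ne_zero _ hp.ne_zero
  rw [← Finset.sum_image (f := f) (g := fun a => a * p ^ 6)
    fun a _ b _ hab => mul_right_cancel₀ h6 hab]
  refine Finset.sum_le_sum_of_subset_of_nonneg (fun b hb => ?_) fun b _ _ => hf b
  obtain ⟨a, ha, rfl⟩ := Finset.mem_image.1 hb
  obtain ⟨h1, h2⟩ := (mem_rows hA).1 ha
  refine Finset.mem_filter.2 ⟨(mem_rows hB).2 ⟨mul_ne_zero h1 h6, ?_⟩,
    (mem_pf (mul_ne_zero h1 h6)).2 ⟨hp, hp', (dvd_pow_self p (by norm_num)).mul_left a⟩⟩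
  rw [nr_mul, nr_pow]
  exact (mul_le_mul_of_nonneg_right h2 (by positivity)).trans h

theorem sum_filter_le (S Ps : Finset O) {f : O → ℝ} (hf : ∀ b, 0 ≤ f b) {K : ℝ}
    (hK : ∀ b ∈ S, ((pf b).card : ℝ) ≤ K) :
    ∑ p ∈ Ps, ∑ b ∈ S.filter (fun b => p ∈ pf b), f b ≤ K * ∑ b ∈ S, f b := by
  simp only [Finset.sum_filter]
  rw [Finset.sum_comm, Finset.mul_sum]
  refine Finset.sum_le_sum fun b hb => ?_
  rw [← Finset.sum_filter, Finset.sum_const, nsmul_eq_mul]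
  refine mul_le_mul_of_nonneg_right (le_trans ?_ (hK b hb)) (hf b)
  exact_mod_cast Finset.card_le_card fun p hp => (Finset.mem_filter.1 hp).2

theorem long_of_moment {M : O} (hM : Adm M)
    (h : ∀ ε : ℝ, 0 < ε → ∃ (C : ℝ) (J : ℕ), 0 < C ∧ ∀ (A D τ : ℝ) (ν : Chr M), 1 ≤ A → 0 < D →
      D ≤ A → ∑ a ∈ rows A, ‖Mob ν a D (τ * Complex.I)‖ ^ 2 ≤ C * A ^ ε * (1 + |τ|) ^ J * (A * D))
    {ε : ℝ} (hε : 0 < ε) : ∃ (C : ℝ) (J : ℕ), 0 < C ∧
    ∀ (A D τ : ℝ) (ν : Chr M), 1 ≤ A → A ≤ D →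
      ∑ a ∈ rows A, ‖Mob ν a D (τ * Complex.I)‖ ^ 2 ≤
        C * D ^ ε * (1 + |τ|) ^ J * (D ^ 2 * (A / D) ^ (1 / 6 : ℝ)) := by
  have hδ : 0 < ε / 3 := by positivity
  obtain ⟨C₁, J, hC₁, h1⟩ := h _ hδ
  obtain ⟨C₂, hC₂, h2⟩ := pow_card_pf_le hδ 2
  obtain ⟨P₀, h3⟩ := card_primesIn_ge hM.1 hδ
  obtain ⟨E, hE⟩ : ∃ E : ℝ, E = 64 ^ (ε / 3) := ⟨_, rfl⟩
  have hE0 : 0 < E := by rw [hE]; positivity
  refine ⟨C₁ * (|P₀| + 128 * C₂ * E ^ 2 + 128 * E), J, by positivity, fun A D τ ν hA hAD => ?_⟩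
  have hD : 1 ≤ D := hA.trans hAD
  have hD0 : 0 < D := by linarith
  obtain ⟨P, hP⟩ : ∃ P : ℝ, P = (D / A) ^ (1 / 6 : ℝ) := ⟨_, rfl⟩
  have hDA : 1 ≤ D / A := (one_le_div (by linarith)).2 hAD
  have hP1 : 1 ≤ P := by rw [hP]; exact Real.one_le_rpow hDA (by norm_num)
  have hP6 : A * P ^ 6 = D := by
    rw [hP, ← Real.rpow_natCast, ← Real.rpow_mul (by positivity)]
    norm_num
    field_simp
  have hPD : P ≤ D := by nlinarith [le_self_pow₀ hP1 (n := 6) (by norm_num)]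
  have hPi : (A / D) ^ (1 / 6 : ℝ) = P⁻¹ := by
    rw [hP, ← Real.inv_rpow (by positivity), inv_div]
  obtain ⟨x, hx⟩ : ∃ x : ℝ, x = D ^ (ε / 3) := ⟨_, rfl⟩
  have hx1 : 1 ≤ x := by rw [hx]; exact Real.one_le_rpow hD hδ.le
  have hx3 : D ^ ε = x ^ 3 := by
    rw [hx, ← Real.rpow_natCast, ← Real.rpow_mul hD0.le]
    congr 1
    push_cast
    ring
  have h64 : (64 * D) ^ (ε / 3) = E * x := by rw [hE, hx, Real.mul_rpow (by norm_num) hD0.le]
  obtain ⟨t, ht⟩ : ∃ t : ℝ, t = (1 + |τ|) ^ J := ⟨_, rfl⟩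
  have ht0 : 0 < t := by rw [ht]; positivity
  have hxx : x ≤ x ^ 3 := le_self_pow₀ hx1 (by norm_num)
  rw [hPi, hx3, ← ht]
  rcases lt_or_ge P P₀ with h4 | h4
  · have h5 := h1 D D τ ν hD hD0 le_rfl
    rw [← hx, ← ht] at h5
    have h6 : 1 ≤ |P₀| * P⁻¹ := by
      rw [← div_eq_mul_inv, one_le_div (by linarith)]
      exact h4.le.trans (le_abs_self _)
    calc _ ≤ ∑ a ∈ rows D, ‖Mob ν a D (τ * Complex.I)‖ ^ 2 :=
          Finset.sum_le_sum_of_subset_of_nonneg (fun a ha => (mem_rows hD0.le).2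
            (((mem_rows (by linarith)).1 ha).imp_right (·.trans hAD))) fun _ _ _ => sq_nonneg _
      _ ≤ C₁ * x * t * (D * D) * 1 := by rwa [mul_one]
      _ ≤ C₁ * x ^ 3 * t * (D * D) * (|P₀| * P⁻¹) := by gcongr
      _ = C₁ * |P₀| * x ^ 3 * t * (D ^ 2 * P⁻¹) := by ring
      _ ≤ _ := by
          gcongr
          rw [add_assoc]
          exact le_add_of_nonneg_right (by positivity)
  · have hmem := fun p (hp : p ∈ primesIn M P) => (mem_primesIn (by linarith)).1 hp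
    have hN : ∀ p ∈ primesIn M P, A * nr p ^ 6 ≤ 64 * D := fun p hp => by
      calc A * nr p ^ 6 ≤ A * (2 * P) ^ 6 := by
            gcongr
            exact (hmem p hp).2.2.2.2
        _ = 64 * (A * P ^ 6) := by ring
        _ = _ := by rw [hP6]
    have a1 : ∑ p ∈ primesIn M P, ∑ a ∈ rows A, ‖Mob ν (a * p ^ 6) D (τ * Complex.I)‖ ^ 2 ≤
        C₂ * (E * x) * (C₁ * (E * x) * t * (64 * D * D)) := by
      refine (Finset.sum_le_sum fun p hp => sum_mul_le (by linarith) (by positivity) (hmem p hp).1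
        (hmem p hp).2.1 (hN p hp) (f := fun b => ‖Mob ν b D (τ * Complex.I)‖ ^ 2)
        fun _ => sq_nonneg _).trans ((sum_filter_le _ _ (fun _ => sq_nonneg _)
          (K := C₂ * (E * x)) fun b hb => ?_).trans ?_)
      · obtain ⟨b1, b2⟩ := (mem_rows (by positivity)).1 hb
        calc ((pf b).card : ℝ) ≤ 2 ^ (pf b).card := by exact_mod_cast Nat.lt_two_pow_self.le
          _ ≤ C₂ * nr b ^ (ε / 3) := h2 b b1
          _ ≤ C₂ * (64 * D) ^ (ε / 3) := by gcongr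
          _ = _ := by rw [h64]
      · have h5 := h1 (64 * D) D τ ν (by linarith) hD0 (by linarith)
        rw [h64, ← ht] at h5
        exact mul_le_mul_of_nonneg_left h5 (by positivity)
    have a2 : ∀ p ∈ primesIn M P, ∑ a ∈ rows A, ‖Mob ν (a * p ^ 6) (D / nr p) (τ * Complex.I)‖ ^ 2 ≤
        C₁ * (E * x) * t * (64 * D * (D * P⁻¹)) := fun p hp => by
      have b1 := (hmem p hp).2.2.2.1
      have b2 : D / nr p ≤ D * P⁻¹ := by
        rw [← div_eq_mul_inv]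
        gcongr
      have h5 := h1 (64 * D) (D / nr p) τ ν (by linarith) (div_pos hD0 (by linarith))
        ((div_le_self hD0.le (by linarith)).trans (by linarith))
      rw [h64, ← ht] at h5
      refine (sum_mul_le (by linarith) (by positivity) (hmem p hp).1 (hmem p hp).2.1 (hN p hp)
        (f := fun b => ‖Mob ν b (D / nr p) (τ * Complex.I)‖ ^ 2) fun _ => sq_nonneg _).trans
        ((Finset.sum_le_sum_of_subset_of_nonneg (Finset.filter_subset _ _)
          fun _ _ _ => sq_nonneg _).trans (h5.trans (by gcongr)))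
    have a3 : ∑ _p ∈ primesIn M P, ∑ a ∈ rows A, ‖Mob ν a D (τ * Complex.I)‖ ^ 2 ≤
        ∑ p ∈ primesIn M P, (2 * ∑ a ∈ rows A, ‖Mob ν (a * p ^ 6) D (τ * Complex.I)‖ ^ 2 +
          2 * (C₁ * (E * x) * t * (64 * D * (D * P⁻¹)))) :=
      Finset.sum_le_sum fun p hp => by
        refine (Finset.sum_le_sum fun a _ =>
          sq_Mob_le hM ν a (hmem p hp).1 (hmem p hp).2.1 hD0 _).trans ?_
        rw [Finset.sum_add_distrib, ← Finset.mul_sum, ← Finset.mul_sum]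
        linarith [a2 p hp]
    rw [Finset.sum_add_distrib, ← Finset.mul_sum, Finset.sum_const, Finset.sum_const, nsmul_eq_mul,
      nsmul_eq_mul] at a3
    have a4 : 1 ≤ ((primesIn M P).card : ℝ) * (x * P⁻¹) := by
      have b1 := h3 P h4
      have b2 : P ^ (ε / 3) ≤ x := by
        rw [hx]
        gcongr
      rw [Real.rpow_sub (by linarith), Real.rpow_one, div_le_iff₀ (by positivity)] at b1
      rw [← mul_assoc, ← div_eq_mul_inv, one_le_div (by linarith)]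
      exact b1.trans (by gcongr)
    have a5 : (0 : ℝ) < (primesIn M P).card := by
      by_contra h5
      nlinarith [mul_pos (by linarith : 0 < x) (inv_pos.2 (by linarith : 0 < P))]
    generalize ((primesIn M P).card : ℝ) = N at *
    refine le_of_mul_le_mul_left (a3.trans ?_) a5
    calc _ ≤ 2 * (C₂ * (E * x) * (C₁ * (E * x) * t * (64 * D * D))) * 1 +
          N * (2 * (C₁ * (E * x) * t * (64 * D * (D * P⁻¹)))) := by linarith
      _ ≤ 2 * (C₂ * (E * x) * (C₁ * (E * x) * t * (64 * D * D))) * (N * (x * P⁻¹)) +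
          N * (2 * (C₁ * (E * x ^ 3) * t * (64 * D * (D * P⁻¹)))) := by gcongr
      _ = N * (C₁ * (128 * C₂ * E ^ 2 + 128 * E) * x ^ 3 * t * (D ^ 2 * P⁻¹)) := by ring
      _ ≤ _ := by
          gcongr
          exact le_add_of_nonneg_left (abs_nonneg _)

end Crest.Agent.R17.InvL
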