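import Crest.Agent.R17.Recip
import Crest.Agent.R17.Poisson
import Crest.Agent.R17.Weight

/-!
# Row 17, module M9, section A: row characters (proofs)
-/

set_option autoImplicit false

noncomputable section

namespace Crest.Agent.R17.LBA

open scoped ComplexConjugate

theorem rc_pos {M : O} (ν : Chr M) (a : O) {n : O} (h : Primary n) :
    rc ν a n = ev ν n * conj (sym n a) := if_pos h

theorem rc_neg {M : O} (ν : Chr M) (a : O) {n : O} (h : ¬ Primary n) : rc ν a n = 0 := if_neg h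

theorem rc_one {M : O} (ν : Chr M) (a : O) : rc ν a 1 = 1 := by
  rw [rc_pos ν a primary_one, ev_one, sym_one_left, map_one, mul_one]

theorem rc_zero {M : O} (ν : Chr M) (a : O) : rc ν a 0 = 0 :=
  rc_neg ν a fun h => h.ne_zero rfl

theorem rc_mul {M : O} (ν : Chr M) (a : O) {m n : O} (hm : Primary m) (hn : Primary n) :
    rc ν a (m * n) = rc ν a m * rc ν a n := by
  rw [rc_pos ν a hm, rc_pos ν a hn, rc_pos ν a (hm.mul hn), ev_mul,
    sym_mul_left hm.ne_zero hn.ne_zero, map_mul]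
  ring

theorem rc_mul' {M : O} (ν : Chr M) (a : O) {m : O} (hm : Primary m) (n : O) :
    rc ν a (m * n) = rc ν a m * rc ν a n := by
  by_cases hn : Primary n
  · exact rc_mul ν a hm hn
  · rw [rc_neg ν a hn, rc_neg ν a fun h => hn (hm.of_mul h), mul_zero]

theorem norm_rc_le {M : O} (hM : Adm M) (ν : Chr M) (a n : O) : ‖rc ν a n‖ ≤ 1 := by
  by_cases hn : Primary n
  · rw [rc_pos ν a hn, norm_mul, Complex.norm_conj]
    exact mul_le_one₀ (norm_ev_le hM.1 ν n) (norm_nonneg _) (norm_sym_le n a)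
  · rw [rc_neg ν a hn, norm_zero]
    exact zero_le_one

theorem rc_eq_zero {M : O} (ν : Chr M) {a n : O} (h : ¬ IsCoprime n (M * a)) : rc ν a n = 0 := by
  by_cases hn : Primary n
  · rw [rc_pos ν a hn]
    by_cases h1 : IsCoprime n M
    · rw [(sym_eq_zero_iff hn).2 fun h2 => h (h1.mul_right h2), map_zero, mul_zero]
    · rw [ev_eq_zero ν h1, zero_mul]
  · exact rc_neg ν a hn

theorem rc_mul_row {M : O} (hM : Adm M) (ν : Chr M) (a b n : O) :
    rc ν (a * b) n = rc ν a n * conj (sym n b) := by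
  by_cases hn : Primary n
  · rw [rc_pos ν _ hn, rc_pos ν _ hn]
    by_cases h1 : IsCoprime n M
    · rw [sym_mul_right (PO.of_adm hM hn h1), map_mul, mul_assoc]
    · rw [ev_eq_zero ν h1, zero_mul, zero_mul, zero_mul]
  · rw [rc_neg ν _ hn, rc_neg ν _ hn, zero_mul]

theorem polyB_rc {M : O} (hM : Adm M) (ν : Chr M) (a : O) : PolyB (rc ν a) 1 0 :=
  ⟨rc_zero ν a, fun n => by rw [Real.rpow_zero, mul_one]; exact norm_rc_le hM ν a n⟩

theorem polyB_mu_rc {M : O} (hM : Adm M) (ν : Chr M) (a : O) :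
    PolyB (fun n => mu n * rc ν a n) 1 0 :=
  ⟨by simp only [rc_zero, mul_zero], fun n => by
    rw [Real.rpow_zero, mul_one, norm_mul]
    exact mul_le_one₀ (norm_mu_le n) (norm_nonneg _) (norm_rc_le hM ν a n)⟩

theorem primary_congr {n n' : O} (h : (3 : O) ∣ n - n') (hn : Primary n) : Primary n' := by
  have := dvd_sub hn h
  rwa [show n - 1 - (n - n') = n' - 1 by ring] at this

theorem coprime_congr {M n n' : O} (h : M ∣ n - n') (hn : IsCoprime n M) : IsCoprime n' M := by
  obtain ⟨k, hk⟩ := h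
  rw [show n' = n + M * (-k) by linear_combination -hk]
  exact hn.add_mul_left_left _

theorem rc_periodic {M : O} (hM : Adm M) (ν : Chr M) {a : O} (ha : a ≠ 0) {n n' : O}
    (h : M * rad a ∣ n - n') : rc ν a n = rc ν a n' := by
  have h1 : M ∣ n - n' := (dvd_mul_right _ _).trans h
  have h1' : M ∣ n' - n := dvd_sub_comm.1 h1
  have h3 : (3 : O) ∣ M := Dvd.dvd.trans ⟨24, by norm_num⟩ hM.2
  by_cases hn : Primary n
  · have hn' := primary_congr (h3.trans h1) hn
    rw [rc_pos ν a hn, rc_pos ν a hn', ← ev_congr ν h1]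
    by_cases hc : IsCoprime n M
    · rw [sym_periodic ha (PO.of_adm hM hn hc) (PO.of_adm hM hn' (coprime_congr h1 hc))
        ((mul_dvd_mul_right hM.2 _).trans h)]
    · rw [ev_eq_zero ν hc, zero_mul, zero_mul]
  · rw [rc_neg ν a hn, rc_neg ν a fun hn' => hn (primary_congr (h3.trans h1') hn')]

theorem exists_chr_row {M : O} (hM : Adm M) (ν : Chr M) {a : O} (ha : a ≠ 0) :
    Adm (M * a) ∧ ∃ ν' : Chr (M * a), rc ν' 1 = rc ν a := by
  have hA : Adm (M * a) := ⟨mul_ne_zero hM.1 ha, hM.2.mul_right _⟩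
  refine ⟨hA, ?_⟩
  obtain ⟨ν₁, h1⟩ := exists_chr_sym hA ha fun p hp => ((mem_pf ha).1 hp).2.2.mul_left _
  obtain ⟨ν₂, h2⟩ := exists_chr (M := M * a) (ev ν) (ev_one ν) (fun m n _ _ => ev_mul ν m n)
    fun m n _ h => ev_congr ν ((dvd_mul_right _ _).trans h)
  refine ⟨ν₂ * ν₁⁻¹, funext fun n => ?_⟩
  by_cases hn : Primary n
  · by_cases hc : IsCoprime n (M * a)
    · rw [rc_pos _ _ hn, rc_pos _ _ hn, ev_mul_chr, ev_inv hA.1, h1 n hn hc, h2 n hc,
        sym_one_right, map_one, mul_one]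
    · rw [rc_eq_zero ν hc, rc_eq_zero _ (by rwa [mul_one])]
  · rw [rc_neg _ _ hn, rc_neg _ _ hn]

theorem exc_split {M a : O} (ha : a ≠ 0) (h : Exc M a) :
    ∃ s c : O, s ≠ 0 ∧ (∀ p ∈ pf s, p ∣ M) ∧ a = s * c ^ 6 := by
  classical
  obtain ⟨u, j, hu, he⟩ := exists_eq_unit_lam_primary ha
  have e : a = (u * lam ^ j * ∏ p ∈ (pf a).filter (· ∣ M), p ^ vp p a) *
      (∏ p ∈ (pf a).filter (fun p => ¬ p ∣ M), p ^ (vp p a / 6)) ^ 6 := by
    rw [← Finset.prod_pow, mul_assoc _ (∏ p ∈ (pf a).filter (· ∣ M), p ^ vp p a),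
      Finset.prod_congr (s₁ := (pf a).filter (fun p => ¬ p ∣ M)) rfl (g := fun p => p ^ vp p a),
      Finset.prod_filter_mul_prod_filter_not]
    · exact he
    · intro p hp
      obtain ⟨h1, h2⟩ := Finset.mem_filter.1 hp
      rw [← pow_mul, Nat.div_mul_cancel (h p h1 h2)]
  refine ⟨_, _, left_ne_zero_of_mul (e ▸ ha), fun p hp => ?_, e⟩
  obtain ⟨h1, h2, h3⟩ := BasicB.of_mem_pf hp
  rcases h1.dvd_or_dvd h3 with h4 | h4
  · rcases h1.dvd_or_dvd h4 with h5 | h5
    · exact absurd (isUnit_of_dvd_unit h5 hu) h1.not_isUnit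
    · exact absurd (h1.associated_of_dvd prime_lam (h1.dvd_of_dvd_pow h5)).symm.dvd h2.not_lam_dvd
  · obtain ⟨q, hq, h5⟩ := (Prime.dvd_finsetProd_iff h1 _).1 h4
    exact (h1.dvd_of_dvd_pow h5).trans (Finset.mem_filter.1 hq).2

theorem exists_chr_exc {M : O} (hM : Adm M) (ν : Chr M) {a : O} (ha : a ≠ 0) (h : Exc M a) :
    ∃ ν' : Chr M, ∀ n, Primary n → IsCoprime n a → rc ν a n = rc ν' 1 n := by
  obtain ⟨s, c, hs, hp, rfl⟩ := exc_split ha h
  obtain ⟨ν₁, h1⟩ := exists_chr_sym hM hs hp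
  refine ⟨ν * ν₁⁻¹, fun n hn hc => ?_⟩
  rw [rc_pos _ _ hn, rc_pos _ _ hn, ev_mul_chr, ev_inv hM.1, sym_one_right, map_one, mul_one]
  by_cases hc' : IsCoprime n M
  · have hpo := PO.of_adm hM hn hc'
    rw [h1 n hn hc', sym_mul_right hpo, sym_pow_right hpo, sym_pow_six hn
      (hc.of_isCoprime_of_dvd_right ((dvd_pow_self c (by norm_num)).mul_left _)), mul_one]
  · rw [ev_eq_zero ν hc', zero_mul, zero_mul]

theorem ne_zero_of_not_exc {M a : O} (h : ¬ Exc M a) : a ≠ 0 := by
  rintro rfl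
  exact h fun p hp => by simp at hp

theorem one_le_cond (M a : O) : 1 ≤ cond M a := by
  unfold cond
  refine Finset.prod_induction _ (fun x : ℝ => 1 ≤ x)
    (fun x y hx hy => one_le_mul_of_one_le_of_one_le hx hy) le_rfl fun p hp => ?_
  classical
  exact one_le_nr (BasicB.pf_sub (Finset.mem_filter.1 hp).1).1.ne_zero

theorem cond_le (M : O) {a : O} (ha : a ≠ 0) : cond M a ≤ nr a := by
  classical
  have h := nm_le_of_dvd (BasicB.prod_dvd_of_subset ha
    (Finset.filter_subset (fun p => ¬ p ∣ M ∧ ¬ 6 ∣ vp p a) (pf a))) ha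
  rw [nm_prod] at h
  unfold cond
  have h' : ((∏ i ∈ (pf a).filter (fun p => ¬ p ∣ M ∧ ¬ 6 ∣ vp p a), nm i : ℕ) : ℝ) ≤ nr a :=
    Nat.cast_le.2 h
  rw [Nat.cast_prod] at h'
  convert h'

theorem not_princ_of_not_exc {M : O} (hM : Adm M) (ν : Chr M) {a : O} (h : ¬ Exc M a) :
    ¬ Princ ν a := by
  have ha := ne_zero_of_not_exc h
  simp only [Exc, not_forall] at h
  obtain ⟨p, hp, hpM, hv⟩ := h
  obtain ⟨hp1, hp2⟩ := BasicB.pf_sub hp
  obtain ⟨a', ha'⟩ := (pow_dvd_iff_le_vp hp1 ha).2 le_rfl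
  have ha0 : a' ≠ 0 := by
    rintro rfl
    exact ha (by rw [ha', mul_zero])
  have hpa : ¬ p ∣ a' := by
    rintro ⟨c, hc⟩
    have : p ^ (vp p a + 1) ∣ a := ⟨c, by rw [pow_succ, mul_assoc, ← hc, ← ha']⟩
    have := (pow_dvd_iff_le_vp hp1 ha).1 this
    omega
  have hcM : IsCoprime p M := hp1.coprime_iff_not_dvd.2 hpM
  have hc : IsCoprime p (M * a') := hcM.mul_right (hp1.coprime_iff_not_dvd.2 hpa)
  have hpo : PO p := PO.of_adm hM hp2 hcM
  obtain ⟨x, hx, hx'⟩ := exists_sym_pow_ne_one hp1 hpo hv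
  obtain ⟨u, w, huw⟩ := hc
  set n := u * p + x * w * (M * a') with hn
  have h1 : M * a' ∣ 1 - n := ⟨(1 - x) * w, by rw [hn]; linear_combination -huw⟩
  have h2 : p ∣ x - n := ⟨u * (x - 1), by rw [hn]; linear_combination (-x) * huw⟩
  have h1M : M ∣ 1 - n := (dvd_mul_right _ _).trans h1
  have hnp : Primary n :=
    primary_congr ((Dvd.dvd.trans ⟨24, by norm_num⟩ hM.2).trans h1M) primary_one
  have hc1 : IsCoprime n (M * a') := coprime_congr h1 isCoprime_one_left
  have hc2 : IsCoprime n p := coprime_congr h2 hx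
  have hno : PO n := PO.of_adm hM hnp hc1.of_mul_right_left
  intro hP
  have key := hP n hnp (by
    rw [ha', mul_left_comm]
    exact hc2.pow_right.mul_right hc1)
  have e1 : sym n a' = 1 := by
    rw [← sym_periodic ha0 ⟨primary_one, isCoprime_one_left⟩ hno
      ((mul_dvd_mul hM.2 (rad_dvd a')).trans h1), sym_one_left]
  have e2 : sym n p = sym p x := by
    rw [sym_recip hno hpo, ← Rs_congr (m := 1) (n := p)
      ((Dvd.dvd.trans ⟨18, by norm_num⟩ hM.2).trans h1M) (by simp), Rs_one_left hpo.2, one_mul,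
      sym_congr ((rad_dvd p).trans h2)]
  rw [rc_pos ν a hnp, ← ev_congr ν h1M, ev_one, one_mul, ha', sym_mul_right hno,
    sym_pow_right hno, e1, e2, mul_one] at key
  apply hx'
  have := congrArg conj key
  rwa [Complex.conj_conj, map_one] at this

theorem sum_rc_eq_zero {M : O} (hM : Adm M) (ν : Chr M) {a : O} (ha : a ≠ 0) (h : ¬ Princ ν a) :
    ∑ x ∈ res (M * rad a), rc ν a x = 0 := by
  simp only [Princ, not_forall] at h
  obtain ⟨n, hn, hc, hne⟩ := h
  have key := sum_res_affine (mul_ne_zero hM.1 (primary_rad a).ne_zero) (rc ν a)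
    (fun x y hxy => rc_periodic hM ν ha hxy)
    (hc.of_isCoprime_of_dvd_right (mul_dvd_mul_left M (rad_dvd a))) 0
  simp only [add_zero, rc_mul' ν a hn] at key
  rw [← Finset.mul_sum] at key
  by_contra h0
  exact hne (mul_right_cancel₀ h0 (key.trans (one_mul _).symm))

/-! ### Euler products -/

/-- Completely multiplicative summable functions on primary elements. -/
structure CM (f : O → ℂ) : Prop where
  zero : ∀ n, ¬ Primary n → f n = 0
  one : f 1 = 1
  mul : ∀ m n, Primary m → Primary n → f (m * n) = f m * f n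
  summable : Summable fun n => ‖f n‖

theorem CM.summable_mu {f : O → ℂ} (hf : CM f) : Summable fun n => ‖mu n * f n‖ :=
  Summable.of_nonneg_of_le (fun _ => norm_nonneg _)
    (fun n => by
      rw [norm_mul]
      exact mul_le_of_le_one_left (norm_nonneg _) (norm_mu_le n)) hf.summable

theorem CM.fiber {f : O → ℂ} (hf : CM f) (n : O) :
    ∑' z : (fun z : O × O => z.1 * z.2) ⁻¹' {n}, f z.1.1 * (mu z.1.2 * f z.1.2) =
      if n = 1 then 1 else 0 := by
  classical
  rw [tsum_subtype ((fun z : O × O => z.1 * z.2) ⁻¹' {n}) fun z => f z.1 * (mu z.2 * f z.2)]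
  have hz : ∀ z : O × O, ¬ (Primary z.1 ∧ Primary z.2) → f z.1 * (mu z.2 * f z.2) = 0 := by
    intro z h
    rcases not_and_or.1 h with h | h
    · rw [hf.zero _ h, zero_mul]
    · rw [hf.zero _ h, mul_zero, mul_zero]
  by_cases hn : Primary n
  · rw [tsum_eq_sum (s := (pdiv n ×ˢ pdiv n).filter fun z => z.1 * z.2 = n)]
    · have e : ∑ z ∈ (pdiv n ×ˢ pdiv n).filter (fun z => z.1 * z.2 = n),
          ((fun z : O × O => z.1 * z.2) ⁻¹' {n}).indicator (fun z => f z.1 * (mu z.2 * f z.2)) z =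
          ∑ d ∈ pdiv n, f n * mu d := by
        refine Finset.sum_nbij (fun z => z.2) (fun z hz => ?_) (fun z hz z' hz' h => ?_)
          (fun d hd => ?_) fun z hz => ?_
        · exact (Finset.mem_product.1 (Finset.mem_filter.1 hz).1).2
        · have h1 := (Finset.mem_filter.1 hz).2
          have h2 := (Finset.mem_filter.1 hz').2
          have h3 : z.2 = z'.2 := h
          refine Prod.ext ?_ h3
          rw [h3, ← h2] at h1
          exact mul_right_cancel₀ (right_ne_zero_of_mul (h2 ▸ hn.ne_zero)) h1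
        · obtain ⟨h1, c, hc⟩ := (mem_pdiv hn.ne_zero).1 hd
          refine ⟨(c, d), Finset.mem_filter.2 ⟨Finset.mem_product.2 ⟨?_, hd⟩, ?_⟩, rfl⟩
          · exact (mem_pdiv hn.ne_zero).2 ⟨h1.of_mul (hc ▸ hn), Dvd.intro_left d hc.symm⟩
          · rw [hc, mul_comm]
        · obtain ⟨h1, h2⟩ := Finset.mem_filter.1 hz
          obtain ⟨h3, h4⟩ := Finset.mem_product.1 h1
          rw [Set.indicator_of_mem (show z ∈ (fun z : O × O => z.1 * z.2) ⁻¹' {n} from h2), ← h2,
            hf.mul _ _ ((mem_pdiv hn.ne_zero).1 h3).1 ((mem_pdiv hn.ne_zero).1 h4).1]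
          ring
      rw [e, ← Finset.mul_sum, sum_mu_pdiv hn.ne_zero]
      by_cases h1 : n = 1
      · rw [if_pos h1, h1, hf.one, if_pos pf_one, mul_one]
      · rw [if_neg h1, if_neg, mul_zero]
        intro h2
        exact h1 (by rw [hn.eq_prod, h2, Finset.prod_empty])
    · intro z hz'
      by_cases h1 : z.1 * z.2 = n
      · rw [Set.indicator_of_mem (show z ∈ (fun z : O × O => z.1 * z.2) ⁻¹' {n} from h1)]
        refine hz z fun h => hz' (Finset.mem_filter.2 ⟨Finset.mem_product.2 ⟨?_, ?_⟩, h1⟩)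
        · exact (mem_pdiv hn.ne_zero).2 ⟨h.1, Dvd.intro _ h1⟩
        · exact (mem_pdiv hn.ne_zero).2 ⟨h.2, Dvd.intro_left _ h1⟩
      · exact Set.indicator_of_notMem (show z ∉ (fun z : O × O => z.1 * z.2) ⁻¹' {n} from h1) _
  · rw [if_neg (by rintro rfl; exact hn primary_one)]
    refine (tsum_congr fun z => ?_).trans tsum_zero
    by_cases h1 : z.1 * z.2 = n
    · rw [Set.indicator_of_mem (show z ∈ (fun z : O × O => z.1 * z.2) ⁻¹' {n} from h1)]
      exact hz z fun h => hn (h1 ▸ h.1.mul h.2)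
    · exact Set.indicator_of_notMem (show z ∉ (fun z : O × O => z.1 * z.2) ⁻¹' {n} from h1) _

theorem CM.conv {f : O → ℂ} (hf : CM f) : (∑' n, f n) * ∑' n, mu n * f n = 1 := by
  classical
  rw [tsum_mul_tsum_of_summable_norm hf.summable hf.summable_mu]
  have h := (summable_mul_of_summable_norm hf.summable hf.summable_mu).hasSum.tsum_fiberwise
    fun z : O × O => z.1 * z.2
  simp only [hf.fiber] at h
  exact h.unique (hasSum_ite_eq (1 : O) (1 : ℂ))

theorem CM.prod {f : O → ℂ} (hf : CM f) {s : Finset O} (hs : ∀ p ∈ s, Primary p) :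
    f (∏ p ∈ s, p) = ∏ p ∈ s, f p := by
  classical
  induction s using Finset.induction_on with
  | empty => simpa using hf.one
  | insert p s hp ih =>
    have h1 : ∀ q ∈ s, Primary q := fun q hq => hs q (Finset.mem_insert_of_mem hq)
    rw [Finset.prod_insert hp, Finset.prod_insert hp,
      hf.mul _ _ (hs p (Finset.mem_insert_self _ _)) (Primary.prod h1), ih h1]

open Classical in
theorem CM.euler {f : O → ℂ} (hf : CM f) :
    ∏' p, (1 + if Prime p then -f p else 0) = ∑' n, mu n * f n := by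
  have hg : Summable fun p => ‖if Prime p then -f p else 0‖ :=
    Summable.of_nonneg_of_le (fun _ => norm_nonneg _)
      (fun p => by split_ifs <;> simp) hf.summable
  rw [tprod_one_add (summable_finsetProd_of_summable_norm hg)]
  have key : ∀ n, Primary n → Squarefree n →
      ∏ p ∈ pf n, (if Prime p then -f p else 0) = mu n * f n := by
    intro n hn hs
    rw [Finset.prod_congr rfl fun p hp => if_pos (BasicB.pf_sub hp).1, Finset.prod_neg,
      BasicB.mu_of_squarefree hs, ← hf.prod fun p hp => (BasicB.pf_sub hp).2]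
    congr 2
    exact hn.eq_rad hs
  have hsup : ∀ n, mu n * f n ≠ 0 → Primary n ∧ Squarefree n := by
    intro n hn
    refine ⟨?_, ?_⟩
    · by_contra h
      exact hn (by rw [hf.zero n h, mul_zero])
    · by_contra h
      exact hn (by rw [BasicB.mu_of_not h, zero_mul])
  refine tsum_eq_tsum_of_ne_zero_bij (fun n => pf n.1) (fun n n' h => ?_) (fun s hs => ?_)
    fun n => key _ (hsup _ n.2).1 (hsup _ n.2).2
  · have h' : pf n.1 = pf n'.1 := h
    apply Subtype.ext
    rw [← (hsup _ n.2).1.eq_rad (hsup _ n.2).2, ← (hsup _ n'.2).1.eq_rad (hsup _ n'.2).2, rad, rad,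
      h']
  · have h1 : ∀ p ∈ s, Prime p ∧ Primary p := by
      intro p hp
      have h2 := Finset.prod_ne_zero_iff.1 hs p hp
      by_cases h3 : Prime p
      · refine ⟨h3, ?_⟩
        by_contra h4
        exact h2 (by rw [if_pos h3, hf.zero p h4, neg_zero])
      · exact absurd (if_neg h3) h2
    obtain ⟨h2, h3, h4⟩ := squarefree_prod_primes h1
    refine ⟨⟨∏ q ∈ s, q, ?_⟩, h4⟩
    rw [Function.mem_support, ← key _ h3 h2, h4]
    exact hs

open Classical in
theorem CM.eq_exp {f : O → ℂ} (hf : CM f) (h1 : ∀ p, Prime p → ‖f p‖ < 1) :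
    ∑' n, f n = Complex.exp (∑' p : O, if Prime p then -Complex.log (1 - f p) else 0) := by
  have hg : Summable fun p => if Prime p then -f p else 0 :=
    Summable.of_norm_bounded hf.summable fun p => by split_ifs <;> simp
  have hne : ∀ p, (1 + if Prime p then -f p else 0) ≠ 0 := by
    intro p
    split_ifs with hp
    · intro h
      have h2 : f p = 1 := by linear_combination -h
      have := h1 p hp
      rw [h2, norm_one] at this
      exact lt_irrefl _ this
    · simp
  have h := Complex.cexp_tsum_eq_tprod hne (Complex.summable_log_one_add_of_summable hg)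
  have e : ∀ p, (if Prime p then -Complex.log (1 - f p) else 0) =
      -Complex.log (1 + if Prime p then -f p else 0) := by
    intro p
    split_ifs
    · rw [sub_eq_add_neg]
    · simp
  simp only [e]
  rw [tsum_neg, Complex.exp_neg, h, hf.euler]
  exact eq_inv_of_mul_eq_one_left hf.conv

theorem norm_term_le {M : O} (hM : Adm M) (ν : Chr M) (a : O) (s : ℂ) (n : O) :
    ‖rc ν a n * (nr n : ℂ) ^ (-s)‖ ≤ nr n ^ (-s.re) := by
  rcases eq_or_ne n 0 with rfl | hn
  · rw [rc_zero, zero_mul, norm_zero]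
    positivity
  · rw [norm_mul, Complex.norm_cpow_eq_rpow_re_of_pos (nr_pos hn), Complex.neg_re]
    exact mul_le_of_le_one_left (by positivity) (norm_rc_le hM ν a n)

theorem cm_term {M : O} (hM : Adm M) (ν : Chr M) (a : O) {s : ℂ} (hs : 1 < s.re) :
    CM fun n => rc ν a n * (nr n : ℂ) ^ (-s) where
  zero n hn := by rw [rc_neg ν a hn, zero_mul]
  one := by simp [rc_one, nr]
  mul m n hm hn := by
    rw [rc_mul ν a hm hn, nr_mul, Complex.ofReal_mul,
      Complex.mul_cpow_ofReal_nonneg (Nat.cast_nonneg _) (Nat.cast_nonneg _)]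
    ring
  summable := Summable.of_nonneg_of_le (fun _ => norm_nonneg _) (norm_term_le hM ν a s)
    (summable_nr_rpow hs)

theorem Lser_mul_mob {M : O} (hM : Adm M) (ν : Chr M) (a : O) {s : ℂ} (hs : 1 < s.re) :
    Lser ν a s * ∑' n : O, mu n * rc ν a n * (nr n : ℂ) ^ (-s) = 1 := by
  simp only [mul_assoc]
  exact (cm_term hM ν a hs).conv

theorem Lser_eq_exp {M : O} (hM : Adm M) (ν : Chr M) (a : O) {s : ℂ} (hs : 1 < s.re) :
    Lser ν a s = Complex.exp (∑' p : O, by
      classical exact if Prime p then -Complex.log (1 - rc ν a p * (nr p : ℂ) ^ (-s)) else 0) := by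
  refine (cm_term hM ν a hs).eq_exp fun p hp => (norm_term_le hM ν a s p).trans_lt ?_
  have h2 : (2 : ℝ) ≤ nr p := by exact_mod_cast CountAux.two_le_nm hp
  exact Real.rpow_lt_one_of_one_lt_of_neg (by linarith) (by linarith)

end Crest.Agent.R17.LBA
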