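import Crest.Agent.R17.Contour

/-!
# Row 17, module M9, part C: main terms of smooth sums (abstract lemmas for `Pln_exc`)
-/

set_option autoImplicit false

noncomputable section

namespace Crest.Agent.R17

namespace LBC

open MeasureTheory Filter Topology Complex

/-- Main term from the continuation `G(w) / (w - 1)` of the Dirichlet series. -/
theorem Sm_main {θ : ℝ} (hθ : 0 < θ) (hθ1 : θ < 1) (J : ℕ) : ∃ A : ℝ, 0 < A ∧
    ∀ (b : O → ℂ) (G : ℂ → ℂ) (C : ℝ), PolyB b 1 0 → Differentiable ℂ G →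
      (∀ w : ℂ, w.re = 2 → ∑' n : O, b n * (nr n : ℂ) ^ (-w) = G w / (w - 1)) →
      (∀ w : ℂ, 0 ≤ w.re → w.re ≤ 2 → w ≠ 1 → ‖G w‖ ≤ C * (1 + |w.im|) ^ J) →
      ‖G 1‖ ≤ C ∧ ∀ (X : ℝ) (s : ℂ), 0 < X → |s.re| ≤ 3 →
        ‖Sm b X s - G 1 * X * Wm (1 + s)‖ ≤ A * C * (1 + |s.im|) ^ J * X ^ θ := by
  obtain ⟨A, hA, h⟩ := norm_integral_Wm_le 4 J
  have h1θ : 0 < 1 - θ := by linarith
  refine ⟨A / (1 - θ), by positivity, fun b G C hb hG hD hC => ⟨?_, fun X s hX hs => ?_⟩⟩
  · have hc : Tendsto (fun t : ℝ => ‖G t‖) (𝓝[>] 1) (𝓝 ‖G 1‖) := by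
      have : Continuous fun t : ℝ => ‖G t‖ := (hG.continuous.comp continuous_ofReal).norm
      simpa using (this.tendsto 1).mono_left nhdsWithin_le_nhds
    refine le_of_tendsto hc ?_
    filter_upwards [Ioo_mem_nhdsGT (show (1 : ℝ) < 2 by norm_num)] with t ht
    simpa using hC t (by simp; linarith [ht.1]) (by simpa using ht.2.le)
      (by exact_mod_cast ht.1.ne')
  · have e1 := Sm_eq_integral hb (σ := 2) hX (by norm_num) s
    have e2 := Wm_shift_pole (G := G) (σ₀ := θ) (σ₁ := 2) (C := C) (T := 1) (J := J) (ρ := 1)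
      (by simpa using hθ1) (by simp) hX s hG.differentiableOn fun w hw hT =>
        hC w (hθ.le.trans hw.1) hw.2 (by rintro rfl; norm_num at hT)
    have e3 : ∀ u : ℝ, Wm ((2 : ℝ) + u * I + s) * (X : ℂ) ^ (((2 : ℝ) : ℂ) + u * I) *
        ∑' n : O, b n * (nr n : ℂ) ^ (-(((2 : ℝ) : ℂ) + u * I)) =
        Wm ((2 : ℝ) + u * I + s) * (X : ℂ) ^ (((2 : ℝ) : ℂ) + u * I) * G ((2 : ℝ) + u * I) /
          ((2 : ℝ) + u * I - 1) := fun u => by
      rw [hD _ (by simp), mul_div_assoc]
    simp_rw [e3] at e1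
    have hC0 : 0 ≤ C := by simpa using (norm_nonneg _).trans (hC 2 (by simp) (by simp) (by norm_num))
    have e4 := h (fun u => G (θ + u * I) / (θ + u * I - 1)) θ (C / (1 - θ)) X s hX
      ((abs_add_le _ _).trans (by rw [abs_of_pos hθ]; linarith)) fun u => by
        have k1 : 1 - θ ≤ ‖(θ : ℂ) + u * I - 1‖ := by
          have := abs_re_le_norm ((θ : ℂ) + u * I - 1)
          simp only [sub_re, add_re, ofReal_re, mul_re, I_re, mul_zero, ofReal_im, I_im, mul_one,
            sub_self, add_zero, one_re] at this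
          rwa [abs_sub_comm, abs_of_pos h1θ] at this
        have k2 := hC (θ + u * I) (by simpa using hθ.le) (by simp; linarith) fun h => by
          have := congrArg Complex.re h
          simp at this
          linarith
        have k3 : ((θ : ℂ) + u * I).im = u := by simp
        rw [k3] at k2
        rw [norm_div, div_mul_eq_mul_div]
        gcongr
    simp_rw [← mul_div_assoc] at e4
    have hpi := Real.pi_pos
    have hpi' : (Real.pi : ℂ) ≠ 0 := by exact_mod_cast hpi.ne'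
    have e5 : Sm b X s - G 1 * X * Wm (1 + s) = (1 / (2 * Real.pi) : ℂ) *
        ∫ u : ℝ, Wm (θ + u * I + s) * (X : ℂ) ^ ((θ : ℂ) + u * I) * G (θ + u * I) /
          (θ + u * I - 1) := by
      rw [e1, e2, cpow_one]
      generalize (∫ u : ℝ, Wm (θ + u * I + s) * (X : ℂ) ^ ((θ : ℂ) + u * I) * G (θ + u * I) /
          (θ + u * I - 1)) = Z
      field_simp
      ring
    have e6 : ‖(1 / (2 * Real.pi) : ℂ)‖ ≤ 1 := by
      rw [norm_div, norm_one, norm_mul, Complex.norm_real, Real.norm_of_nonneg hpi.le,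
        div_le_one (by simpa using hpi)]
      simp only [Complex.norm_ofNat]
      linarith [Real.pi_gt_three]
    rw [e5, norm_mul]
    refine (mul_le_of_le_one_left (norm_nonneg _) e6).trans (e4.trans_eq ?_)
    ring

open Classical in
/-- The function `χ` restricted to the elements without prime factor in `S`. -/
def punct (χ : O → ℂ) (S : Finset O) (n : O) : ℂ := if ∀ p ∈ S, ¬ p ∣ n then χ n else 0

theorem polyB_punct {χ : O → ℂ} (hχ : PolyB χ 1 0) (S : Finset O) : PolyB (punct χ S) 1 0 := by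
  refine ⟨by simp [punct, hχ.1], fun n => ?_⟩
  unfold punct
  split_ifs
  · exact hχ.2 n
  · simp

theorem Sm_insert {χ : O → ℂ} (hχ : PolyB χ 1 0) {S : Finset O} [DecidableEq O] {p : O}
    (hp : Prime p) (hS : ∀ q ∈ S, Prime q ∧ ¬ q ∣ p) (hm : ∀ c, χ (p * c) = χ p * χ c) {X : ℝ}
    (hX : 0 < X) (s : ℂ) :
    Sm (punct χ (insert p S)) X s = Sm (punct χ S) X s - χ p * Sm (punct χ S) (X / nr p) s := by
  classical
  have h1 := (summable_Sm (polyB_punct hχ S) hX s).of_norm
  have h2 := (summable_Sm (polyB_punct hχ (insert p S)) hX s).of_norm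
  have hinj : Function.Injective fun c : O => p * c := mul_right_injective₀ hp.ne_zero
  have e := hinj.tsum_eq (f := fun n => punct χ S n * Wc (nr n / X) s -
    punct χ (insert p S) n * Wc (nr n / X) s) (fun n hn => by
      by_contra hc
      have hpn : ¬ p ∣ n := fun ⟨c, hc'⟩ => hc ⟨c, hc'.symm⟩
      exact hn (by simp [punct, hpn]))
  rw [h1.tsum_sub h2] at e
  have e2 : ∀ c : O, punct χ S (p * c) * Wc (nr (p * c) / X) s -
      punct χ (insert p S) (p * c) * Wc (nr (p * c) / X) s =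
      χ p * (punct χ S c * Wc (nr c / (X / nr p)) s) := fun c => by
    have k1 : punct χ (insert p S) (p * c) = 0 := by simp [punct]
    have k2 : (∀ q ∈ S, ¬ q ∣ p * c) ↔ ∀ q ∈ S, ¬ q ∣ c := forall₂_congr fun q hq => by
      rw [(hS q hq).1.dvd_mul, not_or, and_iff_right (hS q hq).2]
    have k3 : punct χ S (p * c) = χ p * punct χ S c := by
      simp only [punct, k2, hm]
      split_ifs <;> simp
    have k4 : nr (p * c) / X = nr c / (X / nr p) := by
      rw [nr_mul, div_div_eq_mul_div, mul_comm]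
    rw [k1, k3, k4]
    ring
  simp_rw [e2] at e
  rw [tsum_mul_left] at e
  unfold Sm
  linear_combination e

/-- Removing the primes of `S` multiplies the main term by Euler factors and the error by
`2 ^ |S|`. -/
theorem Sm_sieve {χ : O → ℂ} (hχ : PolyB χ 1 0) {κ s : ℂ} {E θ : ℝ} (hθ : 0 ≤ θ)
    (h : ∀ X : ℝ, 0 < X → ‖Sm χ X s - κ * X * Wm (1 + s)‖ ≤ E * X ^ θ) (S : Finset O)
    (hS : ∀ p ∈ S, Prime p ∧ Primary p) (hm : ∀ p ∈ S, ∀ c, χ (p * c) = χ p * χ c) :
    ∀ X : ℝ, 0 < X → ‖Sm (punct χ S) X s - (κ * ∏ p ∈ S, (1 - χ p / nr p)) * X * Wm (1 + s)‖ ≤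
      2 ^ S.card * E * X ^ θ := by
  classical
  have hE : 0 ≤ E := by simpa using (norm_nonneg _).trans (h 1 one_pos)
  induction S using Finset.induction_on with
  | empty =>
    have : punct χ ∅ = χ := funext fun n => by simp [punct]
    simpa [this] using h
  | insert p S hpS ih =>
    intro X hX
    have hp := hS p (Finset.mem_insert_self _ _)
    have hS' : ∀ q ∈ S, Prime q ∧ Primary q := fun q hq => hS q (Finset.mem_insert_of_mem hq)
    have ih' := ih hS' fun q hq => hm q (Finset.mem_insert_of_mem hq)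
    have h1 := one_le_nr hp.1.ne_zero
    have h0 : (nr p : ℂ) ≠ 0 := by exact_mod_cast (nr_pos hp.1.ne_zero).ne'
    have i1 := ih' X hX
    have i2 := ih' (X / nr p) (by positivity)
    have hχp : ‖χ p‖ ≤ 1 := by simpa using hχ.2 p
    rw [Sm_insert hχ hp.1 (fun q hq => ⟨(hS' q hq).1, fun hd => hpS
        (BasicB.eq_of_dvd (hS' q hq).1 hp.1 (hS' q hq).2 hp.2 hd ▸ hq)⟩)
      (hm p (Finset.mem_insert_self _ _)) hX, Finset.prod_insert hpS, Finset.card_insert_of_notMem hpS]
    have e : Sm (punct χ S) X s - χ p * Sm (punct χ S) (X / nr p) s -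
        κ * ((1 - χ p / nr p) * ∏ p ∈ S, (1 - χ p / nr p)) * X * Wm (1 + s) =
        (Sm (punct χ S) X s - (κ * ∏ p ∈ S, (1 - χ p / nr p)) * X * Wm (1 + s)) -
        χ p * (Sm (punct χ S) (X / nr p) s -
          (κ * ∏ p ∈ S, (1 - χ p / nr p)) * ((X / nr p : ℝ) : ℂ) * Wm (1 + s)) := by
      push_cast
      ring
    have i3 : (X / nr p) ^ θ ≤ X ^ θ :=
      Real.rpow_le_rpow (by positivity) (div_le_self hX.le h1) hθ
    rw [e]
    refine (norm_sub_le _ _).trans ?_
    rw [norm_mul]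
    have i4 := (mul_le_of_le_one_left (norm_nonneg _) hχp).trans
      (i2.trans (mul_le_mul_of_nonneg_left i3 (by positivity)))
    rw [pow_succ]
    linarith

/-- For values in `{0, 1}` the Euler factors lie in `(0, 1]`. -/
theorem euler_factor {χ : O → ℂ} {S : Finset O} (hS : ∀ p ∈ S, Prime p)
    (h : ∀ p ∈ S, χ p = 0 ∨ χ p = 1) :
    ‖∏ p ∈ S, (1 - χ p / nr p)‖ ≤ 1 ∧ ∏ p ∈ S, (1 - χ p / nr p) ≠ 0 := by
  have key : ∀ p ∈ S, ‖1 - χ p / nr p‖ ≤ 1 ∧ 1 - χ p / nr p ≠ 0 := fun p hp => by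
    rcases h p hp with h0 | h0 <;> rw [h0]
    · simp
    · have h1 := one_le_nr (hS p hp).ne_zero
      have h2 : nr p ≠ 1 := fun h => (hS p hp).not_isUnit (isUnit_iff_nm.2 (by exact_mod_cast h))
      have h3 : 1 / nr p < 1 := (div_lt_one (by linarith)).2 (lt_of_le_of_ne h1 h2.symm)
      have h4 : 0 ≤ 1 / nr p := by positivity
      have e : (1 : ℂ) - 1 / nr p = ((1 - 1 / nr p : ℝ) : ℂ) := by push_cast; rfl
      rw [e, Complex.norm_real, Real.norm_of_nonneg (by linarith)]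
      exact ⟨by linarith, by exact_mod_cast (by linarith : 1 - 1 / nr p ≠ 0)⟩
  rw [norm_prod]
  exact ⟨Finset.prod_le_one (fun _ _ => norm_nonneg _) fun p hp => (key p hp).1,
    Finset.prod_ne_zero_iff.2 fun p hp => (key p hp).2⟩

theorem isCoprime_iff {n a : O} (hn : Primary n) (ha : a ≠ 0) :
    IsCoprime n a ↔ ∀ p ∈ pf a, ¬ p ∣ n := by
  refine ⟨fun h p hp hd => ?_, fun h => isCoprime_of_disjoint_pf hn ha ?_⟩
  · have := BasicB.of_mem_pf hp
    exact this.1.not_isUnit (h.isUnit_of_dvd' hd this.2.2)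
  · exact Finset.disjoint_left.2 fun p hp hp' => h p hp' (BasicB.of_mem_pf hp).2.2

/-- Every primary class coprime to `M` contains an element coprime to `a`. -/
theorem exists_coprime {M a n : O} (h3 : (3 : O) ∣ M) (ha : a ≠ 0) (hn : Primary n)
    (hc : IsCoprime n M) : ∃ n', Primary n' ∧ IsCoprime n' M ∧ IsCoprime n' a ∧ M ∣ n - n' := by
  classical
  set P := ∏ p ∈ (pf a).filter (fun p => ¬ p ∣ n), p with hP
  have h1 : Primary (n + M * P) := by
    have : n + M * P - 1 = (n - 1) + M * P := by ring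
    unfold Primary
    rw [this]
    exact dvd_add hn (h3.mul_right _)
  refine ⟨n + M * P, h1, hc.add_mul_left_left _, (isCoprime_iff h1 ha).2 fun p hp hd => ?_,
    ⟨-P, by ring⟩⟩
  have hp' := BasicB.of_mem_pf hp
  by_cases hpn : p ∣ n
  · rcases hp'.1.dvd_or_dvd ((dvd_add_right hpn).1 hd) with h | h
    · exact hp'.1.not_isUnit (hc.isUnit_of_dvd' hpn h)
    · obtain ⟨q, hq, hpq⟩ := (hp'.1.dvd_finsetProd_iff _).1 h
      rw [Finset.mem_filter] at hq
      have hq' := BasicB.of_mem_pf hq.1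
      exact hq.2 (BasicB.eq_of_dvd hp'.1 hq'.1 hp'.2.1 hq'.2.1 hpq ▸ hpn)
  · have : p ∣ M * P :=
      (Finset.dvd_prod_of_mem (fun p => p) (Finset.mem_filter.2 ⟨hp, hpn⟩)).mul_left _
    exact hpn ((dvd_add_left this).1 hd)

end LBC

end Crest.Agent.R17
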