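import Crest.Agent.R17.LBasicAuxD1

/-!
# Row 17, reflection of plain sums (`Pln_reflect`): cutting the dual sum into smooth sums
-/

set_option autoImplicit false

noncomputable section

namespace Crest.Agent.R17.LBD

open scoped ComplexConjugate
open MeasureTheory Complex Classical

namespace D5

open Set

theorem integrable_W {y : ℝ} (hy : 0 < y) : Integrable fun v : ℝ => Wc (y / Real.exp v) 0 := by
  refine Integrable.of_integral_ne_zero ?_
  rw [integral_Wc_scale hy]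
  exact ofReal_ne_zero.2 (Real.sqrt_pos.2 Real.pi_pos).ne'

theorem split3 {y : ℝ} (hy : 0 < y) {v₀ v₁ : ℝ} (h : v₀ ≤ v₁) :
    (Real.sqrt Real.pi : ℂ) = (∫ v in Iic v₀, Wc (y / Real.exp v) 0) +
      (∫ v in Ioc v₀ v₁, Wc (y / Real.exp v) 0) + ∫ v in Ioi v₁, Wc (y / Real.exp v) 0 := by
  have hi := integrable_W hy
  rw [← integral_Wc_scale hy, ← intervalIntegral.integral_Iic_add_Ioi (b := v₁) hi.integrableOn
    hi.integrableOn, ← setIntegral_union (Iic_disjoint_Ioc le_rfl) measurableSet_Ioc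
    hi.integrableOn hi.integrableOn, Iic_union_Ioc_eq_Iic h]

theorem tail_left {B : ℝ} (hB : 1 ≤ B) : ∃ C : ℝ, 0 < C ∧ ∀ y v₀ : ℝ, 0 < y →
    ‖∫ v in Iic v₀, Wc (y / Real.exp v) 0‖ ≤ C * y ^ (-B) * Real.exp (B * v₀) := by
  obtain ⟨C, hC, h⟩ := norm_Wc_le_rpow (-B) 0
  refine ⟨C, hC, fun y v₀ hy => ?_⟩
  have hB0 : 0 < B := by linarith
  refine (norm_integral_le_of_norm_le
    ((integrableOn_exp_mul_Iic hB0 v₀).const_mul (C * y ^ (-B)))
    (Filter.Eventually.of_forall fun v => ?_)).trans ?_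
  · refine (h _ 0 (by positivity) (by simp)).trans_eq ?_
    rw [Real.div_rpow hy.le (Real.exp_pos _).le, ← Real.exp_mul, div_eq_mul_inv, ← Real.exp_neg]
    ring_nf
  · rw [integral_const_mul, integral_exp_mul_Iic hB0]
    gcongr
    exact div_le_self (Real.exp_pos _).le hB

theorem tail_right {B : ℝ} (hB : 1 ≤ B) : ∃ C : ℝ, 0 < C ∧ ∀ y v₁ : ℝ, 0 < y →
    ‖∫ v in Ioi v₁, Wc (y / Real.exp v) 0‖ ≤ C * y ^ B * Real.exp (-(B * v₁)) := by
  obtain ⟨C, hC, h⟩ := norm_Wc_le_rpow B 0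
  refine ⟨C, hC, fun y v₁ hy => ?_⟩
  have hB0 : -B < 0 := by linarith
  refine (norm_integral_le_of_norm_le
    ((integrableOn_exp_mul_Ioi hB0 v₁).const_mul (C * y ^ B))
    (Filter.Eventually.of_forall fun v => ?_)).trans ?_
  · refine (h _ 0 (by positivity) (by simp)).trans_eq ?_
    rw [Real.div_rpow hy.le (Real.exp_pos _).le, ← Real.exp_mul, div_eq_mul_inv, ← Real.exp_neg]
    ring_nf
  · rw [integral_const_mul, integral_exp_mul_Ioi hB0, neg_div_neg_eq, neg_mul]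
    gcongr
    exact div_le_self (Real.exp_pos _).le hB

theorem re_w (u : ℝ) : ((1 / 2 + u * I : ℂ) - 1).re = -(1 / 2) := by
  simp; norm_num

theorem im_w (u : ℝ) : ((1 / 2 + u * I : ℂ) - 1).im = u := by
  simp

theorem integrable_gauss {a : ℝ} (ha : 0 < a) (τ : ℝ) :
    Integrable fun u : ℝ => Real.exp (-a * (u + τ) ^ 2) :=
  (integrable_exp_neg_mul_sq ha).comp_add_right τ

theorem norm_K {y : ℝ} (hy : 0 < y) (u τ : ℝ) :
    ‖Kg (1 / 2 + u * I) (τ * I) * (y : ℂ) ^ ((1 / 2 + u * I : ℂ) - 1)‖ ≤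
      y ^ (-(1 / 2 : ℝ)) * Real.exp (-(1 / 4) * (u + τ) ^ 2) := by
  rw [norm_mul, norm_cpow_line hy, re_w, mul_comm]
  gcongr
  refine (norm_Kg_half u τ).trans_eq ?_
  congr 1; ring

theorem integrable_K {y : ℝ} (hy : 0 < y) (τ : ℝ) : Integrable fun u : ℝ =>
    Kg (1 / 2 + u * I) (τ * I) * (y : ℂ) ^ ((1 / 2 + u * I : ℂ) - 1) := by
  refine ((integrable_gauss (a := 1 / 4) (by norm_num) τ).const_mul _).mono'
    (Continuous.aestronglyMeasurable ?_) (Filter.Eventually.of_forall fun u => norm_K hy u τ)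
  refine (continuous_Kg_half _).mul ?_
  exact Continuous.const_cpow (by fun_prop) (Or.inl (ofReal_ne_zero.2 hy.ne'))

/-- The slice of the dual sum at scale `e^v` as an integral of smooth sums. -/
theorem D_eq {b : O → ℂ} (hb : PolyB b 1 0) {Z : ℝ} (hZ : 0 < Z) (τ : ℝ) {X : ℝ} (hX : 0 < X) :
    ∑' h : O, b h * Vg (Z * nr h) (τ * I) * Wc (nr h / X) 0 =
      ∫ u : ℝ, Kg (1 / 2 + u * I) (τ * I) * ((Z * X : ℝ) : ℂ) ^ ((1 / 2 + u * I : ℂ) - 1) *
        Sm b X ((1 / 2 + u * I : ℂ) - 1) := by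
  have e1 : ∀ h : O, b h * Vg (Z * nr h) (τ * I) * Wc (nr h / X) 0 =
      ∫ u : ℝ, b h * Wc (nr h / X) 0 * (Kg (1 / 2 + u * I) (τ * I) *
        ((Z * nr h : ℝ) : ℂ) ^ ((1 / 2 + u * I : ℂ) - 1)) := fun h => by
    rw [integral_const_mul, Vg]; ring
  simp only [e1]
  rw [integral_tsum_of_summable_integral_norm]
  · refine integral_congr_ae (Filter.Eventually.of_forall fun u => ?_)
    beta_reduce
    rw [Sm, ← tsum_mul_left]
    refine tsum_congr fun h => ?_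
    rcases eq_or_ne h 0 with rfl | hh
    · simp [hb.1]
    · have hp : 0 < nr h / X := div_pos (nr_pos hh) hX
      have e2 : Z * nr h = Z * X * (nr h / X) := by field_simp
      generalize (1 / 2 + u * I : ℂ) - 1 = t
      have e3 := Wc_add hp 0 t
      rw [zero_add] at e3
      rw [e3, e2, ofReal_mul (Z * X), mul_cpow_ofReal_nonneg (by positivity) hp.le]
      ring
  · intro h
    rcases eq_or_ne h 0 with rfl | hh
    · simp [hb.1]
    · exact (integrable_K (mul_pos hZ (nr_pos hh)) τ).const_mul _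
  · refine Summable.of_nonneg_of_le (fun h => integral_nonneg fun _ => norm_nonneg _) (fun h => ?_)
      ((summable_Sm hb hX 0).mul_right
        (Z ^ (-(1 / 2 : ℝ)) * ∫ u : ℝ, Real.exp (-(1 / 4) * (u + τ) ^ 2)))
    rcases eq_or_ne h 0 with rfl | hh
    · simp [hb.1]
    · simp only [norm_mul (b h * Wc (nr h / X) 0), integral_const_mul]
      refine mul_le_mul_of_nonneg_left ?_ (norm_nonneg _)
      rw [← integral_const_mul]
      refine integral_mono (integrable_K (mul_pos hZ (nr_pos hh)) τ).norm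
        ((integrable_gauss (a := 1 / 4) (by norm_num) τ).const_mul _) fun u => ?_
      refine (norm_K (mul_pos hZ (nr_pos hh)) u τ).trans ?_
      refine mul_le_mul_of_nonneg_right ?_ (Real.exp_pos _).le
      exact Real.rpow_le_rpow_of_nonpos hZ (le_mul_of_one_le_right hZ.le (one_le_nr hh))
        (by norm_num)

theorem D_le (A : ℝ) (hA : 0 ≤ A) : ∃ C : ℝ, 0 < C ∧
    ∀ (b : O → ℂ) (Z τ v v₁ L S : ℝ), PolyB b 1 0 → 0 < Z → v ≤ v₁ → 0 ≤ S →
      (∀ u : ℝ, |u + τ| ≤ L → ‖Sm b (Real.exp (v - 1 / 4)) (u * I)‖ ≤ S * Real.exp (v / 2)) →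
      ‖∑' h : O, b h * Vg (Z * nr h) (τ * I) * Wc (nr h / Real.exp v) 0‖ ≤
        C * Z ^ (-(1 / 2 : ℝ)) * (S + Real.exp (v₁ / 2 - A * L)) := by
  obtain ⟨C₀, hC₀, h₀⟩ := tsum_norm_Sm_le 0 0 0 le_rfl
  set G : ℝ := ∫ u : ℝ, Real.exp (-(1 / 8) * u ^ 2) with hG
  have hG0 : 0 ≤ G := integral_nonneg fun _ => (Real.exp_pos _).le
  set M : ℝ := Real.exp (1 / 16) * Real.exp (2 * A ^ 2) * (1 + C₀) with hM
  have hM0 : 0 < M := by positivity
  refine ⟨M * (G + 1), by positivity, fun b Z τ v v₁ L S hb hZ hv hS hyp => ?_⟩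
  set E : ℝ := Real.exp (v₁ / 2 - A * L) with hE
  have hE0 : 0 < E := Real.exp_pos _
  rw [D_eq hb hZ τ (Real.exp_pos v)]
  refine (norm_integral_le_of_norm_le ((integrable_gauss (a := 1 / 8) (by norm_num) τ).const_mul
    (M * Z ^ (-(1 / 2 : ℝ)) * (S + E))) (Filter.Eventually.of_forall fun u => ?_)).trans ?_
  · have h1 := norm_K (mul_pos hZ (Real.exp_pos v)) u τ
    have h2 : ‖Sm b (Real.exp v) ((1 / 2 + u * I : ℂ) - 1)‖ =
        Real.exp (1 / 16) * ‖Sm b (Real.exp (v - 1 / 4)) (u * I)‖ := by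
      rw [WeightB.norm_Sm_eq b hb.1 (Real.exp_pos v), re_w, im_w, ← Real.exp_add,
        show (-(1 / 2 : ℝ)) ^ 2 / 4 = 1 / 16 by norm_num,
        show v + -(1 / 2) / 2 = v - 1 / 4 by ring]
    have h3 : ‖Sm b (Real.exp (v - 1 / 4)) (u * I)‖ ≤
        Real.exp (v / 2) * ((1 + C₀) * (S + E) * Real.exp (A * |u + τ|)) := by
      have e1 : 1 ≤ Real.exp (A * |u + τ|) := Real.one_le_exp (by positivity)
      rcases le_or_gt |u + τ| L with hL | hL
      · refine (hyp u hL).trans ?_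
        rw [mul_comm]
        refine mul_le_mul_of_nonneg_left ?_ (Real.exp_pos _).le
        calc S = 1 * S * 1 := by ring
          _ ≤ _ := by gcongr <;> linarith
      · have h4 := h₀ b 1 (Real.exp (v - 1 / 4)) (u * I) hb (Real.exp_pos _) (by simp)
        have h5 : ‖Sm b (Real.exp (v - 1 / 4)) (u * I)‖ ≤ C₀ * Real.exp (v - 1 / 4) := by
          refine (norm_tsum_le_tsum_norm (summable_Sm hb (Real.exp_pos _) _)).trans (h4.trans ?_)
          simp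
        refine h5.trans ?_
        have h6 : Real.exp (v - 1 / 4) ≤ Real.exp (v / 2) * (E * Real.exp (A * |u + τ|)) := by
          rw [hE, ← Real.exp_add, ← Real.exp_add]
          refine Real.exp_le_exp.2 ?_
          nlinarith [mul_le_mul_of_nonneg_left hL.le hA]
        calc C₀ * Real.exp (v - 1 / 4)
            ≤ C₀ * (Real.exp (v / 2) * (E * Real.exp (A * |u + τ|))) := by gcongr
          _ = Real.exp (v / 2) * (C₀ * E * Real.exp (A * |u + τ|)) := by ring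
          _ ≤ _ := by gcongr <;> linarith
    have h7 : (Z * Real.exp v) ^ (-(1 / 2 : ℝ)) * Real.exp (v / 2) = Z ^ (-(1 / 2 : ℝ)) := by
      rw [Real.mul_rpow hZ.le (Real.exp_pos _).le, ← Real.exp_mul, mul_assoc, ← Real.exp_add]
      rw [show v * -(1 / 2) + v / 2 = 0 by ring, Real.exp_zero, mul_one]
    have h8 : Real.exp (-(1 / 4) * (u + τ) ^ 2) * Real.exp (A * |u + τ|) ≤
        Real.exp (2 * A ^ 2) * Real.exp (-(1 / 8) * (u + τ) ^ 2) := by
      rw [← Real.exp_add, ← Real.exp_add]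
      refine Real.exp_le_exp.2 ?_
      rw [← sq_abs (u + τ)]
      nlinarith [sq_nonneg (|u + τ| - 4 * A)]
    rw [norm_mul, h2]
    calc _ ≤ (Z * Real.exp v) ^ (-(1 / 2 : ℝ)) * Real.exp (-(1 / 4) * (u + τ) ^ 2) *
          (Real.exp (1 / 16) * (Real.exp (v / 2) *
            ((1 + C₀) * (S + E) * Real.exp (A * |u + τ|)))) := by gcongr
      _ = ((Z * Real.exp v) ^ (-(1 / 2 : ℝ)) * Real.exp (v / 2)) * Real.exp (1 / 16) *
          ((1 + C₀) * (S + E)) *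
          (Real.exp (-(1 / 4) * (u + τ) ^ 2) * Real.exp (A * |u + τ|)) := by ring
      _ ≤ Z ^ (-(1 / 2 : ℝ)) * Real.exp (1 / 16) * ((1 + C₀) * (S + E)) *
          (Real.exp (2 * A ^ 2) * Real.exp (-(1 / 8) * (u + τ) ^ 2)) := by
          rw [h7]; gcongr
      _ = _ := by rw [hM]; ring
  · rw [integral_const_mul,
      integral_add_right_eq_self (fun u : ℝ => Real.exp (-(1 / 8) * u ^ 2)) τ, ← hG]
    calc M * Z ^ (-(1 / 2 : ℝ)) * (S + E) * G ≤ M * Z ^ (-(1 / 2 : ℝ)) * (S + E) * (G + 1) := by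
          gcongr; linarith
      _ = _ := by ring

theorem norm_tsum_le {f : O → ℂ} {K σ : ℝ} (hσ : 1 < σ) (h : ∀ n, ‖f n‖ ≤ K * nr n ^ (-σ)) :
    Summable f ∧ ‖∑' n, f n‖ ≤ K * ∑' n : O, nr n ^ (-σ) := by
  have hs := (summable_nr_rpow hσ).mul_left K
  refine ⟨Summable.of_norm_bounded hs h, ?_⟩
  rw [← tsum_mul_left]
  exact tsum_of_norm_bounded hs.hasSum h

end D5

open D5 Set in
/-- The dual sum is bounded by the smooth sums of length in `[e^{v₀ - 1/4}, e^{v₁ - 1/4}]` and height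
within `L` of `-τ`, up to tails. -/
theorem cut_raw (A B : ℝ) (hA : 0 ≤ A) (hB : 1 ≤ B) (k : ℕ) (hk : 2 ≤ k) : ∃ C : ℝ, 0 < C ∧
    ∀ (b : O → ℂ) (Z τ v₀ v₁ L S : ℝ), PolyB b 1 0 → 0 < Z → v₀ ≤ v₁ → 0 ≤ S →
      (∀ v u : ℝ, v₀ ≤ v → v ≤ v₁ → |u + τ| ≤ L →
        ‖Sm b (Real.exp (v - 1 / 4)) (u * I)‖ ≤ S * Real.exp (v / 2)) →
      ‖∑' h : O, b h * Vg (Z * nr h) (τ * I)‖ ≤ C * Z ^ (-(1 / 2 : ℝ)) *
        ((v₁ - v₀) * (S + Real.exp (v₁ / 2 - A * L)) + Real.exp (B * v₀) +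
          (1 + |τ|) ^ (2 * k) * Z ^ (-(k : ℝ)) * Real.exp (-((k - 1 : ℝ) * v₁))) := by
  have hk' : (1 : ℝ) ≤ k - 1 := by
    have : (2 : ℝ) ≤ k := by exact_mod_cast hk
    linarith
  obtain ⟨C₁, hC₁, h₁⟩ := tail_left hB
  obtain ⟨C₃, hC₃, h₃⟩ := tail_right hk'
  obtain ⟨C₂, hC₂, h₂⟩ := D_le A hA
  obtain ⟨V₀, hV₀, g₀⟩ := norm_Vg_le 0
  obtain ⟨V₁, hV₁, g₁⟩ := norm_Vg_le k
  set K₁ : ℝ := ∑' n : O, nr n ^ (-(B + 1 / 2)) with hK₁
  set K₃ : ℝ := ∑' n : O, nr n ^ (-(3 / 2 : ℝ)) with hK₃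
  have hK₁0 : 0 ≤ K₁ := tsum_nonneg fun _ => by positivity
  have hK₃0 : 0 ≤ K₃ := tsum_nonneg fun _ => by positivity
  refine ⟨C₂ + V₀ * C₁ * K₁ + V₁ * C₃ * K₃, by positivity,
    fun b Z τ v₀ v₁ L S hb hZ hv hS hyp => ?_⟩
  have hb1 : ∀ h, ‖b h‖ ≤ 1 := fun h => by simpa using hb.2 h
  set a : O → ℂ := fun h => b h * Vg (Z * nr h) (τ * I) with ha
  have a0 : a 0 = 0 := by simp [ha, hb.1]
  have sa : Summable a := summable_Vg hb.1 hb1 hZ τ
  obtain ⟨s1, n1⟩ := norm_tsum_le (σ := B + 1 / 2) (by linarith)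
    (f := fun h => a h * ∫ v in Iic v₀, Wc (nr h / Real.exp v) 0)
    (K := V₀ * C₁ * Z ^ (-(1 / 2 : ℝ)) * Real.exp (B * v₀)) fun h => by
      rcases eq_or_ne h 0 with rfl | hh
      · rw [a0, zero_mul, norm_zero]; positivity
      · have p := nr_pos hh
        have e1 := g₀ _ τ (mul_pos hZ p)
        rw [mul_zero, pow_zero, mul_one, Nat.cast_zero, add_zero, Real.mul_rpow hZ.le p.le] at e1
        rw [norm_mul, ha, norm_mul, neg_add, Real.rpow_add p]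
        calc _ ≤ 1 * (V₀ * (Z ^ (-(1 / 2 : ℝ)) * nr h ^ (-(1 / 2 : ℝ)))) *
              (C₁ * nr h ^ (-B) * Real.exp (B * v₀)) := by
              gcongr
              · exact hb1 h
              · exact h₁ _ _ p
          _ = _ := by ring
  obtain ⟨s3, n3⟩ := norm_tsum_le (σ := 3 / 2) (by norm_num)
    (f := fun h => a h * ∫ v in Ioi v₁, Wc (nr h / Real.exp v) 0)
    (K := V₁ * C₃ * Z ^ (-(1 / 2 : ℝ)) * ((1 + |τ|) ^ (2 * k) * Z ^ (-(k : ℝ)) *
      Real.exp (-((k - 1 : ℝ) * v₁)))) fun h => by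
      rcases eq_or_ne h 0 with rfl | hh
      · rw [a0, zero_mul, norm_zero]; positivity
      · have p := nr_pos hh
        have e1 := g₁ _ τ (mul_pos hZ p)
        rw [Real.mul_rpow hZ.le p.le, neg_add, Real.rpow_add hZ] at e1
        rw [norm_mul, ha, norm_mul, show -(3 / 2 : ℝ) = (-(1 / 2) + -(k : ℝ)) + (k - 1) by ring,
          Real.rpow_add p]
        calc _ ≤ 1 * (V₁ * (1 + |τ|) ^ (2 * k) * (Z ^ (-(1 / 2 : ℝ)) * Z ^ (-(k : ℝ)) *
              nr h ^ (-(1 / 2 : ℝ) + -(k : ℝ)))) *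
              (C₃ * nr h ^ (k - 1 : ℝ) * Real.exp (-((k - 1 : ℝ) * v₁))) := by
              gcongr
              · exact hb1 h
              · exact h₃ _ _ p
          _ = _ := by ring
  have W1 : ∀ y : ℝ, ‖Wc y 0‖ ≤ 1 := fun y => by simpa using norm_Wc_le y 0
  have vol : (volume (Ioc v₀ v₁)) < ⊤ := by simp
  have volr : (volume.real (Ioc v₀ v₁)) = v₁ - v₀ := Real.volume_real_Ioc_of_le hv
  have s2 : Summable fun h => a h * ∫ v in Ioc v₀ v₁, Wc (nr h / Real.exp v) 0 := by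
    refine Summable.of_norm_bounded (sa.norm.mul_right (1 * volume.real (Ioc v₀ v₁))) fun h => ?_
    rw [norm_mul]
    exact mul_le_mul_of_nonneg_left
      (norm_setIntegral_le_of_norm_le_const vol fun v _ => W1 _) (norm_nonneg _)
  have n2 : ‖∑' h, a h * ∫ v in Ioc v₀ v₁, Wc (nr h / Real.exp v) 0‖ ≤
      C₂ * Z ^ (-(1 / 2 : ℝ)) * (S + Real.exp (v₁ / 2 - A * L)) * (v₁ - v₀) := by
    simp only [← integral_const_mul]
    rw [integral_tsum_of_summable_integral_norm, ← volr]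
    · exact norm_setIntegral_le_of_norm_le_const vol fun v hv' =>
        h₂ b Z τ v v₁ L S hb hZ hv'.2 hS fun u hu => hyp v u hv'.1.le hv'.2 hu
    · intro h
      rcases eq_or_ne h 0 with rfl | hh
      · simp [a0]
      · exact ((integrable_W (nr_pos hh)).const_mul _).integrableOn
    · refine Summable.of_nonneg_of_le (fun h => integral_nonneg fun _ => norm_nonneg _)
        (fun h => ?_) (sa.norm.mul_right (1 * volume.real (Ioc v₀ v₁)))
      simp only [norm_mul, integral_const_mul]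
      refine mul_le_mul_of_nonneg_left ((le_abs_self _).trans ?_) (norm_nonneg _)
      rw [← Real.norm_eq_abs]
      exact norm_setIntegral_le_of_norm_le_const vol fun v _ => by simpa using W1 _
  have key : (∑' h, a h) * (Real.sqrt Real.pi : ℂ) =
      (∑' h, a h * ∫ v in Iic v₀, Wc (nr h / Real.exp v) 0) +
      (∑' h, a h * ∫ v in Ioc v₀ v₁, Wc (nr h / Real.exp v) 0) +
      ∑' h, a h * ∫ v in Ioi v₁, Wc (nr h / Real.exp v) 0 := by
    rw [← s1.tsum_add s2, ← (s1.add s2).tsum_add s3, ← tsum_mul_right]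
    refine tsum_congr fun h => ?_
    rcases eq_or_ne h 0 with rfl | hh
    · simp [a0]
    · rw [split3 (nr_pos hh) hv]; ring
  have hpi : 1 ≤ ‖(Real.sqrt Real.pi : ℂ)‖ := by
    rw [norm_real, Real.norm_of_nonneg (Real.sqrt_nonneg _)]
    exact Real.one_le_sqrt.2 (by linarith [Real.pi_gt_three])
  have hv' : 0 ≤ v₁ - v₀ := by linarith
  set P := (v₁ - v₀) * (S + Real.exp (v₁ / 2 - A * L)) with hP
  set Q := (1 + |τ|) ^ (2 * k) * Z ^ (-(k : ℝ)) * Real.exp (-((k - 1 : ℝ) * v₁)) with hQ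
  set T := Real.exp (B * v₀) with hT
  have P0 : 0 ≤ P := by positivity
  have Q0 : 0 ≤ Q := by positivity
  have T0 : 0 ≤ T := by positivity
  calc ‖∑' h, a h‖ ≤ ‖(∑' h, a h) * (Real.sqrt Real.pi : ℂ)‖ := by
        rw [norm_mul]; exact le_mul_of_one_le_right (norm_nonneg _) hpi
    _ ≤ V₀ * C₁ * Z ^ (-(1 / 2 : ℝ)) * T * K₁ +
        C₂ * Z ^ (-(1 / 2 : ℝ)) * (S + Real.exp (v₁ / 2 - A * L)) * (v₁ - v₀) +
        V₁ * C₃ * Z ^ (-(1 / 2 : ℝ)) * Q * K₃ := by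
        rw [key]
        exact norm_add₃_le.trans (add_le_add (add_le_add n1 n2) n3)
    _ = Z ^ (-(1 / 2 : ℝ)) * (C₂ * P + V₀ * C₁ * K₁ * T + V₁ * C₃ * K₃ * Q) := by
        rw [hP]; ring
    _ ≤ Z ^ (-(1 / 2 : ℝ)) * (C₂ * (P + T + Q) + V₀ * C₁ * K₁ * (P + T + Q) +
        V₁ * C₃ * K₃ * (P + T + Q)) := by
        gcongr <;> linarith
    _ = _ := by ring

theorem cut {ε c : ℝ} (hε : 0 < ε) (hc : 1 ≤ c) (J : ℝ) : ∃ C : ℝ, 0 < C ∧
    ∀ (b : O → ℂ) (R Z τ Y₁ S : ℝ), PolyB b 1 0 → 1 ≤ R → |τ| ≤ R → 0 < Z → Z⁻¹ ≤ c * R ^ 2 →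
      R⁻¹ ≤ Y₁ → Y₁ ≤ 4 * R ^ (4 + ε) → R ^ ε * (1 + |τ|) ^ 2 ≤ c * Z * Y₁ → 0 ≤ S →
      (∀ Y u : ℝ, R⁻¹ ≤ Y → Y ≤ Y₁ → |u| ≤ |τ| + Real.log R →
        ‖Sm b Y (u * I)‖ ≤ S * Real.sqrt Y) →
      ‖∑' h : O, b h * Vg (Z * nr h) (τ * I)‖ ≤
        C * Z ^ (-(1 / 2 : ℝ)) * (R ^ (ε / 3) * S + R ^ (-J)) := by
  obtain ⟨m, hm⟩ := exists_nat_ge ((4 + |J|) / ε + 1)
  have hJ := abs_nonneg J
  have hJ' := le_abs_self J
  have hm1 : (1 : ℝ) ≤ m := le_trans (le_add_of_nonneg_left (by positivity)) hm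
  have hm2 : 4 + |J| ≤ ε * m := by
    have : (4 + |J|) / ε ≤ m := by linarith
    rwa [div_le_iff₀' hε] at this
  obtain ⟨C, hC, h⟩ := cut_raw (|J| + 4 + 2 * ε) (|J| + 1) (by positivity) (by linarith) (m + 1)
    (by have : 1 ≤ m := by exact_mod_cast hm1
        omega)
  set δ : ℝ := ε / 3 / (5 + ε) with hδ
  have δ0 : 0 < δ := by positivity
  set D : ℝ := 4 ^ δ / δ with hD
  have D0 : 0 < D := by positivity
  refine ⟨C * (D + D * (4 * Real.exp (1 / 8)) + Real.exp ((|J| + 1) / 4) + 4 * c ^ (m + 1)),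
    by positivity, fun b R Z τ Y₁ S hb hR hτ hZ hZ' hY hY' hT hS hyp => ?_⟩
  have R0 : 0 < R := by linarith
  have Y0 : 0 < Y₁ := lt_of_lt_of_le (inv_pos.2 R0) hY
  have c0 : 0 < c := by linarith
  have lR := Real.log_nonneg hR
  have hl : -Real.log R ≤ Real.log Y₁ := by
    rw [← Real.log_inv]; exact Real.log_le_log (inv_pos.2 R0) hY
  have mono : ∀ {s t : ℝ}, s ≤ t → R ^ s ≤ R ^ t := fun h => Real.rpow_le_rpow_of_exponent_le hR h
  have RJ : 0 < R ^ (-J) := by positivity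
  refine (h b Z τ (1 / 4 - Real.log R) (1 / 4 + Real.log Y₁) (Real.log R) S hb hZ (by linarith) hS
    fun v u h0 h1 hu => ?_).trans ?_
  · refine (hyp _ u ?_ ?_ ?_).trans (mul_le_mul_of_nonneg_left ?_ hS)
    · rw [← Real.exp_log (inv_pos.2 R0), Real.log_inv]
      exact Real.exp_le_exp.2 (by linarith)
    · rw [← Real.exp_log Y0]
      exact Real.exp_le_exp.2 (by linarith)
    · have := abs_sub_abs_le_abs_sub u (-τ)
      rw [abs_neg, sub_neg_eq_add] at this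
      linarith
    · rw [Real.sqrt_le_iff, ← Real.exp_nat_mul]
      exact ⟨(Real.exp_pos _).le, Real.exp_le_exp.2 (by push_cast; linarith)⟩
  have b1 : 1 / 4 + Real.log Y₁ - (1 / 4 - Real.log R) ≤ D * R ^ (ε / 3) := by
    have e1 : 1 / 4 + Real.log Y₁ - (1 / 4 - Real.log R) = Real.log (Y₁ * R) := by
      rw [Real.log_mul Y0.ne' R0.ne']; ring
    rw [e1]
    refine (Real.log_le_rpow_div (by positivity) δ0).trans ?_
    have e2 : Y₁ * R ≤ 4 * R ^ (5 + ε) := by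
      rw [show 5 + ε = 4 + ε + 1 by ring, Real.rpow_add_one R0.ne', ← mul_assoc]
      gcongr
    calc (Y₁ * R) ^ δ / δ ≤ (4 * R ^ (5 + ε)) ^ δ / δ := by gcongr
      _ = _ := by
        rw [Real.mul_rpow (by norm_num) (by positivity), ← Real.rpow_mul R0.le, hD,
          show (5 + ε) * δ = ε / 3 by rw [hδ]; field_simp]
        ring
  have b2 : R ^ (ε / 3) * Real.exp ((1 / 4 + Real.log Y₁) / 2 - (|J| + 4 + 2 * ε) * Real.log R) ≤
      4 * Real.exp (1 / 8) * R ^ (-J) := by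
    have e1 : Real.log Y₁ ≤ Real.log 4 + (4 + ε) * Real.log R := by
      rw [← Real.log_rpow R0, ← Real.log_mul (by norm_num) (by positivity)]
      exact Real.log_le_log Y0 hY'
    have e2 : 0 ≤ Real.log 4 := Real.log_nonneg (by norm_num)
    have e3 : (4 : ℝ) = Real.exp (Real.log 4) := (Real.exp_log (by norm_num)).symm
    rw [Real.rpow_def_of_pos R0, Real.rpow_def_of_pos R0, e3, ← Real.exp_add, ← Real.exp_add,
      ← Real.exp_add, ← e3]
    refine Real.exp_le_exp.2 ?_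
    nlinarith [mul_nonneg hε.le lR, mul_le_mul_of_nonneg_right hJ' lR]
  have b3 : Real.exp ((|J| + 1) * (1 / 4 - Real.log R)) ≤ Real.exp ((|J| + 1) / 4) * R ^ (-J) := by
    rw [Real.rpow_def_of_pos R0, ← Real.exp_add]
    refine Real.exp_le_exp.2 ?_
    nlinarith [mul_le_mul_of_nonneg_right hJ' lR]
  have b4 : (1 + |τ|) ^ (2 * (m + 1)) * Z ^ (-((m + 1 : ℕ) : ℝ)) *
      Real.exp (-((((m + 1 : ℕ) : ℝ) - 1) * (1 / 4 + Real.log Y₁))) ≤
      4 * c ^ (m + 1) * R ^ (-J) := by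
    have e1 : Real.exp (-((((m + 1 : ℕ) : ℝ) - 1) * (1 / 4 + Real.log Y₁))) ≤ (Y₁⁻¹) ^ m := by
      rw [← Real.exp_log (inv_pos.2 Y0), ← Real.exp_nat_mul, Real.log_inv]
      refine Real.exp_le_exp.2 ?_
      push_cast
      nlinarith
    have e2 : (1 + |τ|) ^ 2 * Z⁻¹ * Y₁⁻¹ ≤ c * R ^ (-ε) := by
      have p : 0 < R ^ ε := by positivity
      rw [Real.rpow_neg R0.le, mul_assoc, ← mul_inv, ← div_eq_mul_inv, ← div_eq_mul_inv,
        div_le_div_iff₀ (by positivity) p]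
      linarith
    have e3 : (1 + |τ|) ^ 2 ≤ (2 * R) ^ 2 := by gcongr; linarith
    have e4 : R ^ 4 * (R ^ (-ε)) ^ m ≤ R ^ (-J) := by
      rw [← Real.rpow_natCast, ← Real.rpow_natCast, ← Real.rpow_mul R0.le, ← Real.rpow_add R0]
      refine mono ?_
      push_cast
      linarith
    rw [Real.rpow_neg hZ.le, Real.rpow_natCast, ← inv_pow]
    calc _ ≤ (1 + |τ|) ^ (2 * (m + 1)) * Z⁻¹ ^ (m + 1) * Y₁⁻¹ ^ m := by gcongr
      _ = (1 + |τ|) ^ 2 * Z⁻¹ * ((1 + |τ|) ^ 2 * Z⁻¹ * Y₁⁻¹) ^ m := by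
          rw [mul_pow, mul_pow, ← pow_mul]; ring
      _ ≤ (2 * R) ^ 2 * (c * R ^ 2) * (c * R ^ (-ε)) ^ m := by gcongr
      _ = 4 * c ^ (m + 1) * (R ^ 4 * (R ^ (-ε)) ^ m) := by rw [mul_pow]; ring
      _ ≤ _ := by gcongr
  rw [mul_right_comm C (_ + _ + _ + 4 * c ^ (m + 1)), mul_assoc (C * Z ^ (-(1 / 2 : ℝ)))]
  refine mul_le_mul_of_nonneg_left ?_ (by positivity)
  set E := Real.exp ((1 / 4 + Real.log Y₁) / 2 - (|J| + 4 + 2 * ε) * Real.log R) with hE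
  have E0 : 0 < E := Real.exp_pos _
  have X0 : 0 ≤ R ^ (ε / 3) * S := by positivity
  calc _ ≤ D * R ^ (ε / 3) * (S + E) + Real.exp ((|J| + 1) / 4) * R ^ (-J) +
        4 * c ^ (m + 1) * R ^ (-J) := by gcongr
    _ = D * (R ^ (ε / 3) * S) + D * (R ^ (ε / 3) * E) + Real.exp ((|J| + 1) / 4) * R ^ (-J) +
        4 * c ^ (m + 1) * R ^ (-J) := by ring
    _ ≤ D * (R ^ (ε / 3) * S + R ^ (-J)) +
        D * (4 * Real.exp (1 / 8) * (R ^ (ε / 3) * S + R ^ (-J))) +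
        Real.exp ((|J| + 1) / 4) * (R ^ (ε / 3) * S + R ^ (-J)) +
        4 * c ^ (m + 1) * (R ^ (ε / 3) * S + R ^ (-J)) := by
        have f1 : R ^ (-J) ≤ R ^ (ε / 3) * S + R ^ (-J) := by linarith
        have f2 : R ^ (ε / 3) * S ≤ R ^ (ε / 3) * S + R ^ (-J) := by linarith
        have f3 : R ^ (ε / 3) * E ≤ 4 * Real.exp (1 / 8) * (R ^ (ε / 3) * S + R ^ (-J)) :=
          b2.trans (by gcongr)
        exact add_le_add (add_le_add (add_le_add (mul_le_mul_of_nonneg_left f2 D0.le)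
          (mul_le_mul_of_nonneg_left f3 D0.le))
          (mul_le_mul_of_nonneg_left f1 (Real.exp_pos _).le))
          (mul_le_mul_of_nonneg_left f1 (by positivity))
    _ = _ := by ring

end Crest.Agent.R17.LBD
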