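import Crest.Agent.R17.LBasicAuxD2
import Crest.Agent.R17.LBasicAuxD4
import Crest.Agent.R17.LBasicAuxD5
import Crest.Agent.R17.LS2Ker

/-!
# Row 17, reflection of plain sums (`Pln_reflect`): assembly
-/

set_option autoImplicit false

noncomputable section

namespace Crest.Agent.R17.LBD

open scoped ComplexConjugate
open MeasureTheory Complex Classical

theorem pun_primes (M a : O) : ∀ p ∈ pun M a, Prime p ∧ Primary p :=
  fun _ hp => BasicB.pf_sub (Finset.mem_filter.1 hp).1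

theorem act_primes (M a : O) : ∀ p ∈ act M a, Prime p ∧ Primary p :=
  fun _ hp => BasicB.pf_sub (Finset.mem_filter.1 hp).1

theorem polyB_Fr {M : O} (hM : Adm M) (ν : Chr M) (r : O) : PolyB (Fr ν r) 1 0 :=
  ⟨Fr_zero ν r, fun n => by simpa using norm_Fr_le hM ν r n⟩

theorem Pln_sieve {M : O} (hM : Adm M) {a : O} {ψ : Chr M} (ν : Chr M)
    (hψ : ∀ n : O, rc ν a n = if ∀ p ∈ pun M a, ¬ p ∣ n then Fr ψ (rr M a) n else 0)
    {N : ℝ} (hN : 0 < N) (s : ℂ) :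
    Pln ν a N s = ∑ E ∈ (pun M a).powerset, (-1) ^ E.card * (Fr ψ (rr M a) (∏ p ∈ E, p) *
      Sm (Fr ψ (rr M a)) (N / nr (∏ p ∈ E, p)) s) := by
  have hs := (summable_Sm (polyB_Fr hM ψ (rr M a)) hN s).of_norm
  have h := LS2.tsum_sieve (pun_primes M a) hs
  rw [Pln]
  simp only [hψ, ite_mul, zero_mul]
  rw [h]
  refine Finset.sum_congr rfl fun E hE => ?_
  have he : Primary (∏ p ∈ E, p) :=
    (squarefree_prod_primes fun p hp => pun_primes M a p (Finset.mem_powerset.1 hE hp)).2.1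
  congr 1
  rw [Sm, ← tsum_mul_left]
  refine tsum_congr fun n => ?_
  rw [Fr_mul hM ψ a he, nr_mul, mul_assoc, div_div_eq_mul_div, mul_comm (nr n)]

theorem conj_Pln {M : O} (ν : Chr M) (a : O) (Y u : ℝ) :
    Sm (fun h => conj (rc ν a h)) Y (u * I) = conj (Pln ν a Y ((-u : ℝ) * I)) := by
  rw [Pln, Sm, Complex.conj_tsum]
  refine tsum_congr fun n => ?_
  rw [map_mul, conj_Wc]
  simp

theorem polyB_conj_rc {M : O} (hM : Adm M) (ν : Chr M) (a : O) :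
    PolyB (fun h => conj (rc ν a h)) 1 0 :=
  ⟨by simp [LBA.rc_zero], fun n => by simpa using LBA.norm_rc_le hM ν a n⟩

/-- The bound for the unpunctured sum. -/
theorem Sm_Fr_le {M : O} (hM : Adm M) {ε : ℝ} (hε : 0 < ε) (J : ℝ) : ∃ C : ℝ, 0 < C ∧
    ∀ (R N e τ S : ℝ) (ψ : Chr M) (a : O), 1 ≤ R → ¬ Exc M a → nr a ≤ R → R⁻¹ ≤ N → N ≤ R →
      |τ| ≤ R → 0 ≤ S → 1 ≤ e → cond M a * e ≤ nr a →
      (∀ (ν' : Chr M) (Y t : ℝ), R⁻¹ ≤ Y → Y ≤ cond M a * e * R ^ ε * (1 + |τ|) ^ 2 / N →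
        |t| ≤ |τ| + Real.log R → Real.sqrt (N / (e * Y)) * ‖Pln ν' a Y (t * I)‖ ≤ S) →
      ‖Sm (Fr ψ (rr M a)) (N / e) (τ * I)‖ ≤ C * R ^ (ε / 3) * (R ^ (ε / 3) * S + R * R ^ (-J)) := by
  have hNM := one_le_nr hM.1
  have := finite_chr hM.1
  let _ : Fintype (Chr M) := Fintype.ofFinite _
  obtain ⟨C₁, hC₁, h₁⟩ := cut hε hNM J
  obtain ⟨C₂, hC₂, h₂⟩ := sum_smooth_le (ε := ε / 3) (σ := 1 / 2) (by positivity) (by norm_num)
  have hcard : (0 : ℝ) < Fintype.card (Chr M) := by exact_mod_cast Fintype.card_pos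
  refine ⟨Fintype.card (Chr M) * nr M * C₁ * (C₂ * nr M ^ (ε / 3)), by positivity,
    fun R N e τ S ψ a hR ha haR hN1 hN2 hτ hS he hce hP => ?_⟩
  have ha0 := LBA.ne_zero_of_not_exc ha
  have hR0 : 0 < R := by linarith
  have hN : 0 < N := lt_of_lt_of_le (inv_pos.2 hR0) hN1
  have hc1 := LBA.one_le_cond M a
  have he0 : 0 < e := by linarith
  have hρ : (∏ p ∈ act M a, p) ≠ 0 :=
    (squarefree_prod_primes (act_primes M a)).2.1.ne_zero
  have hc : (∏ p ∈ pun M a, p) ≠ 0 :=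
    (squarefree_prod_primes (pun_primes M a)).2.1.ne_zero
  obtain ⟨τ₀, Φ, hτ₀, hΦ, hΦp, hft⟩ := ft_Fr hM ψ a
  set X : ℝ := N / e with hX
  have hX0 : 0 < X := by positivity
  have hXR : X ≤ R := (div_le_self hN.le he).trans hN2
  have hq : nr (M * ∏ p ∈ act M a, p) = nr M * cond M a := by rw [nr_mul, nr_act]
  set Z : ℝ := X / (nr M * cond M a) with hZ
  have hZ0 : 0 < Z := by positivity
  have hft0 : ft (M * ∏ p ∈ act M a, p) (Fr ψ (rr M a)) 0 = 0 := by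
    rw [hft, sym_rr_zero ha, mul_zero]
  rw [hankel (mul_ne_zero hM.1 hρ) (Fr_periodic hM ψ a) (norm_Fr_le hM ψ _) (Fr_zero ψ _) hft0
    hX0, hq, ← hZ, norm_mul, Complex.norm_real, Real.norm_of_nonneg hZ0.le]
  set T : ℝ := R ^ (ε / 3) * (S / Real.sqrt X) + R ^ (-J) with hT
  have hT0 : 0 ≤ T := by positivity
  set K : ℝ := Real.sqrt (cond M a) * (Fintype.card (Chr M) * nr M * C₁) * Z ^ (-(1 / 2 : ℝ)) * T
    with hK
  have hK0 : 0 ≤ K := by positivity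
  have hsum : Summable fun h : O =>
      ft (M * ∏ p ∈ act M a, p) (Fr ψ (rr M a)) h * Vg (Z * nr h) (τ * I) :=
    summable_Vg (H := Real.sqrt (cond M a) * nr M) hft0 (fun h => by
      rw [hft, norm_mul, norm_mul]
      exact (mul_le_of_le_one_right (by positivity) (norm_sym_le _ _)).trans
        (mul_le_mul hτ₀ (hΦ h) (norm_nonneg _) (Real.sqrt_nonneg _))) hZ0 τ
  have hceR : cond M a * e ≤ R := hce.trans haR
  have hNi : N⁻¹ ≤ R := by rwa [inv_le_comm₀ hN hR0]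
  have hT2 : (1 + |τ|) ^ 2 ≤ 4 * R ^ 2 := by nlinarith [abs_nonneg τ]
  have hT1 : 1 ≤ (1 + |τ|) ^ 2 := by nlinarith [abs_nonneg τ]
  have hRε : 1 ≤ R ^ ε := Real.one_le_rpow hR hε.le
  have key := norm_tsum_smooth_le (mul_ne_zero hM.1 hc) hsum (by rw [hft0, zero_mul])
    (w := fun g => K * nr g ^ (-(1 / 2 : ℝ)))
    (B := K * (C₂ * nr (M * ∏ p ∈ pun M a, p) ^ (ε / 3))) (fun g hg _ => by
      obtain ⟨β, hβ, hexp⟩ := dual_expand hM ha0 hΦ hΦp g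
      have hg1 := one_le_nr hg
      have hZg : 0 < Z * nr g := by positivity
      have hs' : ∀ ν' : Chr M, Summable fun h : O =>
          conj (rc ν' a h) * Vg (Z * nr g * nr h) (τ * I) := fun ν' =>
        summable_Vg (H := 1) (by simp [LBA.rc_zero])
          (fun h => by simpa using LBA.norm_rc_le hM ν' a h) hZg τ
      have e1 : ∀ h : O, (if Primary h ∧ IsCoprime h (M * ∏ p ∈ pun M a, p) then
          ft (M * ∏ p ∈ act M a, p) (Fr ψ (rr M a)) (g * h) * Vg (Z * nr (g * h)) (τ * I)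
          else 0) = ∑ ν' : Chr M, τ₀ * β ν' *
            (conj (rc ν' a h) * Vg (Z * nr g * nr h) (τ * I)) := by
        intro h
        have e2 : ∑ ν' : Chr M, τ₀ * β ν' * (conj (rc ν' a h) * Vg (Z * nr g * nr h) (τ * I)) =
            τ₀ * (∑ ν' : Chr M, β ν' * conj (rc ν' a h)) * Vg (Z * nr g * nr h) (τ * I) := by
          rw [Finset.mul_sum, Finset.sum_mul]
          exact Finset.sum_congr rfl fun _ _ => by ring
        rw [e2, ← hexp h, hft, nr_mul, ← mul_assoc Z]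
        split_ifs
        · ring
        · simp
      simp only [e1]
      rw [Summable.tsum_finsetSum fun ν' _ => (hs' ν').mul_left _]
      refine (norm_sum_le _ _).trans ?_
      have hb : ∀ ν' : Chr M, ‖∑' h : O, τ₀ * β ν' *
          (conj (rc ν' a h) * Vg (Z * nr g * nr h) (τ * I))‖ ≤
          Real.sqrt (cond M a) * nr M * (C₁ * (Z * nr g) ^ (-(1 / 2 : ℝ)) * T) := by
        intro ν'
        rw [tsum_mul_left, norm_mul, norm_mul]
        refine mul_le_mul (mul_le_mul hτ₀ (hβ ν') (norm_nonneg _) (Real.sqrt_nonneg _)) ?_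
          (norm_nonneg _) (by positivity)
        refine h₁ _ R (Z * nr g) τ (cond M a * e * R ^ ε * (1 + |τ|) ^ 2 / N) (S / Real.sqrt X)
          (polyB_conj_rc hM ν' a) hR hτ hZg ?_ ?_ ?_ ?_ (by positivity) ?_
        · calc (Z * nr g)⁻¹ ≤ Z⁻¹ := inv_anti₀ hZ0 (le_mul_of_one_le_right hZ0.le hg1)
            _ = nr M * ((cond M a * e) * N⁻¹) := by rw [hZ, hX]; field_simp
            _ ≤ nr M * (R * R) := by gcongr
            _ = _ := by ring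
        · rw [le_div_iff₀ hN]
          calc R⁻¹ * N ≤ R⁻¹ * R := by gcongr
            _ = 1 * 1 * 1 * 1 := by field_simp
            _ ≤ _ := by gcongr
        · calc _ = cond M a * e * R ^ ε * (1 + |τ|) ^ 2 * N⁻¹ := div_eq_mul_inv _ _
            _ ≤ R * R ^ ε * (4 * R ^ 2) * R := by gcongr
            _ = _ := by
              rw [Real.rpow_add hR0, show (4 : ℝ) = ((4 : ℕ) : ℝ) by norm_num, Real.rpow_natCast]
              ring
        · calc R ^ ε * (1 + |τ|) ^ 2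
              = nr M * (Z * 1) * (cond M a * e * R ^ ε * (1 + |τ|) ^ 2 / N) := by
                rw [hZ, hX]; field_simp
            _ ≤ _ := by gcongr
        · intro Y u hY1 hY2 hu
          have hY : 0 < Y := lt_of_lt_of_le (inv_pos.2 hR0) hY1
          have := hP ν' Y (-u) hY1 hY2 (by rwa [abs_neg])
          rw [conj_Pln, Complex.norm_conj]
          rw [← div_div, ← hX, Real.sqrt_div hX0.le, div_mul_eq_mul_div,
            div_le_iff₀ (Real.sqrt_pos.2 hY)] at this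
          rw [div_mul_eq_mul_div, le_div_iff₀ (Real.sqrt_pos.2 hX0)]
          linarith
      refine (Finset.sum_le_sum fun ν' _ => hb ν').trans (le_of_eq ?_)
      rw [Finset.sum_const, Finset.card_univ, nsmul_eq_mul, hK,
        Real.mul_rpow hZ0.le (by linarith)]
      ring)
    (fun S' hS' => by
      rw [← Finset.mul_sum]
      exact mul_le_mul_of_nonneg_left (h₂ _ S' (mul_ne_zero hM.1 hc) hS') hK0)
  have hm : nr (M * ∏ p ∈ pun M a, p) ^ (ε / 3) ≤ nr M ^ (ε / 3) * R ^ (ε / 3) := by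
    rw [← Real.mul_rpow (by positivity) hR0.le, nr_mul]
    have h1 := cond_mul_le (M := M) ha0 (Finset.Subset.refl _)
    have h2 : nr (∏ p ∈ pun M a, p) ≤ R :=
      (le_mul_of_one_le_left (Nat.cast_nonneg _) hc1).trans (h1.trans haR)
    gcongr
  have hZs : Z * (Real.sqrt (cond M a) * Z ^ (-(1 / 2 : ℝ))) ≤ Real.sqrt X := by
    have e1 : Z * Z ^ (-(1 / 2 : ℝ)) = Real.sqrt Z := by
      rw [Real.sqrt_eq_rpow, ← Real.rpow_one_add' hZ0.le (by norm_num)]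
      norm_num
    rw [mul_left_comm, e1, ← Real.sqrt_mul (by linarith)]
    refine Real.sqrt_le_sqrt ?_
    rw [hZ, mul_div_assoc', div_le_iff₀ (by positivity)]
    nlinarith [mul_pos hX0 (lt_of_lt_of_le one_pos hc1)]
  have hsX : Real.sqrt X ≤ R := by
    rw [Real.sqrt_le_left hR0.le]; nlinarith
  have hsX0 : 0 < Real.sqrt X := Real.sqrt_pos.2 hX0
  have hTX : Real.sqrt X * T ≤ R ^ (ε / 3) * S + R * R ^ (-J) := by
    have : Real.sqrt X * T = R ^ (ε / 3) * S + Real.sqrt X * R ^ (-J) := by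
      rw [hT]; field_simp
    rw [this]; gcongr
  calc _ ≤ Z * (K * (C₂ * nr (M * ∏ p ∈ pun M a, p) ^ (ε / 3))) :=
        mul_le_mul_of_nonneg_left key hZ0.le
    _ ≤ Z * (K * (C₂ * (nr M ^ (ε / 3) * R ^ (ε / 3)))) := by gcongr
    _ = Fintype.card (Chr M) * nr M * C₁ * (C₂ * nr M ^ (ε / 3)) * R ^ (ε / 3) *
          (Z * (Real.sqrt (cond M a) * Z ^ (-(1 / 2 : ℝ))) * T) := by rw [hK]; ring
    _ ≤ Fintype.card (Chr M) * nr M * C₁ * (C₂ * nr M ^ (ε / 3)) * R ^ (ε / 3) *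
          (Real.sqrt X * T) := by gcongr
    _ ≤ _ := by gcongr

theorem reflect_bound {M : O} (hM : Adm M) {ε : ℝ} (hε : 0 < ε) (J : ℝ) : ∃ C : ℝ, 0 < C ∧
    ∀ (R N τ S : ℝ) (ν : Chr M) (a : O), 1 ≤ R → ¬ Exc M a → nr a ≤ R → R⁻¹ ≤ N → N ≤ R →
      |τ| ≤ R → 0 ≤ S →
      (∀ (ν' : Chr M) (e Y t : ℝ), 1 ≤ e → cond M a * e ≤ nr a → R⁻¹ ≤ Y →
        Y ≤ cond M a * e * R ^ ε * (1 + |τ|) ^ 2 / N → |t| ≤ |τ| + Real.log R →
        Real.sqrt (N / (e * Y)) * ‖Pln ν' a Y (t * I)‖ ≤ S) →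
      ‖Pln ν a N (τ * I)‖ ≤ C * R ^ ε * S + C * R ^ (-J) := by
  obtain ⟨C₁, hC₁, h₁⟩ := Sm_Fr_le hM hε (J + 1 + ε)
  obtain ⟨C₂, hC₂, h₂⟩ := pow_card_pf_le (ε := ε / 3) (by positivity) 2
  refine ⟨C₂ * C₁, by positivity, fun R N τ S ν a hR ha haR hN1 hN2 hτ hS hP => ?_⟩
  have ha0 := LBA.ne_zero_of_not_exc ha
  have hR0 : 0 < R := by linarith
  have hN : 0 < N := lt_of_lt_of_le (inv_pos.2 hR0) hN1
  obtain ⟨ψ, hψ⟩ := rc_eq_Fr hM ha0
  rw [Pln_sieve hM ν (hψ ν) hN]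
  set T : ℝ := C₁ * R ^ (ε / 3) * (R ^ (ε / 3) * S + R * R ^ (-(J + 1 + ε))) with hT
  have hT0 : 0 ≤ T := by positivity
  have hb : ∀ E ∈ (pun M a).powerset, ‖(-1 : ℂ) ^ E.card * (Fr (ν * ψ) (rr M a) (∏ p ∈ E, p) *
      Sm (Fr (ν * ψ) (rr M a)) (N / nr (∏ p ∈ E, p)) (τ * I))‖ ≤ T := by
    intro E hE
    rw [Finset.mem_powerset] at hE
    have he : (∏ p ∈ E, p) ≠ 0 :=
      (squarefree_prod_primes fun p hp => pun_primes M a p (hE hp)).2.1.ne_zero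
    rw [norm_mul, norm_mul, norm_pow, norm_neg, norm_one, one_pow, one_mul]
    refine (mul_le_of_le_one_left (norm_nonneg _) (norm_Fr_le hM _ _ _)).trans ?_
    exact h₁ R N _ τ S (ν * ψ) a hR ha haR hN1 hN2 hτ hS (one_le_nr he) (cond_mul_le ha0 hE)
      fun ν' Y t => hP ν' _ Y t (one_le_nr he) (cond_mul_le ha0 hE)
  refine ((norm_sum_le _ _).trans (Finset.sum_le_sum hb)).trans ?_
  rw [Finset.sum_const, Finset.card_powerset, nsmul_eq_mul]
  have hc : ((2 ^ (pun M a).card : ℕ) : ℝ) ≤ C₂ * R ^ (ε / 3) := by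
    push_cast
    refine (pow_le_pow_right₀ (by norm_num) (Finset.card_filter_le _ _)).trans
      ((h₂ a ha0).trans ?_)
    gcongr
  have e1 : R ^ (ε / 3) * R ^ (ε / 3) * R ^ (ε / 3) = R ^ ε := by
    rw [← Real.rpow_add hR0, ← Real.rpow_add hR0]; congr 1; ring
  have e2 : R ^ (ε / 3) * R ^ (ε / 3) * (R * R ^ (-(J + 1 + ε))) ≤ R ^ (-J) := by
    rw [← Real.rpow_add hR0, mul_comm R, ← Real.rpow_add_one hR0.ne', ← Real.rpow_add hR0]
    exact Real.rpow_le_rpow_of_exponent_le hR (by linarith)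
  calc _ ≤ C₂ * R ^ (ε / 3) * T := by gcongr
    _ = C₂ * C₁ * (R ^ (ε / 3) * R ^ (ε / 3) * R ^ (ε / 3)) * S +
        C₂ * C₁ * (R ^ (ε / 3) * R ^ (ε / 3) * (R * R ^ (-(J + 1 + ε)))) := by rw [hT]; ring
    _ ≤ _ := by rw [e1]; gcongr

theorem Pln_reflect {M : O} (hM : Adm M) {ε : ℝ} (hε : 0 < ε) (J : ℝ) : ∃ C : ℝ, 0 < C ∧
    ∀ (R N τ : ℝ) (ν : Chr M) (a : O), 1 ≤ R → ¬ Exc M a → nr a ≤ R → R⁻¹ ≤ N → N ≤ R →
      |τ| ≤ R → ∃ (ν' : Chr M) (e Y t : ℝ), 1 ≤ e ∧ cond M a * e ≤ nr a ∧ R⁻¹ ≤ Y ∧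
        Y ≤ cond M a * e * R ^ ε * (1 + |τ|) ^ 2 / N ∧ |t| ≤ |τ| + Real.log R ∧
        ‖Pln ν a N (τ * Complex.I)‖ ≤
          C * R ^ ε * Real.sqrt (N / (e * Y)) * ‖Pln ν' a Y (t * Complex.I)‖ + C * R ^ (-J) := by
  obtain ⟨C, hC, h⟩ := reflect_bound hM hε J
  refine ⟨2 * C, by positivity, fun R N τ ν a hR ha haR hN1 hN2 hτ => ?_⟩
  have ha0 := LBA.ne_zero_of_not_exc ha
  have hR0 : 0 < R := by linarith
  have hN : 0 < N := lt_of_lt_of_le (inv_pos.2 hR0) hN1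
  have hRε : 1 ≤ R ^ ε := Real.one_le_rpow hR hε.le
  have hRJ : 0 < R ^ (-J) := by positivity
  by_contra hcon
  push Not at hcon
  set S : ℝ := (‖Pln ν a N (τ * I)‖ - 2 * C * R ^ (-J)) / (2 * C * R ^ ε) with hS
  have hlt : ∀ (ν' : Chr M) (e Y t : ℝ), 1 ≤ e → cond M a * e ≤ nr a → R⁻¹ ≤ Y →
      Y ≤ cond M a * e * R ^ ε * (1 + |τ|) ^ 2 / N → |t| ≤ |τ| + Real.log R →
      Real.sqrt (N / (e * Y)) * ‖Pln ν' a Y (t * I)‖ < S := by
    intro ν' e Y t h1 h2 h3 h4 h5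
    have := hcon ν' e Y t h1 h2 h3 h4 h5
    rw [hS, lt_div_iff₀ (by positivity)]
    linarith
  have hS0 : 0 < S := by
    have hc1 := LBA.one_le_cond M a
    have hT1 : 1 ≤ (1 + |τ|) ^ 2 := by nlinarith [abs_nonneg τ]
    refine lt_of_le_of_lt (by positivity) (hlt ν 1 R⁻¹ 0 le_rfl
      (by rw [mul_one]; exact LBA.cond_le M ha0) le_rfl ?_ ?_)
    · rw [le_div_iff₀ hN]
      calc R⁻¹ * N ≤ R⁻¹ * R := by gcongr
        _ = 1 * 1 * 1 * 1 := by field_simp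
        _ ≤ _ := by gcongr
    · rw [abs_zero]
      exact add_nonneg (abs_nonneg _) (Real.log_nonneg hR)
  have h1 := h R N τ S ν a hR ha haR hN1 hN2 hτ hS0.le
    fun ν' e Y t h1 h2 h3 h4 h5 => (hlt ν' e Y t h1 h2 h3 h4 h5).le
  have h2 : 2 * C * R ^ ε * S = ‖Pln ν a N (τ * I)‖ - 2 * C * R ^ (-J) := by
    rw [hS]; field_simp
  have h3 : 0 < C * R ^ ε * S := by positivity
  have h4 : 0 < C * R ^ (-J) := by positivity
  linarith

theorem Pln_decay {M : O} (hM : Adm M) {ε : ℝ} (hε : 0 < ε) (J : ℝ) : ∃ C : ℝ, 0 < C ∧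
    ∀ (R N : ℝ) (s : ℂ) (ν : Chr M) (a : O), 1 ≤ R → ¬ Exc M a →
      nr a * R ^ ε * (1 + |s.im|) ^ 2 ≤ N → N ≤ R →
      |s.re| ≤ 3 → |s.im| ≤ R → ‖Pln ν a N s‖ ≤ C * R ^ (-J) := by
  obtain ⟨C₁, hC₁, h₁⟩ := Pln_reflect hM (ε := ε / 2) (by positivity) |J|
  set A : ℝ := 2 * (|J| + 1) / ε with hA
  have hA0 : 0 ≤ A := by positivity
  obtain ⟨C₂, hC₂, h₂⟩ := tsum_norm_Sm_le A 0 0 le_rfl
  set c : ℝ := Real.exp 2 with hc
  have hc1 : 1 ≤ c := Real.one_le_exp (by norm_num)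
  refine ⟨Real.exp (9 / 4) * (C₁ * c ^ (ε / 2) * c * (C₂ * (c ^ (ε / 2) * c) ^ (1 + A)) + C₁),
    by positivity, fun R N s ν a hR ha hN1 hN2 hs1 hs2 => ?_⟩
  have ha0 := LBA.ne_zero_of_not_exc ha
  have hR0 : 0 < R := by linarith
  have hRε : 1 ≤ R ^ ε := Real.one_le_rpow hR hε.le
  have hT1 : 1 ≤ (1 + |s.im|) ^ 2 := by nlinarith [abs_nonneg s.im]
  have ha1 := one_le_nr ha0
  have haN : nr a ≤ N := le_trans (by
    calc nr a = nr a * 1 * 1 := by ring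
      _ ≤ _ := by gcongr) hN1
  have hN : 0 < N := by linarith
  have hb0 : rc ν a 0 = 0 := LBA.rc_zero ν a
  have e1 : ‖Pln ν a N s‖ = Real.exp (s.re ^ 2 / 4) *
      ‖Pln ν a (N * Real.exp (s.re / 2)) (s.im * I)‖ := WeightB.norm_Sm_eq _ hb0 hN s
  have hs3 := abs_le.1 hs1
  have x1 : Real.exp (s.re / 2) ≤ c := Real.exp_le_exp.2 (by linarith)
  have x2 : c⁻¹ ≤ Real.exp (s.re / 2) := by
    rw [hc, ← Real.exp_neg]; exact Real.exp_le_exp.2 (by linarith)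
  have x3 : Real.exp (s.re ^ 2 / 4) ≤ Real.exp (9 / 4) := Real.exp_le_exp.2 (by nlinarith)
  have hc0 : 0 < c := by linarith
  have hRc : R ≤ c * R := le_mul_of_one_le_left hR0.le hc1
  set N' : ℝ := N * Real.exp (s.re / 2) with hN'
  have hN'0 : 0 < N' := by positivity
  have hN'1 : N' ≤ c * R := by rw [mul_comm c, hN']; gcongr
  have hN'2 : N * c⁻¹ ≤ N' := by rw [hN']; gcongr
  obtain ⟨ν', e, Y, t, he, hce, hY1, hY2, -, hb⟩ := h₁ (c * R) N' s.im ν a (hR.trans hRc) ha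
    ((haN.trans hN2).trans hRc) (by
      refine le_trans ?_ hN'2
      rw [mul_inv, mul_comm]
      gcongr
      exact (inv_le_one_of_one_le₀ hR).trans (ha1.trans haN)) hN'1 (hs2.trans hRc)
  have hY0 : 0 < Y := lt_of_lt_of_le (by positivity) hY1
  have hY3 : Y ≤ c ^ (ε / 2) * c * R ^ (-(ε / 2)) := by
    refine hY2.trans ?_
    rw [div_le_iff₀ hN'0, Real.mul_rpow hc0.le hR0.le]
    have e2 : R ^ (-(ε / 2)) * R ^ ε = R ^ (ε / 2) := by
      rw [← Real.rpow_add hR0]; congr 1; ring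
    calc _ ≤ nr a * (c ^ (ε / 2) * R ^ (ε / 2)) * (1 + |s.im|) ^ 2 := by gcongr
      _ = c ^ (ε / 2) * c * R ^ (-(ε / 2)) * (nr a * R ^ ε * (1 + |s.im|) ^ 2 * c⁻¹) := by
          rw [← e2]; field_simp
      _ ≤ _ := by gcongr; exact le_trans (by gcongr) hN'2
  have hP : ‖Pln ν' a Y (t * I)‖ ≤ C₂ * (c ^ (ε / 2) * c) ^ (1 + A) * R ^ (-(ε / 2) * (1 + A)) := by
    have hp := LBA.polyB_rc hM ν' a
    have := h₂ _ 1 Y (t * I) hp hY0 (by simp)
    refine (norm_tsum_le_tsum_norm (summable_Sm hp hY0 _)).trans (this.trans ?_)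
    rw [mul_one, mul_assoc, Real.rpow_mul hR0.le, ← Real.mul_rpow (by positivity) (by positivity)]
    refine mul_le_mul_of_nonneg_left ((min_le_right _ _).trans ?_) hC₂.le
    rw [zero_add, abs_of_nonneg hA0]
    gcongr
  have hsq : Real.sqrt (N' / (e * Y)) ≤ c * R := by
    rw [Real.sqrt_le_left (by positivity), div_le_iff₀ (by positivity)]
    have : 1 ≤ c * R * Y := by
      have := mul_le_mul_of_nonneg_left hY1 (show 0 ≤ c * R by positivity)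
      rwa [mul_inv_cancel₀ (by positivity)] at this
    calc N' ≤ c * R * 1 * 1 := by linarith
      _ ≤ c * R * (c * R * Y) * e := by gcongr
      _ = _ := by ring
  have hJ : R ^ (-|J|) ≤ R ^ (-J) :=
    Real.rpow_le_rpow_of_exponent_le hR (neg_le_neg (le_abs_self J))
  have y1 : (c * R) ^ (-|J|) ≤ R ^ (-J) :=
    (Real.rpow_le_rpow_of_nonpos hR0 hRc (neg_nonpos.2 (abs_nonneg J))).trans hJ
  have y2 : R ^ (ε / 2) * R * R ^ (-(ε / 2) * (1 + A)) ≤ R ^ (-J) := by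
    rw [← Real.rpow_add_one hR0.ne', ← Real.rpow_add hR0]
    refine le_trans (le_of_eq ?_) hJ
    congr 1
    rw [hA]; field_simp; ring
  rw [e1]
  calc _ ≤ Real.exp (9 / 4) * (C₁ * (c * R) ^ (ε / 2) * (c * R) *
          (C₂ * (c ^ (ε / 2) * c) ^ (1 + A) * R ^ (-(ε / 2) * (1 + A))) + C₁ * R ^ (-J)) := by
        refine mul_le_mul x3 (hb.trans ?_) (norm_nonneg _) (by positivity)
        gcongr
    _ = Real.exp (9 / 4) * (C₁ * c ^ (ε / 2) * c * (C₂ * (c ^ (ε / 2) * c) ^ (1 + A)) *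
          (R ^ (ε / 2) * R * R ^ (-(ε / 2) * (1 + A))) + C₁ * R ^ (-J)) := by
        rw [Real.mul_rpow hc0.le hR0.le]; ring
    _ ≤ Real.exp (9 / 4) * (C₁ * c ^ (ε / 2) * c * (C₂ * (c ^ (ε / 2) * c) ^ (1 + A)) *
          R ^ (-J) + C₁ * R ^ (-J)) := by gcongr
    _ = _ := by ring

end Crest.Agent.R17.LBD
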