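import Crest.Agent.R17.WeightAuxA

/-!
# Row 17: Gamma bounds and Phragmén–Lindelöf for `Lc_growth`
-/

set_option autoImplicit false

noncomputable section

namespace Crest.Agent.R17.LG

open scoped ComplexConjugate
open MeasureTheory Complex

theorem Gamma_bdd {σ₀ σ₁ : ℝ} (h : 0 < σ₀) : ∃ K : ℝ, 0 < K ∧
    ∀ σ : ℝ, σ₀ ≤ σ → σ ≤ σ₁ → Real.Gamma σ ≤ K := by
  have hc : ContinuousOn Real.Gamma (Set.Icc σ₀ σ₁) := fun x hx =>
    (Real.differentiableAt_Gamma fun m hm => by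
      have := hx.1
      have : (0 : ℝ) ≤ m := m.cast_nonneg
      linarith).continuousAt.continuousWithinAt
  obtain ⟨K, hK⟩ := isCompact_Icc.bddAbove_image hc
  exact ⟨max K 1, by positivity, fun σ h1 h2 =>
    (hK ⟨σ, ⟨h1, h2⟩, rfl⟩).trans (le_max_left _ _)⟩

theorem norm_beta_le {s : ℂ} {t : ℝ} :
    ‖betaIntegral s t‖ ≤ ‖betaIntegral (s.re : ℂ) t‖ := by
  have e : betaIntegral (s.re : ℂ) t =
      ((∫ x in (0 : ℝ)..1, x ^ (s.re - 1) * (1 - x) ^ (t - 1) : ℝ) : ℂ) := by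
    rw [betaIntegral, ← intervalIntegral.integral_ofReal]
    refine intervalIntegral.integral_congr fun x hx => ?_
    rw [Set.uIcc_of_le zero_le_one] at hx
    have h1 : 0 ≤ 1 - x := by linarith [hx.2]
    rw [ofReal_mul, ofReal_cpow hx.1, ofReal_cpow h1]
    push_cast
    rfl
  rw [e, Complex.norm_real, betaIntegral]
  refine (intervalIntegral.norm_integral_le_integral_norm zero_le_one).trans ?_
  refine le_trans (le_of_eq ?_) (le_abs_self _)
  refine intervalIntegral.integral_congr_ae ?_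
  have h1 : ∀ᵐ x : ℝ, x ≠ 1 := by simp [ae_iff]
  filter_upwards [h1] with x hx1 hx
  rw [Set.uIoc_of_le zero_le_one] at hx
  have h2 : 0 < 1 - x := sub_pos.2 (lt_of_le_of_ne hx.2 hx1)
  have h3 : (1 - (x : ℂ)) = ((1 - x : ℝ) : ℂ) := by push_cast; rfl
  rw [norm_mul, h3, norm_cpow_eq_rpow_re_of_pos hx.1, norm_cpow_eq_rpow_re_of_pos h2]
  simp

/-- `|Γ(σ + iτ)| / Γ(σ)` increases with `σ`. -/
theorem norm_Gamma_mul_le {s : ℂ} (hs : 0 < s.re) {t : ℝ} (ht : 0 < t) :
    ‖Gamma s‖ * Real.Gamma (s.re + t) ≤ ‖Gamma (s + t)‖ * Real.Gamma s.re := by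
  have h1 := congrArg norm (Gamma_mul_Gamma_eq_betaIntegral hs (t := t) (by simpa using ht))
  have h2 := congrArg norm (Gamma_mul_Gamma_eq_betaIntegral (s := s.re) (by simpa using hs) (t := t)
    (by simpa using ht))
  rw [← ofReal_add] at h2
  simp only [norm_mul, Gamma_ofReal, Complex.norm_real] at h1 h2
  have g1 := Real.Gamma_pos_of_pos hs
  have g2 := Real.Gamma_pos_of_pos ht
  have g3 := Real.Gamma_pos_of_pos (add_pos hs ht)
  rw [Real.norm_of_nonneg g2.le] at h1 h2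
  rw [Real.norm_of_nonneg g1.le, Real.norm_of_nonneg g3.le] at h2
  have h3 := norm_beta_le (s := s) (t := t)
  refine le_of_mul_le_mul_right ?_ g2
  calc ‖Gamma s‖ * Real.Gamma (s.re + t) * Real.Gamma t
      = ‖Gamma (s + t)‖ * (Real.Gamma (s.re + t) * ‖betaIntegral s t‖) := by
        linear_combination Real.Gamma (s.re + t) * h1
    _ ≤ ‖Gamma (s + t)‖ * (Real.Gamma (s.re + t) * ‖betaIntegral (s.re : ℂ) t‖) := by gcongr
    _ = _ := by rw [← h2]; ring

theorem norm_Gamma_half (τ : ℝ) :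
    ‖Gamma (1 / 2 + τ * I)‖ ≤ 3 * Real.exp (-(Real.pi / 2 * |τ|)) := by
  have h1 := congrArg norm (Gamma_mul_Gamma_one_sub (1 / 2 + τ * I))
  have h2 : 1 - (1 / 2 + τ * I) = conj (1 / 2 + τ * I : ℂ) := by
    simp only [map_add, map_mul, conj_ofReal, conj_I, map_div₀, map_one, map_ofNat]
    ring
  have h3 : Complex.sin (Real.pi * (1 / 2 + τ * I)) = (Real.cosh (Real.pi * τ) : ℝ) := by
    rw [mul_add, show (Real.pi : ℂ) * (1 / 2) = Real.pi / 2 by ring, add_comm,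
      Complex.sin_add_pi_div_two, ← mul_assoc, Complex.cos_mul_I]
    push_cast
    rfl
  rw [h2, Gamma_conj, norm_mul, Complex.norm_conj, h3, norm_div, Complex.norm_real,
    Complex.norm_real, Real.norm_of_nonneg Real.pi_pos.le,
    Real.norm_of_nonneg (Real.cosh_pos _).le] at h1
  have h4 : Real.exp (Real.pi * |τ|) / 2 ≤ Real.cosh (Real.pi * τ) := by
    rw [← Real.cosh_abs, abs_mul, abs_of_pos Real.pi_pos, Real.cosh_eq]
    have := Real.exp_pos (-(Real.pi * |τ|))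
    linarith
  rw [← sq_le_sq₀ (norm_nonneg _) (by positivity), sq, h1, mul_pow, ← Real.exp_nat_mul,
    div_le_iff₀ (Real.cosh_pos _)]
  have h5 : Real.exp ((2 : ℕ) * -(Real.pi / 2 * |τ|)) * Real.exp (Real.pi * |τ|) = 1 := by
    rw [← Real.exp_add, ← Real.exp_zero]
    congr 1
    push_cast
    ring
  have h6 := Real.pi_lt_four
  have h7 := Real.exp_pos ((2 : ℕ) * -(Real.pi / 2 * |τ|))
  nlinarith

theorem norm_Gamma_half_add (τ : ℝ) (n : ℕ) :
    ‖Gamma (1 / 2 + n + τ * I)‖ ≤ (n + |τ|) ^ n * ‖Gamma (1 / 2 + τ * I)‖ := by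
  induction n with
  | zero => simp
  | succ n ih =>
    have hne : (1 / 2 + n + τ * I : ℂ) ≠ 0 := fun h => by
      have := congrArg Complex.re h
      simp at this
      have : (0 : ℝ) ≤ n := n.cast_nonneg
      linarith
    have h1 : ‖(1 / 2 + n + τ * I : ℂ)‖ ≤ n + 1 + |τ| := by
      refine (norm_add_le _ _).trans (add_le_add ((norm_add_le _ _).trans ?_) (by simp))
      simp
      linarith
    rw [show (1 / 2 + (n + 1 : ℕ) + τ * I : ℂ) = (1 / 2 + n + τ * I) + 1 by push_cast; ring,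
      Gamma_add_one _ hne, norm_mul, pow_succ', mul_assoc]
    push_cast
    refine mul_le_mul h1 (ih.trans ?_) (norm_nonneg _) (by positivity)
    gcongr
    linarith

theorem norm_Gamma_le_exp {σ₀ σ₁ : ℝ} (h : 0 < σ₀) : ∃ C : ℝ, 0 < C ∧
    ∀ s : ℂ, σ₀ ≤ s.re → s.re ≤ σ₁ → ‖Complex.Gamma s‖ ≤ C * Real.exp (-|s.im|) := by
  obtain ⟨K, hK, hK'⟩ := Gamma_bdd (σ₁ := σ₁) h
  obtain ⟨n, hn⟩ := exists_nat_gt σ₁
  have g : 0 < Real.Gamma (1 / 2 + n) := Real.Gamma_pos_of_pos (by positivity)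
  refine ⟨3 * K * (2 ^ n * n.factorial * Real.exp (n / 2)) / Real.Gamma (1 / 2 + n), by positivity,
    fun s h0 h1 => ?_⟩
  have h2 := norm_Gamma_mul_le (h.trans_le h0) (t := 1 / 2 + n - s.re) (by linarith)
  have e : s + ((1 / 2 + n - s.re : ℝ) : ℂ) = 1 / 2 + n + s.im * I := by
    apply Complex.ext <;> simp
  rw [e, add_sub_cancel] at h2
  have h3 := norm_Gamma_half_add s.im n
  have h4 := norm_Gamma_half s.im
  have h5 := Real.pow_div_factorial_le_exp ((n + |s.im|) / 2) (by positivity) n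
  rw [div_pow, div_div, div_le_iff₀ (by positivity), add_div, Real.exp_add] at h5
  have h6 : Real.exp (|s.im| / 2) * Real.exp (-(Real.pi / 2 * |s.im|)) ≤ Real.exp (-|s.im|) := by
    rw [← Real.exp_add, Real.exp_le_exp]
    have := Real.pi_gt_three
    have := abs_nonneg s.im
    nlinarith
  rw [div_mul_eq_mul_div, le_div_iff₀ g]
  calc _ ≤ _ := h2
    _ ≤ (Real.exp (n / 2) * Real.exp (|s.im| / 2) * (2 ^ n * n.factorial)) *
        (3 * Real.exp (-(Real.pi / 2 * |s.im|))) * K :=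
      mul_le_mul (h3.trans (mul_le_mul h5 h4 (norm_nonneg _) (by positivity))) (hK' _ h0 h1)
        (Real.Gamma_pos_of_pos (h.trans_le h0)).le (by positivity)
    _ = 3 * K * (2 ^ n * n.factorial * Real.exp (n / 2)) *
        (Real.exp (|s.im| / 2) * Real.exp (-(Real.pi / 2 * |s.im|))) := by ring
    _ ≤ _ := by gcongr

theorem norm_sin_le (z : ℂ) : ‖Complex.sin z‖ ≤ Real.exp |z.im| := by
  rw [Complex.sin, norm_div, norm_mul, Complex.norm_I, mul_one, Complex.norm_ofNat,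
    div_le_iff₀ two_pos]
  refine (norm_sub_le _ _).trans ?_
  rw [Complex.norm_exp, Complex.norm_exp]
  have h1 : Real.exp (-z * I).re ≤ Real.exp |z.im| := Real.exp_le_exp.2 (by simpa using le_abs_self _)
  have h2 : Real.exp (z * I).re ≤ Real.exp |z.im| := Real.exp_le_exp.2 (by simpa using neg_le_abs _)
  linarith

theorem norm_Gamma_le_add {z : ℂ} (hz : 1 ≤ |z.im|) (n : ℕ) : ‖Gamma z‖ ≤ ‖Gamma (z + n)‖ := by
  induction n with
  | zero => simp
  | succ n ih =>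
    have h1 : 1 ≤ ‖z + n‖ := hz.trans (by simpa using abs_im_le_norm (z + n))
    have h2 : z + n ≠ 0 := fun h => by rw [h, norm_zero] at h1; linarith
    rw [Nat.cast_succ, ← add_assoc, Gamma_add_one _ h2, norm_mul]
    exact ih.trans (le_mul_of_one_le_left (norm_nonneg _) h1)

/-- a-priori bound for `1 / Γ` -/
theorem norm_inv_Gamma_le : ∃ K : ℝ, 0 < K ∧ ∀ s : ℂ, -2 ≤ s.re → s.re ≤ 3 → 1 ≤ |s.im| →
    ‖(Gamma s)⁻¹‖ ≤ K * Real.exp (4 * |s.im|) := by
  obtain ⟨K, hK, hK'⟩ := Gamma_bdd (σ₀ := 1) (σ₁ := 6) one_pos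
  refine ⟨K, hK, fun s h0 h1 h2 => ?_⟩
  have hs : ∀ m : ℕ, s ≠ -m := fun m h => by
    rw [h] at h2
    simp at h2
    linarith
  have hs' : ∀ m : ℕ, 1 - s ≠ -m := fun m h => by
    have := congrArg Complex.im h
    simp at this
    rw [this] at h2
    simp at h2
    linarith
  have g1 := Gamma_ne_zero hs
  have g2 := Gamma_ne_zero hs'
  have h3 := Gamma_mul_Gamma_one_sub s
  have g3 : Complex.sin (Real.pi * s) ≠ 0 := fun h => by
    rw [h, div_zero] at h3
    exact mul_ne_zero g1 g2 h3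
  have hpi : (Real.pi : ℂ) ≠ 0 := ofReal_ne_zero.2 Real.pi_ne_zero
  have e : (Gamma s)⁻¹ = Gamma (1 - s) * Complex.sin (Real.pi * s) / Real.pi := by
    rw [eq_div_iff g3] at h3
    rw [eq_div_iff hpi, inv_mul_eq_iff_eq_mul₀ g1, ← mul_assoc, h3]
  have h4 : ‖Gamma (1 - s)‖ ≤ K := by
    refine (norm_Gamma_le_add (by simpa using h2) 3).trans ((WA.norm_Gamma_le ?_).trans (hK' _ ?_ ?_))
    all_goals simp; linarith
  have h5 : ‖Complex.sin (Real.pi * s)‖ ≤ Real.exp (4 * |s.im|) := by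
    refine (norm_sin_le _).trans (Real.exp_le_exp.2 ?_)
    rw [im_ofReal_mul, abs_mul, abs_of_pos Real.pi_pos]
    exact mul_le_mul_of_nonneg_right Real.pi_lt_four.le (abs_nonneg _)
  rw [e, norm_div, norm_mul, Complex.norm_real, Real.norm_of_nonneg Real.pi_pos.le]
  refine (div_le_self (by positivity) (by linarith [Real.pi_gt_three])).trans ?_
  exact mul_le_mul h4 h5 (norm_nonneg _) hK.le

/-- the Gamma factor of the functional equation on `Re s = -3/2` -/
theorem norm_Gamma_ratio {s : ℂ} (hs : s.re = -3 / 2) :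
    ‖Gamma (1 - s) / Gamma s‖ ≤ 16 * (1 + |s.im|) ^ 4 := by
  have hn : ∀ k : ℕ, conj s ≠ -k := fun k h => by
    have h1 := congrArg Complex.re h
    simp only [conj_re, hs, neg_re, natCast_re] at h1
    have h2 : (2 * k : ℝ) = 3 := by linarith
    have h3 : 2 * k = 3 := by exact_mod_cast h2
    omega
  have e : 1 - s = conj s + (4 : ℕ) := by
    apply Complex.ext <;> simp [hs]
    norm_num
  have h1 := congrArg norm (Gamma_add_nat_div_Gamma_eq (n := 4) (conj s) hn)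
  rw [← e, norm_div, Gamma_conj, Complex.norm_conj, ← norm_div] at h1
  rw [h1]
  have h2 : ∀ k : ℝ, 0 ≤ k → k ≤ 3 → ‖conj s + k‖ ≤ 2 * (1 + |s.im|) := fun k k0 k3 => by
    refine (norm_le_abs_re_add_abs_im _).trans ?_
    simp only [add_re, conj_re, hs, ofReal_re, add_im, conj_im, ofReal_im, add_zero, abs_neg]
    have : |-3 / 2 + k| ≤ 2 := abs_le.2 ⟨by linarith, by linarith⟩
    have := abs_nonneg s.im
    linarith
  have h3 : (ascPochhammer ℂ 4).eval (conj s) = (conj s + (0 : ℝ)) * (conj s + (1 : ℝ)) *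
      (conj s + (2 : ℝ)) * (conj s + (3 : ℝ)) := by
    simp [ascPochhammer_succ_right]
  rw [h3, norm_mul, norm_mul, norm_mul,
    show 16 * (1 + |s.im|) ^ 4 = 2 * (1 + |s.im|) * (2 * (1 + |s.im|)) * (2 * (1 + |s.im|)) *
      (2 * (1 + |s.im|)) by ring]
  gcongr <;> exact h2 _ (by norm_num) (by norm_num)

/-- Phragmén–Lindelöf with polynomial weights. -/
theorem PL_poly {F : ℂ → ℂ} (hF : Differentiable ℂ F) {B K : ℝ}
    (hB : ∀ s : ℂ, -3 / 2 ≤ s.re → s.re ≤ 3 → 1 ≤ |s.im| → ‖F s‖ ≤ B * Real.exp (B * |s.im|))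
    (hK : ∀ s : ℂ, s.re = -3 / 2 ∨ s.re = 3 → ‖F s‖ ≤ K * (1 + |s.im|) ^ 5)
    (s : ℂ) (h0 : -3 / 2 ≤ s.re) (h1 : s.re ≤ 3) : ‖F s‖ ≤ 12 ^ 5 * K * (1 + |s.im|) ^ 5 := by
  have hK0 : 0 ≤ K := by simpa using (norm_nonneg _).trans (hK 3 (Or.inr (by simp)))
  have n1 : ∀ z : ℂ, -3 / 2 ≤ z.re → 1 ≤ ‖z + 3‖ ∧ 1 + |z.im| ≤ 2 * ‖z + 3‖ := fun z hz => by
    have a1 := re_le_norm (z + 3)
    have a2 := abs_im_le_norm (z + 3)
    simp only [add_re, re_ofNat, add_im, im_ofNat, add_zero] at a1 a2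
    constructor <;> linarith
  have n2 : ∀ z : ℂ, -3 / 2 ≤ z.re → z + 3 ≠ 0 := fun z hz h => by
    have := (n1 z hz).1
    rw [h, norm_zero] at this
    linarith
  have n3 : ∀ z : ℂ, z.re = -3 / 2 ∨ z.re = 3 → ‖F z / (z + 3) ^ 5‖ ≤ 2 ^ 5 * K := fun z hz => by
    have hz' : -3 / 2 ≤ z.re := by rcases hz with h | h <;> linarith
    rw [norm_div, norm_pow, div_le_iff₀ (pow_pos (norm_pos_iff.2 (n2 z hz')) _)]
    refine (hK z hz).trans ?_
    rw [show 2 ^ 5 * K * ‖z + 3‖ ^ 5 = K * (2 * ‖z + 3‖) ^ 5 by ring]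
    gcongr
    exact (n1 z hz').2
  have key : ‖F s / (s + 3) ^ 5‖ ≤ 2 ^ 5 * K := by
    refine PhragmenLindelof.vertical_strip (f := fun z => F z / (z + 3) ^ 5) (a := -3 / 2) (b := 3)
      ?_ ⟨1 / 2, ?_, 2 * |B|, ?_⟩ (fun z hz => n3 z (Or.inl hz)) (fun z hz => n3 z (Or.inr hz)) h0 h1
    · refine DifferentiableOn.diffContOnCl ?_
      rw [Complex.closure_preimage_re, closure_Ioo (by norm_num)]
      exact hF.differentiableOn.div (by fun_prop) fun z hz => pow_ne_zero _ (n2 z hz.1)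
    · rw [lt_div_iff₀ (by norm_num)]
      linarith [Real.pi_gt_three]
    · refine Asymptotics.IsBigO.of_bound |B| ?_
      rw [Filter.eventually_inf_principal, Filter.eventually_comap]
      filter_upwards [Filter.eventually_ge_atTop 1] with x hx z hz hz'
      subst hz
      rw [norm_div, norm_pow, Real.norm_of_nonneg (Real.exp_pos _).le]
      refine (div_le_self (norm_nonneg _) (one_le_pow₀ (n1 z hz'.1.le).1)).trans ?_
      refine (hB z hz'.1.le hz'.2.le hx).trans ?_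
      refine mul_le_mul (le_abs_self _) (Real.exp_le_exp.2 ?_) (Real.exp_pos _).le (abs_nonneg _)
      have a1 := Real.add_one_le_exp (1 / 2 * |z.im|)
      have a2 := le_abs_self B
      have a3 := abs_nonneg B
      have a4 := abs_nonneg z.im
      nlinarith
  rw [norm_div, norm_pow, div_le_iff₀ (pow_pos (norm_pos_iff.2 (n2 s h0)) _)] at key
  refine key.trans ?_
  rw [show 12 ^ 5 * K * (1 + |s.im|) ^ 5 = 2 ^ 5 * K * (6 * (1 + |s.im|)) ^ 5 by ring]
  gcongr
  refine (norm_le_abs_re_add_abs_im _).trans ?_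
  simp only [add_re, re_ofNat, add_im, im_ofNat, add_zero]
  have : |s.re + 3| ≤ 6 := abs_le.2 ⟨by linarith, by linarith⟩
  have := abs_nonneg s.im
  linarith

end Crest.Agent.R17.LG
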