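import Crest.Agent.R17.Poisson
import Crest.Agent.R17.LBasicAuxG

/-!
# Row 17: polynomial growth of the L-function of a bounded periodic function
-/

set_option autoImplicit false

noncomputable section

namespace Crest.Agent.R17.LG

open scoped ComplexConjugate
open MeasureTheory Complex

theorem norm_tsum_le {σ : ℝ} (hσ : 1 < σ) {H : ℝ} {f : O → ℂ} (hf : ∀ n, ‖f n‖ ≤ H) {w : ℂ}
    (hw : w.re = -σ) : ‖∑' n : O, f n * (nr n : ℂ) ^ w‖ ≤ H * ∑' n : O, nr n ^ (-σ) := by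
  rw [← tsum_mul_left]
  refine tsum_of_norm_bounded ((summable_nr_rpow hσ).mul_left H).hasSum fun n => ?_
  rw [norm_mul, norm_cpow_eq_rpow_re_of_nonneg (by positivity) (by rw [hw]; linarith), hw]
  exact mul_le_mul_of_nonneg_right (hf n) (by positivity)

theorem norm_ft_le {q : O} (hq : q ≠ 0) {f : O → ℂ} (hf : ∀ n, ‖f n‖ ≤ 1) (h : O) :
    ‖ft q f h‖ ≤ nr q := by
  refine (norm_sum_le _ _).trans ((Finset.sum_le_card_nsmul _ _ 1 fun x _ => ?_).trans ?_)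
  · rw [norm_mul, norm_eq, mul_one]
    exact hf x
  · simp [card_res hq]

/-- bounds on the two boundary lines -/
theorem lines : ∃ C : ℝ, 0 < C ∧ ∀ (q : O) (f : O → ℂ) (L : ℂ → ℂ), q ≠ 0 → (∀ n, ‖f n‖ ≤ 1) →
    (∀ s : ℂ, s.re = 3 → L s = ∑' n : O, f n * (nr n : ℂ) ^ (-s)) →
    (∀ s : ℂ, s.re = -3 / 2 → L s = (nr q : ℂ) ^ (-s) *
      (((2 * Real.pi / Real.sqrt 3 : ℝ) : ℂ) ^ (2 * s - 1) * Gamma (1 - s) / Gamma s) *
      ∑' h : O, ft q f h * (nr h : ℂ) ^ (s - 1)) →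
    ∀ s : ℂ, s.re = -3 / 2 ∨ s.re = 3 → ‖L s‖ ≤ C * nr q ^ 3 * (1 + |s.im|) ^ 4 := by
  have z1 : 0 ≤ ∑' n : O, nr n ^ (-(3 : ℝ)) := tsum_nonneg fun n => by positivity
  have z2 : 0 ≤ ∑' n : O, nr n ^ (-(5 / 2 : ℝ)) := tsum_nonneg fun n => by positivity
  refine ⟨1 + ∑' n : O, nr n ^ (-(3 : ℝ)) + 16 * ∑' n : O, nr n ^ (-(5 / 2 : ℝ)), by positivity,
    fun q f L hq hf h3 hFE s hs => ?_⟩
  have hq1 := one_le_nr hq
  have t1 : 1 ≤ 1 + |s.im| := by linarith [abs_nonneg s.im]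
  rcases hs with hs | hs
  · have a1 : ‖(nr q : ℂ) ^ (-s)‖ ≤ nr q ^ 2 := by
      rw [norm_cpow_eq_rpow_re_of_pos (nr_pos hq), ← Real.rpow_two]
      exact Real.rpow_le_rpow_of_exponent_le hq1 (by rw [neg_re, hs]; norm_num)
    have a2 : ‖((2 * Real.pi / Real.sqrt 3 : ℝ) : ℂ) ^ (2 * s - 1)‖ ≤ 1 := by
      rw [norm_cpow_eq_rpow_re_of_pos (by linarith [pois_three_le])]
      refine Real.rpow_le_one_of_one_le_of_nonpos (by linarith [pois_three_le]) ?_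
      simp [hs]
      norm_num
    have a3 := norm_Gamma_ratio hs
    have a4 := norm_tsum_le (σ := 5 / 2) (by norm_num) (norm_ft_le hq hf) (w := s - 1)
      (by rw [sub_re, hs, one_re]; norm_num)
    rw [hFE s hs, mul_div_assoc, norm_mul, norm_mul, norm_mul]
    calc _ ≤ nr q ^ 2 * (1 * (16 * (1 + |s.im|) ^ 4)) * (nr q * ∑' n : O, nr n ^ (-(5 / 2 : ℝ))) := by
          gcongr
      _ = (16 * ∑' n : O, nr n ^ (-(5 / 2 : ℝ))) * nr q ^ 3 * (1 + |s.im|) ^ 4 := by ring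
      _ ≤ _ := by gcongr; linarith
  · rw [h3 s hs]
    refine (norm_tsum_le (σ := 3) (by norm_num) hf (by rw [neg_re, hs])).trans ?_
    rw [one_mul, mul_assoc]
    refine le_trans (by linarith) (le_mul_of_one_le_right (by positivity) ?_)
    exact one_le_mul_of_one_le_of_one_le (one_le_pow₀ hq1) (one_le_pow₀ t1)

/-- a-priori bound from the Mellin representation -/
theorem apriori {L L₀ : ℂ → ℂ} {r : ℂ} {B₀ : ℝ}
    (h0 : ∀ s : ℂ, -3 / 2 ≤ s.re → s.re ≤ 3 → ‖L₀ s‖ ≤ B₀)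
    (hL : ∀ s : ℂ, 1 ≤ |s.im| → L s = ((2 * Real.pi / Real.sqrt 3 : ℝ) : ℂ) ^ s * (Gamma s)⁻¹ *
      (L₀ s + r / (s - 1))) :
    ∃ B : ℝ, 0 ≤ B ∧ ∀ s : ℂ, -3 / 2 ≤ s.re → s.re ≤ 3 → 1 ≤ |s.im| →
      ‖L s‖ ≤ B * Real.exp (4 * |s.im|) := by
  obtain ⟨K, hK, hK'⟩ := norm_inv_Gamma_le
  have hc := pois_three_le
  have hB : 0 ≤ B₀ := (norm_nonneg _).trans (h0 0 (by norm_num) (by norm_num))
  refine ⟨(2 * Real.pi / Real.sqrt 3) ^ (3 : ℝ) * K * (B₀ + ‖r‖), by positivity,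
    fun s s0 s1 s2 => ?_⟩
  have a1 : ‖((2 * Real.pi / Real.sqrt 3 : ℝ) : ℂ) ^ s‖ ≤ (2 * Real.pi / Real.sqrt 3) ^ (3 : ℝ) := by
    rw [norm_cpow_eq_rpow_re_of_pos (by linarith)]
    exact Real.rpow_le_rpow_of_exponent_le (by linarith) s1
  have a2 := hK' s (by linarith) s1 s2
  have a3 : ‖L₀ s + r / (s - 1)‖ ≤ B₀ + ‖r‖ := by
    refine (norm_add_le _ _).trans (add_le_add (h0 s s0 s1) ?_)
    rw [norm_div]
    exact div_le_self (norm_nonneg _) (s2.trans (by simpa using abs_im_le_norm (s - 1)))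
  rw [hL s s2, norm_mul, norm_mul]
  calc _ ≤ (2 * Real.pi / Real.sqrt 3) ^ (3 : ℝ) * (K * Real.exp (4 * |s.im|)) * (B₀ + ‖r‖) := by
        gcongr
    _ = _ := by ring

theorem norm_sub_one_le {s : ℂ} (h0 : -3 / 2 ≤ s.re) (h1 : s.re ≤ 3) :
    ‖s - 1‖ ≤ 3 * (1 + |s.im|) := by
  refine (norm_le_abs_re_add_abs_im _).trans ?_
  simp only [sub_re, one_re, sub_im, one_im, sub_zero]
  have : |s.re - 1| ≤ 3 := abs_le.2 ⟨by linarith, by linarith⟩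
  have := abs_nonneg s.im
  linarith

/-- growth of an entire `L` -/
theorem growth_entire {L : ℂ → ℂ} (hL : Differentiable ℂ L) {B K : ℝ} (hB0 : 0 ≤ B)
    (hB : ∀ s : ℂ, -3 / 2 ≤ s.re → s.re ≤ 3 → 1 ≤ |s.im| → ‖L s‖ ≤ B * Real.exp (4 * |s.im|))
    (hK : ∀ s : ℂ, s.re = -3 / 2 ∨ s.re = 3 → ‖L s‖ ≤ K * (1 + |s.im|) ^ 4)
    (s : ℂ) (h0 : -3 / 2 ≤ s.re) (h1 : s.re ≤ 3) : ‖L s‖ ≤ 12 ^ 5 * K * (1 + |s.im|) ^ 5 := by
  have hK0 : 0 ≤ K := by simpa using (norm_nonneg _).trans (hK 3 (Or.inr (by simp)))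
  refine PL_poly hL (B := B + 4) (fun z z0 z1 z2 => (hB z z0 z1 z2).trans ?_)
    (fun z hz => (hK z hz).trans ?_) s h0 h1
  · gcongr <;> linarith
  · exact mul_le_mul_of_nonneg_left (pow_le_pow_right₀ (by linarith [abs_nonneg z.im]) (by norm_num))
      hK0

/-- growth of `(s - 1) L(s)` -/
theorem growth_pole {L G : ℂ → ℂ} (hG : Differentiable ℂ G) (hGL : ∀ s, s ≠ 1 → G s = (s - 1) * L s)
    {B K : ℝ} (hB0 : 0 ≤ B)
    (hB : ∀ s : ℂ, -3 / 2 ≤ s.re → s.re ≤ 3 → 1 ≤ |s.im| → ‖L s‖ ≤ B * Real.exp (4 * |s.im|))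
    (hK : ∀ s : ℂ, s.re = -3 / 2 ∨ s.re = 3 → ‖L s‖ ≤ K * (1 + |s.im|) ^ 4)
    (s : ℂ) (h0 : -3 / 2 ≤ s.re) (h1 : s.re ≤ 3) : ‖G s‖ ≤ 12 ^ 5 * (3 * K) * (1 + |s.im|) ^ 5 := by
  refine PL_poly hG (B := 3 * B + 5) (fun z z0 z1 z2 => ?_) (fun z hz => ?_) s h0 h1
  · have hz : z ≠ 1 := fun h => by
      rw [h] at z2
      simp at z2
      linarith
    have a1 := Real.add_one_le_exp |z.im|
    rw [hGL z hz, norm_mul]
    calc _ ≤ (3 * Real.exp |z.im|) * (B * Real.exp (4 * |z.im|)) :=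
          mul_le_mul ((norm_sub_one_le z0 z1).trans (by linarith)) (hB z z0 z1 z2) (norm_nonneg _)
            (by positivity)
      _ = 3 * B * Real.exp (5 * |z.im|) := by
          rw [show 5 * |z.im| = |z.im| + 4 * |z.im| by ring, Real.exp_add]; ring
      _ ≤ _ := by gcongr <;> linarith
  · have hz1 : z ≠ 1 := fun h => by
      rw [h] at hz
      norm_num at hz
    have z0 : -3 / 2 ≤ z.re := by rcases hz with h | h <;> linarith
    have z1 : z.re ≤ 3 := by rcases hz with h | h <;> linarith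
    rw [hGL z hz1, norm_mul]
    calc _ ≤ (3 * (1 + |z.im|)) * (K * (1 + |z.im|) ^ 4) :=
          mul_le_mul (norm_sub_one_le z0 z1) (hK z hz) (norm_nonneg _) (by positivity)
      _ = _ := by ring

end Crest.Agent.R17.LG
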