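import Crest.Agent.R17.Recip
import Crest.Agent.R17.Poisson
import Crest.Agent.R17.Weight
import Crest.Agent.R17.LBasicAuxD6
import Crest.Agent.R17.LBasicAuxA
import Crest.Agent.R17.LBasicAuxB
import Crest.Agent.R17.LBasicAuxC
import Crest.Agent.R17.LBasicAuxG2

/-!
# Row 17, module M9: the L-functions of the row characters (continuation, growth, reflection)
-/

set_option autoImplicit false

noncomputable section

namespace Crest.Agent.R17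

open scoped ComplexConjugate

/-! ## A. row characters -/

theorem rc_one {M : O} (ν : Chr M) (a : O) : rc ν a 1 = 1 :=
  LBA.rc_one ν a
theorem rc_zero {M : O} (ν : Chr M) (a : O) : rc ν a 0 = 0 :=
  LBA.rc_zero ν a
theorem rc_mul {M : O} (ν : Chr M) (a : O) {m n : O} (hm : Primary m) (hn : Primary n) :
    rc ν a (m * n) = rc ν a m * rc ν a n :=
  LBA.rc_mul ν a hm hn
theorem norm_rc_le {M : O} (hM : Adm M) (ν : Chr M) (a n : O) : ‖rc ν a n‖ ≤ 1 :=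
  LBA.norm_rc_le hM ν a n
theorem rc_eq_zero {M : O} (ν : Chr M) {a n : O} (h : ¬ IsCoprime n (M * a)) : rc ν a n = 0 :=
  LBA.rc_eq_zero ν h
theorem rc_mul_row {M : O} (hM : Adm M) (ν : Chr M) (a b n : O) :
    rc ν (a * b) n = rc ν a n * conj (sym n b) :=
  LBA.rc_mul_row hM ν a b n
theorem polyB_rc {M : O} (hM : Adm M) (ν : Chr M) (a : O) : PolyB (rc ν a) 1 0 :=
  LBA.polyB_rc hM ν a
theorem polyB_mu_rc {M : O} (hM : Adm M) (ν : Chr M) (a : O) :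
    PolyB (fun n => mu n * rc ν a n) 1 0 :=
  LBA.polyB_mu_rc hM ν a
theorem Mob_eq_Sm {M : O} (ν : Chr M) (a : O) (D : ℝ) (s : ℂ) :
    Mob ν a D s = Sm (fun n => mu n * rc ν a n) D s := rfl
theorem Pln_eq_Sm {M : O} (ν : Chr M) (a : O) (X : ℝ) (s : ℂ) :
    Pln ν a X s = Sm (rc ν a) X s := rfl
theorem rc_periodic {M : O} (hM : Adm M) (ν : Chr M) {a : O} (ha : a ≠ 0) {n n' : O}
    (h : M * rad a ∣ n - n') : rc ν a n = rc ν a n' :=
  LBA.rc_periodic hM ν ha h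
/-- A row character is a character modulo `M a`. -/
theorem exists_chr_row {M : O} (hM : Adm M) (ν : Chr M) {a : O} (ha : a ≠ 0) :
    Adm (M * a) ∧ ∃ ν' : Chr (M * a), rc ν' 1 = rc ν a :=
  LBA.exists_chr_row hM ν ha
/-- On an exceptional row the row character is a character modulo `M` with a puncture. -/
theorem exists_chr_exc {M : O} (hM : Adm M) (ν : Chr M) {a : O} (ha : a ≠ 0) (h : Exc M a) :
    ∃ ν' : Chr M, ∀ n, Primary n → IsCoprime n a → rc ν a n = rc ν' 1 n :=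
  LBA.exists_chr_exc hM ν ha h
theorem ne_zero_of_not_exc {M a : O} (h : ¬ Exc M a) : a ≠ 0 :=
  LBA.ne_zero_of_not_exc h
theorem one_le_cond (M a : O) : 1 ≤ cond M a :=
  LBA.one_le_cond M a
theorem cond_le (M : O) {a : O} (ha : a ≠ 0) : cond M a ≤ nr a :=
  LBA.cond_le M ha
/-- Choose `p ∈ pf a`, `p ∤ M`, `6 ∤ v`, and `n ≡ 1 (M rad(a)/p)`, `n ≡ x (p)` with `χ_p(x)^v ≠ 1`. -/
theorem not_princ_of_not_exc {M : O} (hM : Adm M) (ν : Chr M) {a : O} (h : ¬ Exc M a) :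
    ¬ Princ ν a :=
  LBA.not_princ_of_not_exc hM ν h
/-- A non-principal row character has mean zero. -/
theorem sum_rc_eq_zero {M : O} (hM : Adm M) (ν : Chr M) {a : O} (ha : a ≠ 0) (h : ¬ Princ ν a) :
    ∑ x ∈ res (M * rad a), rc ν a x = 0 :=
  LBA.sum_rc_eq_zero hM ν ha h
/-- Euler product in the form we need it. -/
theorem Lser_mul_mob {M : O} (hM : Adm M) (ν : Chr M) (a : O) {s : ℂ} (hs : 1 < s.re) :
    Lser ν a s * ∑' n : O, mu n * rc ν a n * (nr n : ℂ) ^ (-s) = 1 :=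
  LBA.Lser_mul_mob hM ν a hs
/-- `L = exp (∑_p ∑_k χ(p)^k / (k N p^{ks}))` for `Re s > 1`. -/
theorem Lser_eq_exp {M : O} (hM : Adm M) (ν : Chr M) (a : O) {s : ℂ} (hs : 1 < s.re) :
    Lser ν a s = Complex.exp (∑' p : O, by
      classical exact if Prime p then -Complex.log (1 - rc ν a p * (nr p : ℂ) ^ (-s)) else 0) :=
  LBA.Lser_eq_exp hM ν a hs

/-! ## B. continuation and growth

Use `Θ(t) = ∑_n rc n · gw(N n · t)`, `poisson` with `q = M rad a`, and the Mellin transform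
`∫ Θ(t) t^{s-1} dt = Γ(s) (2π/√3)^{-s} L(s)` (e.g. Mathlib's `WeakFEPair`). -/

theorem isL_Lc {M : O} (hM : Adm M) (ν : Chr M) {a : O} (ha : a ≠ 0) : IsL ν a (Lc ν a) :=
  LBB.isL_Lc hM ν ha

theorem IsL.unique {M : O} {ν : Chr M} {a : O} {L L' : ℂ → ℂ} (h : IsL ν a L) (h' : IsL ν a L')
    {s : ℂ} (hs : s ≠ 1 ∨ ¬ Princ ν a) : L s = L' s :=
  LBB.IsL_unique h h' hs

/-- The simple pole of a principal row character. -/
theorem princ_pole {M : O} (hM : Adm M) (ν : Chr M) {a : O} (ha : a ≠ 0) (h : Princ ν a) :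
    ∃ (κ : ℝ) (G : ℂ → ℂ), 0 < κ ∧ Differentiable ℂ G ∧ G 1 = κ ∧
      ∀ s, s ≠ 1 → G s = (s - 1) * Lc ν a s :=
  LBB.princ_pole hM ν ha h

theorem zeroFree_one : ZeroFree 1 := LBB.zeroFree_one

theorem zeroFree_iff_one (β : ℝ) : ZeroFree β ↔ ∀ (M : O), Adm M → ∀ (ψ : Chr M) (s : ℂ),
    β < s.re → (s ≠ 1 ∨ ¬ Princ ψ 1) → Lc ψ 1 s ≠ 0 :=
  LBB.zeroFree_iff_one β

/-- Polynomial growth.  (On `Re s = -1` or `-3/2` use the functional equation coming from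
`poisson`: `L(s) = q^{-s} γ(s) ∑_h ft q rc h · N h^{s-1}`, `γ(s) = (2π/√3)^{2s-1} Γ(1-s)/Γ(s)`;
inside the strip Phragmén–Lindelöf, the a-priori bound being `≪ 1/|Γ(s)|`.) -/
theorem Lc_growth {M : O} (hM : Adm M) : ∃ (C : ℝ) (J : ℕ), 0 < C ∧
    ∀ (ν : Chr M) (a : O) (s : ℂ), a ≠ 0 → -1 ≤ s.re → s.re ≤ 3 →
      (s ≠ 1 → ‖(s - 1) * Lc ν a s‖ ≤ C * nr a ^ J * (1 + |s.im|) ^ J) ∧
      (¬ Princ ν a → ‖Lc ν a s‖ ≤ C * nr a ^ J * (1 + |s.im|) ^ J) := by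
  obtain ⟨C, hC, hl⟩ := LG.lines
  have hM1 := one_le_nr hM.1
  refine ⟨12 ^ 5 * (3 * (C * nr M ^ 3)), 5, by positivity, fun ν a s ha s0 s1 => ?_⟩
  have ha1 := one_le_nr ha
  have hq := LBB.mul_rad_ne_zero hM a
  have hL := isL_Lc hM ν ha
  have hK := hl _ _ (Lc ν a) hq (norm_rc_le hM ν a)
    (fun s hs => hL.2.1 s (by rw [hs]; norm_num))
    (fun s hs => by
      rw [LBB.Lc_fe hM ν ha (by rw [hs]; norm_num), LBB.cc]
      ring)
  obtain ⟨B₀, hB₀⟩ := LBB.Lam0_bounded (M * rad a) (rc ν a) (-3 / 2) 3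
  obtain ⟨B, hB0, hB⟩ := LG.apriori (L := Lc ν a) hB₀ fun s hs =>
    LBB.Lc_eq_Lam0 hM ν ha (Or.inl fun h => by
      rw [h] at hs
      norm_num at hs)
  have hr : nr (M * rad a) ^ 3 ≤ nr M ^ 3 * nr a ^ 5 := by
    have h1 : nr (rad a) ≤ nr a := Nat.cast_le.2 (nm_le_of_dvd (rad_dvd a) ha)
    rw [nr_mul, mul_pow]
    exact mul_le_mul_of_nonneg_left ((pow_le_pow_left₀ (by positivity) h1 3).trans
      (pow_le_pow_right₀ ha1 (by norm_num))) (by positivity)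
  have s0' : -3 / 2 ≤ s.re := by linarith
  have key : ∀ {x : ℝ}, x ≤ 12 ^ 5 * (3 * (C * nr (M * rad a) ^ 3)) * (1 + |s.im|) ^ 5 →
      x ≤ 12 ^ 5 * (3 * (C * nr M ^ 3)) * nr a ^ 5 * (1 + |s.im|) ^ 5 := fun h => h.trans (by
    rw [show 12 ^ 5 * (3 * (C * nr M ^ 3)) * nr a ^ 5 = 12 ^ 5 * (3 * (C * (nr M ^ 3 * nr a ^ 5)))
      by ring]
    gcongr)
  refine ⟨fun hs => key ?_, fun hP => key ((LG.growth_entire (hL.2.2 hP) hB0 hB hK s s0' s1).trans ?_)⟩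
  · by_cases hP : Princ ν a
    · obtain ⟨κ, G, -, hG, -, hGL⟩ := princ_pole hM ν ha hP
      rw [← hGL s hs]
      exact LG.growth_pole hG hGL hB0 hB hK s s0' s1
    · exact LG.growth_pole (G := fun s => (s - 1) * Lc ν a s)
        ((differentiable_id.sub_const 1).mul (hL.2.2 hP)) (fun _ _ => rfl) hB0 hB hK s s0' s1
  · have : C * nr (M * rad a) ^ 3 ≤ 3 * (C * nr (M * rad a) ^ 3) :=
      le_mul_of_one_le_left (by positivity) (by norm_num)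
    exact mul_le_mul_of_nonneg_right (mul_le_mul_of_nonneg_left this (by positivity))
      (by positivity)

/-- Exponential decay of `Γ` on vertical lines. -/
theorem norm_Gamma_le_exp {σ₀ σ₁ : ℝ} (h : 0 < σ₀) : ∃ C : ℝ, 0 < C ∧
    ∀ s : ℂ, σ₀ ≤ s.re → s.re ≤ σ₁ → ‖Complex.Gamma s‖ ≤ C * Real.exp (-|s.im|) :=
  LG.norm_Gamma_le_exp h

/-! ## C. exceptional rows -/

/-- Main term of a plain sum on an exceptional row (`exists_chr_exc`, `Sm_eq_integral`, shift the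
contour to `Re w = θ`; the Euler factors at `p ∣ a` are `≤ 2^{ω(a)}`). -/
theorem Pln_exc {M : O} (hM : Adm M) {θ ε : ℝ} (hθ : 0 < θ) (hθ1 : θ < 1) (hε : 0 < ε) :
    ∃ (C : ℝ) (J : ℕ), 0 < C ∧ ∀ (ν : Chr M) (a : O), a ≠ 0 → Exc M a →
      ∃ m : ℂ, ‖m‖ ≤ C ∧ (Princ ν a → m ≠ 0) ∧ ∀ (N : ℝ) (s : ℂ), 0 < N → |s.re| ≤ 3 →
        ‖Pln ν a N s - m * N * Wm (1 + s)‖ ≤ C * nr a ^ ε * (1 + |s.im|) ^ J * N ^ θ := by
  obtain ⟨C, J, hC, hg⟩ := Lc_growth hM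
  obtain ⟨A, hA, hmain⟩ := LBC.Sm_main hθ hθ1 J
  obtain ⟨D, hD, hpf⟩ := pow_card_pf_le hε 2
  refine ⟨max C (D * (A * C)), J, lt_max_of_lt_left hC, fun ν a ha hE => ?_⟩
  obtain ⟨ν', hν⟩ := exists_chr_exc hM ν ha hE
  have hL := isL_Lc hM ν' one_ne_zero
  have hb := polyB_rc hM ν' 1
  obtain ⟨G, hG, hG1, hG2, hG3⟩ : ∃ G : ℂ → ℂ, Differentiable ℂ G ∧
      (∀ w, w ≠ 1 → G w = (w - 1) * Lc ν' 1 w) ∧ (Princ ν' 1 → G 1 ≠ 0) ∧
      (¬ Princ ν' 1 → G 1 = 0) := by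
    by_cases hP : Princ ν' 1
    · obtain ⟨κ, G, hκ, hG, h1, h2⟩ := princ_pole hM ν' one_ne_zero hP
      exact ⟨G, hG, h2, fun _ => by rw [h1]; exact_mod_cast hκ.ne', fun h => absurd hP h⟩
    · exact ⟨fun w => (w - 1) * Lc ν' 1 w, (differentiable_id.sub_const 1).mul (hL.2.2 hP),
        fun _ _ => rfl, fun h => absurd h hP, fun _ => by simp⟩
  obtain ⟨hκ, hS⟩ := hmain (rc ν' 1) G C hb hG
    (fun w hw => by
      have h1 : w ≠ 1 := by rintro rfl; norm_num at hw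
      rw [hG1 w h1, mul_div_cancel_left₀ _ (sub_ne_zero.2 h1), hL.2.1 w (by rw [hw]; norm_num)]
      rfl)
    (fun w h0 h2 h1 => by
      rw [hG1 w h1]
      simpa [nr] using (hg ν' 1 w one_ne_zero (by linarith) (by linarith)).1 h1)
  have hpr : ∀ p ∈ pf a, Prime p ∧ Primary p := fun p => BasicB.pf_sub
  have hrc : rc ν a = LBC.punct (rc ν' 1) (pf a) := funext fun n => by
    by_cases hn : Primary n
    · unfold LBC.punct
      split_ifs with h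
      · exact hν n hn ((LBC.isCoprime_iff hn ha).2 h)
      · exact rc_eq_zero ν fun h' => h ((LBC.isCoprime_iff hn ha).1 h'.of_mul_right_right)
    · simp [LBC.punct, rc, hn]
  have hm : ∀ p ∈ pf a, ∀ c, rc ν' 1 (p * c) = rc ν' 1 p * rc ν' 1 c := fun p hp c => by
    by_cases hc : Primary c
    · exact rc_mul ν' 1 (hpr p hp).2 hc
    · have : ¬ Primary (p * c) := fun h => hc ((hpr p hp).2.of_mul h)
      simp [rc, hc, this]
  have heu := fun hP : Princ ν' 1 => LBC.euler_factor (χ := rc ν' 1) (S := pf a)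
    (fun p hp => (hpr p hp).1) fun p hp => by
      by_cases h : IsCoprime p (M * 1)
      · exact Or.inr (hP p (hpr p hp).2 h)
      · exact Or.inl (rc_eq_zero ν' h)
  refine ⟨G 1 * ∏ p ∈ pf a, (1 - rc ν' 1 p / nr p), ?_, fun hP => ?_, fun N s hN hs => ?_⟩
  · by_cases hP : Princ ν' 1
    · rw [norm_mul]
      exact (mul_le_of_le_one_right (norm_nonneg _) (heu hP).1).trans (hκ.trans (le_max_left _ _))
    · rw [hG3 hP, zero_mul, norm_zero]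
      exact hC.le.trans (le_max_left _ _)
  · have hP' : Princ ν' 1 := fun n hn hc => by
      obtain ⟨n', k1, k2, k3, k4⟩ := LBC.exists_coprime (M := M)
        (Dvd.dvd.trans ⟨24, by norm_num⟩ hM.2) ha hn (by simpa using hc)
      rw [rc_periodic hM ν' one_ne_zero (n' := n') (by simpa [rad] using k4), ← hν n' k1 k3]
      exact hP n' k1 (k2.mul_right k3)
    exact mul_ne_zero (hG2 hP') (heu hP').2
  · have h := LBC.Sm_sieve hb hθ.le (fun X hX => hS X s hX hs) (pf a) hpr hm N hN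
    rw [Pln_eq_Sm, hrc]
    refine h.trans ?_
    have h2 := hpf a ha
    have h3 : D * (A * C) ≤ max C (D * (A * C)) := le_max_right _ _
    calc (2 : ℝ) ^ (pf a).card * (A * C * (1 + |s.im|) ^ J) * N ^ θ
        ≤ D * nr a ^ ε * (A * C * (1 + |s.im|) ^ J) * N ^ θ := by gcongr
      _ = D * (A * C) * nr a ^ ε * (1 + |s.im|) ^ J * N ^ θ := by ring
      _ ≤ _ := by gcongr

/-! ## D. reflection of plain sums (functional equation in inequality form) -/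

/-- **Lemma R.**  Write `a = a₀ r c` with `pf a₀ ⊆ pf M`, `r = ∏_{p ∤ M, 6 ∤ v} p^v`,
`c = ∏_{p ∤ M, 6 ∣ v} p^v`.  Then `rc ν a n = φ(n) conj χ_r(n) 1_{(n,c)=1}` with `φ` periodic mod
`M` (reciprocity).  (1) `Pln ν a N = ∑_{e ∣ rad c} μ(e) rc(e) Pln(r)(N/N e)`.  (2) Poisson modulo
`M rad r` (`ft_mul`; `ft (rad r) conj χ_r = τ χ_r`, `|τ|² = cond`); write the dual variable as
`h = u λ^j h_M h'` (`pf h_M ⊆ pf M`, `h'` primary coprime to `M`) and expand `h' ↦ ft M φ(..)` in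
characters of `Chr M` (`PerB.expand`); this gives
`L(w) = cond^{1/2-w} γ(w) ∑_{ν'} E_{ν'}(w) conj L(1 - conj w, ν')`.  (3) Mellin inversion, the dual
kernel `V(y) = ∫ Wm(1-w'+iτ) γ(1-w') y^{-w'}` is cut into pieces `Wc(y/e^v)` by
`integral_Wc_scale`; use `Re w' = 1/2` (`|γ| = 1`) for `e^v ≤ cond · N e · R^ε/N` and `Re w'` large
beyond.  (4) `Pln(r)(Y) = ∑_{f ∣ c^∞} rc(f) Pln(a)(Y/N f)`, `sum_smooth_le`. -/
theorem Pln_reflect {M : O} (hM : Adm M) {ε : ℝ} (hε : 0 < ε) (J : ℝ) : ∃ C : ℝ, 0 < C ∧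
    ∀ (R N τ : ℝ) (ν : Chr M) (a : O), 1 ≤ R → ¬ Exc M a → nr a ≤ R → R⁻¹ ≤ N → N ≤ R →
      |τ| ≤ R → ∃ (ν' : Chr M) (e Y t : ℝ), 1 ≤ e ∧ cond M a * e ≤ nr a ∧ R⁻¹ ≤ Y ∧
        Y ≤ cond M a * e * R ^ ε * (1 + |τ|) ^ 2 / N ∧ |t| ≤ |τ| + Real.log R ∧
        ‖Pln ν a N (τ * Complex.I)‖ ≤
          C * R ^ ε * Real.sqrt (N / (e * Y)) * ‖Pln ν' a Y (t * Complex.I)‖ + C * R ^ (-J) :=
  LBD.Pln_reflect hM hε J

/-- Decay beyond the conductor (from `Pln_reflect` and `tsum_norm_Sm_tail_le`). -/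
theorem Pln_decay {M : O} (hM : Adm M) {ε : ℝ} (hε : 0 < ε) (J : ℝ) : ∃ C : ℝ, 0 < C ∧
    ∀ (R N : ℝ) (s : ℂ) (ν : Chr M) (a : O), 1 ≤ R → ¬ Exc M a →
      nr a * R ^ ε * (1 + |s.im|) ^ 2 ≤ N → N ≤ R →
      |s.re| ≤ 3 → |s.im| ≤ R → ‖Pln ν a N s‖ ≤ C * R ^ (-J) :=
  LBD.Pln_decay hM hε J

end Crest.Agent.R17
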