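import Crest.Agent.R17.T2Sup

/-!
# Row 17, module T2: from marked sums to products of dyadic slots
-/

set_option autoImplicit false

noncomputable section

namespace Crest.Agent.R17.T2B

open scoped ComplexConjugate

variable {M : O}

theorem po_of_coprime (hM : Adm M) {z : O} (hz : Primary z) (h : IsCoprime z M) : PO z :=
  ⟨hz, h.of_isCoprime_of_dvd_right ((show (2 : O) ∣ 72 from ⟨36, by norm_num⟩).trans hM.2)⟩

theorem sym_six {z t : O} (hz : PO z) (h : IsCoprime z t) : sym z (t ^ 6) = 1 := by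
  rw [sym_pow_right hz, sym_pow_six hz.1 h]

theorem Mob_powerset (hM : Adm M) (ν : Chr M) (a : O) (s : ℂ) (S : Finset O)
    (hS : ∀ p ∈ S, Prime p ∧ Primary p ∧ IsCoprime p M) {D : ℝ} (hD : 0 < D) :
    Mob ν a D s = ∑ T ∈ S.powerset, (-1) ^ T.card * rc ν a (∏ q ∈ T, q) *
      Mob ν (a * (∏ q ∈ S, q) ^ 6) (D / nr (∏ q ∈ T, q)) s := by
  classical
  induction S using Finset.induction_on with
  | empty => simp [rc_one, nr, nm_one]
  | insert p S hp ih =>
    have hS' : ∀ q ∈ S, Prime q ∧ Primary q ∧ IsCoprime q M :=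
      fun q hq => hS q (Finset.mem_insert_of_mem hq)
    obtain ⟨p1, p2, p3⟩ := hS p (Finset.mem_insert_self _ _)
    rw [ih hS', Finset.sum_powerset_insert hp, ← Finset.sum_add_distrib]
    refine Finset.sum_congr rfl fun T hT => ?_
    have hTS := Finset.mem_powerset.1 hT
    have hpT : p ∉ T := fun h => hp (hTS h)
    have hT1 : Primary (∏ q ∈ T, q) := Primary.prod fun q hq => (hS' q (hTS hq)).2.1
    have hc : IsCoprime p (∏ q ∈ S, q) := by
      refine IsCoprime.prod_right fun q hq => ?_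
      refine p1.irreducible.coprime_iff_not_dvd.2 fun h => hp ?_
      rwa [BasicB.eq_of_dvd p1 (hS' q hq).1 p2 (hS' q hq).2.1 h]
    rw [Mob_punct hM ν _ p1 p2 (div_pos hD (nr_pos hT1.ne_zero)) s, rc_mul_row hM,
      sym_six (po_of_coprime hM p2 p3) hc, Finset.prod_insert hp, Finset.prod_insert hpT,
      Finset.card_insert_of_notMem hpT, rc_mul ν a p2 hT1, nr_mul, div_div,
      mul_comm (nr (∏ q ∈ T, q)) (nr p),
      show a * (∏ q ∈ S, q) ^ 6 * p ^ 6 = a * (p * ∏ q ∈ S, q) ^ 6 by ring]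
    simp only [map_one]
    ring

theorem sum_pdiv_sqfree {z : O} (hz : Primary z) (hs : Squarefree z) (F : O → ℂ) :
    ∑ t ∈ pdiv z, F t = ∑ T ∈ (pf z).powerset, F (∏ q ∈ T, q) := by
  have hn := hz.ne_zero
  refine Finset.sum_nbij' pf (fun s => ∏ q ∈ s, q) (fun d hd => ?_) (fun s hs => ?_)
    (fun d hd => ?_) (fun s hs => ?_) fun d hd => ?_
  · refine Finset.mem_powerset.2 fun p hp => ?_
    obtain ⟨h3, h4, h5⟩ := BasicB.of_mem_pf hp
    exact (mem_pf hn).2 ⟨h3, h4, h5.trans ((mem_pdiv hn).1 hd).2⟩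
  · have hs' := Finset.mem_powerset.1 hs
    have h2 := squarefree_prod_primes (s := s) fun q hq => BasicB.pf_sub (hs' hq)
    exact (mem_pdiv hn).2 ⟨h2.2.1, BasicB.prod_dvd_of_subset hn hs'⟩
  · obtain ⟨h2, h3⟩ := (mem_pdiv hn).1 hd
    exact h2.eq_rad (hs.squarefree_of_dvd h3)
  · exact (squarefree_prod_primes fun q hq => BasicB.pf_sub (Finset.mem_powerset.1 hs hq)).2.2
  · obtain ⟨h2, h3⟩ := (mem_pdiv hn).1 hd
    have : ∏ q ∈ pf d, q = d := h2.eq_rad (hs.squarefree_of_dvd h3)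
    rw [this]

theorem Mob_pdiv (hM : Adm M) (ν : Chr M) (a : O) (s : ℂ) {z : O} (hz : SP M z) {D : ℝ}
    (hD : 0 < D) :
    Mob ν a D s = ∑ t ∈ pdiv z, mu t * rc ν a t * Mob ν (a * z ^ 6) (D / nr t) s := by
  have e : ∏ q ∈ pf z, q = z := hz.1.eq_rad hz.2.1
  rw [sum_pdiv_sqfree hz.1 hz.2.1, Mob_powerset hM ν a s (pf z) (fun p hp => by
    obtain ⟨h3, h4, h5⟩ := BasicB.of_mem_pf hp
    exact ⟨h3, h4, hz.2.2.of_isCoprime_of_dvd_left h5⟩) hD, e]
  refine Finset.sum_congr rfl fun T hT => ?_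
  have h2 := squarefree_prod_primes (s := T)
    fun q hq => BasicB.pf_sub (Finset.mem_powerset.1 hT hq)
  rw [BasicB.mu_of_squarefree h2.1, h2.2.2]

theorem ev_one_chr {z : O} (h : IsCoprime z M) : ev (1 : Chr M) z = 1 :=
  MulChar.one_apply (isUnit_mk_iff.2 h)

/-- the coefficient of the term `t` -/
def om (ν : Chr M) (a : O) (c : O → ℂ) (t : O) : ℂ :=
  cm c t * conj (sym t a) * (mu t * rc ν a t)

theorem norm_om_le (hM : Adm M) (ν : Chr M) (a : O) {c : O → ℂ} (hc : ∀ p, ‖c p‖ ≤ 1) (t : O) :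
    ‖om ν a c t‖ ≤ 1 := by
  unfold om
  rw [norm_mul, norm_mul, norm_mul, Complex.norm_conj]
  exact mul_le_one₀ (mul_le_one₀ (norm_cm_le hc t) (norm_nonneg _) (norm_sym_le t a))
    (by positivity) (mul_le_one₀ (norm_mu_le t) (norm_nonneg _) (norm_rc_le hM ν a t))

theorem Mob_mul_slots (hM : Adm M) {Ps : ℕ → Finset O} {P : ℕ → ℝ} {I : Finset ℕ}
    (h : Slots M Ps P I) (ν : Chr M) (a : O) (s : ℂ) (c : O → ℂ) {D : ℝ} (hD : 0 < D) :
    Mob ν a D s * ∏ j ∈ I, slot (Ps j) c a =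
      ∑ I' ∈ I.powerset, ∑ t ∈ Zs Ps (I \ I'), om ν a c t *
        MQ ν (a * t ^ 6) (D / nr t) s (Zs Ps I') (cm fun p => c p * ev (1 : Chr M) p) := by
  have e1 := h.sum_pdiv (fun t z' => cm c (t * z') * conj (sym (t * z') a) *
    (mu t * rc ν a t * Mob ν (a * (t * z') ^ 6) (D / nr t) s))
  rw [← h.slot_Zs hM, slot, Finset.mul_sum]
  calc _ = ∑ z ∈ Zs Ps I, ∑ t ∈ pdiv z, cm c (t * (z / t)) * conj (sym (t * (z / t)) a) *
        (mu t * rc ν a t * Mob ν (a * (t * (z / t)) ^ 6) (D / nr t) s) := by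
        refine Finset.sum_congr rfl fun z hz => ?_
        have hz' := (h.marks z hz).1
        rw [Mob_pdiv hM ν a s hz' hD, Finset.sum_mul]
        refine Finset.sum_congr rfl fun t ht => ?_
        obtain ⟨t1, t2⟩ := (mem_pdiv hz'.1.ne_zero).1 ht
        rw [EuclideanDomain.mul_div_cancel' t1.ne_zero t2]
        ring
    _ = _ := e1
    _ = _ := by
        refine Finset.sum_congr rfl fun I' hI' => Finset.sum_congr rfl fun t ht => ?_
        have hI := Finset.mem_powerset.1 hI'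
        rw [MQ, Finset.mul_sum]
        refine Finset.sum_congr rfl fun z hz => ?_
        have ht' := ((h.mono Finset.sdiff_subset).marks t ht).1
        have hz' := ((h.mono hI).marks z hz).1
        have hc : IsCoprime t z := h.coprime Finset.sdiff_subset hI Finset.sdiff_disjoint ht hz
        have hpo := po_of_coprime hM hz'.1 hz'.2.2
        rw [cm_mul c ht'.1.ne_zero hz'.1.ne_zero hc, sym_mul_left ht'.1.ne_zero hz'.1.ne_zero,
          cm_mul_fun, cm_ev _ hz', ev_one_chr hz'.2.2, sym_mul_right hpo, sym_six hpo hc.symm,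
          show a * (t * z) ^ 6 = a * t ^ 6 * z ^ 6 by ring, om, map_mul]
        ring_nf

theorem pointwise (hM : Adm M) [Fintype (Chr M)] (J : ℕ) {ε : ℝ} (hε : 0 < ε) : ∃ C : ℝ, 0 < C ∧
    ∀ (R D : ℝ) (s : ℂ) (ν : Chr M) (Ps : ℕ → Finset O) (P : ℕ → ℝ) (I : Finset ℕ) (c : O → ℂ)
      (a : O), Slots M Ps P I → I.card ≤ J → (∀ p, ‖c p‖ ≤ 1) → ZI P I ≤ R → 0 < D →
      ‖Mob ν a D s‖ ^ 2 * ∏ j ∈ I, ‖slot (Ps j) c a‖ ^ 2 ≤
        C * R ^ ε * (D * ZI P I) * Psi M Ps P I c s (D * ZI P I) a := by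
  obtain ⟨C₁, hC₁, H₁⟩ := pow_card_pf_le hε 4
  obtain ⟨C₂, hC₂, H₂⟩ := Marks.sum_rpow_le (σ := 1 / 2) (by norm_num)
  refine ⟨(2 ^ J * C₂) ^ 2 * C₁, by positivity, fun R D s ν Ps P I c a h hJ hc hR hD => ?_⟩
  have hZ := h.one_le_ZI
  have hR0 : 0 < R := by linarith
  have hΨ := Psi_nonneg M h c s (D * ZI P I) a
  set Ψ := Psi M Ps P I c s (D * ZI P I) a with hΨd
  have hc' : ∀ z, ‖cm (fun p => c p * ev (1 : Chr M) p) z‖ ≤ 1 := norm_cm_le fun p => by
    rw [norm_mul]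
    exact mul_le_one₀ (hc p) (norm_nonneg _) (norm_ev_le hM.1 _ p)
  set K : ℝ := C₁ * R ^ ε * (D * ZI P I) * Ψ with hK
  have hK0 : 0 ≤ K := by positivity
  have key : ∀ I' ∈ I.powerset, ∑ t ∈ Zs Ps (I \ I'), ‖om ν a c t *
      MQ ν (a * t ^ 6) (D / nr t) s (Zs Ps I') (cm fun p => c p * ev (1 : Chr M) p)‖ ≤
        C₂ * Real.sqrt K := by
    intro I' hI'
    have hI := Finset.mem_powerset.1 hI'
    have h1 := h.mono hI
    have h2 : Slots M Ps P (I \ I') := h.mono Finset.sdiff_subset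
    have z1 := h1.one_le_ZI
    have z2 := h2.one_le_ZI
    have z3 := ZI_sdiff P hI
    have hterm : ∀ t ∈ Zs Ps (I \ I'), ‖om ν a c t *
        MQ ν (a * t ^ 6) (D / nr t) s (Zs Ps I') (cm fun p => c p * ev (1 : Chr M) p)‖ ≤
          Real.sqrt (K / ZI P (I \ I')) * nr t ^ (-(1 / 2 : ℝ)) := by
      intro t ht
      obtain ⟨ht', ht2⟩ := h2.marks t ht
      have t0 := ht'.1.ne_zero
      have t1 := one_le_nr t0
      have t2 := nr_pos t0
      have hDm : D / nr t ≤ D * ZI P I / ZI P I' := by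
        rw [← z3, ← mul_assoc, mul_div_cancel_right₀ _ (by linarith)]
        calc D / nr t ≤ D := div_le_self hD.le t1
          _ ≤ D * ZI P (I \ I') := le_mul_of_one_le_right hD.le z2
      have h3 := MQ_punct hM ν a ht'.1 s h1.marks hc' (fun z hz _ p hp _ hpz => by
        obtain ⟨p1, -, p3⟩ := BasicB.of_mem_pf hp
        exact p1.not_isUnit ((h.coprime Finset.sdiff_subset hI Finset.sdiff_disjoint ht
          hz).isUnit_of_dvd' p3 hpz)) (div_pos hD t2) hDm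
      have h4 := msup_le_Psi h hI ν 1 c s (D * ZI P I) a
      have h5 : (4 : ℝ) ^ (pf t).card ≤ C₁ * R ^ ε :=
        (H₁ t t0).trans (mul_le_mul_of_nonneg_left (Real.rpow_le_rpow t2.le
          (ht2.trans ((h.ZI_mono Finset.sdiff_subset).trans hR)) hε.le) hC₁.le)
      have h6 : ‖MQ ν (a * t ^ 6) (D / nr t) s (Zs Ps I') (cm fun p => c p * ev (1 : Chr M) p)‖ ^ 2
          ≤ K / ZI P (I \ I') / nr t := by
        refine h3.trans ?_
        calc _ ≤ C₁ * R ^ ε * (ZI P I' * Ψ) * (D / nr t) := by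
              refine mul_le_mul_of_nonneg_right ?_ (div_pos hD t2).le
              exact mul_le_mul h5 h4 (msup_nonneg _ _ _ _ _ _) (by positivity)
          _ = _ := by
              rw [hK, ← z3]
              field_simp
      rw [norm_mul]
      refine (mul_le_of_le_one_left (norm_nonneg _) (norm_om_le hM ν a hc t)).trans ?_
      refine (Real.le_sqrt (norm_nonneg _) (by positivity)).2 h6 |>.trans (le_of_eq ?_)
      rw [Real.sqrt_div' _ t2.le, Real.rpow_neg t2.le, ← Real.sqrt_eq_rpow, div_eq_mul_inv]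
    refine (Finset.sum_le_sum hterm).trans ?_
    rw [← Finset.mul_sum]
    refine (mul_le_mul_of_nonneg_left (H₂ M _ _ h2.marks z2) (Real.sqrt_nonneg _)).trans
      (le_of_eq ?_)
    rw [show (1 : ℝ) - 1 / 2 = 1 / 2 by norm_num, ← Real.sqrt_eq_rpow,
      Real.sqrt_div' _ (by linarith)]
    have : 0 < Real.sqrt (ZI P (I \ I')) := Real.sqrt_pos.2 (by linarith)
    field_simp
  have main : ‖Mob ν a D s * ∏ j ∈ I, slot (Ps j) c a‖ ≤ 2 ^ J * C₂ * Real.sqrt K := by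
    rw [Mob_mul_slots hM h ν a s c hD]
    refine (norm_sum_le _ _).trans ((Finset.sum_le_sum fun I' hI' =>
      (norm_sum_le _ _).trans (key I' hI')).trans ?_)
    rw [Finset.sum_const, Finset.card_powerset, nsmul_eq_mul, mul_assoc]
    refine mul_le_mul_of_nonneg_right ?_ (by positivity)
    push_cast
    exact pow_le_pow_right₀ one_le_two hJ
  calc _ = ‖Mob ν a D s * ∏ j ∈ I, slot (Ps j) c a‖ ^ 2 := by
        rw [norm_mul, norm_prod, mul_pow, Finset.prod_pow]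
    _ ≤ (2 ^ J * C₂ * Real.sqrt K) ^ 2 := pow_le_pow_left₀ (norm_nonneg _) main 2
    _ = _ := by
        rw [mul_pow, Real.sq_sqrt hK0, hK]
        ring

theorem mob2_dy (hM : Adm M) (J : ℕ) {ε : ℝ} (hε : 0 < ε) (hIM : IM M J 1 (ε / 3)) :
    ∃ (C : ℝ) (J₀ : ℕ), 0 < C ∧
    ∀ (R A D τ : ℝ) (ν : Chr M) (Ps : ℕ → Finset O) (P : ℕ → ℝ) (I : Finset ℕ) (c : O → ℂ),
      Slots M Ps P I → Dy Ps P I → I.card ≤ J → (∀ p, ‖c p‖ ≤ 1) → 1 ≤ A → A ≤ R → ZI P I ≤ R →
      0 < D → D * ZI P I ^ 2 ≤ A → D ^ 2 * ZI P I ^ 9 ≤ A ^ 3 →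
      ∑ a ∈ rows A, ‖Mob ν a D (τ * Complex.I)‖ ^ 2 * ∏ j ∈ I, ‖slot (Ps j) c a‖ ^ 2 ≤
        C * R ^ ε * (1 + |τ|) ^ J₀ * (A * D * ZI P I) := by
  have := finite_chr hM.1
  have : Fintype (Chr M) := Fintype.ofFinite _
  have hε3 : 0 < ε / 3 := by positivity
  obtain ⟨C₁, hC₁, H₁⟩ := pointwise hM J hε3
  obtain ⟨C₂, J₀, hC₂, H₂⟩ := IM.pb hM hIM hε3.le hε3
  refine ⟨C₁ * C₂ * 8 ^ (ε / 3 + ε / 3) * 8, J₀, by positivity,
    fun R A D τ ν Ps P I c h hd hJ hc hA hAR hZR hD h1 h2 => ?_⟩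
  have hZ := h.one_le_ZI
  have hR0 : 0 < R := by linarith
  have hDZ : D * ZI P I ≤ A := le_trans (by nlinarith [mul_pos hD (show 0 < ZI P I by linarith)]) h1
  have H₃ := H₂ (8 * R) (8 * A) (8 * (D * ZI P I)) Ps P I h hd hJ (by linarith) (by linarith)
    (by rw [Real.rpow_one]; linarith) (8 * A) (D * ZI P I) c (τ * Complex.I) hc (by linarith) le_rfl
    (by simp) (by simp) (by positivity) le_rfl (by nlinarith) (by nlinarith [pow_pos (show 0 < A by linarith) 3])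
  have e : ((τ : ℂ) * Complex.I).im = τ := by simp
  rw [e] at H₃
  have H₄ : ∑ a ∈ rows A, Psi M Ps P I c (τ * Complex.I) (D * ZI P I) a ≤
      ∑ a ∈ rows (8 * A), Psi M Ps P I c (τ * Complex.I) (D * ZI P I) a :=
    Finset.sum_le_sum_of_subset_of_nonneg (rows_mono (by linarith))
      fun a _ _ => Psi_nonneg M h c _ _ a
  refine (Finset.sum_le_sum fun a _ => H₁ R D _ ν Ps P I c a h hJ hc hZR hD).trans ?_
  rw [← Finset.mul_sum]
  refine (mul_le_mul_of_nonneg_left (H₄.trans H₃) (by positivity)).trans (le_of_eq ?_)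
  have e2 : R ^ ε = R ^ (ε / 3) * R ^ (ε / 3 + ε / 3) := by
    rw [← Real.rpow_add hR0]; congr 1; ring
  rw [Real.mul_rpow (by norm_num) hR0.le, e2]
  ring

end Crest.Agent.R17.T2B
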