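import Crest.Agent.R17.T2Gp

/-!
# Row 17, module T2: auxiliary lemmas for the passage to general slots
-/

set_option autoImplicit false

noncomputable section

namespace Crest.Agent.R17.T2C

open scoped ComplexConjugate

theorem norm_Mob_le {M : O} (hM : Adm M) : ∃ C : ℝ, 0 < C ∧ ∀ (ν : Chr M) (a : O) (D τ : ℝ),
    0 < D → ‖Mob ν a D (τ * Complex.I)‖ ≤ C * D := by
  obtain ⟨C, hC, h⟩ := tsum_norm_Sm_le 0 0 0 le_rfl
  refine ⟨C, hC, fun ν a D τ hD => ?_⟩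
  have hb : PolyB (fun n => mu n * rc ν a n) 1 0 := by
    refine ⟨by simp [mu], fun n => ?_⟩
    rw [Real.rpow_zero, mul_one, norm_mul]
    refine mul_le_one₀ (norm_mu_le n) (norm_nonneg _) ?_
    unfold rc
    split_ifs
    · rw [norm_mul, Complex.norm_conj]
      exact mul_le_one₀ (norm_ev_le hM.1 ν n) (norm_nonneg _) (norm_sym_le n a)
    · simp
  have h1 := h _ 1 D (τ * Complex.I) hb hD (by simp)
  refine (norm_tsum_le_tsum_norm (summable_Sm hb hD _)).trans (h1.trans (le_of_eq ?_))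
  simp

theorem norm_slot_le {Ps : Finset O} {P : ℝ} (hP : 0 ≤ P) (h : ∀ p ∈ Ps, Prime p ∧ nr p ≤ P)
    {c : O → ℂ} (hc : ∀ p, ‖c p‖ ≤ 1) (a : O) : ‖slot Ps c a‖ ≤ 7 * P := by
  have h1 : ‖slot Ps c a‖ ≤ ∑ _p ∈ Ps, (1 : ℝ) := by
    refine (norm_sum_le _ _).trans (Finset.sum_le_sum fun p _ => ?_)
    rw [norm_mul, Complex.norm_conj]
    exact mul_le_one₀ (hc p) (norm_nonneg _) (norm_sym_le _ _)
  have h2 : Ps.card ≤ (rows P).card :=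
    Finset.card_le_card fun p hp => (mem_rows hP).2 ⟨(h p hp).1.ne_zero, (h p hp).2⟩
  have h3 : (Ps.card : ℝ) ≤ (rows P).card := by exact_mod_cast h2
  simp only [Finset.sum_const, nsmul_eq_mul, mul_one] at h1
  exact h1.trans (h3.trans (card_rows_le hP))

theorem prod_sum_bound {α : Type*} (S : Finset α) (I : Finset ℕ) (L : ℕ) (w : α → ℝ)
    (x : ℕ → ℕ → α → ℝ) {B : ℝ} (h : ∀ g : ℕ → ℕ, ∑ a ∈ S, w a * ∏ j ∈ I, x j (g j) a ≤ B) :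
    ∑ a ∈ S, w a * ∏ j ∈ I, ∑ i ∈ Finset.range L, x j i a ≤ (L : ℝ) ^ I.card * B := by
  classical
  simp only [Finset.prod_sum, Finset.mul_sum]
  rw [Finset.sum_comm]
  refine (Finset.sum_le_card_nsmul _ _ B fun f _ => ?_).trans (le_of_eq ?_)
  · refine le_trans (le_of_eq ?_) (h fun j => if hj : j ∈ I then f j hj else 0)
    refine Finset.sum_congr rfl fun a _ => ?_
    rw [← Finset.prod_attach I]
    congr 1
    exact Finset.prod_congr rfl fun j _ => by rw [dif_pos j.2]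
  · simp [Finset.card_pi]

theorem log_pow_le (J : ℕ) {ε : ℝ} (hε : 0 < ε) : ∃ C : ℝ, 0 < C ∧ ∀ R : ℝ, 1 ≤ R → ∀ k : ℕ, k ≤ J →
    ((Nat.log 2 ⌊R⌋₊ + 1 : ℕ) : ℝ) ^ k ≤ C * R ^ ε := by
  set δ : ℝ := ε / (J + 1) with hδ
  have hδ0 : 0 < δ := by positivity
  refine ⟨(1 + 2 / δ) ^ J, by positivity, fun R hR k hk => ?_⟩
  have hR0 : 0 < R := by linarith
  have h1 : (2 : ℝ) ^ Nat.log 2 ⌊R⌋₊ ≤ R := by
    have h2 : 2 ^ Nat.log 2 ⌊R⌋₊ ≤ ⌊R⌋₊ := Nat.pow_log_le_self 2 (Nat.floor_pos.2 hR).ne'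
    have h3 : ((2 ^ Nat.log 2 ⌊R⌋₊ : ℕ) : ℝ) ≤ ⌊R⌋₊ := by exact_mod_cast h2
    push_cast at h3
    exact h3.trans (Nat.floor_le hR0.le)
  have h2 : (Nat.log 2 ⌊R⌋₊ : ℝ) * Real.log 2 ≤ Real.log R := by
    rw [← Real.log_pow]
    exact Real.log_le_log (by positivity) h1
  have h3 := Real.log_le_rpow_div hR0.le hδ0
  have h4 : 1 ≤ R ^ δ := Real.one_le_rpow hR hδ0.le
  have h5 : ((Nat.log 2 ⌊R⌋₊ + 1 : ℕ) : ℝ) ≤ (1 + 2 / δ) * R ^ δ := by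
    have h6 : (Nat.log 2 ⌊R⌋₊ : ℝ) * (1 / 2) ≤ (Nat.log 2 ⌊R⌋₊ : ℝ) * Real.log 2 :=
      mul_le_mul_of_nonneg_left (by linarith [Real.log_two_gt_d9]) (Nat.cast_nonneg _)
    have h7 : (1 + 2 / δ) * R ^ δ = R ^ δ + 2 * (R ^ δ / δ) := by ring
    push_cast
    linarith
  have h8 : (1 : ℝ) ≤ ((Nat.log 2 ⌊R⌋₊ + 1 : ℕ) : ℝ) := by exact_mod_cast Nat.le_add_left 1 _
  refine (pow_le_pow_right₀ h8 hk).trans ((pow_le_pow_left₀ (by positivity) h5 J).trans ?_)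
  rw [mul_pow, ← Real.rpow_natCast (R ^ δ), ← Real.rpow_mul hR0.le]
  refine mul_le_mul_of_nonneg_left (Real.rpow_le_rpow_of_exponent_le hR ?_) (by positivity)
  rw [hδ, div_mul_eq_mul_div, div_le_iff₀ (by positivity)]
  nlinarith

theorem sq_slot_le {Ps : Finset O} {R : ℝ} (h : ∀ p ∈ Ps, nr p ≤ R) (c : O → ℂ) (a : O) :
    ‖slot Ps c a‖ ^ 2 ≤ ∑ i ∈ Finset.range (Nat.log 2 ⌊R⌋₊ + 1),
      ((Nat.log 2 ⌊R⌋₊ + 1 : ℕ) : ℝ) * ‖slot (Ps.filter fun p => Nat.log 2 (nm p) = i) c a‖ ^ 2 := by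
  have h1 : slot Ps c a = ∑ i ∈ Finset.range (Nat.log 2 ⌊R⌋₊ + 1),
      slot (Ps.filter fun p => Nat.log 2 (nm p) = i) c a := by
    refine (Finset.sum_fiberwise_of_maps_to (fun p hp => ?_) _).symm
    rw [Finset.mem_range, Nat.lt_succ_iff]
    exact Nat.log_mono_right (Nat.le_floor (h p hp))
  rw [h1, ← Finset.mul_sum]
  refine (pow_le_pow_left₀ (norm_nonneg _) (norm_sum_le _ _) 2).trans ?_
  simpa using sq_sum_le_card_mul_sum_sq (s := Finset.range (Nat.log 2 ⌊R⌋₊ + 1))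
    (f := fun i => ‖slot (Ps.filter fun p => Nat.log 2 (nm p) = i) c a‖)

end Crest.Agent.R17.T2C
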