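import Crest.Agent.R17.T2Gp
import Crest.Agent.R17.T2StepAuxC
import Crest.Agent.R17.T2StepAuxB

/-!
# Row 17, module T2: the induction, and the passage to products of slots
-/

set_option autoImplicit false

noncomputable section

namespace Crest.Agent.R17

open scoped ComplexConjugate

theorem IM.mono {M : O} {J : ℕ} {l l' θ θ' : ℝ} (h : IM M J l θ) (hl : l' ≤ l) (hθ : θ ≤ θ') :
    IM M J l' θ' := by
  obtain ⟨C, J₀, hC, h⟩ := h
  refine ⟨C, J₀, hC, fun R A D τ ν Ps P I c hs hd hJ hc hA hAR hZR hD h1 h2 h9 => ?_⟩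
  have hR := hA.trans hAR
  have hZ := hs.one_le_ZI
  refine (h R A D τ ν Ps P I c hs hd hJ hc hA hAR hZR hD
    (h1.trans (Real.rpow_le_rpow_of_exponent_le hR hl)) h2 h9).trans ?_
  have := Real.rpow_le_rpow_of_exponent_le hR hθ
  gcongr

/-- (`im_leaf`) -/
theorem IM_zero {M : O} (hM : Adm M) (J : ℕ) {ε : ℝ} (hε : 0 < ε) : IM M J 0 ε := by
  obtain ⟨C, hC, h⟩ := im_leaf hM hε
  refine ⟨C, 0, hC, fun R A D τ ν Ps P I c hs _ _ hc hA hAR _ hD h1 _ _ => ?_⟩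
  have hZ := hs.one_le_ZI
  rw [Real.rpow_zero] at h1
  rw [pow_zero, mul_one]
  exact h R A D _ τ ν _ _ hs.marks (norm_cm_le hc) hA hAR hD hZ
    ((pow_le_one₀ (by positivity) h1).trans hA)

/-- the final numerical bound of the induction step -/
theorem T2SA.final {S n₀ n₁ E₁ E₂ x q W T N Cd c₀ c₁ c₂ c₃ c₄ : ℝ} (hx1 : 1 ≤ x) (hxq : x ≤ q)
    (hW : 1 ≤ W) (hT : 1 ≤ T) (hN : 0 ≤ N) (hCd : 0 ≤ Cd) (hc₀ : 0 ≤ c₀) (hc₁ : 0 ≤ c₁)
    (hc₂ : 0 ≤ c₂) (hc₃ : 0 ≤ c₃) (hc₄ : 0 ≤ c₄)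
    (hS : S ≤ 2 * (Cd * x ^ 3 * (n₀ + n₁ + E₁ + E₂)) + c₄ * N)
    (h0 : n₀ ≤ c₀ * x ^ 3 * N) (h1 : n₁ ≤ c₁ * x ^ 5 * N) (h2 : E₁ ≤ c₂ * q ^ 2 * W * T * N)
    (h3 : E₂ ≤ c₃ * q ^ 2 * W * T * N) :
    S ≤ (2 * Cd * (c₀ + c₁ + c₂ + c₃) + c₄) * (q ^ 8 * W * T * N) := by
  have hq : 1 ≤ q := hx1.trans hxq
  have hWT : 1 ≤ W * T := one_le_mul_of_one_le_of_one_le hW hT
  have a3 : x ^ 3 ≤ q ^ 3 := by gcongr
  have a5 : x ^ 5 ≤ q ^ 5 := by gcongr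
  have b3 : q ^ 3 ≤ q ^ 5 := pow_le_pow_right₀ hq (by norm_num)
  have b2 : q ^ 2 ≤ q ^ 5 := pow_le_pow_right₀ hq (by norm_num)
  have b8 : 1 ≤ q ^ 8 := one_le_pow₀ hq
  have hN' : N ≤ W * T * N := le_mul_of_one_le_left hN hWT
  have e0 : n₀ ≤ c₀ * (q ^ 5 * (W * T * N)) := by
    refine h0.trans ?_
    rw [mul_assoc]
    gcongr
    exact a3.trans b3
  have e1 : n₁ ≤ c₁ * (q ^ 5 * (W * T * N)) := by
    refine h1.trans ?_
    rw [mul_assoc]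
    gcongr
  have e2 : E₁ ≤ c₂ * (q ^ 5 * (W * T * N)) := by
    refine h2.trans ?_
    rw [show c₂ * q ^ 2 * W * T * N = c₂ * (q ^ 2 * (W * T * N)) by ring]
    gcongr
  have e3 : E₂ ≤ c₃ * (q ^ 5 * (W * T * N)) := by
    refine h3.trans ?_
    rw [show c₃ * q ^ 2 * W * T * N = c₃ * (q ^ 2 * (W * T * N)) by ring]
    gcongr
  have e4 : N ≤ q ^ 8 * (W * T * N) := hN'.trans (le_mul_of_one_le_left (by positivity) b8)
  have e5 : n₀ + n₁ + E₁ + E₂ ≤ (c₀ + c₁ + c₂ + c₃) * (q ^ 5 * (W * T * N)) := by linarith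
  calc S ≤ 2 * (Cd * x ^ 3 * ((c₀ + c₁ + c₂ + c₃) * (q ^ 5 * (W * T * N)))) + c₄ * N := by
        refine hS.trans ?_
        gcongr
    _ ≤ 2 * (Cd * q ^ 3 * ((c₀ + c₁ + c₂ + c₃) * (q ^ 5 * (W * T * N)))) +
        c₄ * (q ^ 8 * (W * T * N)) := by gcongr
    _ = _ := by ring

theorem T2SA.big {A D Z : ℝ} (hA : 1 ≤ A) (hD : 0 < D) (hZ : 1 ≤ Z) (h2 : D * Z ^ 2 ≤ A)
    (h9 : D ^ 2 * Z ^ 9 ≤ A ^ 3) (hbig : A < (D * Z) ^ 2) :
    1 ≤ D ∧ D * Z ^ 6 ≤ A ^ 2 ∧ D * Z ≤ A := by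
  have hZ0 : 0 < Z := one_pos.trans_le hZ
  have hD1 : 1 ≤ D := by
    by_contra hcon
    have h3 : D * (D * Z ^ 2) ≤ 1 * (D * Z ^ 2) := by gcongr; exact (not_le.1 hcon).le
    nlinarith
  have hA0 : 0 < A := one_pos.trans_le hA
  have hZ3 : Z ^ 3 ≤ A := by
    have h3 : A * Z ^ 7 ≤ A * A ^ 2 := by
      calc A * Z ^ 7 ≤ (D * Z) ^ 2 * Z ^ 7 := by gcongr
        _ = D ^ 2 * Z ^ 9 := by ring
        _ ≤ A ^ 3 := h9
        _ = A * A ^ 2 := by ring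
    have h4 : (Z ^ 3) ^ 2 ≤ A ^ 2 := by
      rw [← pow_mul]
      exact (pow_le_pow_right₀ hZ (by norm_num)).trans (le_of_mul_le_mul_left h3 hA0)
    exact (pow_le_pow_iff_left₀ (by positivity) hA0.le two_ne_zero).1 h4
  refine ⟨hD1, (pow_le_pow_iff_left₀ (by positivity) (by positivity) two_ne_zero).1 ?_,
    le_trans (by gcongr; exact le_self_pow₀ hZ two_ne_zero) h2⟩
  calc (D * Z ^ 6) ^ 2 = D ^ 2 * Z ^ 9 * Z ^ 3 := by ring
    _ ≤ A ^ 3 * A := by gcongr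
    _ = (A ^ 2) ^ 2 := by ring

theorem T2SA.params {R u δ ε : ℝ} (hR : 1 ≤ R) (hδ : 0 < δ) (hδu : δ ≤ u) (hu1 : u ≤ 1 / 9)
    (huε : 24 * u ≤ ε) : ∃ R' : ℝ, 8 * R ≤ R' ∧ R ^ 2 * (R' ^ δ) ^ 3 ≤ R' ∧
      (R' ^ u) ^ 8 ≤ 512 * R ^ ε := by
  have hR0 : 0 < R := one_pos.trans_le hR
  obtain ⟨R', hR'⟩ : ∃ R' : ℝ, R' = (8 * R) ^ 3 := ⟨_, rfl⟩
  have h8R : 8 * R ≤ R' := hR' ▸ le_self_pow₀ (by linarith) three_ne_zero
  have hR'1 : 1 ≤ R' := by linarith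
  have hR'0 : 0 < R' := one_pos.trans_le hR'1
  have hx8 : (R' ^ δ) ^ 3 ≤ 8 * R := by
    rw [← Real.rpow_natCast, ← Real.rpow_mul hR'0.le]
    calc R' ^ (δ * (3 : ℕ)) ≤ R' ^ ((3 : ℕ) : ℝ)⁻¹ :=
          Real.rpow_le_rpow_of_exponent_le hR'1 (by push_cast; linarith)
      _ = 8 * R := by rw [hR', Real.pow_rpow_inv_natCast (by positivity) three_ne_zero]
  refine ⟨R', h8R, ?_, ?_⟩
  · calc R ^ 2 * (R' ^ δ) ^ 3 ≤ R ^ 2 * (8 * R) := by gcongr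
      _ = 8 * R ^ 3 := by ring
      _ ≤ 512 * R ^ 3 := by gcongr; norm_num
      _ = R' := by rw [hR']; ring
  · have e : (R' ^ u) ^ 8 = 512 ^ (8 * u) * R ^ (24 * u) := by
      rw [← Real.rpow_natCast, ← Real.rpow_mul hR'0.le, hR', mul_pow,
        Real.mul_rpow (by norm_num) (by positivity), ← Real.rpow_natCast R, ← Real.rpow_mul hR0.le]
      congr 2 <;> push_cast <;> ring
    rw [e]
    gcongr
    · exact Real.rpow_le_self_of_one_le (by norm_num) (by linarith)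

theorem T2SA.sum_sq_le {A N c : ℝ} (hA : 0 ≤ A) (hAN : A ≤ N) {f g : O → ℂ}
    (h : ∀ a, ‖g a - f a‖ ≤ c) :
    ∑ a ∈ rows A, ‖f a‖ ^ 2 ≤ 2 * (∑ a ∈ rows A, ‖g a‖ ^ 2) + 14 * c ^ 2 * N := by
  have h3 : ∀ a ∈ rows A, ‖f a‖ ^ 2 ≤ 2 * ‖g a‖ ^ 2 + 2 * c ^ 2 := by
    intro a _
    have h4 : ‖f a‖ ≤ ‖g a‖ + c := by
      have := norm_sub_norm_le (f a) (g a)
      rw [norm_sub_rev] at this
      linarith [h a]
    refine (pow_le_pow_left₀ (norm_nonneg _) h4 2).trans ?_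
    nlinarith [sq_nonneg (‖g a‖ - c)]
  refine (Finset.sum_le_sum h3).trans ?_
  rw [Finset.sum_add_distrib, ← Finset.mul_sum, Finset.sum_const, nsmul_eq_mul]
  have h5 := (card_rows_le hA).trans (mul_le_mul_of_nonneg_left hAN (by norm_num))
  nlinarith [mul_le_mul_of_nonneg_right h5 (sq_nonneg c)]

theorem T2SA.FY {R q θ η u C : ℝ} (hR : 1 ≤ R) (hq : R ^ u ≤ q) (hq1 : 1 ≤ q) (hC : 0 ≤ C) :
    C * R ^ (θ + u) ≤ C * (q * R ^ max θ (100 * η)) ∧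
      (8 * R ^ η) ^ 100 ≤ 8 ^ 100 * (q * R ^ max θ (100 * η)) := by
  have hR0 : 0 < R := one_pos.trans_le hR
  constructor
  · rw [Real.rpow_add hR0, mul_comm (R ^ θ)]
    gcongr
    exact le_max_left _ _
  · rw [mul_pow, ← Real.rpow_natCast (R ^ η), ← Real.rpow_mul hR0.le]
    gcongr
    refine le_trans ?_ (le_mul_of_one_le_left (by positivity) hq1)
    exact Real.rpow_le_rpow_of_exponent_le hR (by push_cast; linarith [le_max_right θ (100 * η)])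

/-- **Induction step.**  `(D Z)² ≤ A`: `im_leaf`.  Otherwise `D > 1` and `D Z⁶ ≤ A²`
(`A Z⁷ ≤ D² Z⁹ ≤ A³`, so `Z³ ≤ A`); `Ctx` holds with `R' = (8 R)³`, `Y = 8 R^η`, `Xm = R^{l-η}`,
`F = C R^{θ+ε'}` (`IM.pb`); `dp` with `R'`, `lam' = 1`, `α = al …`, `E1_le`, `E2_le`, `nsq_le`,
`nsq1_le`, `al_trunc`. -/
theorem IM.step {M : O} (hM : Adm M) {J : ℕ} {l θ η ε : ℝ} (h : IM M J (l - η) θ) (hθ : 0 ≤ θ)
    (hη : 0 < η) (hη1 : η ≤ 1) (hε : 0 < ε) : IM M J l (max θ (100 * η) + ε) := by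
  have := finite_chr hM.1
  have := Fintype.ofFinite (Chr M)
  obtain ⟨u, hu, hu1, huε⟩ : ∃ u : ℝ, 0 < u ∧ u ≤ 1 / 9 ∧ 24 * u ≤ ε :=
    ⟨min (1 / 9) (ε / 24), by positivity, min_le_left _ _,
      by linarith [min_le_right (1 / 9) (ε / 24)]⟩
  obtain ⟨Cl, hCl, Hl⟩ := im_leaf hM hε
  obtain ⟨Cp, J₀, hCp, Hp⟩ := h.pb hM hθ hu
  obtain ⟨ε₁, hε₁, H1⟩ := E1_le hM J J₀ hu
  obtain ⟨ε₂, hε₂, H2⟩ := E2_le hM J J₀ hu
  obtain ⟨δ, hδ, hδu, hδ1, hδ2⟩ : ∃ δ : ℝ, 0 < δ ∧ δ ≤ u ∧ δ ≤ ε₁ ∧ δ ≤ ε₂ :=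
    ⟨min u (min ε₁ ε₂), by positivity, min_le_left _ _,
      (min_le_right _ _).trans (min_le_left _ _), (min_le_right _ _).trans (min_le_right _ _)⟩
  obtain ⟨C₁, J₁, hC₁, H1⟩ := H1 δ hδ hδ1
  obtain ⟨C₂, hC₂, H2⟩ := H2 δ hδ hδ2
  obtain ⟨Cd, hCd, Hd⟩ := dp hM hδ (J₀ + J₁)
  obtain ⟨Ca, hCa, Ha⟩ := norm_al_le hM hδ
  obtain ⟨Cn, hCn, Hn⟩ := nsq1_le hδ
  obtain ⟨Ct, hCt, Ht⟩ := al_trunc hM (1 / δ)
  refine ⟨Cl + 512 * (2 * Cd * (7 * Ca ^ 2 + Cn * Ca ^ 2 + C₁ * (8 ^ 100 + Cp) + C₂ * Cp) +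
    14 * Ct ^ 2), J₀ + J₁, by positivity,
    fun R A D τ ν Ps P I c hs hd hJ hc hA hAR hZR hD h1 h2 h9 => ?_⟩
  have hR := hA.trans hAR
  have hR0 : 0 < R := one_pos.trans_le hR
  have hZ := hs.one_le_ZI
  have hτ : 1 ≤ 1 + |τ| := le_add_of_nonneg_right (abs_nonneg τ)
  have hT : 1 ≤ (1 + |τ|) ^ (J₀ + J₁) := one_le_pow₀ hτ
  have hm : 0 ≤ max θ (100 * η) := le_max_of_le_left hθ
  have hW : 1 ≤ R ^ max θ (100 * η) := Real.one_le_rpow hR hm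
  set Z := ZI P I with hZdef
  have hN : 0 ≤ A * D * Z := by positivity
  rw [Real.rpow_add hR0]
  set W := R ^ max θ (100 * η) with hWdef
  set T := (1 + |τ|) ^ (J₀ + J₁) with hTdef
  set K := 2 * Cd * (7 * Ca ^ 2 + Cn * Ca ^ 2 + C₁ * (8 ^ 100 + Cp) + C₂ * Cp) + 14 * Ct ^ 2
    with hK
  have hK0 : 0 ≤ K := by positivity
  rcases le_or_gt ((D * Z) ^ 2) A with hleaf | hbig
  · refine (Hl R A D Z τ ν _ _ hs.marks (norm_cm_le hc) hA hAR hD hZ hleaf).trans ?_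
    calc Cl * R ^ ε * (A * D * Z) = Cl * (1 * R ^ ε) * 1 * (A * D * Z) := by ring
      _ ≤ _ := by gcongr; linarith
  -- the main case
  have hZ0 : 0 < Z := one_pos.trans_le hZ
  have hA0 : 0 < A := one_pos.trans_le hA
  obtain ⟨hD1, h6, hDZA⟩ := T2SA.big hA hD hZ h2 h9 hbig
  have hDZ : D * Z ≤ R := hDZA.trans hAR
  have hDZ1 : 1 ≤ D * Z := one_le_mul_of_one_le_of_one_le hD1 hZ
  obtain ⟨R', h8R, hx8, hq8⟩ := T2SA.params hR hδ hδu hu1 huε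
  have hRR' : R ≤ R' := (le_mul_of_one_le_left hR0.le (by norm_num)).trans h8R
  have hR'1 : 1 ≤ R' := hR.trans hRR'
  have hR'0 : 0 < R' := one_pos.trans_le hR'1
  have hx1 : 1 ≤ R' ^ δ := Real.one_le_rpow hR'1 hδ.le
  have hxq : R' ^ δ ≤ R' ^ u := Real.rpow_le_rpow_of_exponent_le hR'1 hδu
  have hq1 : 1 ≤ R' ^ u := hx1.trans hxq
  have hx3 : R' ^ (3 * δ) = (R' ^ δ) ^ 3 := by
    rw [mul_comm, Real.rpow_mul hR'0.le, Real.rpow_ofNat]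
  obtain ⟨L, hL⟩ : ∃ L : ℝ, L = D * R' ^ δ * Z := ⟨_, rfl⟩
  have hLc : (D * R' ^ δ * Z) ^ 2 * R' ^ δ ≤ R' := by
    calc (D * R' ^ δ * Z) ^ 2 * R' ^ δ = (D * Z) ^ 2 * (R' ^ δ) ^ 3 := by ring
      _ ≤ R ^ 2 * (R' ^ δ) ^ 3 := by gcongr
      _ ≤ R' := hx8
  have hL1 : 1 ≤ L := by
    rw [hL, mul_right_comm]; exact one_le_mul_of_one_le_of_one_le hDZ1 hx1
  have hL0 : 0 ≤ L := zero_le_one.trans hL1
  have hLR : L ≤ R' := by
    rw [← hL] at hLc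
    exact ((le_self_pow₀ hL1 two_ne_zero).trans (le_mul_of_one_le_right (by positivity) hx1)).trans
      hLc
  have hRη : 1 ≤ R ^ η := Real.one_le_rpow hR hη.le
  have hRη' : R ^ η ≤ R := Real.rpow_le_self_of_one_le hR hη1
  have hF1 : 1 ≤ Cp * R ^ (θ + u) :=
    one_le_mul_of_one_le_of_one_le hCp (Real.one_le_rpow hR (by positivity))
  have hX : 8 * (D * Z) ≤ R ^ (l - η) * (8 * R ^ η) := by
    rw [mul_left_comm (R ^ (l - η)), ← Real.rpow_add hR0, sub_add_cancel]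
    exact mul_le_mul_of_nonneg_left h1 (by norm_num)
  have ctx : Ctx M J J₀ δ R' A D (8 * R ^ η) (R ^ (l - η)) (Cp * R ^ (θ + u)) Ps P I :=
    ⟨hs, hd, hJ, hA, hAR.trans hRR', hD1, hLc, le_mul_of_one_le_right (by norm_num) hRη,
      (mul_le_mul_of_nonneg_left hRη' (by norm_num)).trans h8R, h2, h9, h6, hX, hF1,
      Hp R A _ Ps P I hs hd hJ hAR hZR le_rfl⟩
  have hCp0 : 0 ≤ Cp := zero_le_one.trans hCp
  obtain ⟨hFle, hYle⟩ := T2SA.FY (θ := θ) (η := η) hR (Real.rpow_le_rpow hR0.le hRR' hu.le) hq1 hCp0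
  set α := al ν D (R' ^ δ) (τ * Complex.I) (Zs Ps I) (cm c) with hα
  have hsre : |((τ : ℂ) * Complex.I).re| ≤ 3 := by simp
  have hpow : ∀ (y : ℝ) (j : ℕ), j ≤ J₀ + J₁ → (1 + |y|) ^ j ≤ (1 + |y|) ^ (J₀ + J₁) :=
    fun y j hj => pow_le_pow_right₀ (le_add_of_nonneg_right (abs_nonneg y)) hj
  have key := Hd R' A L 1 (8 * R ^ η)
    (C₁ * R' ^ u * ((8 * R ^ η) ^ 100 + Cp * R ^ (θ + u)) * T * (A * D * Z))
    (C₂ * R' ^ u * (Cp * R ^ (θ + u)) * T * (A * D * Z)) α hA (hAR.trans hRR') hL1 hLR le_rfl hR'1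
    (hδu.trans (hu1.trans (by norm_num)))
    (fun ν' s a1 a2 => (H1 R' A D _ _ _ τ ν Ps P I c ctx hc L hL ν' s a1 a2).trans (by
      have := hpow τ J₁ (Nat.le_add_left _ _)
      have := hpow s.im J₁ (Nat.le_add_left _ _)
      gcongr))
    (fun ν' s a1 a2 => (H2 R' A D _ _ _ τ ν Ps P I c ctx hc L hL ν' s a1 a2).trans (by
      have := hpow τ J₀ (Nat.le_add_right _ _)
      have := hpow s.im J₀ (Nat.le_add_right _ _)
      gcongr))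
  rw [hx3, one_mul, one_mul] at key
  have hb : ∀ n ∈ sp M L, ‖α n‖ ≤ Ca * R' ^ δ := by
    intro n hn
    rw [mem_sp hL0] at hn
    exact (Ha ν D _ Z _ _ _ n hs.marks (norm_cm_le hc) hsre hn.1.1.ne_zero).trans
      (mul_le_mul_of_nonneg_left (Real.rpow_le_rpow (Nat.cast_nonneg _) (hn.2.trans hLR) hδ.le)
        hCa.le)
  have n0 : A * nsq M L α ≤ 7 * Ca ^ 2 * (R' ^ δ) ^ 3 * (A * D * Z) := by
    have := nsq_le hL0 hb fun n hn _ => ((mem_sp hL0).1 hn).2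
    refine (mul_le_mul_of_nonneg_left this hA0.le).trans_eq ?_
    rw [hL]; ring
  have n1 : L * nsq1 M L α ≤ Cn * Ca ^ 2 * (R' ^ δ) ^ 5 * (A * D * Z) := by
    have h3 := Hn M L _ α hL1 hb
    have h4 : D * Z ^ 2 * D ≤ A * D * Z :=
      (mul_le_mul_of_nonneg_right h2 hD.le).trans (le_mul_of_one_le_right (by positivity) hZ)
    have h5 : L ^ δ ≤ R' ^ δ := Real.rpow_le_rpow hL0 hLR hδ.le
    calc L * nsq1 M L α ≤ L * (Cn * L ^ δ * L * (Ca * R' ^ δ) ^ 2) :=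
          mul_le_mul_of_nonneg_left h3 hL0
      _ ≤ L * (Cn * R' ^ δ * L * (Ca * R' ^ δ) ^ 2) := by gcongr
      _ = Cn * Ca ^ 2 * (R' ^ δ) ^ 5 * (D * Z ^ 2 * D) := by rw [hL]; ring
      _ ≤ _ := mul_le_mul_of_nonneg_left h4 (by positivity)
  have htr : ∀ a, ‖Sr M L α a - MQ ν a D (τ * Complex.I) (Zs Ps I) (cm c)‖ ≤ Ct := by
    intro a
    refine (Ht ν a D _ L Z _ _ _ hs.marks (norm_cm_le hc) hD hx1 hZ0.le hsre hL.ge).trans ?_
    rw [← Real.rpow_mul hR'0.le, mul_neg, mul_one_div_cancel hδ.ne', Real.rpow_neg_one,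
      mul_assoc Ct, mul_assoc Ct, ← div_eq_mul_inv]
    refine mul_le_of_le_one_right hCt.le ((div_le_one hR'0).2 ?_)
    rw [mul_comm]; exact hDZ.trans hRR'
  have hS := T2SA.sum_sq_le hA0.le (show A ≤ A * D * Z by
    rw [mul_assoc]; exact le_mul_of_one_le_right hA0.le hDZ1) htr
  have n2 : C₁ * R' ^ u * ((8 * R ^ η) ^ 100 + Cp * R ^ (θ + u)) * T * (A * D * Z) ≤
      C₁ * (8 ^ 100 + Cp) * (R' ^ u) ^ 2 * W * T * (A * D * Z) := by
    calc _ ≤ C₁ * R' ^ u * (8 ^ 100 * (R' ^ u * W) + Cp * (R' ^ u * W)) * T * (A * D * Z) := by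
          gcongr
      _ = _ := by ring
  have n3 : C₂ * R' ^ u * (Cp * R ^ (θ + u)) * T * (A * D * Z) ≤
      C₂ * Cp * (R' ^ u) ^ 2 * W * T * (A * D * Z) := by
    calc _ ≤ C₂ * R' ^ u * (Cp * (R' ^ u * W)) * T * (A * D * Z) := by gcongr
      _ = _ := by ring
  refine (T2SA.final hx1 hxq hW hT hN hCd.le
    (by positivity) (by positivity) (by positivity) (by positivity) (by positivity)
    (hS.trans (add_le_add_left (mul_le_mul_of_nonneg_left key two_pos.le) _)) n0 n1 n2 n3).trans ?_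
  calc K * ((R' ^ u) ^ 8 * W * T * (A * D * Z)) ≤ K * (512 * R ^ ε * W * T * (A * D * Z)) := by
        gcongr
    _ = (0 + 512 * K) * (W * R ^ ε) * T * (A * D * Z) := by ring
    _ ≤ _ := by gcongr

theorem IM_one {M : O} (hM : Adm M) (J : ℕ) {ε : ℝ} (hε : 0 < ε) : IM M J 1 ε := by
  obtain ⟨n, hn⟩ := exists_nat_ge (max 1 (200 / ε))
  rw [max_le_iff] at hn
  have hn0 : (0 : ℝ) < n := one_pos.trans_le hn.1
  have hη : (0 : ℝ) < 1 / n := by positivity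
  have hε₁ : 0 < ε / (2 * (n + 1)) := by positivity
  have key : ∀ k : ℕ, IM M J (k * (1 / n)) (100 * (1 / n) + (k + 1) * (ε / (2 * (n + 1)))) := by
    intro k
    induction k with
    | zero => exact (IM_zero hM J hε₁).mono (by simp) (by push_cast; linarith)
    | succ k ih =>
      have h1 : IM M J (((k + 1 : ℕ) : ℝ) * (1 / n) - 1 / n)
          (100 * (1 / n) + (k + 1) * (ε / (2 * (n + 1)))) :=
        ih.mono (le_of_eq (by push_cast; ring)) le_rfl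
      refine (h1.step hM (by positivity) hη ((div_le_one hn0).2 hn.1) hε₁).mono le_rfl ?_
      rw [max_eq_left (le_add_of_nonneg_right (by positivity))]
      exact le_of_eq (by push_cast; ring)
  refine (key n).mono (le_of_eq (by field_simp)) ?_
  have h1 : ((n : ℝ) + 1) * (ε / (2 * (n + 1))) = ε / 2 := by field_simp
  have h2 : 100 * (1 / (n : ℝ)) ≤ ε / 2 := by
    have := (div_le_iff₀ hε).1 hn.2
    rw [mul_one_div, div_le_iff₀ hn0]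
    linarith
  linarith

/-- Dyadic slots.  For a mark `z`, `Mob ν a D = ∑_{t ∣ z} μ(t) rc(t) Mob ν (a z⁶) (D/N t)`
(iterate `Mob_punct`); `Slots.slot_Zs`, `Slots.sum_pdiv` give
`Mob · ∏ slot = ∑_{I'} ∑_{t ∈ Zs (I ∖ I')} (…) MQ ν (a t⁶) (D/N t) (Zs I')`; `MQ_punct`,
`Marks.sum_rpow_le` (`σ = 1/2`), `msup_le_Psi` (`ν' = 1`, `X = D Z`) and `IM.pb` for `IM_one` with
`8 A` rows and `R' = 8 R`. -/
theorem mob2_dy {M : O} (hM : Adm M) (J : ℕ) {ε : ℝ} (hε : 0 < ε) : ∃ (C : ℝ) (J₀ : ℕ), 0 < C ∧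
    ∀ (R A D τ : ℝ) (ν : Chr M) (Ps : ℕ → Finset O) (P : ℕ → ℝ) (I : Finset ℕ) (c : O → ℂ),
      Slots M Ps P I → Dy Ps P I → I.card ≤ J → (∀ p, ‖c p‖ ≤ 1) → 1 ≤ A → A ≤ R → ZI P I ≤ R →
      0 < D → D * ZI P I ^ 2 ≤ A → D ^ 2 * ZI P I ^ 9 ≤ A ^ 3 →
      ∑ a ∈ rows A, ‖Mob ν a D (τ * Complex.I)‖ ^ 2 * ∏ j ∈ I, ‖slot (Ps j) c a‖ ^ 2 ≤
        C * R ^ ε * (1 + |τ|) ^ J₀ * (A * D * ZI P I) :=   T2B.mob2_dy hM J hε (IM_one hM J (by positivity))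

/-- General slots: cut slot `j` into the dyadic pieces `P j / 2^{i+1} < N p ≤ P j / 2^i`
(`≪ log R` non-empty pieces; Cauchy–Schwarz, `Finset.prod_sum`/`Finset.pi`, or induction on the
number of non-dyadic slots).  If `ZI P I > R` then `D Z < 1` and everything is trivial. -/
theorem mob2 {M : O} (hM : Adm M) (J : ℕ) {ε : ℝ} (hε : 0 < ε) : ∃ (C : ℝ) (J₀ : ℕ), 0 < C ∧
    ∀ (R A D τ : ℝ) (ν : Chr M) (Ps : ℕ → Finset O) (P : ℕ → ℝ) (I : Finset ℕ) (c : O → ℂ),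
      Slots M Ps P I → I.card ≤ J → (∀ p, ‖c p‖ ≤ 1) → 1 ≤ R → A ≤ R →
      0 < D → D * ZI P I ^ 2 ≤ A → D ^ 2 * ZI P I ^ 9 ≤ A ^ 3 →
      ∑ a ∈ rows A, ‖Mob ν a D (τ * Complex.I)‖ ^ 2 * ∏ j ∈ I, ‖slot (Ps j) c a‖ ^ 2 ≤
        C * R ^ ε * (1 + |τ|) ^ J₀ * (A * D * ZI P I) := by
  obtain ⟨C₁, hC₁, h₁⟩ := T2C.norm_Mob_le hM
  obtain ⟨C₂, J₀, hC₂, h₂⟩ := mob2_dy hM J (half_pos hε)
  obtain ⟨C₃, hC₃, h₃⟩ := T2C.log_pow_le (2 * J) (half_pos hε)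
  refine ⟨7 * C₁ ^ 2 * 49 ^ J + C₃ * C₂, J₀, by positivity, ?_⟩
  intro R A D τ ν Ps P I c hS hI hc hR hAR hD h1 h2
  have hZ : 1 ≤ ZI P I := Finset.one_le_prod fun j hj => hS.one_le j hj
  have hA : 0 < A := lt_of_lt_of_le (by positivity) h1
  have hR0 : 0 < R := by linarith
  have hτ : 1 ≤ (1 + |τ|) ^ J₀ := one_le_pow₀ (by linarith [abs_nonneg τ])
  have hRε : 1 ≤ R ^ ε := Real.one_le_rpow hR hε.le
  have hADZ : 0 < A * D * ZI P I := by positivity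
  rcases le_or_gt (D * ZI P I) 1 with hDZ | hDZ
  · have h3 : ∀ a ∈ rows A, ‖Mob ν a D (τ * Complex.I)‖ ^ 2 * ∏ j ∈ I, ‖slot (Ps j) c a‖ ^ 2 ≤
        C₁ ^ 2 * 49 ^ J * (D * ZI P I) := by
      intro a _
      have h4 : ∏ j ∈ I, ‖slot (Ps j) c a‖ ^ 2 ≤ ∏ j ∈ I, (49 * P j ^ 2) := by
        refine Finset.prod_le_prod (fun _ _ => by positivity) fun j hj => ?_
        have := T2C.norm_slot_le (zero_le_one.trans (hS.one_le j hj))
          (fun p hp => ⟨(hS.prime j hj p hp).1, (hS.prime j hj p hp).2.2.2⟩) hc a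
        refine (pow_le_pow_left₀ (norm_nonneg _) this 2).trans (le_of_eq (by ring))
      rw [Finset.prod_mul_distrib, Finset.prod_const, Finset.prod_pow I 2 P] at h4
      have h5 : (49 : ℝ) ^ I.card * ZI P I ^ 2 ≤ 49 ^ J * ZI P I ^ 2 :=
        mul_le_mul_of_nonneg_right (pow_le_pow_right₀ (by norm_num) hI) (by positivity)
      have h6 := mul_le_mul (pow_le_pow_left₀ (norm_nonneg _) (h₁ ν a D τ hD) 2) (h4.trans h5)
        (Finset.prod_nonneg fun _ _ => by positivity) (by positivity)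
      refine h6.trans ?_
      have h7 : (C₁ * D) ^ 2 * (49 ^ J * ZI P I ^ 2) =
          C₁ ^ 2 * 49 ^ J * (D * ZI P I) * (D * ZI P I) := by ring
      rw [h7]
      exact mul_le_of_le_one_right (by positivity) hDZ
    refine (Finset.sum_le_card_nsmul _ _ _ h3).trans ?_
    rw [nsmul_eq_mul]
    refine (mul_le_mul_of_nonneg_right (card_rows_le hA.le) (by positivity)).trans ?_
    calc 7 * A * (C₁ ^ 2 * 49 ^ J * (D * ZI P I))
        = 7 * C₁ ^ 2 * 49 ^ J * 1 * 1 * (A * D * ZI P I) := by ring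
      _ ≤ _ := by gcongr; exact le_add_of_nonneg_right (by positivity)
  · have hZA : ZI P I ≤ A := by nlinarith
    have hZR : ZI P I ≤ R := hZA.trans hAR
    have hPZ : ∀ j ∈ I, P j ≤ ZI P I := by
      intro j hj
      rw [ZI, ← Finset.mul_prod_erase I P hj]
      exact le_mul_of_one_le_right (zero_le_one.trans (hS.one_le j hj))
        (Finset.one_le_prod fun i hi => hS.one_le i (Finset.mem_of_mem_erase hi))
    set L : ℕ := Nat.log 2 ⌊R⌋₊ + 1 with hL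
    have key : ∀ g : ℕ → ℕ, ∑ a ∈ rows A, ‖Mob ν a D (τ * Complex.I)‖ ^ 2 *
        ∏ j ∈ I, (L : ℝ) * ‖slot ((Ps j).filter fun p => Nat.log 2 (nm p) = g j) c a‖ ^ 2 ≤
        (L : ℝ) ^ I.card * (C₂ * R ^ (ε / 2) * (1 + |τ|) ^ J₀ * (A * D * ZI P I)) := by
      intro g
      set P' : ℕ → ℝ := fun j => min (P j) (2 ^ (g j + 1)) with hP'
      have hP1 : ∀ j ∈ I, 1 ≤ P' j := fun j hj =>
        le_min (hS.one_le j hj) (one_le_pow₀ one_le_two)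
      have hZ1 : 1 ≤ ZI P' I := Finset.one_le_prod hP1
      have hZZ : ZI P' I ≤ ZI P I :=
        Finset.prod_le_prod (fun j hj => zero_le_one.trans (hP1 j hj)) fun j _ => min_le_left _ _
      have h3 := h₂ R A D τ ν (fun j => (Ps j).filter fun p => Nat.log 2 (nm p) = g j) P' I c
        ⟨fun j hj p hp => by
          obtain ⟨hp1, hp2⟩ := Finset.mem_filter.1 hp
          obtain ⟨a1, a2, a3, a4⟩ := hS.prime j hj p hp1
          refine ⟨a1, a2, a3, le_min a4 ?_⟩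
          have := Nat.lt_pow_succ_log_self one_lt_two (nm p)
          rw [hp2] at this
          exact_mod_cast this.le, hP1, fun i hi j hj hij =>
          Finset.disjoint_filter_filter (hS.disj i hi j hj hij)⟩
        (fun j hj p hp => by
          obtain ⟨hp1, hp2⟩ := Finset.mem_filter.1 hp
          have := Nat.pow_log_le_self 2
            (show nm p ≠ 0 from fun h => (hS.prime j hj p hp1).1.ne_zero (nm_eq_zero.1 h))
          rw [hp2] at this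
          have h4 : (2 : ℝ) ^ g j ≤ nr p := by exact_mod_cast this
          refine (min_le_right _ _).trans ?_
          rw [pow_succ]
          linarith) hI hc (hZ.trans hZA) hAR (hZZ.trans hZR) hD
        (le_trans (by gcongr) h1) (le_trans (by gcongr) h2)
      simp only [Finset.prod_mul_distrib, Finset.prod_const, mul_left_comm _ ((L : ℝ) ^ I.card),
        ← Finset.mul_sum]
      refine mul_le_mul_of_nonneg_left (h3.trans ?_) (by positivity)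
      gcongr
    have h4 := T2C.prod_sum_bound (rows A) I L (fun a => ‖Mob ν a D (τ * Complex.I)‖ ^ 2)
      (fun j i a => (L : ℝ) * ‖slot ((Ps j).filter fun p => Nat.log 2 (nm p) = i) c a‖ ^ 2) key
    refine le_trans (Finset.sum_le_sum fun a _ => mul_le_mul_of_nonneg_left
      (Finset.prod_le_prod (fun _ _ => by positivity) fun j hj => T2C.sq_slot_le (R := R)
        (fun p hp => (hS.prime j hj p hp).2.2.2.trans ((hPZ j hj).trans hZR)) c a)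
      (by positivity)) (h4.trans ?_)
    have h5 := h₃ R hR (I.card + I.card) (by omega)
    rw [← mul_assoc, ← pow_add]
    have h6 : R ^ ε = R ^ (ε / 2) * R ^ (ε / 2) := by rw [← Real.rpow_add hR0, add_halves]
    calc (L : ℝ) ^ (I.card + I.card) * (C₂ * R ^ (ε / 2) * (1 + |τ|) ^ J₀ * (A * D * ZI P I))
        ≤ C₃ * R ^ (ε / 2) * (C₂ * R ^ (ε / 2) * (1 + |τ|) ^ J₀ * (A * D * ZI P I)) :=
          mul_le_mul_of_nonneg_right h5 (by positivity)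
      _ = C₃ * C₂ * R ^ ε * (1 + |τ|) ^ J₀ * (A * D * ZI P I) := by rw [h6]; ring
      _ ≤ _ := by gcongr; exact le_add_of_nonneg_left (by positivity)

end Crest.Agent.R17
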