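import Crest.Agent.R17.DP
import Crest.Agent.R17.Energy
import Crest.Agent.R17.LBasic
import Crest.Agent.R17.InvAuxL
import Crest.Agent.R17.T2Step

/-!
# Row 17, module M12: the marked inverse moment

`∑_{N a ≤ A} |Mob(a; D)|² ∏_i |slot_i(a)|² ≪ A D Z` for `D Z² ≤ A`, `D² Z⁹ ≤ A³`.

## Proof

*Reductions.*  Cut every slot into dyadic pieces (`(log R)^{K₀}` pieces, Cauchy), so `Ps i ⊆
primesIn M (Z i)`.  `D ≤ 1` or `(D Z)² ≤ A`: `trivial_sieve`.  Let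
`SQ(a; D, I, c, s) = ∑_{z = ∏ p_i} c(z) conj χ_z(a) ∑_{(b, z) = 1} μ(b) rc(b) Wc(N b/D, s)`
(the index `n = b z` is squarefree).  `Mob · slots` is a sum of `SQ`'s with the slots `p_i ∣ b`
frozen (`∑_{f} ‖SQ(D/N f, I ∖ I_f)‖ ≤ Z_f √(A D Z)/Z_f`); a puncture `(b z, u) = 1` is removed by
setting `c_i(p) = 0` for `p ∣ u` and by `SQ^{(u)}(D) = ∑_{j ∣ u^∞} rc(j) SQ(D/N j)` (Minkowski,
`sum_smooth_le` with `σ = 1/2`); real parts of twists go into the scale (`Sm_shift`) and into `c_i`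
(factor `≤ 2` per slot); row dependent scales: `sup_moment`.

*Induction* on `n` with `D Z ≤ Y^{n/2}`, `Y = R^{η'}`, `η' < η` small: statement `P(n)`:
`∀ ε ∃ C J, …` bound `C R^ε (1+|τ|)^J A D Z` for `SQ`.  (Order of choices: the final `ε`, then `J`
of `energy`, then `η' ≤ ε/(100 J)`, then the depth `n ≤ 2/η'`, then the loss per level.  Formally:
prove by induction on `n`: `∀ ε' > 0, ∃ C J, bound C R^{ε₀ + ε'}` where `ε₀ = ε/2` is the loss at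
the leaves.)  Truncate at `N n ≤ L = 2^{K₀} D Z R^{ε'}` (`SQ = Sr M L α + negligible`) and apply
`dp` with `lam' = 1`.

* `E₂` (children `h e`, `N(h e) > Y`, `e ∣ a`): `ext α (h e)` is a divisor-bounded sum of `SQ`'s with
  scale `D N(z_f)/N(h e)`, slots `I ∖ I_f` (`z_f ∣ h e` the frozen primes), puncture `h` (the
  puncture `e` is automatic as `e ∣ a`).  For a fixed row there are `≤ d(a)` choices of `e`; group
  by the dyadic size of `N e`, `sup_moment`, induction hypothesis with `A` replaced by `c A`: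
  `∑_h N e · A D Z/(N h N e) ≪ A D Z log`.
* `E₁` (`N(g t) ≤ Y`, so no slot prime divides `g t`): `mu_gam_five` turns `Sd` into
  `T^{sf}(k) = ∑_z c'(z) ∑_{m sqfree, z ∣ m} th(m) ν'(m) χ_m(k h₀) Wc(N m/(D' N z), s)`,
  `D' = D/N(g t)`, `h₀ = (e t²)⁵ (g t)⁶`, `ν' = ` characters from `Gf · ν` (`PerB.expand`).
  For `μ = m d³` write `1_{d = 1} = ∑_{e₃ ∣ d, N e₃ ≤ Y} μ(e₃) + κ(d)`, `κ(d) = ∑_{e₃ ∣ d, N e₃ > Y}
  μ(e₃)` (supported on `N d > Y`, `|κ| ≤ d(d)`), and `th(m d³) = √(N e₃) conj α(e₃)³ th(m (d/e₃)³)`.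
  - Leaves: `e₃` small gives `Tc` at scale `D'/N e₃³`; `energy` (dyadic pieces of `N z`) with
    `K ≤ L² R^{ε'} Y/A`; up to `Y^{O(J)} R^{O(ε')}` the bracket is `≤ D Z`, because `D Z ≤ A`,
    `K ≤ D` (`D Z² ≤ A`), and `Z⁴ ≤ A` or `D Z⁶ ≤ A²` (if `Z⁴ > A` and `(D Z)² > A` then
    `D² Z⁹ ≤ A³` gives `Z⁷ < A²`, `D Z⁶ ≤ A^{3/2} Z^{3/2} ≤ A²`).
  - Large cubes: `d = y d₀`, `y` powerful, `d₀` squarefree coprime to `y`
    (`exists_sqfree_powerful`).  Minkowski over `y` in `ℓ²((g,e,t), k)`; drop `χ_y(k h₀)³`; freeze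
    the slot primes dividing `y`; apply `gp` to the family `(g, e, t)` with `L_i = L/(N(g t) N y³)`,
    `K_i = N e (L/N g)² R^{ε'}/A`, `w_i = A N g N y/(N e L)`, `β d₀ m = κ(y d₀) ⋯`.  Diagonal:
    `≪ A L · L/N y² · log`.  Children: `w_i K_i/L_i = N t N y⁴ R^{ε'}`, rows `N a ≤ A/(N y⁶ N(e t²))`
    twisted by `e t²`; put `w = ∏_{p ∣ d₀, p⁶ ∣ a} p`, `a = w⁶ a₁`, new row `a₁ e t²` of norm
    `≤ A/N(y w)⁶ ≤ A'' := A/N(y w)²`, puncture `g y w t'`; `(t, e, d₀, e')` are divisors of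
    `w ·` row.  The child has `D'' ≤ D N(z_f)/N(g t y³ e' d₀³ t')`, and `(A'', D'', Z/Z_f)` satisfies
    both hypotheses since `w ∣ d₀` (this is why the hypothesis is `D² Z⁹ ≤ A³`), and
    `D'' Z'' ≤ c D Z/Y³`.  Sum: `N t N y⁴ ∑_w N w · A/N(y w)² · L/N(g t y³ t') ≪ A L/(N g N y N t')`,
    and `∑_{y powerful} N y^{-1/2} ≪ R^ε` (`sum_powerful_le`).
-/

set_option autoImplicit false

noncomputable section

namespace Crest.Agent.R17

open scoped ComplexConjugate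

/-- **Marked inverse moment.** -/
theorem inv_moment {M : O} (hM : Adm M) (K₀ : ℕ) {η ε : ℝ} (hη : 0 < η) (hε : 0 < ε) :
    ∃ (C : ℝ) (J : ℕ), 0 < C ∧ ∀ {ι : Type} (I : Finset ι) (Z : ι → ℝ) (Ps : ι → Finset O)
      (c : ι → O → ℂ) (R A D τ : ℝ) (ν : Chr M), 1 ≤ R → A ≤ R → 0 < D → I.card ≤ K₀ →
      (∀ i ∈ I, 1 ≤ Z i ∧
        ∀ p ∈ Ps i, Prime p ∧ Primary p ∧ ¬ p ∣ M ∧ R ^ η ≤ nr p ∧ nr p ≤ Z i) →
      (I : Set ι).PairwiseDisjoint Ps → (∀ i p, ‖c i p‖ ≤ 1) →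
      D * (∏ i ∈ I, Z i) ^ 2 ≤ A → D ^ 2 * (∏ i ∈ I, Z i) ^ 9 ≤ A ^ 3 →
      ∑ a ∈ rows A, ‖Mob ν a D (τ * Complex.I)‖ ^ 2 * ∏ i ∈ I, ‖slot (Ps i) (c i) a‖ ^ 2 ≤
        C * R ^ ε * (1 + |τ|) ^ J * (A * D * ∏ i ∈ I, Z i) := by
  classical
  have _ := hη
  obtain ⟨C, J, hC, h⟩ := mob2 hM K₀ hε
  refine ⟨C, J, hC, ?_⟩
  intro α I Z Ps c R A D τ ν hR hAR hD hI hP hdisj hc h1 h2
  let f : I → ℕ := fun i => I.equivFin i
  have hf : Function.Injective f := Fin.val_injective.comp I.equivFin.injective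
  let Ps' : ℕ → Finset O := Function.extend f (fun i => Ps i) fun _ => ∅
  let P' : ℕ → ℝ := Function.extend f (fun i => Z i) fun _ => 1
  have hPs' : ∀ i, Ps' (f i) = Ps i := fun i => hf.extend_apply _ _ i
  have hP' : ∀ i, P' (f i) = Z i := fun i => hf.extend_apply _ _ i
  let I' : Finset ℕ := Finset.univ.map ⟨f, hf⟩
  have hmem : ∀ j ∈ I', ∃ i, f i = j := fun j hj => by
    obtain ⟨i, -, hi⟩ := Finset.mem_map.1 hj
    exact ⟨i, hi⟩
  have hprod : ∀ (G : ℕ → ℝ) (F : α → ℝ), (∀ i : I, G (f i) = F i) →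
      ∏ j ∈ I', G j = ∏ i ∈ I, F i := by
    intro G F hGF
    rw [Finset.prod_map, ← Finset.prod_coe_sort I]
    exact Finset.prod_congr rfl fun i _ => hGF i
  let c' : O → ℂ := fun p => if h : ∃ i ∈ I, p ∈ Ps i then c h.choose p else 0
  have hc' : ∀ i ∈ I, ∀ p ∈ Ps i, c' p = c i p := by
    intro i hi p hp
    have hex : ∃ i ∈ I, p ∈ Ps i := ⟨i, hi, hp⟩
    simp only [c', dif_pos hex]
    by_contra hne
    have hne' : hex.choose ≠ i := fun h => hne (by rw [h])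
    exact Finset.disjoint_left.1 (hdisj hex.choose_spec.1 hi hne') hex.choose_spec.2 hp
  have hZ : ZI P' I' = ∏ i ∈ I, Z i := hprod _ _ hP'
  have h3 := h R A D τ ν Ps' P' I' c' ⟨fun j hj p hp => by
      obtain ⟨i, rfl⟩ := hmem j hj
      rw [hPs'] at hp
      obtain ⟨a1, a2, a3, -, a5⟩ := (hP i i.2).2 p hp
      exact ⟨a1, a2, a1.irreducible.coprime_iff_not_dvd.2 a3, by rw [hP']; exact a5⟩,
    fun j hj => by
      obtain ⟨i, rfl⟩ := hmem j hj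
      rw [hP']
      exact (hP i i.2).1,
    fun j hj j' hj' hne => by
      obtain ⟨i, rfl⟩ := hmem j hj
      obtain ⟨i', rfl⟩ := hmem j' hj'
      rw [hPs', hPs']
      exact hdisj i.2 i'.2 fun h => hne (by rw [Subtype.ext h])⟩
    (by simpa [I'] using hI)
    (fun p => by
      simp only [c']
      split_ifs
      · exact hc _ _
      · simp) hR hAR hD (by rw [hZ]; exact h1) (by rw [hZ]; exact h2)
  rw [hZ] at h3
  refine le_trans (le_of_eq (Finset.sum_congr rfl fun a _ => ?_)) h3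
  rw [hprod (fun j => ‖slot (Ps' j) c' a‖ ^ 2) (fun i => ‖slot (Ps i) (c i) a‖ ^ 2) fun i => ?_]
  simp only [hPs', slot]
  rw [Finset.sum_congr rfl fun p hp => by rw [hc' i i.2 p hp]]

/-- **Long inverse moment** (amplification): for a prime `p ∤ M`,
`Mob ν a D = Mob ν (a p⁶) D - rc ν a p · Mob ν (a p⁶) (D/N p)`; sum over `p ∈ primesIn M P`,
`P = (D/A)^{1/6}` (`card_primesIn_ge`), `(a, p) ↦ a p⁶` has divisor-bounded multiplicity,
`inv_moment` with `I = ∅` and rows `≤ 64 D`, `sup_moment` for the scale `D/N p`. -/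
theorem inv_long {M : O} (hM : Adm M) {ε : ℝ} (hε : 0 < ε) : ∃ (C : ℝ) (J : ℕ), 0 < C ∧
    ∀ (A D τ : ℝ) (ν : Chr M), 1 ≤ A → A ≤ D →
      ∑ a ∈ rows A, ‖Mob ν a D (τ * Complex.I)‖ ^ 2 ≤
        C * D ^ ε * (1 + |τ|) ^ J * (D ^ 2 * (A / D) ^ (1 / 6 : ℝ)) := by
  refine InvL.long_of_moment hM (fun δ hδ => ?_) hε
  obtain ⟨C, J, hC, h⟩ := inv_moment hM 0 one_pos hδ
  refine ⟨C, J, hC, fun A D τ ν hA hD hDA => ?_⟩
  have h1 := h (ι := Unit) ∅ (fun _ => 1) (fun _ => ∅) (fun _ _ => 0) A A D τ ν hA le_rfl hD le_rfl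
    (by simp) (by simp) (by simp) (by simpa using hDA) (by
      rw [Finset.prod_empty, one_pow, mul_one]
      exact (pow_le_pow_left₀ hD.le hDA 2).trans (pow_le_pow_right₀ hA (by norm_num)))
  simpa using h1

end Crest.Agent.R17
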