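import Crest.Agent.R17.M4Sup

/-!
# Row 17, module M4: auxiliary lemmas for `cen_bound`
-/

set_option autoImplicit false

noncomputable section

namespace Crest.Agent.R17

open Crest.Agent.R17.M4

open scoped ComplexConjugate

namespace Mom4A

open Finset

/-! ### counting -/

theorem card_ball_floor {X : ℝ} (hX : 1 ≤ X) : ((ball ⌊X⌋₊).card : ℝ) ≤ 8 * X := by
  have h3 := card_ball_le ⌊X⌋₊
  have h4 : ((ball ⌊X⌋₊).card : ℝ) ≤ 7 * (⌊X⌋₊ : ℕ) + 1 := by exact_mod_cast h3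
  linarith [Nat.floor_le (by linarith : 0 ≤ X)]

theorem norm_slot_le {M : O} {L : ℝ} (hL : 1 ≤ L) {c : O → ℂ} (hc : ∀ n, ‖c n‖ ≤ 1) (a : O) :
    ‖slot (sp M L) c a‖ ≤ 8 * L := by
  classical
  refine (norm_sum_le _ _).trans ((sum_le_card_nsmul _ _ 1 fun p _ => ?_).trans ?_)
  · rw [norm_mul, Complex.norm_conj]
    exact mul_le_one₀ (hc p) (norm_nonneg _) (norm_sym_le _ _)
  · rw [nsmul_eq_mul, mul_one]
    refine le_trans ?_ (card_ball_floor hL)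
    exact_mod_cast card_le_card (filter_subset _ _)

theorem slot_eq {M : O} {L R : ℝ} (hL : 0 ≤ L) (hLR : L ≤ R) {c : O → ℂ} (hc : Supp M L c)
    (a : O) : slot (sp M L) c a = slot (sp M R) c a := by
  refine sum_subset (fun n hn => ?_) fun n _ hn => ?_
  · obtain ⟨h1, h2⟩ := (LS2.mem_sp hL).1 hn
    exact (LS2.mem_sp (hL.trans hLR)).2 ⟨h1, h2.trans hLR⟩
  · have : c n = 0 := by
      by_contra h
      exact hn ((LS2.mem_sp hL).2 (hc n h))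
    rw [this, zero_mul]

theorem sum_inv_rows {ε : ℝ} (hε : 0 < ε) : ∃ C : ℝ, 0 < C ∧ ∀ Q : ℝ, 1 ≤ Q →
    ∑ n ∈ rows Q, (nr n)⁻¹ ≤ C * Q ^ ε := by
  obtain ⟨C, hC, h⟩ := sum_inv_nr_le
  refine ⟨C * (2 + ε⁻¹), by positivity, fun Q hQ => ?_⟩
  have hQ0 : 0 < Q := by linarith
  refine (le_of_eq ?_).trans ((h ⌊Q⌋₊).trans ?_)
  · rw [rows]
  rw [mul_assoc]
  refine mul_le_mul_of_nonneg_left ?_ hC.le
  have h2 : Real.log (⌊Q⌋₊ + 1) ≤ Real.log 2 + Real.log Q := by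
    rw [← Real.log_mul two_ne_zero hQ0.ne']
    exact Real.log_le_log (by positivity) (by linarith [Nat.floor_le hQ0.le])
  have h3 : Real.log Q ≤ Q ^ ε / ε := Real.log_le_rpow_div hQ0.le hε
  have h4 : 1 ≤ Q ^ ε := Real.one_le_rpow hQ hε.le
  have h5 := Real.log_two_lt_d9
  rw [div_eq_inv_mul] at h3
  nlinarith

/-- Passing from a sharp cut-off to the Gaussian weight. -/
theorem sum_ball_le_tsum {A b : ℝ} (hA : 0 < A) {g : O → ℝ} (h0 : ∀ a, 0 ≤ g a)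
    (hb : ∀ a, g a ≤ b) : ∑ a ∈ ball ⌊A⌋₊, g a ≤ (gw 1)⁻¹ * ∑' a : O, gw (nr a / A) * g a := by
  have hs : Summable fun a : O => gw (nr a / A) * g a :=
    Summable.of_nonneg_of_le (fun a => mul_nonneg (gw_pos _).le (h0 a))
      (fun a => mul_le_mul_of_nonneg_left (hb a) (gw_pos _).le) ((summable_gw' hA).mul_right b)
  rw [le_inv_mul_iff₀ (gw_pos 1), mul_sum]
  refine le_trans (sum_le_sum fun a ha => ?_)
    (hs.sum_le_tsum _ fun a _ => mul_nonneg (gw_pos _).le (h0 a))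
  refine mul_le_mul_of_nonneg_right (gw_antitone ?_) (h0 a)
  rw [div_le_one hA]
  exact (Nat.le_floor_iff hA.le).1 (mem_ball.1 ha)

/-! ### the majorant -/

open Classical in
/-- The majorant of the normalised (centred) products. -/
def pp (M : O) (C U Y τ : ℝ) (J : ℕ) (v : ℝ) (a : O) : ℝ :=
  if Exc M a then C * U * (1 + (|τ| + |v|)) ^ J * Real.sqrt Y else C * psup M a (|τ| + |v|) ^ 2

theorem pp_nonneg (M : O) {C U : ℝ} (hC : 0 ≤ C) (hU : 0 ≤ U) (Y τ : ℝ) (J : ℕ) (v : ℝ) (a : O) :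
    0 ≤ pp M C U Y τ J v a := by
  unfold pp
  split_ifs <;> positivity

theorem cen_le_pp {M : O} (hM : Adm M) {η : ℝ} (hη : 0 < η) : ∃ (C : ℝ) (J : ℕ), 0 < C ∧
    ∀ (ν : Chr M) (a : O) (y₁ y₂ y₃ y₄ Y U τ : ℝ) (κ w : ℂ), a ≠ 0 → nr a ^ η ≤ U → 1 ≤ U →
      0 < y₁ → 0 < y₂ → 0 < y₃ → 0 < y₄ → y₁ * y₂ = y₃ * y₄ → 1 ≤ Y →
      (κ = 0 ∧ y₁ * y₂ ≤ Y ∨ κ = 1 ∧ y₁ ≤ Y ∧ y₂ ≤ Y ∧ y₃ ≤ Y ∧ y₄ ≤ Y) → |w.re| ≤ 1 →
      ‖cenP ν a y₁ y₂ y₃ y₄ κ (τ * Complex.I + w)‖ ≤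
        pp M C U Y τ J w.im a * Real.sqrt (y₁ * y₂) := by
  obtain ⟨Cp, hCp, hp⟩ := norm_Pln_le_psup hM
  obtain ⟨C₀, hC₀, h₀⟩ := cenP_zero_le hM
  obtain ⟨C₁, J, hC₁, h₁⟩ := cenP_one_le hM hη
  refine ⟨C₀ + C₁ + 2 * Cp ^ 2, J, by positivity, ?_⟩
  intro ν a y₁ y₂ y₃ y₄ Y U τ κ w ha haU hU hy₁ hy₂ hy₃ hy₄ hy hY hκ hw
  have hre : |(τ * Complex.I + w).re| ≤ 1 := by simpa using hw
  have him : |(τ * Complex.I + w).im| ≤ |τ| + |w.im| := by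
    simpa using abs_add_le τ w.im
  have hT : 1 ≤ (1 + (|τ| + |w.im|)) ^ J := one_le_pow₀ (by linarith [abs_nonneg τ, abs_nonneg w.im])
  unfold pp
  split_ifs with hE
  · rcases hκ with ⟨rfl, hκ⟩ | ⟨rfl, k1, k2, k3, k4⟩
    · refine (h₀ ν a y₁ y₂ y₃ y₄ Y _ hy₁ hy₂ hκ hre).trans ?_
      gcongr
      calc C₀ = C₀ * 1 * 1 := by ring
        _ ≤ _ := by gcongr; linarith [sq_nonneg Cp]
    · refine (h₁ ν a y₁ y₂ y₃ y₄ Y _ ha hE hy₁ hy₂ hy₃ hy₄ hy k1 k2 k3 k4 hY hre).trans ?_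
      gcongr
      linarith [sq_nonneg Cp]
  · have hκ1 : ‖κ‖ ≤ 1 := by
      rcases hκ with ⟨rfl, -⟩ | ⟨rfl, -⟩ <;> simp
    set s := τ * Complex.I + w
    set p := psup M a (|τ| + |w.im|)
    have hp0 : 0 ≤ p := psup_nonneg _ _ _
    have key : ∀ y y' : ℝ, 0 < y → 0 < y' →
        ‖Pln ν a y s * Pln ν a y' s‖ ≤ Cp ^ 2 * p ^ 2 * Real.sqrt (y * y') := by
      intro y y' hy hy'
      rw [norm_mul, Real.sqrt_mul hy.le]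
      refine (mul_le_mul (hp a ν y _ s hE hy hre him) (hp a ν y' _ s hE hy' hre him)
        (norm_nonneg _) (by positivity)).trans (le_of_eq ?_)
      ring
    have k1 := key y₁ y₂ hy₁ hy₂
    have k2 := key y₃ y₄ hy₃ hy₄
    rw [← hy] at k2
    have k3 : ‖κ * (Pln ν a y₃ s * Pln ν a y₄ s)‖ ≤ Cp ^ 2 * p ^ 2 * Real.sqrt (y₁ * y₂) := by
      rw [norm_mul]
      exact (mul_le_of_le_one_left (norm_nonneg _) hκ1).trans k2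
    unfold cenP
    refine (norm_sub_le _ _).trans ((add_le_add k1 k3).trans ?_)
    have : 0 ≤ (C₀ + C₁) * p ^ 2 * Real.sqrt (y₁ * y₂) := by positivity
    nlinarith

/-- The mean value of the majorant. -/
theorem H2_pp {M : O} (hM : Adm M) {θ η : ℝ} (h : T4 M θ) (hθ : 0 ≤ θ) (hη : 0 < η) {C : ℝ}
    (hC : 0 < C) (J : ℕ) : ∃ (C' : ℝ) (J' : ℕ), 0 < C' ∧
    ∀ (A l L Λ₁ U Y τ K : ℝ), 1 ≤ l → l ≤ A → 1 ≤ L → Λ₁ ≤ l * L ^ 6 → A ^ η ≤ U → 0 ≤ Y →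
      0 ≤ K → H2 A (A / l) Λ₁ (K * C' * U ^ 3 * (1 + |τ|) ^ J' *
        (1 + (A / l) ^ θ + Y * l ^ (5 / 6 : ℝ) * L ^ 5 / A ^ (5 / 6 : ℝ))) J'
        (fun v a => K * (pp M C U Y τ J v a ^ 2 + 1)) := by
  classical
  obtain ⟨Ci, hCi, hi⟩ := sum_inv_rows hη
  obtain ⟨Cs, Js, hCs, hs⟩ := h.sum_psup_weight hM hθ hη
  obtain ⟨Ce, hCe, he⟩ := sum_exc_min_le hM hη
  refine ⟨Ci + C ^ 2 * Cs + C ^ 2 * Ce, Js + 2 * J, by positivity, ?_⟩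
  intro A l L Λ₁ U Y τ K hl hlA hL hΛ hU hY hK v
  have hA : 1 ≤ A := hl.trans hlA
  have hA0 : 0 < A := by linarith
  have hl0 : 0 < l := by linarith
  have hAl : 1 ≤ A / l := (one_le_div hl0).2 hlA
  have hAl' : A / l ≤ A := div_le_self hA0.le hl
  have hU1 : 1 ≤ U := (Real.one_le_rpow hA hη.le).trans hU
  have hU' : (A / l) ^ η ≤ U := (Real.rpow_le_rpow (by positivity) hAl' hη.le).trans hU
  set T := |τ| + |v| with hT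
  have hT0 : 0 ≤ T := by positivity
  set W := (1 + |τ|) ^ (Js + 2 * J) * (1 + |v|) ^ (Js + 2 * J) with hW
  have hTW : (1 + T) ^ (Js + 2 * J) ≤ W := by
    rw [hW, ← mul_pow]
    refine pow_le_pow_left₀ (by positivity) ?_ _
    nlinarith [abs_nonneg τ, abs_nonneg v, mul_nonneg (abs_nonneg τ) (abs_nonneg v)]
  have hW1 : 1 ≤ W := (one_le_pow₀ (by linarith)).trans hTW
  have hW2 : (1 + T) ^ Js ≤ W := (pow_le_pow_right₀ (by linarith) (by omega)).trans hTW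
  have hW3 : (1 + T) ^ (2 * J) ≤ W := (pow_le_pow_right₀ (by linarith) (by omega)).trans hTW
  have hU3 : U ≤ U ^ 3 := le_self_pow₀ hU1 (by norm_num)
  set X := Y * l ^ (5 / 6 : ℝ) * L ^ 5 / A ^ (5 / 6 : ℝ) with hX
  have hX0 : 0 ≤ X := by positivity
  have hθ0 : 0 ≤ (A / l) ^ θ := by positivity
  -- the three sums
  have s1 : ∑ a ∈ rows (A / l), A / nr a ≤ Ci * U ^ 3 * W * A := by
    simp only [div_eq_mul_inv A (nr _)]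
    rw [← mul_sum, mul_comm]
    refine mul_le_mul_of_nonneg_right ((hi _ hAl).trans ?_) hA0.le
    calc Ci * (A / l) ^ η ≤ Ci * U ^ 3 * 1 := by rw [mul_one]; gcongr; exact hU'.trans hU3
      _ ≤ _ := by gcongr
  have s2 : ∑ a ∈ (rows (A / l)).filter (fun a => ¬ Exc M a),
      A / nr a * (C * psup M a T ^ 2) ^ 2 ≤ C ^ 2 * Cs * U ^ 3 * W * A * (A / l) ^ θ := by
    have h1 := hs (A / l) T hT0
    rw [max_eq_right hAl, Real.rpow_add (by positivity)] at h1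
    calc ∑ a ∈ (rows (A / l)).filter (fun a => ¬ Exc M a), A / nr a * (C * psup M a T ^ 2) ^ 2
        ≤ ∑ a ∈ nex M (A / l), A / nr a * (C * psup M a T ^ 2) ^ 2 := by
          refine sum_le_sum_of_subset_of_nonneg (fun a ha => ?_) fun a _ _ => by positivity
          rw [nex]
          exact mem_filter.2 ⟨erase_subset _ _ (mem_filter.1 ha).1, (mem_filter.1 ha).2⟩
      _ = C ^ 2 * A * ∑ a ∈ nex M (A / l), psup M a T ^ 4 / nr a := by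
          rw [mul_sum]
          exact sum_congr rfl fun a _ => by ring
      _ ≤ C ^ 2 * A * (Cs * W * ((A / l) ^ θ * U ^ 3)) := by
          refine mul_le_mul_of_nonneg_left (h1.trans ?_) (by positivity)
          gcongr
          exact hU'.trans hU3
      _ = _ := by ring
  have s3 : ∑ a ∈ (rows (A / l)).filter (Exc M),
      min (A / nr a) (l * L ^ 6) * (C * U * (1 + T) ^ J * Real.sqrt Y) ^ 2 ≤
        C ^ 2 * Ce * U ^ 3 * W * A * X := by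
    have h1 := he A (l * L ^ 6) hA (one_le_mul_of_one_le_of_one_le hl (one_le_pow₀ hL))
    have h2 : (l * L ^ 6) ^ (5 / 6 : ℝ) = l ^ (5 / 6 : ℝ) * L ^ 5 := by
      rw [Real.mul_rpow hl0.le (by positivity), ← Real.rpow_natCast L 6,
        ← Real.rpow_mul (by linarith), ← Real.rpow_natCast L 5]
      norm_num
    have h3 : A ^ (1 / 6 : ℝ) = A / A ^ (5 / 6 : ℝ) := by
      rw [eq_div_iff (by positivity), ← Real.rpow_add hA0]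
      norm_num
    rw [h2, h3] at h1
    rw [← sum_mul]
    calc (∑ a ∈ (rows (A / l)).filter (Exc M), min (A / nr a) (l * L ^ 6)) *
          (C * U * (1 + T) ^ J * Real.sqrt Y) ^ 2
        ≤ (Ce * U * (l ^ (5 / 6 : ℝ) * L ^ 5) * (A / A ^ (5 / 6 : ℝ))) *
          (C ^ 2 * U ^ 2 * W * Y) := by
          refine mul_le_mul (le_trans ?_ (h1.trans ?_)) ?_ (by positivity) (by positivity)
          · refine sum_le_sum_of_subset_of_nonneg (fun a ha => ?_) fun a _ _ => by positivity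
            obtain ⟨h4, h5⟩ := mem_filter.1 ha
            obtain ⟨h6, h7⟩ := (mem_rows (by positivity)).1 h4
            exact mem_filter.2 ⟨(mem_rows hA0.le).2 ⟨h6, h7.trans hAl'⟩, h5⟩
          · gcongr
          · rw [mul_pow, mul_pow, mul_pow, Real.sq_sqrt hY, ← pow_mul, mul_comm J 2]
            gcongr
      _ = _ := by rw [hX]; ring
  have hmin : ∀ a : O, min (A / nr a) Λ₁ ≤ A / nr a := fun a => min_le_left _ _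
  calc ∑ a ∈ rows (A / l), min (A / nr a) Λ₁ * (K * (pp M C U Y τ J v a ^ 2 + 1))
      ≤ ∑ a ∈ rows (A / l), K * (A / nr a +
          (if ¬ Exc M a then A / nr a * (C * psup M a T ^ 2) ^ 2 else 0) +
          (if Exc M a then min (A / nr a) (l * L ^ 6) *
            (C * U * (1 + T) ^ J * Real.sqrt Y) ^ 2 else 0)) := by
        refine sum_le_sum fun a _ => ?_
        rw [mul_left_comm]
        refine mul_le_mul_of_nonneg_left ?_ hK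
        have h1 := hmin a
        unfold pp
        by_cases hE : Exc M a
        · rw [if_pos hE, if_neg (not_not.2 hE), if_pos hE, add_zero, mul_add, mul_one, add_comm]
          exact add_le_add h1 (mul_le_mul_of_nonneg_right (min_le_min_left _ hΛ) (sq_nonneg _))
        · rw [if_neg hE, if_pos hE, if_neg hE, add_zero, mul_add, mul_one, add_comm]
          exact add_le_add h1 (mul_le_mul_of_nonneg_right h1 (sq_nonneg _))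
    _ ≤ K * (Ci * U ^ 3 * W * A + C ^ 2 * Cs * U ^ 3 * W * A * (A / l) ^ θ +
          C ^ 2 * Ce * U ^ 3 * W * A * X) := by
        rw [← mul_sum, sum_add_distrib, sum_add_distrib, ← sum_filter, ← sum_filter]
        exact mul_le_mul_of_nonneg_left (add_le_add (add_le_add s1 s2) s3) hK
    _ = K * (U ^ 3 * W * A) * (Ci * 1 + C ^ 2 * Cs * (A / l) ^ θ + C ^ 2 * Ce * X) := by ring
    _ ≤ K * (U ^ 3 * W * A) * ((Ci + C ^ 2 * Cs + C ^ 2 * Ce) * (1 + (A / l) ^ θ + X)) := by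
        refine mul_le_mul_of_nonneg_left ?_ (by positivity)
        have e1 : 0 ≤ C ^ 2 * Cs := by positivity
        have e2 : 0 ≤ C ^ 2 * Ce := by positivity
        nlinarith [mul_nonneg hCi.le hθ0, mul_nonneg hCi.le hX0, mul_nonneg e1 hX0,
          mul_nonneg e2 hθ0]
    _ = _ := by rw [hW]; ring

theorem pow_rpow_div {R : ℝ} (hR : 0 ≤ R) (η : ℝ) : (R ^ 50) ^ (η / 50) = R ^ η := by
  rw [← Real.rpow_natCast R 50, ← Real.rpow_mul hR]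
  congr 1
  push_cast
  ring

theorem rpow_rpow_neg {R η : ℝ} (hR : 0 ≤ R) (hη : 0 < η) (k : ℕ) :
    (R ^ η) ^ (-((k : ℝ) / η)) = (R ^ k)⁻¹ := by
  rw [← Real.rpow_mul hR, ← Real.rpow_natCast R k, ← Real.rpow_neg hR]
  congr 1
  field_simp

/-- The majorant dominates the returning sums. -/
theorem H1_pp {M : O} (hM : Adm M) {η : ℝ} (hη : 0 < η) (hη1 : η ≤ 1) :
    ∃ (C : ℝ) (J : ℕ) (K : ℝ), 0 < C ∧ 0 < K ∧
    ∀ (R N₁ N₂ N₃ N₄ Y τ A' : ℝ) (ν : Chr M) (κ : ℂ) (f₁ f₂ f : O), 1 ≤ R → 0 < N₁ → 0 < N₂ →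
      0 < N₃ → 0 < N₄ → N₁ ≤ R → N₂ ≤ R → N₃ ≤ R → N₄ ≤ R → N₁ * N₂ = N₃ * N₄ → 1 ≤ Y →
      (κ = 0 ∧ N₁ * N₂ ≤ Y ∨ κ = 1 ∧ N₁ ≤ Y ∧ N₂ ≤ Y ∧ N₃ ≤ Y ∧ N₄ ≤ Y) → A' ≤ R →
      Primary f₁ → Primary f₂ → Primary f → nr f ≤ R ^ 50 →
      H1 M (R ^ 50) (N₁ * N₂ * (R ^ η) ^ 2 / (nr f₁ * nr f₂)) A'
        (sqB M (R ^ 50) (cenB ν N₁ N₂ N₃ N₄ τ (R ^ η) κ) f₁ f₂ f)
        (fun v a => K * (R ^ η) ^ 4 * (pp M C (R ^ η) Y τ J v a ^ 2 + 1)) := by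
  obtain ⟨C, J, hC, hc⟩ := cen_le_pp hM hη
  obtain ⟨Ck, hCk, hk⟩ := back_sqB_le hM (ε := η / 50) (by positivity) (((500 : ℕ) : ℝ) / η)
  refine ⟨C, J, 2 * Ck ^ 2, hC, by positivity, ?_⟩
  intro R N₁ N₂ N₃ N₄ Y τ A' ν κ f₁ f₂ f hR h₁ h₂ h₃ h₄ k₁ k₂ k₃ k₄ hN hY hκ hA' hf₁ hf₂ hf hfR
    t T a ψ w ht hT htT htQ hTR ha haA hw1 hw2
  have hR0 : 0 < R := by linarith
  have hU1 : 1 ≤ R ^ η := Real.one_le_rpow hR hη.le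
  have hUR : R ^ η ≤ R := by
    simpa using Real.rpow_le_rpow_of_exponent_le hR hη1
  have haU : nr a ^ η ≤ R ^ η := Real.rpow_le_rpow (Nat.cast_nonneg _) (haA.trans hA') hη.le
  have e1 := pow_rpow_div hR0.le η
  have e2 := rpow_rpow_neg hR0.le hη 500
  generalize R ^ η = U at *
  have hU0 : 0 < U := by linarith
  have hNU : ∀ N : ℝ, N ≤ R → N * U ≤ R ^ 50 := fun N hN =>
    calc N * U ≤ R * R := mul_le_mul hN hUR hU0.le hR0.le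
      _ = R ^ 2 := by ring
      _ ≤ R ^ 50 := pow_le_pow_right₀ hR (by norm_num)
  have hQ : N₁ * N₂ * U ^ 2 ≤ R ^ 50 :=
    calc N₁ * N₂ * U ^ 2 ≤ R * R * R ^ 2 := by gcongr
      _ = R ^ 4 := by ring
      _ ≤ R ^ 50 := pow_le_pow_right₀ hR (by norm_num)
  have hκ1 : ‖κ‖ ≤ 1 := by
    rcases hκ with ⟨rfl, -⟩ | ⟨rfl, -⟩ <;> simp
  have hp0 : 0 ≤ pp M C U Y τ J w.im a := pp_nonneg M hC.le hU0.le _ _ _ _ _
  have hb := hk (R ^ 50) N₁ N₂ N₃ N₄ τ U (pp M C U Y τ J w.im a) ν ψ κ w f₁ f₂ f t T a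
    (one_le_pow₀ hR) hU1 h₁ h₂ h₃ h₄ hN (hNU _ k₁) (hNU _ k₂) (hNU _ k₃) (hNU _ k₄) hQ hκ1 hp0
    hf₁ hf₂ hf ht hT htT hfR hTR hw1 hw2 (by
      intro ρ₁ ρ₂ hρ₁ hρ₂
      have hd : ∀ N ρ : ℝ, 0 < N → 1 ≤ ρ → N / ρ ≤ N := fun N ρ hN hρ => div_le_self hN.le hρ
      rw [← div_mul_div_comm]
      refine hc (ν * ψ) a _ _ _ _ Y U τ κ w ha haU hU1 (by positivity) (by positivity)
        (by positivity) (by positivity) ?_ hY ?_ (abs_le.2 ⟨hw1, by linarith⟩)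
      · rw [div_mul_div_comm, div_mul_div_comm, hN]
      · rcases hκ with ⟨hκ, hκ'⟩ | ⟨hκ, j1, j2, j3, j4⟩
        · refine Or.inl ⟨hκ, le_trans ?_ hκ'⟩
          exact mul_le_mul (hd _ _ h₁ hρ₁) (hd _ _ h₂ hρ₂) (by positivity) h₁.le
        · exact Or.inr ⟨hκ, (hd _ _ h₁ hρ₁).trans j1, (hd _ _ h₂ hρ₂).trans j2,
            (hd _ _ h₃ hρ₁).trans j3, (hd _ _ h₄ hρ₂).trans j4⟩)
  have n₁ := one_le_nr hf₁.ne_zero
  have n₂ := one_le_nr hf₂.ne_zero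
  have n₃ := one_le_nr ht.ne_zero
  dsimp only
  set p := pp M C U Y τ J w.im a
  set x := N₁ * N₂ * U ^ 2 / (nr f₁ * nr f₂) / nr t with hx
  have hx1 : 1 ≤ x := (one_le_div (by linarith)).2 htQ
  have hx0 : 0 < x := by linarith
  have hxR : x ≤ R ^ 50 := ((div_le_self (by positivity) n₃).trans
    (div_le_self (by positivity) (one_le_mul_of_one_le_of_one_le n₁ n₂))).trans hQ
  set e := 1 / 2 + w.re with he
  have e3 : (N₁ * N₂ / (nr f₁ * nr f₂ * nr t)) ^ e ≤ x ^ e * U := by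
    have : N₁ * N₂ / (nr f₁ * nr f₂ * nr t) = x / U ^ 2 := by
      rw [hx]
      field_simp
    rw [this, Real.div_rpow hx0.le (by positivity), div_eq_mul_inv, ← Real.rpow_neg (by positivity)]
    refine mul_le_mul_of_nonneg_left ?_ (by positivity)
    calc (U ^ 2) ^ (-e) ≤ (U ^ 2) ^ (1 / 2 : ℝ) :=
          Real.rpow_le_rpow_of_exponent_le (one_le_pow₀ hU1) (by linarith)
      _ = U := by rw [← Real.sqrt_eq_rpow, Real.sqrt_sq hU0.le]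
  have e4 : (R ^ 50) ^ (9 : ℝ) * (R ^ 500)⁻¹ ≤ x ^ e := by
    have : (R ^ 50) ^ (9 : ℝ) * (R ^ 500)⁻¹ = (R ^ 50)⁻¹ := by
      rw [show (9 : ℝ) = ((9 : ℕ) : ℝ) by norm_num, Real.rpow_natCast]
      field_simp
    rw [this]
    calc (R ^ 50)⁻¹ ≤ x⁻¹ := inv_anti₀ hx0 hxR
      _ = x ^ (-1 : ℝ) := (Real.rpow_neg_one x).symm
      _ ≤ x ^ e := Real.rpow_le_rpow_of_exponent_le hx1 (by linarith)
  have hxe : 0 < x ^ e := by positivity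
  have hb' : ‖back M (R ^ 50) (sqB M (R ^ 50) (cenB ν N₁ N₂ N₃ N₄ τ U κ) f₁ f₂ f) t T ψ w a‖ ≤
      Ck * U ^ 2 * (p + 1) * x ^ e := by
    rw [e1, e2, mul_assoc Ck ((R ^ 50) ^ (9 : ℝ))] at hb
    refine hb.trans ?_
    calc _ ≤ Ck * U * p * (x ^ e * U) + Ck * (U ^ 2 * x ^ e) :=
          add_le_add (mul_le_mul_of_nonneg_left e3 (by positivity)) (mul_le_mul_of_nonneg_left
            (e4.trans (le_mul_of_one_le_left hxe.le (one_le_pow₀ hU1))) hCk.le)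
      _ = _ := by ring
  have e5 : x ^ (1 + 2 * w.re) = (x ^ e) ^ 2 := by
    rw [← Real.rpow_natCast, ← Real.rpow_mul hx0.le]
    congr 1
    rw [he]
    push_cast
    ring
  rw [e5]
  refine (pow_le_pow_left₀ (norm_nonneg _) hb' 2).trans ?_
  calc (Ck * U ^ 2 * (p + 1) * x ^ e) ^ 2 = Ck ^ 2 * U ^ 4 * (p + 1) ^ 2 * (x ^ e) ^ 2 := by ring
    _ ≤ Ck ^ 2 * U ^ 4 * (2 * (p ^ 2 + 1)) * (x ^ e) ^ 2 := by
        gcongr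
        nlinarith [sq_nonneg (p - 1)]
    _ = _ := by ring

/-- The bound for one term of the extraction of the powerful part. -/
theorem Dq_le {M : O} (hM : Adm M) {θ η : ℝ} (h : T4 M θ) (hθ : 0 ≤ θ) (hη : 0 < η) (hη1 : η ≤ 1) :
    ∃ (C : ℝ) (J : ℕ), 0 < C ∧ ∀ (R A N₁ N₂ N₃ N₄ L₁ L₂ l Y τ : ℝ) (ν : Chr M) (κ : ℂ)
      (c₁ c₂ : O → ℂ), 1 ≤ A → A ≤ R → 0 < N₁ → 0 < N₂ → 0 < N₃ → 0 < N₄ → N₁ ≤ R →
      N₂ ≤ R → N₃ ≤ R → N₄ ≤ R → N₁ * N₂ = N₃ * N₄ → 1 ≤ L₂ → L₂ ≤ L₁ → L₁ ≤ R → 1 ≤ l → l ≤ A →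
      1 ≤ Y → (κ = 0 ∧ N₁ * N₂ ≤ Y ∨ κ = 1 ∧ N₁ ≤ Y ∧ N₂ ≤ Y ∧ N₃ ≤ Y ∧ N₄ ≤ Y) →
      Supp M L₁ c₁ → Supp M L₂ c₂ → (∀ n, ‖c₁ n‖ ≤ 1) → (∀ n, ‖c₂ n‖ ≤ 1) →
      ∀ f₁ f₂ t₁ t₂ : O, Primary f₁ → Primary f₂ → Primary t₁ → Primary t₂ →
        nr f₁ * nr f₂ ≤ N₁ * N₂ * (R ^ η) ^ 2 → nr t₁ ≤ L₁ → nr t₂ ≤ L₂ →
        Dq M (R ^ 50) 5 (tri M (R ^ 50)
          (sqB M (R ^ 50) (cenB ν N₁ N₂ N₃ N₄ τ (R ^ η) κ) f₁ f₂ (f₁ * f₂ * t₁ * t₂))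
          (sqC c₁ t₁ (f₁ * f₂ * t₁ * t₂)) (sqC c₂ t₂ (f₁ * f₂ * t₁ * t₂))) A ≤
        C * (R ^ η) ^ 10 * (1 + |τ|) ^ J * (A * (N₁ * N₂) * (L₁ * L₂)) *
          (1 + l * (N₁ * N₂) * L₁ ^ 5 * L₂ ^ 2 / A + (A / l) ^ θ +
            Y * l ^ (5 / 6 : ℝ) * L₁ ^ 5 / A ^ (5 / 6 : ℝ)) / nr (f₁ * f₂ * t₁ * t₂) := by
  classical
  obtain ⟨C, J, K, hC, hK, h1⟩ := H1_pp hM hη hη1
  obtain ⟨C', J', hC', h2⟩ := H2_pp hM h hθ hη hC J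
  obtain ⟨Cg, hCg, hg⟩ := gcore hM (ε := η / 50) (by positivity) J'
  obtain ⟨Cb, hCb, hb⟩ := norm_sqB_le (ε := η / 50) (by positivity)
  refine ⟨Cg * ((2 * Cb + 1) ^ 2 + K * C'), J', by positivity, ?_⟩
  intro R A N₁ N₂ N₃ N₄ L₁ L₂ l Y τ ν κ c₁ c₂ hA hAR p₁ p₂ p₃ p₄ k₁ k₂ k₃ k₄ hN hL₂ hL hLR hl hlA
    hY hκ s₁ s₂ b₁ b₂ f₁ f₂ t₁ t₂ hf₁ hf₂ ht₁ ht₂ hfQ htL₁ htL₂
  have hR : 1 ≤ R := hA.trans hAR
  have hR0 : 0 < R := by linarith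
  have hA0 : 0 < A := by linarith
  have hl0 : 0 < l := by linarith
  have hL₁ : 1 ≤ L₁ := hL₂.trans hL
  have hf : Primary (f₁ * f₂ * t₁ * t₂) := ((hf₁.mul hf₂).mul ht₁).mul ht₂
  have n₁ := one_le_nr hf₁.ne_zero
  have n₂ := one_le_nr hf₂.ne_zero
  have n₃ := one_le_nr ht₁.ne_zero
  have n₄ := one_le_nr ht₂.ne_zero
  have n₅ := one_le_nr hf.ne_zero
  have hnf : nr (f₁ * f₂ * t₁ * t₂) = nr f₁ * nr f₂ * nr t₁ * nr t₂ := by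
    rw [nr_mul, nr_mul, nr_mul]
  have hU1 : 1 ≤ R ^ η := Real.one_le_rpow hR hη.le
  have hUR : R ^ η ≤ R := by
    simpa using Real.rpow_le_rpow_of_exponent_le hR hη1
  have hAU : A ^ η ≤ R ^ η := Real.rpow_le_rpow hA0.le hAR hη.le
  have hQ6 : N₁ * N₂ * (R ^ η) ^ 2 * L₁ * L₂ ≤ R ^ 6 :=
    calc N₁ * N₂ * (R ^ η) ^ 2 * L₁ * L₂ ≤ R * R * R ^ 2 * R * R := by
          gcongr
          exact hL.trans hLR
      _ = R ^ 6 := by ring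
  have hfR : nr (f₁ * f₂ * t₁ * t₂) ≤ R ^ 50 := by
    rw [hnf]
    refine le_trans ?_ (hQ6.trans (pow_le_pow_right₀ hR (by norm_num)))
    gcongr
  have hκ1 : ‖κ‖ ≤ 1 := by
    rcases hκ with ⟨rfl, -⟩ | ⟨rfl, -⟩ <;> simp
  have hH1 := h1 R N₁ N₂ N₃ N₄ Y τ (A / l) ν κ f₁ f₂ _ hR p₁ p₂ p₃ p₄ k₁ k₂ k₃ k₄ hN hY hκ
    ((div_le_self hA0.le hl).trans hAR) hf₁ hf₂ hf hfR
  have hsB := supp_sqB (R := R ^ 50) (suppB_cenB ν (Λ := R ^ η) hN τ κ) hf₁ hf₂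
    (f₁ * f₂ * t₁ * t₂)
  have hbB : ∀ s, ‖sqB M (R ^ 50) (cenB ν N₁ N₂ N₃ N₄ τ (R ^ η) κ) f₁ f₂ (f₁ * f₂ * t₁ * t₂) s‖ ≤
      (2 * Cb + 1) * R ^ η := fun s => by
    refine (hb M (R ^ 50) 0 2 _ f₁ f₂ _ s (one_le_pow₀ hR) (by norm_num)
      (norm_cenB_le hM ν N₁ N₂ N₃ N₄ τ _ hκ1)).trans ?_
    rw [pow_rpow_div hR0.le]
    nlinarith
  have e1 := pow_rpow_div hR0.le η
  generalize R ^ η = U at *
  have hU0 : 0 < U := by linarith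
  have hmax : max (L₁ / nr t₁) (L₂ / nr t₂) ≤ L₁ :=
    max_le (div_le_self (by linarith) n₃) ((div_le_self (by linarith) n₄).trans hL)
  have hmin : min (L₁ / nr t₁) (L₂ / nr t₂) ≤ L₂ :=
    (min_le_right _ _).trans (div_le_self (by linarith) n₄)
  have hmax0 : 0 ≤ max (L₁ / nr t₁) (L₂ / nr t₂) := le_max_of_le_left (by positivity)
  have hmin0 : 0 ≤ min (L₁ / nr t₁) (L₂ / nr t₂) := le_min (by positivity) (by positivity)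
  have hH2 := h2 A l L₁ (l * max (L₁ / nr t₁) (L₂ / nr t₂) ^ 6) U Y τ (K * U ^ 4) hl hlA hL₁
    (by gcongr) hAU (by linarith) (by positivity)
  have hsq : ∀ (c : O → ℂ) (t f : O), (∀ n, ‖c n‖ ≤ 1) → ∀ n, ‖sqC c t f n‖ ≤ 1 := by
    intro c t f hc n
    unfold sqC
    split_ifs
    · exact hc _
    · simp
  have e2 : N₁ * N₂ * U ^ 2 / (nr f₁ * nr f₂) * (L₁ / nr t₁) * (L₂ / nr t₂) =
      N₁ * N₂ * U ^ 2 * L₁ * L₂ / nr (f₁ * f₂ * t₁ * t₂) := by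
    rw [hnf]
    field_simp
  have e3 : N₁ * N₂ * U ^ 2 * L₁ * L₂ / nr (f₁ * f₂ * t₁ * t₂) ≤ N₁ * N₂ * U ^ 2 * L₁ * L₂ :=
    div_le_self (by positivity) n₅
  have hG := hg (R ^ 50) A (N₁ * N₂ * U ^ 2 / (nr f₁ * nr f₂)) (L₁ / nr t₁) (L₂ / nr t₂) l
    ((2 * Cb + 1) * U) _ _ (sqC c₁ t₁ (f₁ * f₂ * t₁ * t₂)) (sqC c₂ t₂ (f₁ * f₂ * t₁ * t₂)) _ hA
    ((one_le_div (by positivity)).2 hfQ) ((one_le_div (by linarith)).2 htL₁)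
    ((one_le_div (by linarith)).2 htL₂) hl (by nlinarith) (by positivity)
    (hAR.trans (le_self_pow₀ hR (by norm_num))) (by
      rw [e2]
      calc _ ≤ R * (R ^ 6) ^ 7 := by
            gcongr
            · exact hlA.trans hAR
            · exact e3.trans hQ6
        _ = R ^ 43 := by ring
        _ ≤ R ^ 50 := pow_le_pow_right₀ hR (by norm_num))
    hsB (supp_sqC s₁ ht₁ _) (supp_sqC s₂ ht₂ _) hbB (hsq _ _ _ b₁) (hsq _ _ _ b₂)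
    (fun v a => by positivity) hH1 hH2
  refine hG.trans ?_
  rw [e1, e2]
  set P := N₁ * N₂ with hP
  have hP0 : 0 < P := by positivity
  set W := (1 + |τ|) ^ J' with hW
  have hW1 : 1 ≤ W := one_le_pow₀ (by linarith [abs_nonneg τ])
  set X₁ := l * P * L₁ ^ 5 * L₂ ^ 2 / A with hX₁
  set X₂ := (A / l) ^ θ with hX₂
  set X₃ := Y * l ^ (5 / 6 : ℝ) * L₁ ^ 5 / A ^ (5 / 6 : ℝ) with hX₃
  have x₁ : 0 ≤ X₁ := by positivity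
  have x₂ : 0 ≤ X₂ := by positivity
  have x₃ : 0 ≤ X₃ := by positivity
  have q1 : A + l * (P * U ^ 2 * L₁ * L₂ / nr (f₁ * f₂ * t₁ * t₂)) *
      (max (L₁ / nr t₁) (L₂ / nr t₂) ^ 4 * min (L₁ / nr t₁) (L₂ / nr t₂)) ≤
      U ^ 5 * W * (A * (1 + X₁ + X₂ + X₃)) :=
    calc _ ≤ U ^ 2 * A + l * (P * U ^ 2 * L₁ * L₂) * (L₁ ^ 4 * L₂) := by
          gcongr
          exact le_mul_of_one_le_left hA0.le (one_le_pow₀ hU1)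
      _ = U ^ 2 * 1 * (A * (1 + X₁)) := by
          rw [hX₁]
          field_simp
      _ ≤ _ := by
          refine mul_le_mul ?_ (mul_le_mul_of_nonneg_left (by linarith) hA0.le) (by positivity)
            (by positivity)
          exact mul_le_mul (pow_le_pow_right₀ hU1 (by norm_num)) hW1 zero_le_one (by positivity)
  have q2 : K * U ^ 4 * C' * U ^ 3 * W * (1 + X₂ + X₃) * A ≤
      K * C' * (U ^ 7 * W * (A * (1 + X₁ + X₂ + X₃))) :=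
    calc _ = K * C' * (U ^ 7 * W * (A * (1 + X₂ + X₃))) := by ring
      _ ≤ _ := by
          gcongr
          linarith
  calc _ ≤ Cg * U * (P * U ^ 2 * L₁ * L₂ / nr (f₁ * f₂ * t₁ * t₂)) *
        (((2 * Cb + 1) * U) ^ 2 * (U ^ 5 * W * (A * (1 + X₁ + X₂ + X₃))) +
          K * C' * (U ^ 7 * W * (A * (1 + X₁ + X₂ + X₃)))) :=
        mul_le_mul_of_nonneg_left
          (add_le_add (mul_le_mul_of_nonneg_left q1 (by positivity)) q2) (by positivity)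
    _ = _ := by ring

/-- The truncated sum. -/
theorem main_le {M : O} (hM : Adm M) {θ η : ℝ} (h : T4 M θ) (hθ : 0 ≤ θ) (hη : 0 < η)
    (hη1 : η ≤ 1) :
    ∃ (C : ℝ) (J : ℕ), 0 < C ∧ ∀ (R A N₁ N₂ N₃ N₄ L₁ L₂ l Y τ : ℝ) (ν : Chr M) (κ : ℂ)
      (c₁ c₂ : O → ℂ), 1 ≤ A → A ≤ R → 0 < N₁ → 0 < N₂ → 0 < N₃ → 0 < N₄ → N₁ ≤ R →
      N₂ ≤ R → N₃ ≤ R → N₄ ≤ R → N₁ * N₂ = N₃ * N₄ → 1 ≤ L₂ → L₂ ≤ L₁ → L₁ ≤ R → 1 ≤ l → l ≤ A →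
      1 ≤ Y → (κ = 0 ∧ N₁ * N₂ ≤ Y ∨ κ = 1 ∧ N₁ ≤ Y ∧ N₂ ≤ Y ∧ N₃ ≤ Y ∧ N₄ ≤ Y) →
      Supp M L₁ c₁ → Supp M L₂ c₂ → (∀ n, ‖c₁ n‖ ≤ 1) → (∀ n, ‖c₂ n‖ ≤ 1) →
      ∑ a ∈ ball ⌊A⌋₊, ‖bilS M (R ^ 50) (cenB ν N₁ N₂ N₃ N₄ τ (R ^ η) κ) a *
          slot (sp M L₁) c₁ a * slot (sp M L₂) c₂ a‖ ^ 2 ≤
        C * (R ^ η) ^ 11 * (1 + |τ|) ^ J * (A * (N₁ * N₂) * (L₁ * L₂)) *
          (1 + l * (N₁ * N₂) * L₁ ^ 5 * L₂ ^ 2 / A + (A / l) ^ θ +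
            Y * l ^ (5 / 6 : ℝ) * L₁ ^ 5 / A ^ (5 / 6 : ℝ)) := by
  obtain ⟨C, J, hC, h1⟩ := Dq_le hM h hθ hη hη1
  obtain ⟨Cx, hCx, hx⟩ := extract_powerful hM (ε := η / 50) (by positivity)
  have hgw := gw_pos 1
  refine ⟨(gw 1)⁻¹ * Cx * C, J, by positivity, ?_⟩
  intro R A N₁ N₂ N₃ N₄ L₁ L₂ l Y τ ν κ c₁ c₂ hA hAR p₁ p₂ p₃ p₄ k₁ k₂ k₃ k₄ hN hL₂ hL hLR hl hlA
    hY hκ s₁ s₂ b₁ b₂
  have hR : 1 ≤ R := hA.trans hAR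
  have hR0 : 0 < R := by linarith
  have hA0 : 0 < A := by linarith
  have hl0 : 0 < l := by linarith
  have hL₁ : 1 ≤ L₁ := hL₂.trans hL
  have hU1 : 1 ≤ R ^ η := Real.one_le_rpow hR hη.le
  have hUR : R ^ η ≤ R := by
    simpa using Real.rpow_le_rpow_of_exponent_le hR hη1
  have hS := suppB_cenB ν (Λ := R ^ η) hN τ κ
  have hD := h1 R A N₁ N₂ N₃ N₄ L₁ L₂ l Y τ ν κ c₁ c₂ hA hAR p₁ p₂ p₃ p₄ k₁ k₂ k₃ k₄ hN hL₂ hL hLR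
    hl hlA hY hκ s₁ s₂ b₁ b₂
  have e1 := pow_rpow_div hR0.le η
  generalize R ^ η = U at *
  have hU0 : 0 < U := by linarith
  generalize cenB ν N₁ N₂ N₃ N₄ τ U κ = B at *
  by_cases hQ : 1 ≤ N₁ * N₂ * U ^ 2
  · have hRR : R ≤ R ^ 50 := le_self_pow₀ hR (by norm_num)
    have hQ6 : N₁ * N₂ * U ^ 2 * L₁ * L₂ ≤ R ^ 50 :=
      calc N₁ * N₂ * U ^ 2 * L₁ * L₂ ≤ R * R * R ^ 2 * R * R := by
            gcongr
            exact hL.trans hLR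
        _ = R ^ 6 := by ring
        _ ≤ R ^ 50 := pow_le_pow_right₀ hR (by norm_num)
    have h2 := hx (R ^ 50) A _ L₁ L₂ _ B c₁ c₂ hA0 hQ hL₁ hL₂ (by positivity) hQ6 hS s₁ s₂ hD
    have h3 := sum_ball_le_tsum hA0 (g := fun a => ‖bilS M (R ^ 50) B a *
        slot (sp M L₁) c₁ a * slot (sp M L₂) c₂ a‖ ^ 2)
      (b := ((∑ n₁ ∈ pr M (R ^ 50), ∑ n₂ ∈ pr M (R ^ 50), ‖B n₁ n₂‖) * (8 * L₁) * (8 * L₂)) ^ 2)
      (fun a => by positivity) fun a => by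
        rw [norm_mul, norm_mul]
        gcongr
        · refine (norm_sum_le _ _).trans (sum_le_sum fun n₁ _ =>
            (norm_sum_le _ _).trans (sum_le_sum fun n₂ _ => ?_))
          rw [norm_mul, Complex.norm_conj]
          exact mul_le_of_le_one_right (norm_nonneg _) (norm_sym_le _ _)
        · exact norm_slot_le hL₁ b₁ a
        · exact norm_slot_le hL₂ b₂ a
    refine h3.trans ?_
    simp only [slot_eq (by linarith) (hLR.trans hRR) s₁,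
      slot_eq (by linarith) ((hL.trans hLR).trans hRR) s₂]
    refine (mul_le_mul_of_nonneg_left h2 (by positivity)).trans (le_of_eq ?_)
    rw [e1]
    ring
  · have hB : ∀ n₁ n₂, B n₁ n₂ = 0 := by
      intro n₁ n₂
      by_contra hne
      obtain ⟨g₁, -, g₂, -, g₃⟩ := hS n₁ n₂ hne
      exact hQ ((one_le_mul_of_one_le_of_one_le (one_le_nr g₁.ne_zero)
        (one_le_nr g₂.ne_zero)).trans g₃)
    refine le_trans (le_of_eq (sum_eq_zero fun a _ => ?_)) (by positivity)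
    simp [bilS, hB]

theorem cen_bound {M : O} (hM : Adm M) {θ ε : ℝ} (h : T4 M θ) (hθ : 0 ≤ θ) (hε : 0 < ε) :
    ∃ (C : ℝ) (J : ℕ), 0 < C ∧ ∀ (R A N₁ N₂ N₃ N₄ L₁ L₂ l Y τ : ℝ) (ν : Chr M) (κ : ℂ)
      (c₁ c₂ : O → ℂ), 1 ≤ A → A ≤ R → R⁻¹ ≤ N₁ → R⁻¹ ≤ N₂ → R⁻¹ ≤ N₃ → R⁻¹ ≤ N₄ → N₁ ≤ R →
      N₂ ≤ R → N₃ ≤ R → N₄ ≤ R → N₁ * N₂ = N₃ * N₄ → 1 ≤ L₂ → L₂ ≤ L₁ → L₁ ≤ R → 1 ≤ l → l ≤ A →
      1 ≤ Y → (κ = 0 ∧ N₁ * N₂ ≤ Y ∨ κ = 1 ∧ N₁ ≤ Y ∧ N₂ ≤ Y ∧ N₃ ≤ Y ∧ N₄ ≤ Y) →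
      Supp M L₁ c₁ → Supp M L₂ c₂ → (∀ n, ‖c₁ n‖ ≤ 1) → (∀ n, ‖c₂ n‖ ≤ 1) →
      ∑ a ∈ ball ⌊A⌋₊, ‖cenP ν a N₁ N₂ N₃ N₄ κ (τ * Complex.I)‖ ^ 2 *
          (‖slot (sp M L₁) c₁ a‖ ^ 2 * ‖slot (sp M L₂) c₂ a‖ ^ 2) ≤
        C * R ^ ε * (1 + |τ|) ^ J * (A * (N₁ * N₂) * (L₁ * L₂)) *
          (1 + l * (N₁ * N₂) * L₁ ^ 5 * L₂ ^ 2 / A + (A / l) ^ θ +
            Y * l ^ (5 / 6 : ℝ) * L₁ ^ 5 / A ^ (5 / 6 : ℝ)) := by
  set η := min (ε / 11) 1 with hηd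
  have hη : 0 < η := lt_min (by positivity) one_pos
  have hη1 : η ≤ 1 := min_le_right _ _
  have hη2 : η ≤ ε / 11 := min_le_left _ _
  obtain ⟨C, J, hC, h1⟩ := main_le hM h hθ hη hη1
  obtain ⟨Ct, hCt, ht⟩ := trunc_cen hM (((202 : ℕ) : ℝ) / η)
  refine ⟨2 * C + 65536 * Ct ^ 2, J, by positivity, ?_⟩
  intro R A N₁ N₂ N₃ N₄ L₁ L₂ l Y τ ν κ c₁ c₂ hA hAR r₁ r₂ r₃ r₄ k₁ k₂ k₃ k₄ hN hL₂ hL hLR hl hlA
    hY hκ s₁ s₂ b₁ b₂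
  have hR : 1 ≤ R := hA.trans hAR
  have hR0 : 0 < R := by linarith
  have hA0 : 0 < A := by linarith
  have hl0 : 0 < l := by linarith
  have hL₁ : 1 ≤ L₁ := hL₂.trans hL
  have hRi : 0 < R⁻¹ := by positivity
  have p₁ := hRi.trans_le r₁
  have p₂ := hRi.trans_le r₂
  have p₃ := hRi.trans_le r₃
  have p₄ := hRi.trans_le r₄
  have hU1 : 1 ≤ R ^ η := Real.one_le_rpow hR hη.le
  have hUR : R ^ η ≤ R := by
    simpa using Real.rpow_le_rpow_of_exponent_le hR hη1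
  have hUε : (R ^ η) ^ 11 ≤ R ^ ε := by
    rw [← Real.rpow_natCast, ← Real.rpow_mul hR0.le]
    refine Real.rpow_le_rpow_of_exponent_le hR ?_
    push_cast
    linarith
  have hε1 : 1 ≤ R ^ ε := Real.one_le_rpow hR hε.le
  have hκ1 : ‖κ‖ ≤ 1 := by
    rcases hκ with ⟨rfl, -⟩ | ⟨rfl, -⟩ <;> simp
  have hNU : ∀ N : ℝ, N ≤ R → N * R ^ η ≤ R ^ 50 := fun N hN =>
    calc N * R ^ η ≤ R * R := mul_le_mul hN hUR (by positivity) hR0.le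
      _ = R ^ 2 := by ring
      _ ≤ R ^ 50 := pow_le_pow_right₀ hR (by norm_num)
  have hmain := h1 R A N₁ N₂ N₃ N₄ L₁ L₂ l Y τ ν κ c₁ c₂ hA hAR p₁ p₂ p₃ p₄ k₁ k₂ k₃ k₄ hN hL₂ hL
    hLR hl hlA hY hκ s₁ s₂ b₁ b₂
  have herr : ∀ a, ‖cenP ν a N₁ N₂ N₃ N₄ κ (τ * Complex.I) -
      bilS M (R ^ 50) (cenB ν N₁ N₂ N₃ N₄ τ (R ^ η) κ) a‖ ≤ Ct * (R ^ 2)⁻¹ := fun a => by
    refine (ht (R ^ 50) N₁ N₂ N₃ N₄ τ (R ^ η) ν κ a (one_le_pow₀ hR) hU1 p₁ p₂ p₃ p₄ (hNU _ k₁)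
      (hNU _ k₂) (hNU _ k₃) (hNU _ k₄) hκ1).trans (le_of_eq ?_)
    rw [rpow_rpow_neg hR0.le hη]
    field_simp
  set W := (1 + |τ|) ^ J with hW
  have hW1 : 1 ≤ W := one_le_pow₀ (by linarith [abs_nonneg τ])
  set Z := 1 + l * (N₁ * N₂) * L₁ ^ 5 * L₂ ^ 2 / A + (A / l) ^ θ +
    Y * l ^ (5 / 6 : ℝ) * L₁ ^ 5 / A ^ (5 / 6 : ℝ) with hZ
  have hZ1 : 1 ≤ Z := by
    have x₁ : 0 ≤ l * (N₁ * N₂) * L₁ ^ 5 * L₂ ^ 2 / A := by positivity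
    have x₂ : 0 ≤ (A / l) ^ θ := by positivity
    have x₃ : 0 ≤ Y * l ^ (5 / 6 : ℝ) * L₁ ^ 5 / A ^ (5 / 6 : ℝ) := by positivity
    linarith
  generalize cenB ν N₁ N₂ N₃ N₄ τ (R ^ η) κ = B at *
  have hpt : ∀ a, ‖cenP ν a N₁ N₂ N₃ N₄ κ (τ * Complex.I)‖ ^ 2 *
      (‖slot (sp M L₁) c₁ a‖ ^ 2 * ‖slot (sp M L₂) c₂ a‖ ^ 2) ≤
      2 * ‖bilS M (R ^ 50) B a * slot (sp M L₁) c₁ a * slot (sp M L₂) c₂ a‖ ^ 2 +
        2 * (Ct * (R ^ 2)⁻¹) ^ 2 * ((8 * L₁) ^ 2 * (8 * L₂) ^ 2) := fun a => by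
    have e1 : ‖cenP ν a N₁ N₂ N₃ N₄ κ (τ * Complex.I)‖ ≤
        ‖bilS M (R ^ 50) B a‖ + Ct * (R ^ 2)⁻¹ := by
      linarith [herr a, norm_sub_norm_le (cenP ν a N₁ N₂ N₃ N₄ κ (τ * Complex.I))
        (bilS M (R ^ 50) B a)]
    have e2 : ‖cenP ν a N₁ N₂ N₃ N₄ κ (τ * Complex.I)‖ ^ 2 ≤
        2 * ‖bilS M (R ^ 50) B a‖ ^ 2 + 2 * (Ct * (R ^ 2)⁻¹) ^ 2 := by
      refine (pow_le_pow_left₀ (norm_nonneg _) e1 2).trans ?_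
      nlinarith [sq_nonneg (‖bilS M (R ^ 50) B a‖ - Ct * (R ^ 2)⁻¹)]
    refine (mul_le_mul_of_nonneg_right e2 (by positivity)).trans ?_
    rw [add_mul, norm_mul, norm_mul]
    refine add_le_add (le_of_eq (by ring)) ?_
    gcongr
    · exact norm_slot_le hL₁ b₁ a
    · exact norm_slot_le hL₂ b₂ a
  have hsmall : (R ^ 2)⁻¹ ^ 2 * (L₁ * L₂) ≤ N₁ * N₂ :=
    calc (R ^ 2)⁻¹ ^ 2 * (L₁ * L₂) ≤ (R ^ 2)⁻¹ ^ 2 * (R * R) := by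
          gcongr
          exact hL.trans hLR
      _ = R⁻¹ * R⁻¹ := by field_simp
      _ ≤ N₁ * N₂ := by gcongr
  refine (sum_le_sum fun a _ => hpt a).trans ?_
  rw [sum_add_distrib, ← mul_sum, sum_const, nsmul_eq_mul]
  have q1 : 2 * ∑ a ∈ ball ⌊A⌋₊,
      ‖bilS M (R ^ 50) B a * slot (sp M L₁) c₁ a * slot (sp M L₂) c₂ a‖ ^ 2 ≤
      2 * (C * R ^ ε * W * (A * (N₁ * N₂) * (L₁ * L₂)) * Z) := by
    refine mul_le_mul_of_nonneg_left (hmain.trans ?_) zero_le_two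
    gcongr
  have q2 : ((ball ⌊A⌋₊).card : ℝ) * (2 * (Ct * (R ^ 2)⁻¹) ^ 2 * ((8 * L₁) ^ 2 * (8 * L₂) ^ 2)) ≤
      65536 * Ct ^ 2 * R ^ ε * W * (A * (N₁ * N₂) * (L₁ * L₂)) * Z :=
    calc _ ≤ 8 * A * (2 * (Ct * (R ^ 2)⁻¹) ^ 2 * ((8 * L₁) ^ 2 * (8 * L₂) ^ 2)) :=
          mul_le_mul_of_nonneg_right (card_ball_floor hA) (by positivity)
      _ = 65536 * Ct ^ 2 * 1 * 1 * (A * ((R ^ 2)⁻¹ ^ 2 * (L₁ * L₂)) * (L₁ * L₂)) * 1 := by ring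
      _ ≤ _ := by gcongr
  refine (add_le_add q1 q2).trans (le_of_eq ?_)
  ring

end Mom4A

end Crest.Agent.R17
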