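import Crest.Agent.R17.M4Sup
import Crest.Agent.R17.LBasic

/-!
# Row 17, module M4: from the centred estimate to the fourth moment
-/

set_option autoImplicit false

noncomputable section

namespace Crest.Agent.R17.M4B

open scoped ComplexConjugate

/-- The statement of `cen_bound` with given constants. -/
def Cen (M : O) (θ ε C : ℝ) (J : ℕ) : Prop :=
  ∀ (R A N₁ N₂ N₃ N₄ L₁ L₂ l Y τ : ℝ) (ν : Chr M) (κ : ℂ)
      (c₁ c₂ : O → ℂ), 1 ≤ A → A ≤ R → R⁻¹ ≤ N₁ → R⁻¹ ≤ N₂ → R⁻¹ ≤ N₃ → R⁻¹ ≤ N₄ → N₁ ≤ R →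
      N₂ ≤ R → N₃ ≤ R → N₄ ≤ R → N₁ * N₂ = N₃ * N₄ → 1 ≤ L₂ → L₂ ≤ L₁ → L₁ ≤ R → 1 ≤ l → l ≤ A →
      1 ≤ Y → (κ = 0 ∧ N₁ * N₂ ≤ Y ∨ κ = 1 ∧ N₁ ≤ Y ∧ N₂ ≤ Y ∧ N₃ ≤ Y ∧ N₄ ≤ Y) →
      Supp M L₁ c₁ → Supp M L₂ c₂ → (∀ n, ‖c₁ n‖ ≤ 1) → (∀ n, ‖c₂ n‖ ≤ 1) →
      ∑ a ∈ ball ⌊A⌋₊, ‖cenP ν a N₁ N₂ N₃ N₄ κ (τ * Complex.I)‖ ^ 2 *
          (‖slot (sp M L₁) c₁ a‖ ^ 2 * ‖slot (sp M L₂) c₂ a‖ ^ 2) ≤
        C * R ^ ε * (1 + |τ|) ^ J * (A * (N₁ * N₂) * (L₁ * L₂)) *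
          (1 + l * (N₁ * N₂) * L₁ ^ 5 * L₂ ^ 2 / A + (A / l) ^ θ +
            Y * l ^ (5 / 6 : ℝ) * L₁ ^ 5 / A ^ (5 / 6 : ℝ))

/-- The statement of `step_bound` with given constants. -/
def Step (M : O) (θ ε C : ℝ) (J : ℕ) : Prop :=
  ∀ (A N H L₁ L₂ l τ : ℝ) (ν : Chr M) (c₁ c₂ : O → ℂ), 1 ≤ A → 0 < N →
      1 ≤ H → N ≤ H * Real.sqrt A → 1 ≤ L₂ → L₂ ≤ L₁ → 1 ≤ l →
      l ^ (5 / 6 : ℝ) * L₁ ^ 5 ≤ A ^ (1 / 6 : ℝ) →
      Supp M L₁ c₁ → Supp M L₂ c₂ → (∀ n, ‖c₁ n‖ ≤ 1) → (∀ n, ‖c₂ n‖ ≤ 1) →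
      ∑ a ∈ nex M A, ‖Pln ν a N (τ * Complex.I)‖ ^ 4 *
          (‖slot (sp M L₁) c₁ a‖ ^ 2 * ‖slot (sp M L₂) c₂ a‖ ^ 2) ≤
        C * A ^ ε * (H * (1 + |τ|)) ^ J * (A * N ^ 2 * (L₁ * L₂)) *
          (1 + l * N ^ 2 * L₁ ^ 5 * L₂ ^ 2 / A + (A / l) ^ θ)

/-- The weight of a row. -/
def wt (M : O) (L₁ L₂ : ℝ) (c₁ c₂ : O → ℂ) (a : O) : ℝ :=
  ‖slot (sp M L₁) c₁ a‖ ^ 2 * ‖slot (sp M L₂) c₂ a‖ ^ 2

theorem wt_nonneg (M : O) (L₁ L₂ : ℝ) (c₁ c₂ : O → ℂ) (a : O) : 0 ≤ wt M L₁ L₂ c₁ c₂ a := by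
  unfold wt; positivity

theorem card_ball {A : ℝ} (hA : 1 ≤ A) : ((ball ⌊A⌋₊).card : ℝ) ≤ 8 * A := by
  have h1 : ((ball ⌊A⌋₊).card : ℝ) ≤ 7 * ⌊A⌋₊ + 1 := by exact_mod_cast card_ball_le ⌊A⌋₊
  have h2 := Nat.floor_le (show 0 ≤ A by linarith)
  linarith

theorem nex_subset (M : O) (A : ℝ) : nex M A ⊆ ball ⌊A⌋₊ := by
  classical
  unfold nex
  convert Finset.filter_subset _ _

theorem mem_nex {M a : O} {A : ℝ} (hA : 1 ≤ A) (h : a ∈ nex M A) : ¬ Exc M a ∧ nr a ≤ A := by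
  classical
  have h1 := nex_subset M A h
  rw [mem_ball, Nat.le_floor_iff (by linarith)] at h1
  unfold nex at h
  exact ⟨(Finset.mem_filter.1 h).2, h1⟩

theorem card_nex (M : O) {A : ℝ} (hA : 1 ≤ A) : ((nex M A).card : ℝ) ≤ 8 * A :=
  le_trans (by exact_mod_cast Finset.card_le_card (nex_subset M A)) (card_ball hA)

theorem norm_slot_le (M a : O) {L : ℝ} (hL : 1 ≤ L) {c : O → ℂ} (hc : ∀ n, ‖c n‖ ≤ 1) :
    ‖slot (sp M L) c a‖ ≤ 8 * L := by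
  classical
  refine (norm_sum_le _ _).trans ((Finset.sum_le_card_nsmul _ _ 1 fun p _ => ?_).trans ?_)
  · rw [norm_mul, Complex.norm_conj]
    exact mul_le_one₀ (hc p) (norm_nonneg _) (norm_sym_le p a)
  · rw [nsmul_eq_mul, mul_one]
    refine le_trans ?_ (card_ball hL)
    have : sp M L ⊆ ball ⌊L⌋₊ := by
      unfold sp
      convert Finset.filter_subset _ _
    exact_mod_cast Finset.card_le_card this

theorem sum_wt_le (M : O) {A L₁ L₂ : ℝ} (hA : 1 ≤ A) (h1 : 1 ≤ L₁) (h2 : 1 ≤ L₂) {c₁ c₂ : O → ℂ}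
    (hc₁ : ∀ n, ‖c₁ n‖ ≤ 1) (hc₂ : ∀ n, ‖c₂ n‖ ≤ 1) :
    ∑ a ∈ nex M A, wt M L₁ L₂ c₁ c₂ a ≤ 32768 * A * (L₁ * L₂) ^ 2 := by
  refine (Finset.sum_le_card_nsmul _ _ ((8 * L₁) ^ 2 * (8 * L₂) ^ 2) fun a _ => ?_).trans ?_
  · have := norm_slot_le M a h1 hc₁
    have := norm_slot_le M a h2 hc₂
    unfold wt
    gcongr
  · rw [nsmul_eq_mul]
    calc _ ≤ 8 * A * ((8 * L₁) ^ 2 * (8 * L₂) ^ 2) := by
          gcongr; exact card_nex M hA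
      _ = _ := by ring

theorem logpow {η : ℝ} (hη : 0 < η) (n : ℕ) : ∃ C : ℝ, 0 < C ∧ ∀ R : ℝ, 1 ≤ R →
    (5 + Real.log R) ^ n ≤ C * R ^ η := by
  set s : ℝ := η / (n + 1) with hs
  have s0 : 0 < s := by positivity
  refine ⟨(5 + 1 / s) ^ n, by positivity, fun R hR => ?_⟩
  have R0 : 0 < R := by linarith
  have h1 : 1 ≤ R ^ s := Real.one_le_rpow hR s0.le
  have h2 := Real.log_le_rpow_div R0.le s0
  have h3 := Real.log_nonneg hR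
  calc (5 + Real.log R) ^ n ≤ ((5 + 1 / s) * R ^ s) ^ n := by
        gcongr
        rw [add_mul, one_div, ← div_eq_inv_mul]
        linarith
    _ = (5 + 1 / s) ^ n * R ^ (s * n) := by rw [mul_pow, Real.rpow_mul R0.le, Real.rpow_natCast]
    _ ≤ _ := by
        refine mul_le_mul_of_nonneg_left (Real.rpow_le_rpow_of_exponent_le hR ?_) (by positivity)
        rw [hs, div_mul_eq_mul_div, div_le_iff₀ (by positivity)]
        nlinarith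

theorem height_le {R τ : ℝ} (hR : 1 ≤ R) :
    |τ| + Real.log R + 4 ≤ (1 + |τ|) * (5 + Real.log R) := by
  nlinarith [Real.log_nonneg hR, abs_nonneg τ]

/-- Reflection of all the rows and the maximal inequality. -/
theorem refl_sum {M : O} (hM : Adm M) {η : ℝ} (hη : 0 < η) : ∃ C : ℝ, 0 < C ∧
    ∀ (A R R₂ N τ Y E : ℝ) (ν : Chr M) (ϖ : O → ℝ), 1 ≤ A → A ≤ R → R ≤ R₂ → R⁻¹ ≤ N → N ≤ R →
      |τ| ≤ R → A * R ^ η * (1 + |τ|) ^ 2 / N ≤ Y → Y ≤ R₂ → 0 ≤ E → (∀ a, 0 ≤ ϖ a) →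
      (∀ (ν' : Chr M) (N' τ' : ℝ), R₂⁻¹ / 8 ≤ N' → N' ≤ 8 * Y → |τ'| ≤ |τ| + Real.log R + 3 →
        ∑ a ∈ nex M A, ϖ a * ‖Pln ν' a N' (τ' * Complex.I)‖ ^ 4 ≤ E * N' ^ 2) →
      ∑ a ∈ nex M A, ϖ a * ‖Pln ν a N (τ * Complex.I)‖ ^ 4 ≤
        C * ((R ^ η) ^ 4 * R₂ ^ η * ((1 + |τ|) * (5 + Real.log R)) ^ 9 * E * N ^ 2 +
          ∑ a ∈ nex M A, ϖ a) := by
  obtain ⟨C₁, hC₁, h₁⟩ := Pln_reflect hM hη 0
  obtain ⟨C₂, hC₂, h₂⟩ := sup_four hM hη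
  refine ⟨8 * C₁ ^ 4 * (C₂ + 1), by positivity,
    fun A R R₂ N τ Y E ν ϖ hA hR hR₂ hN hN' hτ hY hY' hE hϖ hyp => ?_⟩
  have R1 : 1 ≤ R := hA.trans hR
  have R0 : 0 < R := by linarith
  have N0 : 0 < N := lt_of_lt_of_le (inv_pos.2 R0) hN
  have lR := Real.log_nonneg R1
  have : Nonempty (Chr M) := ⟨ν⟩
  have key : ∀ a ∈ nex M A, ∃ (ν' : Chr M) (y t : ℝ), (R₂⁻¹ ≤ y ∧ y ≤ Y ∧ |t| ≤ |τ| + Real.log R) ∧
      ‖Pln ν a N (τ * Complex.I)‖ ^ 4 ≤ 8 * C₁ ^ 4 * ((R ^ η) ^ 4 * N ^ 2 *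
        (‖Pln ν' a y (t * Complex.I)‖ ^ 4 / y ^ 2) + 1) := by
    intro a ha
    obtain ⟨a1, a2⟩ := mem_nex hA ha
    obtain ⟨ν', e, y, t, he, hc, hy, hy', ht, hb⟩ := h₁ R N τ ν a R1 a1 (a2.trans hR) hN hN' hτ
    have y0 : 0 < y := lt_of_lt_of_le (inv_pos.2 R0) hy
    refine ⟨ν', y, t, ⟨(inv_anti₀ R0 hR₂).trans hy, hy'.trans (le_trans ?_ hY), ht⟩, ?_⟩
    · have := hc.trans a2
      gcongr
    · rw [neg_zero, Real.rpow_zero, mul_one] at hb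
      have e1 : Real.sqrt (N / (e * y)) ^ 4 ≤ N ^ 2 / y ^ 2 := by
        rw [show 4 = 2 * 2 from rfl, pow_mul, Real.sq_sqrt (by positivity), ← div_pow]
        gcongr
        exact le_mul_of_one_le_left y0.le he
      set x := C₁ * R ^ η * Real.sqrt (N / (e * y)) * ‖Pln ν' a y (t * Complex.I)‖ with hx
      have x0 : 0 ≤ x := by positivity
      calc _ ≤ (x + C₁) ^ 4 := by gcongr
        _ ≤ 8 * (x ^ 4 + C₁ ^ 4) := by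
            have := add_pow_le x0 hC₁.le 4
            norm_num at this
            exact this
        _ = 8 * C₁ ^ 4 * ((R ^ η) ^ 4 * Real.sqrt (N / (e * y)) ^ 4 *
              ‖Pln ν' a y (t * Complex.I)‖ ^ 4 + 1) := by rw [hx]; ring
        _ ≤ 8 * C₁ ^ 4 * ((R ^ η) ^ 4 * (N ^ 2 / y ^ 2) *
              ‖Pln ν' a y (t * Complex.I)‖ ^ 4 + 1) := by gcongr
        _ = _ := by ring
  choose! ψ y t h3 h4 using key
  have h5 := h₂ (nex M A) ϖ ψ y t R₂ Y (|τ| + Real.log R) E (R1.trans hR₂) (by positivity) hϖ h3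
    hY' hE hyp
  have h6 : 1 + (|τ| + Real.log R) ≤ (1 + |τ|) * (5 + Real.log R) := by
    linarith [height_le (τ := τ) R1]
  have R₂0 : 0 < R₂ := by linarith
  have S0 : 0 ≤ ∑ a ∈ nex M A, ϖ a := Finset.sum_nonneg fun a _ => hϖ a
  calc _ ≤ ∑ a ∈ nex M A, ϖ a * (8 * C₁ ^ 4 * ((R ^ η) ^ 4 * N ^ 2 *
        (‖Pln (ψ a) a (y a) (t a * Complex.I)‖ ^ 4 / y a ^ 2) + 1)) :=
        Finset.sum_le_sum fun a ha => mul_le_mul_of_nonneg_left (h4 a ha) (hϖ a)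
    _ = 8 * C₁ ^ 4 * ((R ^ η) ^ 4 * N ^ 2 * ∑ a ∈ nex M A, ϖ a *
        (‖Pln (ψ a) a (y a) (t a * Complex.I)‖ ^ 4 / y a ^ 2) + ∑ a ∈ nex M A, ϖ a) := by
        rw [Finset.mul_sum, ← Finset.sum_add_distrib, Finset.mul_sum]
        exact Finset.sum_congr rfl fun a _ => by ring
    _ ≤ 8 * C₁ ^ 4 * ((R ^ η) ^ 4 * N ^ 2 * ((C₂ + 1) * R₂ ^ η *
        ((1 + |τ|) * (5 + Real.log R)) ^ 9 * E) + (C₂ + 1) * ∑ a ∈ nex M A, ϖ a) := by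
        gcongr
        · refine h5.trans ?_
          gcongr
          linarith
        · exact le_mul_of_one_le_left S0 (by linarith)
    _ = _ := by ring

theorem marks {α L₁ L₂ l : ℝ} (hα : 1 ≤ α) (h2 : 1 ≤ L₂) (h1 : L₂ ≤ L₁) (hl : 1 ≤ l)
    (h : l ^ (5 / 6 : ℝ) * L₁ ^ 5 ≤ α) :
    l ≤ α ^ 6 ∧ L₁ ≤ α ∧ L₁ * L₂ ≤ α ∧ l * L₁ ^ 5 * L₂ ^ 2 ≤ α ^ 2 := by
  have l0 : 0 < l := by linarith
  have L1 : 1 ≤ L₁ := h2.trans h1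
  have v1 : 1 ≤ l ^ (5 / 6 : ℝ) := Real.one_le_rpow hl (by norm_num)
  have v2 : l ≤ (l ^ (5 / 6 : ℝ)) ^ 2 := by
    rw [← Real.rpow_natCast, ← Real.rpow_mul l0.le]
    conv_lhs => rw [← Real.rpow_one l]
    exact Real.rpow_le_rpow_of_exponent_le hl (by norm_num)
  set v := l ^ (5 / 6 : ℝ)
  have p5 : 1 ≤ L₁ ^ 5 := one_le_pow₀ L1
  have e1 : v ≤ α := (le_mul_of_one_le_right (by linarith) p5).trans h
  have e2 : L₁ ^ 5 ≤ α := (le_mul_of_one_le_left (by linarith) v1).trans h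
  have e3 : L₁ ^ 2 ≤ L₁ ^ 5 := pow_le_pow_right₀ L1 (by norm_num)
  refine ⟨v2.trans ((pow_le_pow_left₀ (by linarith) e1 2).trans
    (pow_le_pow_right₀ hα (by norm_num))), by nlinarith, by nlinarith, ?_⟩
  calc l * L₁ ^ 5 * L₂ ^ 2 ≤ v ^ 2 * L₁ ^ 5 * L₁ ^ 5 := by
        gcongr
        exact (pow_le_pow_left₀ (by linarith) h1 2).trans e3
    _ = (v * L₁ ^ 5) ^ 2 := by ring
    _ ≤ _ := by gcongr

theorem pow_six_rpow {α : ℝ} (hα : 1 ≤ α) (k : ℕ) : (α ^ 6) ^ ((k : ℝ) / 6) = α ^ k := by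
  rw [← Real.rpow_natCast, ← Real.rpow_mul (by linarith), ← Real.rpow_natCast]
  congr 1
  push_cast
  ring

/-- The centred estimate, in the form in which it is used. -/
theorem cen_use {M : O} {θ η C : ℝ} {J : ℕ} (hC : 0 < C) (h : Cen M θ η C J)
    {R α N₁ N₂ N₃ N₄ G L₁ L₂ l τ : ℝ} (ν : Chr M) (κ : ℂ) {c₁ c₂ : O → ℂ} (hα : 1 ≤ α)
    (hR : α ^ 6 ≤ R) (a1 : R⁻¹ ≤ N₁) (a2 : R⁻¹ ≤ N₂) (a3 : R⁻¹ ≤ N₃) (a4 : R⁻¹ ≤ N₄)
    (b1 : N₁ ≤ R) (b2 : N₂ ≤ R) (b3 : N₃ ≤ R) (b4 : N₄ ≤ R) (he : N₁ * N₂ = N₃ * N₄) (hG : 1 ≤ G)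
    (hκ : κ = 0 ∧ N₁ * N₂ ≤ G * α ^ 4 ∨
      κ = 1 ∧ N₁ ≤ G * α ^ 4 ∧ N₂ ≤ G * α ^ 4 ∧ N₃ ≤ G * α ^ 4 ∧ N₄ ≤ G * α ^ 4)
    (h2 : 1 ≤ L₂) (h1 : L₂ ≤ L₁) (hl : 1 ≤ l) (hm : l ^ (5 / 6 : ℝ) * L₁ ^ 5 ≤ α)
    (s1 : Supp M L₁ c₁) (s2 : Supp M L₂ c₂) (n1 : ∀ n, ‖c₁ n‖ ≤ 1) (n2 : ∀ n, ‖c₂ n‖ ≤ 1) :
    ∑ a ∈ nex M (α ^ 6), wt M L₁ L₂ c₁ c₂ a * ‖cenP ν a N₁ N₂ N₃ N₄ κ (τ * Complex.I)‖ ^ 2 ≤
      C * R ^ η * (1 + |τ|) ^ J * (α ^ 6 * (N₁ * N₂) * (L₁ * L₂)) *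
        (1 + l * (N₁ * N₂) * L₁ ^ 5 * L₂ ^ 2 / α ^ 6 + (α ^ 6 / l) ^ θ + G) := by
  obtain ⟨m1, m2, -, -⟩ := marks hα h2 h1 hl hm
  have A1 : 1 ≤ α ^ 6 := one_le_pow₀ hα
  have αA : α ≤ α ^ 6 := le_self_pow₀ hα (by norm_num)
  have R0 : 0 < R := by linarith
  have N1 := lt_of_lt_of_le (inv_pos.2 R0) a1
  have N2 := lt_of_lt_of_le (inv_pos.2 R0) a2
  have L1 : 0 < L₁ := by linarith
  have := h R (α ^ 6) N₁ N₂ N₃ N₄ L₁ L₂ l (G * α ^ 4) τ ν κ c₁ c₂ A1 hR a1 a2 a3 a4 b1 b2 b3 b4 he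
    h2 h1 (by linarith) hl m1 (one_le_mul_of_one_le_of_one_le hG (one_le_pow₀ hα)) hκ s1 s2 n1 n2
  refine le_trans ?_ (this.trans ?_)
  · refine le_trans (Finset.sum_le_sum fun a _ => (mul_comm _ _).le)
      (Finset.sum_le_sum_of_subset_of_nonneg (nex_subset _ _) fun a _ _ =>
        mul_nonneg (by positivity) (wt_nonneg ..))
  · have e := pow_six_rpow hα 5
    rw [Nat.cast_ofNat] at e
    rw [e]
    gcongr
    rw [div_le_iff₀ (by positivity)]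
    calc G * α ^ 4 * l ^ (5 / 6 : ℝ) * L₁ ^ 5 = G * α ^ 4 * (l ^ (5 / 6 : ℝ) * L₁ ^ 5) := by ring
      _ ≤ G * α ^ 4 * α := by gcongr
      _ = _ := by ring

/-- Short sums. -/
theorem small {M : O} {θ η C : ℝ} {J : ℕ} (hC : 0 < C) (h : Cen M θ η C J)
    {R α N G L₁ L₂ l τ : ℝ} (ν : Chr M) {c₁ c₂ : O → ℂ} (hα : 1 ≤ α)
    (hR : α ^ 6 ≤ R) (a1 : R⁻¹ ≤ N) (b1 : N ≤ R) (hG : 1 ≤ G) (hN : N ^ 2 ≤ G * α ^ 4)
    (h2 : 1 ≤ L₂) (h1 : L₂ ≤ L₁) (hl : 1 ≤ l) (hm : l ^ (5 / 6 : ℝ) * L₁ ^ 5 ≤ α)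
    (s1 : Supp M L₁ c₁) (s2 : Supp M L₂ c₂) (n1 : ∀ n, ‖c₁ n‖ ≤ 1) (n2 : ∀ n, ‖c₂ n‖ ≤ 1) :
    ∑ a ∈ nex M (α ^ 6), wt M L₁ L₂ c₁ c₂ a * ‖Pln ν a N (τ * Complex.I)‖ ^ 4 ≤
      3 * C * R ^ η * (1 + |τ|) ^ J * G * (α ^ 6 * (L₁ * L₂)) * (1 + (α ^ 6 / l) ^ θ) * N ^ 2 := by
  have := cen_use (τ := τ) hC h ν 0 hα hR a1 a1 a1 a1 b1 b1 b1 b1 rfl hG
    (Or.inl ⟨rfl, by rwa [← sq]⟩) h2 h1 hl hm s1 s2 n1 n2
  simp only [cenP, zero_mul, sub_zero, ← sq, norm_pow, ← pow_mul] at this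
  refine this.trans ?_
  obtain ⟨-, -, -, m4⟩ := marks hα h2 h1 hl hm
  have R0 : 0 < R := lt_of_lt_of_le (by positivity) hR
  have L1 : 0 < L₁ := by linarith
  have W0 : 0 ≤ (α ^ 6 / l) ^ θ := by positivity
  have e : l * N ^ 2 * L₁ ^ 5 * L₂ ^ 2 / α ^ 6 ≤ G := by
    rw [div_le_iff₀ (by positivity)]
    calc l * N ^ 2 * L₁ ^ 5 * L₂ ^ 2 = N ^ 2 * (l * L₁ ^ 5 * L₂ ^ 2) := by ring
      _ ≤ G * α ^ 4 * α ^ 2 := by gcongr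
      _ = _ := by ring
  calc _ ≤ C * R ^ η * (1 + |τ|) ^ J * (α ^ 6 * N ^ 2 * (L₁ * L₂)) *
        (3 * G * (1 + (α ^ 6 / l) ^ θ)) := by
        gcongr
        nlinarith
    _ = _ := by ring

theorem norm_Pln_triv {M : O} (hM : Adm M) : ∃ C : ℝ, 0 < C ∧ ∀ (ν : Chr M) (a : O) (N τ : ℝ),
    0 < N → ‖Pln ν a N (τ * Complex.I)‖ ≤ C * N ^ 2 := by
  obtain ⟨C, hC, h⟩ := tsum_norm_Sm_le 1 0 0 le_rfl
  refine ⟨C, hC, fun ν a N τ hN => ?_⟩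
  refine (norm_tsum_le_tsum_norm (summable_Sm (polyB_rc hM ν a) hN _)).trans
    ((h _ 1 N _ (polyB_rc hM ν a) hN (by simp)).trans ?_)
  rw [mul_one]
  refine mul_le_mul_of_nonneg_left ((min_le_right _ _).trans_eq ?_) hC.le
  norm_num

theorem split_le (P P₃ P₄ : ℂ) {s t : ℝ} (hs : 0 < s) (ht : 0 < t) :
    ‖P‖ ^ 4 ≤ 2 * ‖P * P - 1 * (P₃ * P₄)‖ ^ 2 + t / s * ‖P₃‖ ^ 4 + s / t * ‖P₄‖ ^ 4 := by
  have h1 : ‖P‖ ^ 2 ≤ ‖P * P - 1 * (P₃ * P₄)‖ + ‖P₃‖ * ‖P₄‖ := by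
    rw [sq, ← norm_mul, ← norm_mul, one_mul]
    exact norm_le_norm_sub_add _ _
  have h2 : 2 * (‖P₃‖ * ‖P₄‖) ^ 2 ≤ t / s * ‖P₃‖ ^ 4 + s / t * ‖P₄‖ ^ 4 := by
    rw [div_mul_eq_mul_div, div_mul_eq_mul_div, div_add_div _ _ hs.ne' ht.ne',
      le_div_iff₀ (by positivity)]
    nlinarith [sq_nonneg (t * ‖P₃‖ ^ 2 - s * ‖P₄‖ ^ 2)]
  calc ‖P‖ ^ 4 = (‖P‖ ^ 2) ^ 2 := by ring
    _ ≤ (‖P * P - 1 * (P₃ * P₄)‖ + ‖P₃‖ * ‖P₄‖) ^ 2 := by gcongr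
    _ ≤ _ := by nlinarith [sq_nonneg (‖P * P - 1 * (P₃ * P₄)‖ - ‖P₃‖ * ‖P₄‖)]

theorem budget {m ε A P : ℝ} {n : ℕ} (hn : 0 < n) (h1 : m ≤ 1) (h2 : m ≤ ε)
    (hA : 1 ≤ A) (hP : 1 ≤ P) : ((A * P) ^ (m / n)) ^ n ≤ A ^ ε * P := by
  rw [← Real.rpow_natCast, ← Real.rpow_mul (by positivity),
    div_mul_cancel₀ _ (by positivity), Real.mul_rpow (by positivity) (by positivity)]
  have e : P ^ m ≤ P := by
    conv_rhs => rw [← Real.rpow_one P]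
    exact Real.rpow_le_rpow_of_exponent_le hP h1
  gcongr

theorem rpow_le_self {η Q : ℝ} (h1 : η ≤ 1) (hQ : 1 ≤ Q) : Q ^ η ≤ Q := by
  conv_rhs => rw [← Real.rpow_one Q]
  exact Real.rpow_le_rpow_of_exponent_le hQ h1

/-- The long factor, by reflection. -/
theorem long_sum {M : O} (hM : Adm M) {θ η C : ℝ} {J : ℕ} (hC : 0 < C) (hη : 0 < η) (hη1 : η ≤ 1)
    (h : Cen M θ η C J) : ∃ K : ℝ, 0 < K ∧ ∀ (α Q L₁ L₂ l τ : ℝ) (ν : Chr M) (c₁ c₂ : O → ℂ),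
      1 ≤ α → α ^ 6 * (1 + |τ|) ≤ Q → 1 ≤ L₂ → L₂ ≤ L₁ → 1 ≤ l → l ^ (5 / 6 : ℝ) * L₁ ^ 5 ≤ α →
      Supp M L₁ c₁ → Supp M L₂ c₂ → (∀ n, ‖c₁ n‖ ≤ 1) → (∀ n, ‖c₂ n‖ ≤ 1) →
      ∑ a ∈ nex M (α ^ 6), wt M L₁ L₂ c₁ c₂ a * ‖Pln ν a (α ^ 4) (τ * Complex.I)‖ ^ 4 ≤
        K * ((Q ^ η) ^ 13 * (1 + |τ|) ^ (J + 13)) * (α ^ 6 * (L₁ * L₂)) * (1 + (α ^ 6 / l) ^ θ) *
          (α ^ 4) ^ 2 := by
  obtain ⟨C₁, hC₁, h₁⟩ := refl_sum hM hη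
  obtain ⟨C₃, hC₃, h₃⟩ := logpow hη (J + 9)
  refine ⟨C₁ * (1536 * C * C₃ + 32768), by positivity,
    fun α Q L₁ L₂ l τ ν c₁ c₂ hα hQ h2 h1 hl hm s1 s2 n1 n2 => ?_⟩
  obtain ⟨-, -, m3, -⟩ := marks hα h2 h1 hl hm
  set T := 1 + |τ| with hT
  have T1 : 1 ≤ T := le_add_of_nonneg_right (abs_nonneg τ)
  have A1 : 1 ≤ α ^ 6 := one_le_pow₀ hα
  have AQ : α ^ 6 ≤ Q := (le_mul_of_one_le_right (by positivity) T1).trans hQ
  have TQ : T ≤ Q := (le_mul_of_one_le_left (by positivity) A1).trans hQ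
  have Q1 : 1 ≤ Q := A1.trans AQ
  have Q0 : 0 < Q := by linarith
  have Q3 : Q ≤ Q ^ 3 := le_self_pow₀ Q1 (by norm_num)
  have a4 : 1 ≤ α ^ 4 := one_le_pow₀ hα
  have e3 : (Q ^ 3) ^ η = (Q ^ η) ^ 3 := (Real.rpow_pow_comm Q0.le η 3).symm
  have e8 : (8 * Q ^ 3) ^ η ≤ 8 * (Q ^ η) ^ 3 := by
    rw [Real.mul_rpow (by norm_num) (by positivity), e3]
    gcongr
    exact rpow_le_self hη1 (by norm_num)
  have DQ : Q ^ η ≤ Q := rpow_le_self hη1 Q1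
  have D1 : 1 ≤ Q ^ η := Real.one_le_rpow Q1 hη.le
  have hΛ := h₃ Q Q1
  have Λ0 : 0 ≤ 5 + Real.log Q := by linarith [Real.log_nonneg Q1]
  have L1 : 1 ≤ L₁ := h2.trans h1
  have hY : α ^ 2 * Q ^ η * T ^ 2 ≤ Q ^ 3 := by
    have : α * T ≤ Q := le_trans (by gcongr; exact le_self_pow₀ hα (by norm_num)) hQ
    calc α ^ 2 * Q ^ η * T ^ 2 = (α * T) ^ 2 * Q ^ η := by ring
      _ ≤ Q ^ 2 * Q := by gcongr
      _ = _ := by ring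
  have W0 : 0 ≤ (α ^ 6 / l) ^ θ := by positivity
  have key := h₁ (α ^ 6) Q (Q ^ 3) (α ^ 4) τ (α ^ 2 * Q ^ η * T ^ 2)
    (3 * C * (8 * (Q ^ η) ^ 3) * (T * (5 + Real.log Q)) ^ J * (64 * (Q ^ η) ^ 2 * T ^ 4) *
      (α ^ 6 * (L₁ * L₂)) * (1 + (α ^ 6 / l) ^ θ)) ν (wt M L₁ L₂ c₁ c₂) A1 AQ Q3
    ((inv_le_one_of_one_le₀ Q1).trans a4)
    ((pow_le_pow_right₀ hα (by norm_num)).trans AQ) (by linarith)
    (by rw [div_le_iff₀ (by positivity)]; exact le_of_eq (by ring)) hY (by positivity)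
    (wt_nonneg M L₁ L₂ c₁ c₂) fun ν' N' τ' b1 b2 b3 => by
      have N0 : 0 < N' := lt_of_lt_of_le (by positivity) b1
      refine (small (R := 8 * Q ^ 3) (G := 64 * (Q ^ η) ^ 2 * T ^ 4) hC h ν' hα (by linarith)
        (by rw [mul_inv, mul_comm]; exact b1) (by linarith)
        (one_le_mul_of_one_le_of_one_le (by nlinarith) (one_le_pow₀ T1))
        ((pow_le_pow_left₀ N0.le b2 2).trans_eq (by ring)) h2 h1 hl hm s1 s2 n1 n2).trans ?_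
      gcongr
      linarith [height_le (τ := τ) Q1]
  refine key.trans ?_
  have hw := sum_wt_le M A1 L1 h2 n1 n2
  rw [e3, ← hT]
  set D := Q ^ η
  set Λ := 5 + Real.log Q
  set W := 1 + (α ^ 6 / l) ^ θ with hW
  have W1 : 1 ≤ W := by linarith
  have U1 : 1 ≤ D ^ 13 * T ^ (J + 13) :=
    one_le_mul_of_one_le_of_one_le (one_le_pow₀ D1) (one_le_pow₀ T1)
  have LL : L₁ * L₂ ≤ (α ^ 4) ^ 2 :=
    m3.trans (by rw [← pow_mul]; exact le_self_pow₀ hα (by omega))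
  calc _ = C₁ * (1536 * C * Λ ^ (J + 9) * (D ^ 12 * T ^ (J + 13)) * (α ^ 6 * (L₁ * L₂)) * W *
        (α ^ 4) ^ 2 + ∑ a ∈ nex M (α ^ 6), wt M L₁ L₂ c₁ c₂ a) := by
        clear_value D Λ W T; ring
    _ ≤ C₁ * (1536 * C * (C₃ * D) * (D ^ 12 * T ^ (J + 13)) * (α ^ 6 * (L₁ * L₂)) * W *
        (α ^ 4) ^ 2 + 32768 * (D ^ 13 * T ^ (J + 13)) * (α ^ 6 * (L₁ * L₂)) * W * (α ^ 4) ^ 2) := by
        gcongr C₁ * (1536 * C * ?_ * _ * _ * _ * _ + ?_)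
        refine hw.trans ?_
        calc 32768 * α ^ 6 * (L₁ * L₂) ^ 2 = 32768 * 1 * (α ^ 6 * (L₁ * L₂)) * 1 * (L₁ * L₂) := by
              ring
          _ ≤ _ := by gcongr
    _ = _ := by ring

/-- The range `A^{1/3} ≤ N ≤ H √A`. -/
theorem step_big {M : O} (hM : Adm M) {θ η C : ℝ} {J : ℕ} (hC : 0 < C) (hη : 0 < η) (hη1 : η ≤ 1)
    (h : Cen M θ η C J) : ∃ K : ℝ, 0 < K ∧ ∀ (α N H L₁ L₂ l τ : ℝ) (ν : Chr M) (c₁ c₂ : O → ℂ),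
      1 ≤ α → 1 ≤ H → α ^ 2 ≤ N → N ≤ H * α ^ 3 → 1 ≤ L₂ → L₂ ≤ L₁ → 1 ≤ l →
      l ^ (5 / 6 : ℝ) * L₁ ^ 5 ≤ α →
      Supp M L₁ c₁ → Supp M L₂ c₂ → (∀ n, ‖c₁ n‖ ≤ 1) → (∀ n, ‖c₂ n‖ ≤ 1) →
      ∑ a ∈ nex M (α ^ 6), wt M L₁ L₂ c₁ c₂ a * ‖Pln ν a N (τ * Complex.I)‖ ^ 4 ≤
        K * (((α ^ 6 * (H * (1 + |τ|))) ^ η) ^ 13 * (H * (1 + |τ|)) ^ (J + 13)) *
          (α ^ 6 * N ^ 2 * (L₁ * L₂)) *
          (1 + l * N ^ 2 * L₁ ^ 5 * L₂ ^ 2 / α ^ 6 + (α ^ 6 / l) ^ θ) := by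
  obtain ⟨K, hK, hl⟩ := long_sum hM hC hη hη1 h
  refine ⟨4 * C + K + 3 * C, by positivity,
    fun α N H L₁ L₂ l τ ν c₁ c₂ hα hH hN hN' h2 h1 l1 hm s1 s2 n1 n2 => ?_⟩
  set T := 1 + |τ| with hT
  set Q := α ^ 6 * (H * T) with hQ
  have T1 : 1 ≤ T := le_add_of_nonneg_right (abs_nonneg τ)
  have A1 : 1 ≤ α ^ 6 := one_le_pow₀ hα
  have a4 : 1 ≤ α ^ 4 := one_le_pow₀ hα
  have TP : T ≤ H * T := le_mul_of_one_le_left (by linarith) hH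
  have HP : H ≤ H * T := le_mul_of_one_le_right (by linarith) T1
  have P1 : 1 ≤ H * T := T1.trans TP
  have N1 : 1 ≤ N := (one_le_pow₀ hα).trans hN
  have AQ : α ^ 6 ≤ Q := le_mul_of_one_le_right (by positivity) P1
  have Q1 : 1 ≤ Q := A1.trans AQ
  have Q0 : 0 < Q := by linarith
  have Q2 : Q ≤ Q ^ 2 := le_self_pow₀ Q1 (by norm_num)
  have Qi : (Q ^ 2)⁻¹ ≤ 1 := inv_le_one_of_one_le₀ (Q1.trans Q2)
  have NQ : N ≤ Q := hN'.trans (by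
    rw [mul_comm, hQ]; gcongr; norm_num)
  set t := N ^ 2 / α ^ 4 with ht
  have st : α ^ 4 * t = N ^ 2 := by rw [ht]; field_simp
  have t1 : 1 ≤ t := by
    rw [ht, le_div_iff₀ (by positivity), one_mul]
    exact (by ring : α ^ 4 = (α ^ 2) ^ 2).trans_le (by gcongr)
  have t2 : t ≤ (H * α) ^ 2 := by
    rw [ht, div_le_iff₀ (by positivity)]
    exact (pow_le_pow_left₀ (by linarith) hN' 2).trans_eq (by ring)
  have tQ : t ≤ Q ^ 2 := t2.trans (by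
    rw [mul_comm, hQ]; gcongr; exact le_self_pow₀ hα (by omega))
  have H2 : H ≤ H ^ 2 := le_self_pow₀ hH (by norm_num)
  have k1 := cen_use (τ := τ) (G := H ^ 2) hC h ν 1 hα (AQ.trans Q2) (Qi.trans N1) (Qi.trans N1)
    (Qi.trans a4) (Qi.trans t1) (NQ.trans Q2) (NQ.trans Q2)
    (((pow_le_pow_right₀ hα (by norm_num)).trans AQ).trans Q2) tQ (by rw [st, sq]) (hH.trans H2)
    (Or.inr ⟨rfl, hN'.trans (by gcongr; norm_num), hN'.trans (by gcongr; norm_num),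
      le_mul_of_one_le_left (by positivity) (hH.trans H2),
      t2.trans (by rw [mul_pow]; gcongr; norm_num)⟩) h2 h1 l1 hm s1 s2 n1 n2
  have k4 := small (τ := τ) (G := H ^ 4) hC h ν hα (AQ.trans Q2) (Qi.trans t1) tQ (one_le_pow₀ hH)
    ((pow_le_pow_left₀ (by linarith) t2 2).trans_eq (by ring)) h2 h1 l1 hm s1 s2 n1 n2
  have k3 := hl α Q L₁ L₂ l τ ν c₁ c₂ hα (by rw [hQ]; gcongr) h2 h1 l1 hm s1 s2 n1 n2
  rw [← Real.rpow_pow_comm Q0.le] at k1 k4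
  rw [← sq] at k1
  have D1 : 1 ≤ Q ^ η := Real.one_le_rpow Q1 hη.le
  have L0 : 0 < L₁ := by linarith
  have W0 : 0 ≤ (α ^ 6 / l) ^ θ := by positivity
  have V0 : 0 ≤ l * N ^ 2 * L₁ ^ 5 * L₂ ^ 2 / α ^ 6 := by positivity
  set D := Q ^ η
  set W := (α ^ 6 / l) ^ θ
  set V := l * N ^ 2 * L₁ ^ 5 * L₂ ^ 2 / α ^ 6
  have u4 : D ^ 2 * (T ^ J * H ^ 4) ≤ D ^ 13 * (H * T) ^ (J + 13) := by
    rw [pow_add]
    gcongr
    · norm_num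
    · exact (pow_le_pow_left₀ (by linarith) HP 4).trans (pow_le_pow_right₀ P1 (by norm_num))
  have u2 : D ^ 2 * (T ^ J * H ^ 2) ≤ D ^ 13 * (H * T) ^ (J + 13) :=
    le_trans (by gcongr; norm_num) u4
  have u3 : D ^ 13 * T ^ (J + 13) ≤ D ^ 13 * (H * T) ^ (J + 13) := by gcongr
  set U := D ^ 13 * (H * T) ^ (J + 13)
  have U0 : 0 ≤ U := le_trans (by positivity) u3
  calc _ ≤ ∑ a ∈ nex M (α ^ 6), wt M L₁ L₂ c₁ c₂ a *
        (2 * ‖cenP ν a N N (α ^ 4) t 1 (τ * Complex.I)‖ ^ 2 +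
          t / α ^ 4 * ‖Pln ν a (α ^ 4) (τ * Complex.I)‖ ^ 4 +
          α ^ 4 / t * ‖Pln ν a t (τ * Complex.I)‖ ^ 4) :=
        Finset.sum_le_sum fun a _ => mul_le_mul_of_nonneg_left
          (split_le _ _ _ (by positivity) (by linarith)) (wt_nonneg ..)
    _ = 2 * ∑ a ∈ nex M (α ^ 6), wt M L₁ L₂ c₁ c₂ a *
          ‖cenP ν a N N (α ^ 4) t 1 (τ * Complex.I)‖ ^ 2 +
        t / α ^ 4 * ∑ a ∈ nex M (α ^ 6), wt M L₁ L₂ c₁ c₂ a *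
          ‖Pln ν a (α ^ 4) (τ * Complex.I)‖ ^ 4 +
        α ^ 4 / t * ∑ a ∈ nex M (α ^ 6), wt M L₁ L₂ c₁ c₂ a * ‖Pln ν a t (τ * Complex.I)‖ ^ 4 := by
        simp only [Finset.mul_sum, ← Finset.sum_add_distrib]
        exact Finset.sum_congr rfl fun a _ => by ring
    _ ≤ 2 * (C * D ^ 2 * T ^ J * (α ^ 6 * N ^ 2 * (L₁ * L₂)) * (2 * H ^ 2 * (1 + V + W))) +
        t / α ^ 4 * (K * U * (α ^ 6 * (L₁ * L₂)) * (1 + V + W) * (α ^ 4) ^ 2) +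
        α ^ 4 / t * (3 * C * D ^ 2 * T ^ J * H ^ 4 * (α ^ 6 * (L₁ * L₂)) * (1 + V + W) * t ^ 2) := by
        gcongr
        · refine k1.trans ?_
          gcongr
          nlinarith
        · refine k3.trans ?_
          gcongr
          linarith
        · refine k4.trans ?_
          gcongr
          linarith
    _ = (4 * C * (D ^ 2 * (T ^ J * H ^ 2)) + K * U + 3 * C * (D ^ 2 * (T ^ J * H ^ 4))) *
        (α ^ 6 * N ^ 2 * (L₁ * L₂)) * (1 + V + W) := by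
        rw [← st]
        field_simp
        ring
    _ ≤ (4 * C * U + K * U + 3 * C * U) * (α ^ 6 * N ^ 2 * (L₁ * L₂)) * (1 + V + W) := by gcongr
    _ = _ := by ring

theorem step_of {M : O} (hM : Adm M) {θ ε : ℝ} (hε : 0 < ε)
    (h : ∀ η, 0 < η → ∃ (C : ℝ) (J : ℕ), 0 < C ∧ Cen M θ η C J) :
    ∃ (C : ℝ) (J : ℕ), 0 < C ∧ Step M θ ε C J := by
  have m0 : 0 < min ε 1 := lt_min hε one_pos
  set η : ℝ := min ε 1 / (13 : ℕ) with hη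
  have η0 : 0 < η := by positivity
  have η1 : η ≤ 1 := by
    rw [hη, div_le_one (by positivity)]
    exact (min_le_right _ _).trans (by norm_num)
  obtain ⟨C, J, hC, h⟩ := h η η0
  obtain ⟨K, hK, hb⟩ := step_big hM hC η0 η1 h
  obtain ⟨C₀, hC₀, h₀⟩ := norm_Pln_triv hM
  refine ⟨K + 3 * C + 32768 * C₀ ^ 4, J + 14, by positivity,
    fun A N H L₁ L₂ l τ ν c₁ c₂ hA hN hH hN' h2 h1 l1 hm s1 s2 n1 n2 => ?_⟩
  obtain ⟨α, hα, rfl⟩ : ∃ α : ℝ, 1 ≤ α ∧ A = α ^ 6 :=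
    ⟨A ^ ((6 : ℕ) : ℝ)⁻¹, Real.one_le_rpow hA (by positivity),
      (Real.rpow_inv_natCast_pow (by linarith) (by norm_num)).symm⟩
  have e1 := pow_six_rpow hα 1
  rw [Nat.cast_one, pow_one] at e1
  rw [e1] at hm
  rw [show α ^ 6 = (α ^ 3) ^ 2 by ring, Real.sqrt_sq (by positivity)] at hN'
  have T1 : 1 ≤ 1 + |τ| := le_add_of_nonneg_right (abs_nonneg τ)
  have P1 : 1 ≤ H * (1 + |τ|) := one_le_mul_of_one_le_of_one_le hH T1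
  have hbud := budget (n := 13) (by norm_num) (min_le_right ε 1) (min_le_left ε 1) hA P1
  rw [← hη] at hbud
  have L1 : 1 ≤ L₁ := h2.trans h1
  have W0 : 0 ≤ (α ^ 6 / l) ^ θ := by positivity
  have V0 : 0 ≤ l * N ^ 2 * L₁ ^ 5 * L₂ ^ 2 / α ^ 6 := by positivity
  have E1 : 1 ≤ (α ^ 6) ^ ε := Real.one_le_rpow hA hε.le
  have PJ : 1 ≤ (H * (1 + |τ|)) ^ (J + 14) := one_le_pow₀ P1
  simp only [mul_comm (‖Pln ν _ N (τ * Complex.I)‖ ^ 4)]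
  change ∑ a ∈ nex M (α ^ 6), wt M L₁ L₂ c₁ c₂ a * _ ≤ _
  rcases le_total (α ^ 2) N with c1 | c1
  · refine (hb α N H L₁ L₂ l τ ν c₁ c₂ hα hH c1 hN' h2 h1 l1 hm s1 s2 n1 n2).trans ?_
    gcongr ?_ * _ * _
    calc _ ≤ K * ((α ^ 6) ^ ε * (H * (1 + |τ|)) * (H * (1 + |τ|)) ^ (J + 13)) := by gcongr
      _ = K * (α ^ 6) ^ ε * (H * (1 + |τ|)) ^ (J + 14) := by ring
      _ ≤ _ := by gcongr; linarith [show 0 ≤ C₀ ^ 4 by positivity]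
  rcases le_total (α ^ 6)⁻¹ N with c2 | c2
  · refine (small (G := 1) hC h ν hα le_rfl c2 (c1.trans (pow_le_pow_right₀ hα (by norm_num))) le_rfl
      ((pow_le_pow_left₀ hN.le c1 2).trans_eq (by ring)) h2 h1 l1 hm s1 s2 n1 n2).trans ?_
    calc _ = 3 * C * (α ^ 6) ^ η * (1 + |τ|) ^ J * (α ^ 6 * N ^ 2 * (L₁ * L₂)) *
          (1 + (α ^ 6 / l) ^ θ) := by ring
      _ ≤ _ := by
          gcongr ?_ * ?_ * ?_ * _ * ?_
          · linarith [show 0 ≤ C₀ ^ 4 by positivity]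
          · refine Real.rpow_le_rpow_of_exponent_le hA ?_
            rw [hη, div_le_iff₀ (by positivity)]
            have := min_le_left ε 1
            push_cast
            linarith
          · exact (pow_le_pow_left₀ (by linarith)
              (le_mul_of_one_le_left (by linarith) hH) J).trans (pow_le_pow_right₀ P1 (by omega))
          · linarith
  · obtain ⟨-, -, m3, -⟩ := marks hα h2 h1 l1 hm
    have N1 : N ≤ 1 := c2.trans (inv_le_one_of_one_le₀ hA)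
    have NL : N * (L₁ * L₂) ≤ 1 := by
      calc N * (L₁ * L₂) ≤ (α ^ 6)⁻¹ * α ^ 6 := by
            gcongr; exact m3.trans (le_self_pow₀ hα (by norm_num))
        _ = 1 := inv_mul_cancel₀ (by positivity)
    calc _ ≤ ∑ a ∈ nex M (α ^ 6), wt M L₁ L₂ c₁ c₂ a * (C₀ * N ^ 2) ^ 4 :=
          Finset.sum_le_sum fun a _ => mul_le_mul_of_nonneg_left
            (pow_le_pow_left₀ (norm_nonneg _) (h₀ ν a N τ hN) 4) (wt_nonneg ..)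
      _ ≤ 32768 * α ^ 6 * (L₁ * L₂) ^ 2 * (C₀ * N ^ 2) ^ 4 := by
          rw [← Finset.sum_mul]
          gcongr
          exact sum_wt_le M hA L1 h2 n1 n2
      _ = 32768 * C₀ ^ 4 * (N * (L₁ * L₂)) * N ^ 5 * (α ^ 6 * N ^ 2 * (L₁ * L₂)) * 1 := by ring
      _ ≤ _ := by
          gcongr ?_ * ?_ * ?_ * _ * ?_
          · linarith
          · linarith
          · exact (pow_le_one₀ hN.le N1).trans PJ
          · linarith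

theorem slot_one (M a : O) : slot (sp M 1) (Pi.single 1 1) a = 1 := by
  classical
  have h : (1 : O) ∈ sp M 1 :=
    (LS2.mem_sp zero_le_one).2 ⟨⟨primary_one, squarefree_one, isCoprime_one_left⟩, by simp⟩
  rw [slot, Finset.sum_eq_single_of_mem 1 h fun b _ hb => by simp [hb]]
  simp [sym_one_left]

theorem supp_one (M : O) : Supp M 1 (Pi.single 1 1) := fun n hn => by
  classical
  obtain rfl : n = 1 := by
    by_contra h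
    exact hn (by simp [h])
  exact ⟨⟨primary_one, squarefree_one, isCoprime_one_left⟩, by simp⟩

theorem norm_single (n : O) : ‖(Pi.single 1 1 : O → ℂ) n‖ ≤ 1 := by
  classical
  by_cases h : n = 1 <;> simp [h]

/-- The fourth moment for `N ≤ H √A`. -/
def Half (M : O) (φ : ℝ) : Prop :=
  ∃ (C : ℝ) (J : ℕ), 0 < C ∧ ∀ (A N H τ : ℝ) (ν : Chr M), 1 ≤ A → 0 < N → 1 ≤ H →
    N ≤ H * Real.sqrt A → ∑ a ∈ nex M A, ‖Pln ν a N (τ * Complex.I)‖ ^ 4 ≤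
      C * (H * (1 + |τ|)) ^ J * A ^ (1 + φ) * N ^ 2

theorem half_of {M : O} {θ δ ε C : ℝ} {J : ℕ} (hδ : 0 < δ) (hδ1 : δ ≤ 1 / 5) (hC : 0 < C)
    (h : Step M θ ε C J) : Half M (max δ (θ * (1 - δ)) + ε) := by
  refine ⟨3 * C, J + 2, by positivity, fun A N H τ ν hA hN hH hN' => ?_⟩
  have A0 : 0 < A := by linarith
  have := h A N H 1 1 (A ^ δ) τ ν _ _ hA hN hH hN' le_rfl le_rfl (Real.one_le_rpow hA hδ.le)
    (by
      rw [one_pow, mul_one, ← Real.rpow_mul A0.le]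
      exact Real.rpow_le_rpow_of_exponent_le hA (by linarith))
    (supp_one M) (supp_one M) norm_single norm_single
  simp only [slot_one, norm_one, one_pow, mul_one] at this
  refine this.trans ?_
  set φ := max δ (θ * (1 - δ))
  have T1 : 1 ≤ 1 + |τ| := le_add_of_nonneg_right (abs_nonneg τ)
  have HP : H ≤ H * (1 + |τ|) := le_mul_of_one_le_right (by linarith) T1
  have P2 : 1 ≤ (H * (1 + |τ|)) ^ 2 := one_le_pow₀ (hH.trans HP)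
  have b1 : 1 ≤ A ^ φ := Real.one_le_rpow hA (hδ.le.trans (le_max_left _ _))
  have b2 : A ^ δ * N ^ 2 / A ≤ (H * (1 + |τ|)) ^ 2 * A ^ φ := by
    rw [div_le_iff₀ A0]
    calc A ^ δ * N ^ 2 ≤ A ^ φ * (H * (1 + |τ|) * Real.sqrt A) ^ 2 := by
          gcongr
          · exact le_max_left _ _
          · exact hN'.trans (by gcongr)
      _ = _ := by rw [mul_pow _ (Real.sqrt A), Real.sq_sqrt A0.le]; ring
  have b3 : (A / A ^ δ) ^ θ ≤ A ^ φ := by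
    rw [show A / A ^ δ = A ^ (1 - δ) by rw [Real.rpow_sub A0, Real.rpow_one],
      ← Real.rpow_mul A0.le, mul_comm]
    exact Real.rpow_le_rpow_of_exponent_le hA (le_max_right _ _)
  calc _ ≤ C * A ^ ε * (H * (1 + |τ|)) ^ J * (A * N ^ 2) * (3 * ((H * (1 + |τ|)) ^ 2 * A ^ φ)) := by
        gcongr
        nlinarith
    _ = _ := by rw [Real.rpow_add A0, Real.rpow_add A0, Real.rpow_one]; ring

/-- Reflection and decay remove the restriction on the length. -/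
theorem T4_of_half {M : O} (hM : Adm M) {φ ε : ℝ} (hφ : 0 ≤ φ) (hε : 0 < ε) (h : Half M φ) :
    T4 M (φ + ε) := by
  obtain ⟨C, J, hC, h⟩ := h
  have m0 : 0 < min ε 1 := lt_min hε one_pos
  set η : ℝ := min ε 1 / (2 * (J + 7) : ℕ) with hη
  have η0 : 0 < η := by positivity
  have η1 : η ≤ 1 := by
    rw [hη, div_le_one (by positivity)]
    exact (min_le_right _ _).trans (by exact_mod_cast (by omega))
  obtain ⟨C₁, hC₁, h₁⟩ := refl_sum hM η0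
  obtain ⟨C₃, hC₃, h₃⟩ := logpow η0 (J + 9)
  obtain ⟨C₀, hC₀, h₀⟩ := Pln_decay hM one_half_pos 0
  refine ⟨C + 8 * C₀ ^ 4 + C₁ * (C * 8 ^ J * C₃ + 8), 3 * J + 11, by positivity,
    fun A N τ ν hA hN => ?_⟩
  set T := 1 + |τ| with hT
  have T1 : 1 ≤ T := le_add_of_nonneg_right (abs_nonneg τ)
  have A0 : 0 < A := by linarith
  have x1 : 0 ≤ 8 * C₀ ^ 4 := by positivity
  have x2 : 0 ≤ C₁ * (C * 8 ^ J * C₃ + 8) := by positivity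
  have AA : A ≤ A ^ (1 + φ) := by
    conv_lhs => rw [← Real.rpow_one A]
    exact Real.rpow_le_rpow_of_exponent_le hA (by linarith)
  have AB : A ^ (1 + φ) ≤ A ^ (1 + (φ + ε)) := Real.rpow_le_rpow_of_exponent_le hA (by linarith)
  rcases le_total N (Real.sqrt A) with c1 | c1
  · refine (h A N 1 τ ν hA hN le_rfl (by rwa [one_mul])).trans ?_
    rw [one_mul, ← hT]
    gcongr ?_ * ?_ * ?_ * _
    · linarith
    · exact pow_le_pow_right₀ T1 (by omega)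
  have N1 : 1 ≤ N := (Real.one_le_sqrt.2 hA).trans c1
  have N2 : 1 ≤ N ^ 2 := one_le_pow₀ N1
  set Q := A * T ^ 2 with hQ
  have T2 : T ≤ T ^ 2 := le_self_pow₀ T1 (by norm_num)
  have AQ : A ≤ Q := le_mul_of_one_le_right A0.le (T1.trans T2)
  have TQ : T ≤ Q := T2.trans (le_mul_of_one_le_left (by positivity) hA)
  have Q1 : 1 ≤ Q := hA.trans AQ
  have Q0 : 0 < Q := by linarith
  have Q2 : Q ≤ Q ^ 2 := le_self_pow₀ Q1 (by norm_num)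
  rcases le_total (Q ^ 2) N with c2 | c2
  · have b : ∀ a ∈ nex M A, ‖Pln ν a N (τ * Complex.I)‖ ^ 4 ≤ C₀ ^ 4 := fun a ha => by
      obtain ⟨a1, a2⟩ := mem_nex hA ha
      have := h₀ N N (τ * Complex.I) ν a N1 a1 ?_ le_rfl (by simp) (by simp; linarith)
      · rw [neg_zero, Real.rpow_zero, mul_one] at this
        gcongr
      · simp only [Complex.mul_im, Complex.ofReal_re, Complex.I_im, mul_one, Complex.ofReal_im,
          Complex.I_re, mul_zero, add_zero]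
        rw [← hT, ← Real.sqrt_eq_rpow]
        calc nr a * Real.sqrt N * T ^ 2 ≤ A * Real.sqrt N * T ^ 2 := by gcongr
          _ = Q * Real.sqrt N := by ring
          _ ≤ Real.sqrt N * Real.sqrt N := by gcongr; exact Real.le_sqrt_of_sq_le c2
          _ = N := Real.mul_self_sqrt hN.le
    refine (Finset.sum_le_card_nsmul _ _ _ b).trans ?_
    rw [nsmul_eq_mul]
    calc _ ≤ 8 * A * C₀ ^ 4 := by gcongr; exact card_nex M hA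
      _ = 8 * C₀ ^ 4 * 1 * A * 1 := by ring
      _ ≤ _ := by
          gcongr ?_ * ?_ * ?_ * ?_
          · linarith
          · exact one_le_pow₀ T1
          · exact AA.trans AB
  have hbud := budget (n := 2 * (J + 7)) (by omega) (min_le_right ε 1) (min_le_left ε 1) hA
    (T1.trans T2)
  rw [← hη, ← hQ, pow_mul, Real.rpow_pow_comm Q0.le] at hbud
  set R := Q ^ 2 with hR
  have R1 : 1 ≤ R := Q1.trans Q2
  have R0 : 0 < R := by linarith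
  have D1 : 1 ≤ R ^ η := Real.one_le_rpow R1 η0.le
  have DR : R ^ η ≤ R := rpow_le_self η1 R1
  have sA : Real.sqrt A ≤ A := Real.sqrt_le_self_iff.2 (Or.inr hA)
  have Λ0 : 0 ≤ 5 + Real.log R := by linarith [Real.log_nonneg R1]
  have H1 : 1 ≤ 8 * R ^ η * T ^ 2 := one_le_mul_of_one_le_of_one_le (by linarith) (T1.trans T2)
  have key := h₁ A R (R ^ 2) N τ (Real.sqrt A * R ^ η * T ^ 2)
    (C * (8 * R ^ η * T ^ 2 * (T * (5 + Real.log R))) ^ J * A ^ (1 + φ)) ν (fun _ => 1) hA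
    (AQ.trans Q2) (le_self_pow₀ R1 (by norm_num)) ((inv_le_one_of_one_le₀ R1).trans N1) c2
    (by linarith)
    (by
      rw [div_le_iff₀ hN, ← hT]
      calc A * R ^ η * T ^ 2 = Real.sqrt A * R ^ η * T ^ 2 * Real.sqrt A := by
            conv_lhs => rw [← Real.mul_self_sqrt A0.le]
            ring
        _ ≤ _ := by gcongr)
    (by
      calc Real.sqrt A * R ^ η * T ^ 2 ≤ A * R * T ^ 2 := by gcongr
        _ = Q * R := by ring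
        _ ≤ R * R := by gcongr
        _ = _ := by ring)
    (by positivity) (fun _ => zero_le_one) fun ν' N' τ' b1 b2 b3 => by
      have N0 : 0 < N' := lt_of_lt_of_le (by positivity) b1
      simp only [one_mul]
      refine (h A N' _ τ' ν' hA N0 H1 (b2.trans_eq (by ring))).trans ?_
      gcongr
      linarith [height_le (τ := τ) R1]
  simp only [one_mul, Finset.sum_const, nsmul_eq_mul, mul_one] at key
  refine key.trans ?_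
  rw [← Real.rpow_pow_comm R0.le, ← hT]
  have hΛ := h₃ R R1
  have hc := card_nex M hA
  set D := R ^ η
  set Λ := 5 + Real.log R
  have E1 : 1 ≤ A ^ ε := Real.one_le_rpow hA hε.le
  calc _ = C₁ * (C * 8 ^ J * Λ ^ (J + 9) * D ^ (J + 6) * T ^ (3 * J + 9) * A ^ (1 + φ) * N ^ 2 +
        (nex M A).card) := by ring
    _ ≤ C₁ * (C * 8 ^ J * (C₃ * D) * D ^ (J + 6) * T ^ (3 * J + 9) * A ^ (1 + φ) * N ^ 2 +
        8 * (1 * 1 * A * 1)) := by gcongr; linarith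
    _ = C₁ * (C * 8 ^ J * C₃ * D ^ (J + 7) * T ^ (3 * J + 9) * A ^ (1 + φ) * N ^ 2 +
        8 * (1 * 1 * A * 1)) := by ring
    _ ≤ C₁ * (C * 8 ^ J * C₃ * (A ^ ε * T ^ 2) * T ^ (3 * J + 9) * A ^ (1 + φ) * N ^ 2 +
        8 * (T ^ (3 * J + 11) * A ^ ε * A ^ (1 + φ) * N ^ 2)) := by
        gcongr
        exact one_le_pow₀ T1
    _ = C₁ * (C * 8 ^ J * C₃ + 8) * T ^ (3 * J + 11) * A ^ (1 + (φ + ε)) * N ^ 2 := by
        rw [← add_assoc, Real.rpow_add A0 (1 + φ)]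
        ring
    _ ≤ _ := by gcongr; linarith

theorem mom4_of {M : O} (hM : Adm M) {ε : ℝ} (hε : 0 < ε)
    (h : ∀ θ δ ε : ℝ, T4 M θ → 0 ≤ θ → 0 < δ → δ ≤ 1 / 5 → 0 < ε →
      T4 M (max δ (θ * (1 - δ)) + ε)) : T4 M ε := by
  set δ := min (ε / 2) (1 / 5)
  have d0 : 0 < δ := lt_min (by positivity) (by norm_num)
  have d1 : δ ≤ 1 / 5 := min_le_right _ _
  have d2 : δ ≤ ε / 2 := min_le_left _ _
  have key : ∀ n : ℕ, T4 M (max (2 * δ) (4 - n * δ ^ 2)) := fun n => by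
    induction n with
    | zero => exact (T4_four hM).mono (le_max_of_le_right (by simp))
    | succ n ih =>
      have b := le_max_left (2 * δ) (4 - n * δ ^ 2)
      refine (h _ δ (δ ^ 2) ih (by linarith) d0 d1 (by positivity)).mono ?_
      rw [← le_sub_iff_add_le, max_le_iff, le_sub_iff_add_le, le_sub_iff_add_le]
      refine ⟨le_max_of_le_left (by nlinarith), ?_⟩
      rcases le_total (2 * δ) (4 - n * δ ^ 2) with c | c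
      · rw [max_eq_right c]
        refine le_max_of_le_right ?_
        push_cast
        nlinarith
      · rw [max_eq_left c]
        exact le_max_of_le_left (by nlinarith)
  obtain ⟨n, hn⟩ := exists_nat_ge (4 / δ ^ 2)
  rw [div_le_iff₀ (by positivity)] at hn
  exact (key n).mono (max_le (by linarith) (by linarith))

theorem slot_eq {M : O} {L : ℝ} (hL : 1 ≤ L) {Z : Finset O} (hZ : ∀ z ∈ Z, SP M z ∧ nr z ≤ L)
    {c : O → ℂ} (hc : ∀ n, ‖c n‖ ≤ 1) : ∃ c' : O → ℂ, Supp M L c' ∧ (∀ n, ‖c' n‖ ≤ 1) ∧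
      ∀ a, slot Z c a = slot (sp M L) c' a := by
  classical
  refine ⟨fun n => if n ∈ Z then c n else 0, fun n hn => hZ n (by by_contra h; simp [h] at hn),
    fun n => by by_cases h : n ∈ Z <;> simp [h, hc], fun a => ?_⟩
  have hs : Z ⊆ sp M L := fun z hz => (LS2.mem_sp (by linarith)).2 (hZ z hz)
  rw [slot, slot, ← Finset.sum_subset hs fun x _ hx => by simp [hx]]
  exact Finset.sum_congr rfl fun x hx => by simp [hx]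

theorem fill_of {M : O} {ε : ℝ} (hε : 0 < ε)
    (h : ∃ (C : ℝ) (J : ℕ), 0 < C ∧ Step M (ε / 2) (ε / 2) C J) : ∃ (C : ℝ) (J : ℕ), 0 < C ∧
    ∀ (A N L₁ L₂ τ : ℝ) (ν : Chr M) (Z₁ Z₂ : Finset O) (c₁ c₂ : O → ℂ), 1 ≤ A → 0 < N → 1 ≤ L₂ →
      L₂ ≤ L₁ → L₁ ^ 30 ≤ A → N ^ 2 * L₁ ^ 5 * L₂ ^ 2 ≤ A → (∀ z ∈ Z₁, SP M z ∧ nr z ≤ L₁) →
      (∀ z ∈ Z₂, SP M z ∧ nr z ≤ L₂) → (∀ n, ‖c₁ n‖ ≤ 1) → (∀ n, ‖c₂ n‖ ≤ 1) →
      ∑ a ∈ nex M A, ‖Pln ν a N (τ * Complex.I)‖ ^ 4 * (‖slot Z₁ c₁ a‖ ^ 2 * ‖slot Z₂ c₂ a‖ ^ 2) ≤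
        C * A ^ ε * (1 + |τ|) ^ J * (A * N ^ 2 * (L₁ * L₂)) := by
  obtain ⟨C, J, hC, h⟩ := h
  refine ⟨3 * C, J, by positivity,
    fun A N L₁ L₂ τ ν Z₁ Z₂ c₁ c₂ hA hN h2 h1 h30 hq z1 z2 n1 n2 => ?_⟩
  have L1 : 1 ≤ L₁ := h2.trans h1
  have A0 : 0 < A := by linarith
  obtain ⟨d₁, s1, m1, e1⟩ := slot_eq L1 z1 n1
  obtain ⟨d₂, s2, m2, e2⟩ := slot_eq h2 z2 n2
  simp only [e1, e2]
  have hN' : N ^ 2 ≤ A := le_trans (by
    rw [mul_assoc]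
    exact le_mul_of_one_le_right (by positivity)
      (one_le_mul_of_one_le_of_one_le (one_le_pow₀ L1) (one_le_pow₀ h2))) hq
  refine (h A N 1 L₁ L₂ 1 τ ν d₁ d₂ hA hN le_rfl (by rw [one_mul]; exact Real.le_sqrt_of_sq_le hN')
    h2 h1 le_rfl ?_ s1 s2 m1 m2).trans ?_
  · rw [Real.one_rpow, one_mul, one_div, Real.le_rpow_inv_iff_of_pos (by positivity) A0.le
      (by norm_num), show (6 : ℝ) = (6 : ℕ) by norm_num, Real.rpow_natCast, ← pow_mul]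
    exact h30
  · have b1 : 1 ≤ A ^ (ε / 2) := Real.one_le_rpow hA (by positivity)
    have b2 : N ^ 2 * L₁ ^ 5 * L₂ ^ 2 / A ≤ 1 := (div_le_one A0).2 hq
    rw [one_mul, one_mul, div_one]
    calc _ ≤ C * A ^ (ε / 2) * (1 + |τ|) ^ J * (A * N ^ 2 * (L₁ * L₂)) * (3 * A ^ (ε / 2)) := by
          gcongr; linarith
      _ = 3 * C * (A ^ (ε / 2) * A ^ (ε / 2)) * (1 + |τ|) ^ J * (A * N ^ 2 * (L₁ * L₂)) := by ring
      _ = _ := by rw [← Real.rpow_add A0, add_halves]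

end Crest.Agent.R17.M4B
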