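import Crest.Agent.R17.M4Sup
import Crest.Agent.R17.Mom4AuxA
import Crest.Agent.R17.Mom4AuxB

/-!
# Row 17, module M4: the fourth moment of plain sums, without and with marks
-/

set_option autoImplicit false

noncomputable section

namespace Crest.Agent.R17

open scoped ComplexConjugate

/-- The basic estimate for a (centred) product of two plain sums with two marks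
(`trunc_cen`, `extract_powerful`, `gcore`, `back_sqB_le`, `T4.sum_psup_weight`, `sum_exc_min_le`). -/
theorem cen_bound {M : O} (hM : Adm M) {θ ε : ℝ} (h : T4 M θ) (hθ : 0 ≤ θ) (hε : 0 < ε) :
    ∃ (C : ℝ) (J : ℕ), 0 < C ∧ ∀ (R A N₁ N₂ N₃ N₄ L₁ L₂ l Y τ : ℝ) (ν : Chr M) (κ : ℂ)
      (c₁ c₂ : O → ℂ), 1 ≤ A → A ≤ R → R⁻¹ ≤ N₁ → R⁻¹ ≤ N₂ → R⁻¹ ≤ N₃ → R⁻¹ ≤ N₄ → N₁ ≤ R →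
      N₂ ≤ R → N₃ ≤ R → N₄ ≤ R → N₁ * N₂ = N₃ * N₄ → 1 ≤ L₂ → L₂ ≤ L₁ → L₁ ≤ R → 1 ≤ l → l ≤ A →
      1 ≤ Y → (κ = 0 ∧ N₁ * N₂ ≤ Y ∨ κ = 1 ∧ N₁ ≤ Y ∧ N₂ ≤ Y ∧ N₃ ≤ Y ∧ N₄ ≤ Y) →
      Supp M L₁ c₁ → Supp M L₂ c₂ → (∀ n, ‖c₁ n‖ ≤ 1) → (∀ n, ‖c₂ n‖ ≤ 1) →
      ∑ a ∈ ball ⌊A⌋₊, ‖cenP ν a N₁ N₂ N₃ N₄ κ (τ * Complex.I)‖ ^ 2 *
          (‖slot (sp M L₁) c₁ a‖ ^ 2 * ‖slot (sp M L₂) c₂ a‖ ^ 2) ≤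
        C * R ^ ε * (1 + |τ|) ^ J * (A * (N₁ * N₂) * (L₁ * L₂)) *
          (1 + l * (N₁ * N₂) * L₁ ^ 5 * L₂ ^ 2 / A + (A / l) ^ θ +
            Y * l ^ (5 / 6 : ℝ) * L₁ ^ 5 / A ^ (5 / 6 : ℝ)) :=
  Mom4A.cen_bound hM h hθ hε

/-- One step: centring at `μ N = A^{2/3}`, reflection, Cauchy–Schwarz. -/
theorem step_bound {M : O} (hM : Adm M) {θ ε : ℝ} (h : T4 M θ) (hθ : 0 ≤ θ) (hε : 0 < ε) :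
    ∃ (C : ℝ) (J : ℕ), 0 < C ∧ ∀ (A N H L₁ L₂ l τ : ℝ) (ν : Chr M) (c₁ c₂ : O → ℂ), 1 ≤ A → 0 < N →
      1 ≤ H → N ≤ H * Real.sqrt A → 1 ≤ L₂ → L₂ ≤ L₁ → 1 ≤ l →
      l ^ (5 / 6 : ℝ) * L₁ ^ 5 ≤ A ^ (1 / 6 : ℝ) →
      Supp M L₁ c₁ → Supp M L₂ c₂ → (∀ n, ‖c₁ n‖ ≤ 1) → (∀ n, ‖c₂ n‖ ≤ 1) →
      ∑ a ∈ nex M A, ‖Pln ν a N (τ * Complex.I)‖ ^ 4 *
          (‖slot (sp M L₁) c₁ a‖ ^ 2 * ‖slot (sp M L₂) c₂ a‖ ^ 2) ≤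
        C * A ^ ε * (H * (1 + |τ|)) ^ J * (A * N ^ 2 * (L₁ * L₂)) *
          (1 + l * N ^ 2 * L₁ ^ 5 * L₂ ^ 2 / A + (A / l) ^ θ) :=
  M4B.step_of hM hε fun _ hη => cen_bound hM h hθ hη

theorem T4.step {M : O} (hM : Adm M) {θ δ ε : ℝ} (h : T4 M θ) (hθ : 0 ≤ θ) (hδ : 0 < δ)
    (hδ1 : δ ≤ 1 / 5) (hε : 0 < ε) : T4 M (max δ (θ * (1 - δ)) + ε) := by
  obtain ⟨C, J, hC, hs⟩ := step_bound hM h hθ (half_pos hε)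
  rw [← add_halves ε, ← add_assoc]
  exact M4B.T4_of_half hM (add_nonneg (hδ.le.trans (le_max_left _ _)) (half_pos hε).le) (half_pos hε)
    (M4B.half_of hδ hδ1 hC hs)

/-- **Fourth moment.** -/
theorem mom4 {M : O} (hM : Adm M) {ε : ℝ} (hε : 0 < ε) : T4 M ε :=
  M4B.mom4_of hM hε fun _ _ _ h => T4.step hM h

/-- **Fourth moment with marks** (`2q + 7l/2 ≤ 1`, `l ≤ 1/15` when `L₁ = L₂`). -/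
theorem mom4_fill {M : O} (hM : Adm M) {ε : ℝ} (hε : 0 < ε) : ∃ (C : ℝ) (J : ℕ), 0 < C ∧
    ∀ (A N L₁ L₂ τ : ℝ) (ν : Chr M) (Z₁ Z₂ : Finset O) (c₁ c₂ : O → ℂ), 1 ≤ A → 0 < N → 1 ≤ L₂ →
      L₂ ≤ L₁ → L₁ ^ 30 ≤ A → N ^ 2 * L₁ ^ 5 * L₂ ^ 2 ≤ A → (∀ z ∈ Z₁, SP M z ∧ nr z ≤ L₁) →
      (∀ z ∈ Z₂, SP M z ∧ nr z ≤ L₂) → (∀ n, ‖c₁ n‖ ≤ 1) → (∀ n, ‖c₂ n‖ ≤ 1) →
      ∑ a ∈ nex M A, ‖Pln ν a N (τ * Complex.I)‖ ^ 4 * (‖slot Z₁ c₁ a‖ ^ 2 * ‖slot Z₂ c₂ a‖ ^ 2) ≤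
        C * A ^ ε * (1 + |τ|) ^ J * (A * N ^ 2 * (L₁ * L₂)) :=
  M4B.fill_of hε (step_bound hM (mom4 hM (half_pos hε)) (half_pos hε).le (half_pos hε))

end Crest.Agent.R17
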