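import Mathlib

/-!
# Row 17, module M14: the exponent inequality
-/

set_option autoImplicit false

namespace Crest.Agent.R17

/-- The allowed excess in the count of the rows of class `(δ, q)`. -/
noncomputable def Eexc (δ q : ℝ) : ℝ :=
  16 / 13 * (max (7 / 8) ((1 + δ) / 2) - 25 / 36 - 23 / 144 + 7 / 48 * δ - q / 12 - 1 / 2000)

theorem numeric_cover {δ q E : ℝ} (h₁ : 1 ≤ 50 * δ) (h₂ : δ ≤ 1) (h₃ : 0 ≤ q) (h₄ : q ≤ δ)
    (hE : 976 + 7000 * δ - 4000 * q ≤ 39000 * E) : ∃ U V S : ℝ,
      (0 ≤ U ∧ U ≤ 5000 ∧ 0 ≤ V ∧ V ≤ 3800 ∧ 10000 - 2 * U - 2 * V ≤ S) ∧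
      (5 - 6 * δ) * U ≤ 60000 * E ∧ (2 * δ - q) * V ≤ 20000 * E ∧
      (7 * δ - 2 * q) * S ≤ 70000 * E ∧ δ * S - 600 * q ≤ 10000 * E := by
  rcases le_total (50 * δ) 27 with h | h
  swap
  · exact ⟨2260, 2030, 1420, by norm_num, by linarith, by linarith, by linarith, by linarith⟩
  rcases le_total (500 * δ - 250 * q) 173 with h | h
  swap
  · exact ⟨1787, 2258, 1910, by norm_num, by linarith, by linarith, by linarith, by linarith⟩
  rcases le_total (100 * q) 27 with h | h
  · rcases le_total (1000 * δ - 500 * q) 127 with h | h
    · exact ⟨325, 3505, 2340, by norm_num, by linarith, by linarith, by linarith, by linarith⟩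
    rcases le_total (125 * δ) 38 with h | h
    · rcases le_total (500 * δ - 250 * q) 77 with h | h
      · exact ⟨675, 3195, 2260, by norm_num, by linarith, by linarith, by linarith, by linarith⟩
      rcases le_total (125 * δ) 28 with h | h
      · exact ⟨770, 2910, 2640, by norm_num, by linarith, by linarith, by linarith, by linarith⟩
      rcases le_total (1000 * δ - 500 * q) 243 with h | h
      swap
      · exact ⟨1162, 2618, 2440, by norm_num, by linarith, by linarith, by linarith, by linarith⟩
      rcases le_total (1000 * δ - 500 * q) 219 with h | h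
      swap
      · exact ⟨1050, 2760, 2380, by norm_num, by linarith, by linarith, by linarith, by linarith⟩
      rcases le_total (500 * δ + 500 * q) 183 with h | h
      · exact ⟨834, 2880, 2572, by norm_num, by linarith, by linarith, by linarith, by linarith⟩
      rcases le_total (1000 * δ - 500 * q) 173 with h | h
      · exact ⟨835, 3045, 2240, by norm_num, by linarith, by linarith, by linarith, by linarith⟩
      rcases le_total (200 * δ - 100 * q) 39 with h | h
      swap
      · exact ⟨1007, 2838, 2310, by norm_num, by linarith, by linarith, by linarith, by linarith⟩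
      rcases le_total (500 * δ + 500 * q) 263 with h | h
      · exact ⟨913, 2934, 2306, by norm_num, by linarith, by linarith, by linarith, by linarith⟩
      exact ⟨960, 2940, 2200, by norm_num, by linarith, by linarith, by linarith, by linarith⟩
    rcases le_total (1000 * δ - 500 * q) 311 with h | h
    swap
    · exact ⟨1547, 2418, 2070, by norm_num, by linarith, by linarith, by linarith, by linarith⟩
    rcases le_total (500 * δ - 250 * q) 147 with h | h
    swap
    · exact ⟨1464, 2488, 2096, by norm_num, by linarith, by linarith, by linarith, by linarith⟩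
    rcases le_total (250 * δ - 500 * q) 17 with h | h
    swap
    · exact ⟨1274, 2580, 2292, by norm_num, by linarith, by linarith, by linarith, by linarith⟩
    rcases le_total (500 * δ - 250 * q) 133 with h | h
    swap
    · exact ⟨1417, 2528, 2110, by norm_num, by linarith, by linarith, by linarith, by linarith⟩
    rcases le_total (500 * q) 97 with h | h
    · rcases le_total (500 * δ - 250 * q) 117 with h | h
      · exact ⟨1100, 2750, 2300, by norm_num, by linarith, by linarith, by linarith, by linarith⟩
      exact ⟨1232, 2642, 2252, by norm_num, by linarith, by linarith, by linarith, by linarith⟩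
    rcases le_total (500 * δ - 250 * q) 121 with h | h
    swap
    · exact ⟨1330, 2605, 2130, by norm_num, by linarith, by linarith, by linarith, by linarith⟩
    rcases le_total (1000 * δ - 500 * q) 227 with h | h
    swap
    · exact ⟨1240, 2685, 2150, by norm_num, by linarith, by linarith, by linarith, by linarith⟩
    rcases le_total (200 * δ - 100 * q) 43 with h | h
    swap
    · exact ⟨1172, 2744, 2168, by norm_num, by linarith, by linarith, by linarith, by linarith⟩
    rcases le_total (250 * δ - 125 * q) 51 with h | h
    swap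
    · exact ⟨1115, 2795, 2180, by norm_num, by linarith, by linarith, by linarith, by linarith⟩
    rcases le_total (250 * δ - 125 * q) 47 with h | h
    · exact ⟨980, 2940, 2160, by norm_num, by linarith, by linarith, by linarith, by linarith⟩
    exact ⟨1054, 2851, 2190, by norm_num, by linarith, by linarith, by linarith, by linarith⟩
  rcases le_total (250 * δ - 125 * q) 71 with h | h
  swap
  · exact ⟨1750, 2370, 1760, by norm_num, by linarith, by linarith, by linarith, by linarith⟩
  rcases le_total (250 * δ) 101 with h | h
  swap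
  · rcases le_total (125 * δ) 59 with h | h
    swap
    · exact ⟨1697, 2444, 1718, by norm_num, by linarith, by linarith, by linarith, by linarith⟩
    rcases le_total (200 * δ - 100 * q) 51 with h | h
    swap
    · exact ⟨1559, 2506, 1870, by norm_num, by linarith, by linarith, by linarith, by linarith⟩
    rcases le_total (125 * δ) 56 with h | h
    swap
    · exact ⟨1540, 2555, 1810, by norm_num, by linarith, by linarith, by linarith, by linarith⟩
    rcases le_total (1000 * δ - 500 * q) 237 with h | h
    swap
    · exact ⟨1473, 2582, 1890, by norm_num, by linarith, by linarith, by linarith, by linarith⟩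
    rcases le_total (100 * δ - 50 * q) 23 with h | h
    swap
    · exact ⟨1440, 2622, 1876, by norm_num, by linarith, by linarith, by linarith, by linarith⟩
    rcases le_total (100 * δ) 43 with h | h
    swap
    · exact ⟨1440, 2635, 1850, by norm_num, by linarith, by linarith, by linarith, by linarith⟩
    rcases le_total (50 * δ - 25 * q) 11 with h | h
    swap
    · exact ⟨1392, 2659, 1898, by norm_num, by linarith, by linarith, by linarith, by linarith⟩
    rcases le_total (200 * δ - 100 * q) 43 with h | h
    swap
    · exact ⟨1368, 2687, 1890, by norm_num, by linarith, by linarith, by linarith, by linarith⟩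
    rcases le_total (500 * δ - 1000 * q) (-197) with h | h
    swap
    · exact ⟨1318, 2716, 1932, by norm_num, by linarith, by linarith, by linarith, by linarith⟩
    rcases le_total (1000 * δ - 500 * q) 209 with h | h
    swap
    · exact ⟨1355, 2700, 1890, by norm_num, by linarith, by linarith, by linarith, by linarith⟩
    rcases le_total (500 * δ + 500 * q) 417 with h | h
    · exact ⟨1306, 2736, 1916, by norm_num, by linarith, by linarith, by linarith, by linarith⟩
    exact ⟨1350, 2700, 1900, by norm_num, by linarith, by linarith, by linarith, by linarith⟩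
  rcases le_total (125 * δ) 42 with h | h
  · rcases le_total (1000 * δ - 500 * q) 159 with h | h
    · exact ⟨812, 3112, 2152, by norm_num, by linarith, by linarith, by linarith, by linarith⟩
    rcases le_total (100 * δ - 50 * q) 17 with h | h
    · exact ⟨928, 3016, 2112, by norm_num, by linarith, by linarith, by linarith, by linarith⟩
    rcases le_total (1000 * δ - 500 * q) 181 with h | h
    · exact ⟨985, 2957, 2116, by norm_num, by linarith, by linarith, by linarith, by linarith⟩
    rcases le_total (1000 * δ - 500 * q) 197 with h | h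
    · exact ⟨1044, 2884, 2144, by norm_num, by linarith, by linarith, by linarith, by linarith⟩
    exact ⟨1100, 2850, 2100, by norm_num, by linarith, by linarith, by linarith, by linarith⟩
  rcases le_total (125 * q) 42 with h | h
  · rcases le_total (250 * δ - 125 * q) 59 with h | h
    swap
    · exact ⟨1382, 2596, 2044, by norm_num, by linarith, by linarith, by linarith, by linarith⟩
    rcases le_total (40 * δ - 20 * q) 9 with h | h
    swap
    · exact ⟨1308, 2672, 2040, by norm_num, by linarith, by linarith, by linarith, by linarith⟩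
    rcases le_total (125 * q) 38 with h | h
    · rcases le_total (100 * δ - 50 * q) 21 with h | h
      swap
      · exact ⟨1213, 2733, 2108, by norm_num, by linarith, by linarith, by linarith, by linarith⟩
      rcases le_total (250 * δ - 125 * q) 49 with h | h
      · exact ⟨1080, 2860, 2120, by norm_num, by linarith, by linarith, by linarith, by linarith⟩
      exact ⟨1138, 2800, 2124, by norm_num, by linarith, by linarith, by linarith, by linarith⟩
    rcases le_total (250 * δ - 125 * q) 53 with h | h
    swap
    · exact ⟨1260, 2715, 2050, by norm_num, by linarith, by linarith, by linarith, by linarith⟩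
    rcases le_total (500 * δ - 250 * q) 101 with h | h
    swap
    · exact ⟨1197, 2772, 2062, by norm_num, by linarith, by linarith, by linarith, by linarith⟩
    rcases le_total (1000 * δ - 500 * q) 193 with h | h
    swap
    · exact ⟨1142, 2820, 2076, by norm_num, by linarith, by linarith, by linarith, by linarith⟩
    rcases le_total (250 * δ - 125 * q) 46 with h | h
    swap
    · exact ⟨1088, 2868, 2088, by norm_num, by linarith, by linarith, by linarith, by linarith⟩
    rcases le_total (100 * δ - 50 * q) 17 with h | h
    · exact ⟨1000, 3000, 2000, by norm_num, by linarith, by linarith, by linarith, by linarith⟩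
    exact ⟨1031, 2920, 2098, by norm_num, by linarith, by linarith, by linarith, by linarith⟩
  rcases le_total (100 * δ) 37 with h | h
  · rcases le_total (1000 * δ - 500 * q) 191 with h | h
    swap
    · exact ⟨1159, 2820, 2042, by norm_num, by linarith, by linarith, by linarith, by linarith⟩
    rcases le_total (500 * δ - 250 * q) 93 with h | h
    swap
    · exact ⟨1128, 2864, 2016, by norm_num, by linarith, by linarith, by linarith, by linarith⟩
    rcases le_total (500 * δ - 250 * q) 91 with h | h
    swap
    · exact ⟨1104, 2886, 2020, by norm_num, by linarith, by linarith, by linarith, by linarith⟩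
    rcases le_total (250 * δ - 125 * q) 44 with h | h
    · exact ⟨1020, 2960, 2040, by norm_num, by linarith, by linarith, by linarith, by linarith⟩
    exact ⟨1068, 2913, 2038, by norm_num, by linarith, by linarith, by linarith, by linarith⟩
  rcases le_total (100 * q) 37 with h | h
  · rcases le_total (1000 * δ - 500 * q) 217 with h | h
    swap
    · exact ⟨1330, 2672, 1996, by norm_num, by linarith, by linarith, by linarith, by linarith⟩
    rcases le_total (1000 * δ - 500 * q) 209 with h | h
    swap
    · exact ⟨1276, 2729, 1990, by norm_num, by linarith, by linarith, by linarith, by linarith⟩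
    rcases le_total (1000 * δ - 500 * q) 203 with h | h
    swap
    · exact ⟨1235, 2765, 2000, by norm_num, by linarith, by linarith, by linarith, by linarith⟩
    rcases le_total (250 * δ - 125 * q) 49 with h | h
    swap
    · exact ⟨1203, 2793, 2008, by norm_num, by linarith, by linarith, by linarith, by linarith⟩
    rcases le_total (150 * δ - 100 * q) 19 with h | h
    · exact ⟨1150, 2850, 2000, by norm_num, by linarith, by linarith, by linarith, by linarith⟩
    exact ⟨1165, 2829, 2012, by norm_num, by linarith, by linarith, by linarith, by linarith⟩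
  rcases le_total (1000 * δ - 500 * q) 207 with h | h
  swap
  · exact ⟨1300, 2720, 1960, by norm_num, by linarith, by linarith, by linarith, by linarith⟩
  rcases le_total (1000 * δ - 500 * q) 203 with h | h
  swap
  · exact ⟨1273, 2759, 1936, by norm_num, by linarith, by linarith, by linarith, by linarith⟩
  rcases le_total (500 * δ) 197 with h | h
  swap
  · exact ⟨1259, 2773, 1936, by norm_num, by linarith, by linarith, by linarith, by linarith⟩
  rcases le_total (1000 * δ - 500 * q) 197 with h | h
  swap
  · exact ⟨1232, 2786, 1964, by norm_num, by linarith, by linarith, by linarith, by linarith⟩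
  rcases le_total (500 * δ - 250 * q) 97 with h | h
  swap
  · exact ⟨1212, 2808, 1960, by norm_num, by linarith, by linarith, by linarith, by linarith⟩
  rcases le_total (100 * δ - 50 * q) 19 with h | h
  · exact ⟨1150, 2855, 1990, by norm_num, by linarith, by linarith, by linarith, by linarith⟩
  exact ⟨1186, 2828, 1972, by norm_num, by linarith, by linarith, by linarith, by linarith⟩

/-- (For fixed `u, v` all conditions are linear in `(δ, q)` once a branch of `max`/`min` is chosen:
cover the triangle by finitely many polygons; the true margin is `≈ 9.4e-4` instead of `1/2000`,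
the tight point is `q = δ ≈ 0.38`.  Optimal choice: `u = min(1/2, E/(5/6-δ))`,
`v = min(19/50, E/(δ-q/2))`.) -/
theorem numeric {δ q : ℝ} (h₁ : 1 / 50 ≤ δ) (h₂ : δ ≤ 1) (h₃ : 0 ≤ q) (h₄ : q ≤ δ) :
    0 ≤ Eexc δ q ∧ ∃ u v : ℝ, 0 ≤ u ∧ u ≤ 1 / 2 ∧ 0 ≤ v ∧ v ≤ 19 / 50 ∧
      (5 / 6 - δ) * u ≤ Eexc δ q ∧ (δ - q / 2) * v ≤ Eexc δ q ∧
      ∀ s : ℝ, 0 ≤ s → s ≤ 1 - 2 * u - 2 * v → δ * s - q * min (2 / 7 * s) (3 / 50) ≤ Eexc δ q := by
  have hE : 976 + 7000 * δ - 4000 * q ≤ 39000 * Eexc δ q := by
    unfold Eexc
    linarith [le_max_left (7 / 8) ((1 + δ) / 2)]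
  obtain ⟨U, V, S, ⟨a1, a2, a3, a4, a5⟩, b1, b2, b3, b4⟩ := numeric_cover (by linarith) h₂ h₃ h₄ hE
  refine ⟨by linarith, U / 10000, V / 10000, by linarith, by linarith, by linarith, by linarith,
    by linarith, by linarith, fun s _ hs => ?_⟩
  have hS : s ≤ S / 10000 := by linarith
  rcases min_choice (2 / 7 * s) (3 / 50) with e | e <;> rw [e]
  · linarith [mul_le_mul_of_nonneg_left hS (show 0 ≤ δ - 2 / 7 * q by linarith)]
  · linarith [mul_le_mul_of_nonneg_left hS (h₃.trans h₄)]

/-- Greedy selection of the best slots: lengths `ℓ i ∈ (0, b]`, rates `r i ≥ 0` with weighted mean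
`≥ q`, target length `z ≤ ∑ ℓ i`. -/
theorem greedy {ι : Type} (I : Finset ι) (ℓ r : ι → ℝ) {b q z : ℝ} (hb : 0 ≤ b)
    (hℓ : ∀ i ∈ I, 0 < ℓ i ∧ ℓ i ≤ b) (hq : 0 ≤ q)
    (hm : q * ∑ i ∈ I, ℓ i ≤ ∑ i ∈ I, r i * ℓ i) (hz : 0 ≤ z) (hz' : z ≤ ∑ i ∈ I, ℓ i) :
    ∃ S ⊆ I, ∑ i ∈ S, ℓ i ≤ z ∧ z - b ≤ ∑ i ∈ S, ℓ i ∧
      q * ∑ i ∈ S, ℓ i ≤ ∑ i ∈ S, r i * ℓ i := by
  classical
  induction I using Finset.induction_on_min_value r with
  | empty => exact ⟨∅, subset_rfl, by simpa using hz, by simp at hz' ⊢; linarith, by simp⟩
  | insert a s ha hmin ih =>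
    have hs : ∀ i ∈ s, 0 < ℓ i ∧ ℓ i ≤ b := fun i hi => hℓ i (Finset.mem_insert_of_mem hi)
    obtain ⟨a0, a1⟩ := hℓ a (Finset.mem_insert_self _ _)
    rw [Finset.sum_insert ha] at hz'
    rw [Finset.sum_insert ha, Finset.sum_insert ha] at hm
    have hm' : q * ∑ i ∈ s, ℓ i ≤ ∑ i ∈ s, r i * ℓ i := by
      rcases le_total q (r a) with h | h
      · rw [Finset.mul_sum]
        exact Finset.sum_le_sum fun i hi =>
          mul_le_mul_of_nonneg_right (h.trans (hmin i hi)) (hs i hi).1.le
      · nlinarith
    rcases le_total z (∑ i ∈ s, ℓ i) with h | h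
    · obtain ⟨S, h1, h2⟩ := ih hs hm' h
      exact ⟨S, h1.trans (Finset.subset_insert _ _), h2⟩
    · exact ⟨s, Finset.subset_insert _ _, h, by linarith, hm'⟩

/-- Balanced splitting of a set of slots into two groups. -/
theorem balanced {ι : Type} [DecidableEq ι] (S : Finset ι) (ℓ : ι → ℝ) {b : ℝ} (hb : 0 ≤ b)
    (hℓ : ∀ i ∈ S, 0 ≤ ℓ i ∧ ℓ i ≤ b) :
    ∃ S₁ ⊆ S, ∑ i ∈ S \ S₁, ℓ i ≤ ∑ i ∈ S₁, ℓ i ∧ ∑ i ∈ S₁, ℓ i ≤ ∑ i ∈ S \ S₁, ℓ i + b := by
  induction S using Finset.induction_on with
  | empty => exact ⟨∅, subset_rfl, by simp, by simpa using hb⟩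
  | insert a s ha ih =>
    obtain ⟨S₁, h1, h2, h3⟩ := ih fun i hi => hℓ i (Finset.mem_insert_of_mem hi)
    obtain ⟨a0, a1⟩ := hℓ a (Finset.mem_insert_self _ _)
    have n1 : a ∉ S₁ := fun h => ha (h1 h)
    have n2 : a ∉ s \ S₁ := fun h => ha (Finset.mem_sdiff.1 h).1
    rcases le_total (ℓ a + ∑ i ∈ s \ S₁, ℓ i) (∑ i ∈ S₁, ℓ i) with h | h
    · refine ⟨S₁, h1.trans (Finset.subset_insert _ _), ?_⟩
      rw [Finset.insert_sdiff_of_notMem _ n1, Finset.sum_insert n2]
      exact ⟨h, by linarith⟩
    · refine ⟨insert a (s \ S₁), Finset.insert_subset_insert _ Finset.sdiff_subset, ?_⟩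
      have e : insert a s \ insert a (s \ S₁) = S₁ := by
        ext x
        simp only [Finset.mem_sdiff, Finset.mem_insert]
        constructor
        · tauto
        · exact fun hx => ⟨Or.inr (h1 hx), by rintro (rfl | h); exacts [n1 hx, h.2 hx]⟩
      rw [e, Finset.sum_insert n2]
      exact ⟨h, by linarith⟩

end Crest.Agent.R17
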