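import Crest.Agent.R17.PDefs
import Crest.Agent.R17.Inv
import Crest.Agent.R17.Mom4
import Crest.Agent.R17.Numeric

/-!
# Row 17, module M13, auxiliary file: the count of the rows of one class
-/

set_option autoImplicit false

noncomputable section

namespace Crest.Agent.R17

namespace CC

/-- Powers of `log B` are negligible. -/
theorem poly (J : ℕ) {η : ℝ} (hη : 0 < η) : ∃ C : ℝ, 0 < C ∧ ∀ B τ : ℝ, 1 ≤ B →
    |τ| ≤ Real.log B ^ 3 + 3 → (1 + |τ|) ^ J ≤ C * B ^ η := by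
  set θ : ℝ := η / (3 * J + 3) with hθ
  have hθ0 : 0 < θ := by positivity
  refine ⟨(4 + (θ⁻¹) ^ 3) ^ J, by positivity, fun B τ hB hτ => ?_⟩
  have hB0 : 0 < B := one_pos.trans_le hB
  have h1 : Real.log B ≤ θ⁻¹ * B ^ θ := by
    rw [mul_comm, ← div_eq_mul_inv]; exact Real.log_le_rpow_div hB0.le hθ0
  have h2 : 1 ≤ B ^ θ := Real.one_le_rpow hB hθ0.le
  have h3 : Real.log B ^ 3 ≤ (θ⁻¹) ^ 3 * (B ^ θ) ^ 3 := by
    rw [← mul_pow]; exact pow_le_pow_left₀ (Real.log_nonneg hB) h1 3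
  have h4 : 1 ≤ (B ^ θ) ^ 3 := one_le_pow₀ h2
  have h5 : 1 + |τ| ≤ (4 + (θ⁻¹) ^ 3) * (B ^ θ) ^ 3 := by nlinarith
  refine (pow_le_pow_left₀ (by positivity) h5 J).trans ?_
  rw [mul_pow, ← pow_mul, ← Real.rpow_natCast (B ^ θ), ← Real.rpow_mul hB0.le]
  refine mul_le_mul_of_nonneg_left (Real.rpow_le_rpow_of_exponent_le hB ?_) (by positivity)
  rw [hθ, div_mul_eq_mul_div, div_le_iff₀ (by positivity)]
  push_cast
  nlinarith

open Classical in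
/-- Pigeonhole over the characters and the dyadic scales. -/
theorem pigeon {M : O} (hM : Adm M) {η : ℝ} (hη : 0 < η) : ∃ C : ℝ, 0 < C ∧
    ∀ (S : Finset O) (ψ : O → Chr M) (y : O → ℝ) (B F : ℝ), 1 ≤ B → 0 ≤ F →
      (∀ a ∈ S, B⁻¹ ≤ y a ∧ y a ≤ B ^ 2) →
      (∀ (ν : Chr M) (X : ℝ) (S' : Finset O), 0 < X → S' ⊆ S → S'.Nonempty →
        (∀ a ∈ S', ψ a = ν ∧ y a ∈ Set.Icc X (2 * X)) → (S'.card : ℝ) ≤ F) →
      (S.card : ℝ) ≤ C * B ^ η * F := by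
  have := finite_chr hM.1
  let _ : Fintype (Chr M) := Fintype.ofFinite _
  obtain ⟨K, hK, hd⟩ := M4S.dyadic (show 0 < η / 3 by positivity)
  have hcard : (0 : ℝ) < Fintype.card (Chr M) := by exact_mod_cast Fintype.card_pos
  refine ⟨Fintype.card (Chr M) * K, by positivity, fun S ψ y B F hB hF hS h => ?_⟩
  have hB0 : 0 < B := one_pos.trans_le hB
  have e : (S.card : ℝ) = ∑ _a ∈ S, (1 : ℝ) := by simp
  rw [e, ← Finset.sum_fiberwise_of_maps_to (t := Finset.univ) (g := ψ) fun _ _ => Finset.mem_univ _]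
  refine (Finset.sum_le_card_nsmul _ _ (K * (B ^ 3) ^ (η / 3) * F) fun ν _ => ?_).trans_eq ?_
  · refine hd _ (fun a => y a * B) _ _ _ (one_le_pow₀ hB) hF (fun a ha => ?_)
      (fun a _ => zero_le_one) fun X hX _ => ?_
    · obtain ⟨h1, h2⟩ := hS a (Finset.mem_filter.1 ha).1
      refine ⟨by rwa [← inv_le_iff_one_le_mul₀ hB0], ?_⟩
      rw [pow_succ]
      exact mul_le_mul_of_nonneg_right h2 hB0.le
    · set S' := (S.filter fun a => ψ a = ν).filter fun a => X ≤ y a * B ∧ y a * B ≤ 2 * X with hS'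
      rcases S'.eq_empty_or_nonempty with he | hne
      · rw [he, Finset.sum_empty]; exact hF
      rw [Finset.sum_const, nsmul_eq_mul, mul_one]
      refine h ν (X / B) S' (by positivity)
        ((Finset.filter_subset _ _).trans (Finset.filter_subset _ _)) hne fun a ha => ?_
      obtain ⟨h0, h1, h2⟩ := Finset.mem_filter.1 ha
      exact ⟨(Finset.mem_filter.1 h0).2, (div_le_iff₀ hB0).2 h1,
        by rw [← mul_div_assoc]; exact (le_div_iff₀ hB0).2 h2⟩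
  · rw [Finset.card_univ, nsmul_eq_mul, ← Real.rpow_natCast B 3, ← Real.rpow_mul hB0.le,
      show ((3 : ℕ) : ℝ) * (η / 3) = η by push_cast; ring]
    ring

/-- One cell: a moment bound and a lower bound on each row give a bound for the number of rows. -/
theorem cell (k : ℕ) {η : ℝ} (hη : 0 < η) : ∃ C : ℝ, 0 < C ∧ ∀ (S : Finset O) (w : O → ℝ)
    (b : O → O → ℂ) (B X K e f : ℝ) (Y t : O → ℝ), 1 ≤ B → 0 ≤ K → (∀ r, 0 ≤ w r) →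
    (∀ r, PolyB (b r) 1 0) → 0 < X → (∀ r ∈ S, Y r ∈ Set.Icc X (2 * X)) →
    (∀ r ∈ S, |t r| ≤ Real.log B ^ 3) →
    (∀ Y' ∈ Set.Icc (X / 4) (8 * X), ∀ t' : ℝ, |t'| ≤ Real.log B ^ 3 + 3 →
      ∑ r ∈ S, w r * ‖Sm (b r) Y' (t' * Complex.I)‖ ^ k ≤ K * B ^ e) →
    (∀ r ∈ S, B ^ f ≤ w r * ‖Sm (b r) (Y r) (t r * Complex.I)‖ ^ k) →
    (S.card : ℝ) ≤ C * K * B ^ (e - f + η) := by
  obtain ⟨C, hC, h⟩ := sup_moment k
  obtain ⟨C', hC', h'⟩ := poly (2 * k + 1) hη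
  refine ⟨C * C', by positivity, fun S w b B X K e f Y t hB hK hw hb hX hY ht hE hW => ?_⟩
  have hB0 : 0 < B := one_pos.trans_le hB
  have hT : 0 ≤ Real.log B ^ 3 := pow_nonneg (Real.log_nonneg hB) 3
  have h1 := h S w b 1 0 X _ _ Y t hw hb hX hT hY ht hE
  have h2 := h' B (Real.log B ^ 3) hB (by rw [abs_of_nonneg hT]; linarith)
  rw [abs_of_nonneg hT] at h2
  have h3 := (Finset.card_nsmul_le_sum S _ _ hW).trans h1
  rw [nsmul_eq_mul, ← le_div_iff₀ (by positivity)] at h3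
  refine h3.trans ?_
  rw [div_le_iff₀ (by positivity), mul_assoc (C * C' * K), ← Real.rpow_add hB0,
    show e - f + η + f = η + e by ring, Real.rpow_add hB0]
  calc _ ≤ C * (C' * B ^ η) * (K * B ^ e) := by gcongr
    _ = _ := by ring

/-- Choice of the slots. -/
theorem select {K₀ : ℕ} (hK : 1 ≤ K₀) {η q z : ℝ} (hη : 5 / (24 * (K₀ : ℝ)) ≤ η) (qs : ℕ → ℝ)
    (hq0 : 0 ≤ q) (hq1 : q ≤ 1) (hm : q / 6 ≤ ∑ i : Fin K₀, qs i * ell K₀ i) (hz : 0 ≤ z)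
    (hz' : z ≤ 1 / 6) : ∃ I : Finset ℕ, (∀ i ∈ I, i < K₀) ∧ I.card ≤ K₀ ∧
      ∑ i ∈ I, (ell K₀ i + kapS K₀) ≤ z + η ∧ ∀ (M a : O) (B : ℝ), 1 ≤ B →
        (∀ i < K₀, qs i = 0 ∨ Pw K₀ B i ^ ((1 + qs i) / 2) ≤ ‖slt M K₀ B i a‖) →
        B ^ (∑ i ∈ I, (ell K₀ i + kapS K₀) + q * z - 2 * η) ≤ ∏ i ∈ I, ‖slt M K₀ B i a‖ ^ 2 := by
  classical
  have hK0 : (0 : ℝ) < K₀ := by exact_mod_cast hK
  have hκ := PA.kap_nonneg K₀
  have hη0 : 0 ≤ η := le_trans (by positivity) hη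
  have hl : ∀ i ∈ Finset.range K₀, 0 < ell K₀ i ∧ ell K₀ i ≤ η := fun i hi => by
    obtain ⟨h1, h2⟩ := ell_bounds (Finset.mem_range.1 hi)
    have : 0 < 1 / (8 * (K₀ : ℝ)) := by positivity
    constructor <;> linarith
  have hs : ∑ i ∈ Finset.range K₀, ell K₀ i = 1 / 6 := by
    rw [← sum_ell hK, Fin.sum_univ_eq_sum_range (fun i => ell K₀ i) K₀]
  rw [Fin.sum_univ_eq_sum_range (fun i => qs i * ell K₀ i) K₀] at hm
  obtain ⟨I₁, h1, h2, h3, h4⟩ := greedy (Finset.range K₀) (ell K₀) qs hη0 hl hq0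
    (by rw [hs]; linarith) hz (by rw [hs]; exact hz')
  have hsub : I₁.filter (fun i => qs i ≠ 0) ⊆ Finset.range K₀ := (Finset.filter_subset _ _).trans h1
  have hc : (I₁.filter (fun i => qs i ≠ 0)).card ≤ K₀ :=
    (Finset.card_le_card hsub).trans_eq (Finset.card_range _)
  have hκs : ∑ _i ∈ I₁.filter (fun i => qs i ≠ 0), kapS K₀ ≤ η := by
    rw [Finset.sum_const, nsmul_eq_mul]
    have h5 : ((I₁.filter (fun i => qs i ≠ 0)).card : ℝ) ≤ K₀ := by exact_mod_cast hc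
    refine (mul_le_mul_of_nonneg_right h5 hκ).trans (le_trans ?_ hη)
    unfold kapS
    rw [mul_one_div, div_le_div_iff₀ (by positivity) (by positivity)]
    nlinarith
  have h6 : ∑ i ∈ I₁.filter (fun i => qs i ≠ 0), ell K₀ i ≤ ∑ i ∈ I₁, ell K₀ i :=
    Finset.sum_le_sum_of_subset_of_nonneg (Finset.filter_subset _ _) fun i hi _ => (hl i (h1 hi)).1.le
  have h7 : ∑ i ∈ I₁.filter (fun i => qs i ≠ 0), qs i * ell K₀ i = ∑ i ∈ I₁, qs i * ell K₀ i :=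
    Finset.sum_filter_of_ne fun i _ h h0 => h (by rw [h0, zero_mul])
  refine ⟨I₁.filter (fun i => qs i ≠ 0), fun i hi => Finset.mem_range.1 (hsub hi), hc, ?_,
    fun M a B hB h => ?_⟩
  · rw [Finset.sum_add_distrib]; linarith
  have hB0 : 0 < B := one_pos.trans_le hB
  calc _ ≤ B ^ (∑ i ∈ I₁.filter (fun i => qs i ≠ 0), (ell K₀ i + qs i * ell K₀ i)) := by
        refine Real.rpow_le_rpow_of_exponent_le hB ?_
        rw [Finset.sum_add_distrib, Finset.sum_add_distrib, h7]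
        nlinarith [mul_le_mul_of_nonneg_left h3 hq0, mul_le_mul_of_nonneg_right hq1 hη0]
    _ ≤ _ := by
        rw [Real.rpow_sum_of_pos hB0]
        refine Finset.prod_le_prod (fun i _ => by positivity) fun i hi => ?_
        obtain ⟨hi1, hi2⟩ := Finset.mem_filter.1 hi
        have h8 := (h i (Finset.mem_range.1 (h1 hi1))).resolve_left hi2
        refine le_trans (le_of_eq ?_) (pow_le_pow_left₀ (Real.rpow_nonneg (PA.Pw_pos K₀ hB0 i).le _) h8 2)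
        rw [Pw, ← Real.rpow_mul hB0.le, ← Real.rpow_natCast, ← Real.rpow_mul hB0.le]
        congr 1
        push_cast
        ring

theorem le_of_eight {B η x Y : ℝ} (hB : 1 ≤ B) (h8 : 8 ≤ B ^ η) (hY : Y ≤ 8 * B ^ x) :
    Y ≤ B ^ (x + η) := by
  have hB0 : 0 < B := one_pos.trans_le hB
  rw [Real.rpow_add hB0, mul_comm]
  exact hY.trans (mul_le_mul_of_nonneg_right h8 (by positivity))

theorem lower {B η x σ y u : ℝ} (hB : 1 ≤ B) (hσ : 0 ≤ σ) (hy : B ^ x ≤ y)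
    (h : B ^ (-η) * y ^ σ ≤ u) (k : ℕ) : B ^ (k * (x * σ - η)) ≤ u ^ k := by
  have hB0 : 0 < B := one_pos.trans_le hB
  rw [mul_comm, Real.rpow_mul hB0.le, Real.rpow_natCast]
  refine pow_le_pow_left₀ (by positivity) (le_trans ?_ h) k
  rw [sub_eq_add_neg, add_comm, Real.rpow_add hB0, Real.rpow_mul hB0.le]
  exact mul_le_mul_of_nonneg_left (Real.rpow_le_rpow (by positivity) hy hσ) (by positivity)

/-- Case (i): long Möbius sums. -/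
theorem cell_long {M : O} (hM : Adm M) {η : ℝ} (hη : 0 < η) (hη1 : η ≤ 1 / 1000) :
    ∃ C : ℝ, 0 < C ∧ ∀ (B ρ δ E u x : ℝ) (ν : Chr M) (S : Finset O) (y t : O → ℝ), 1 ≤ B →
      8 ≤ B ^ η → 0 ≤ ρ → ρ ≤ 1 → 0 ≤ δ → u ≤ 1 / 2 → (5 / 6 - δ) * u ≤ E → 0 ≤ E →
      4 * B ^ ρ ≤ B ^ x → ρ ≤ x → x ≤ ρ * (1 + u) →
      (∀ a ∈ S, a ≠ 0 ∧ nr a ≤ B ^ ρ ∧ y a ∈ Set.Icc (B ^ x) (2 * B ^ x) ∧
        |t a| ≤ Real.log B ^ 3 ∧
        B ^ (-η) * y a ^ ((1 + δ) / 2) ≤ ‖Mob ν a (y a) (t a * Complex.I)‖) →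
      (S.card : ℝ) ≤ C * B ^ (ρ * (1 - δ + E) + 50 * η) := by
  obtain ⟨C₁, J, hC₁, h₁⟩ := inv_long hM hη
  obtain ⟨C₂, hC₂, h₂⟩ := poly J hη
  obtain ⟨C₃, hC₃, h₃⟩ := cell 2 hη
  refine ⟨C₃ * (C₁ * C₂), by positivity,
    fun B ρ δ E u x ν S y t hB h8 hρ hρ1 hδ hu hE hE0 hx hx1 hx2 hS => ?_⟩
  have hB0 : 0 < B := one_pos.trans_le hB
  have hx3 : x ≤ 3 / 2 := by nlinarith
  refine (h₃ S (fun _ => 1) (fun a n => mu n * rc ν a n) B (B ^ x) (C₁ * C₂)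
    ((x + η) * (η + 11 / 6) + ρ / 6 + η) ((2 : ℕ) * (x * ((1 + δ) / 2) - η)) y t hB (by positivity)
    (fun _ => zero_le_one) (fun a => polyB_mu_rc hM ν a) (by positivity) (fun a ha => (hS a ha).2.2.1)
    (fun a ha => (hS a ha).2.2.2.1) (fun Y hY τ hτ => ?_) fun a ha => ?_).trans ?_
  · have hA : B ^ ρ ≤ Y := by linarith [hY.1]
    have hA0 : 0 < B ^ ρ := by positivity
    have hY0 : 0 < Y := hA0.trans_le hA
    have h4 := h₁ (B ^ ρ) Y τ ν (Real.one_le_rpow hB hρ) hA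
    have h5 : ∑ a ∈ S, 1 * ‖Sm (fun n => mu n * rc ν a n) Y (τ * Complex.I)‖ ^ 2 ≤
        ∑ a ∈ rows (B ^ ρ), ‖Mob ν a Y (τ * Complex.I)‖ ^ 2 := by
      simp only [one_mul, ← Mob_eq_Sm]
      exact Finset.sum_le_sum_of_subset_of_nonneg
        (fun a ha => (mem_rows hA0.le).2 ⟨(hS a ha).1, (hS a ha).2.1⟩) fun _ _ _ => by positivity
    refine h5.trans (h4.trans ?_)
    have h6 : Y ^ η * (Y ^ 2 * (B ^ ρ / Y) ^ (1 / 6 : ℝ)) = Y ^ (η + 11 / 6) * B ^ (ρ / 6) := by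
      rw [Real.div_rpow hA0.le hY0.le, ← Real.rpow_mul hB0.le, ← Real.rpow_natCast,
        div_eq_mul_inv, ← Real.rpow_neg hY0.le,
        show η + 11 / 6 = η + (((2 : ℕ) : ℝ) + -(1 / 6)) by push_cast; ring, Real.rpow_add hY0,
        Real.rpow_add hY0, mul_one_div]
      ring
    have h7 : Y ^ (η + 11 / 6) ≤ B ^ ((x + η) * (η + 11 / 6)) := by
      rw [Real.rpow_mul hB0.le]
      exact Real.rpow_le_rpow hY0.le (le_of_eight hB h8 hY.2) (by positivity)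
    calc _ = C₁ * (1 + |τ|) ^ J * (Y ^ (η + 11 / 6) * B ^ (ρ / 6)) := by rw [← h6]; ring
      _ ≤ C₁ * (C₂ * B ^ η) * (B ^ ((x + η) * (η + 11 / 6)) * B ^ (ρ / 6)) := by
          gcongr
          exact h₂ B τ hB hτ
      _ = _ := by rw [Real.rpow_add hB0, Real.rpow_add hB0]; ring
  · rw [one_mul, ← Mob_eq_Sm]
    exact lower hB (by linarith) (hS a ha).2.2.1.1 (hS a ha).2.2.2.2 2
  · refine mul_le_mul_of_nonneg_left (Real.rpow_le_rpow_of_exponent_le hB ?_) (by positivity)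
    have h4 : (x - ρ) * (5 / 6 - δ) ≤ ρ * E := by
      rcases le_total 0 (5 / 6 - δ) with h | h
      · nlinarith [mul_le_mul_of_nonneg_right (show x - ρ ≤ ρ * u by linarith) h,
          mul_le_mul_of_nonneg_left hE hρ]
      · nlinarith [mul_nonneg hρ hE0, mul_nonneg (sub_nonneg.2 hx1) (neg_nonneg.2 h)]
    push_cast
    nlinarith [mul_le_mul_of_nonneg_right hx3 hη.le, mul_le_mul_of_nonneg_right hη1 hη.le]

theorem slots {M : O} {K₀ : ℕ} {B : ℝ} (hB : 1 ≤ B) {i : ℕ} (hi : i < K₀) :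
    1 ≤ B ^ (ell K₀ i + kapS K₀) ∧ ∀ p ∈ Pset M K₀ B i, Prime p ∧ Primary p ∧ ¬ p ∣ M ∧
      B ^ (1 / (8 * (K₀ : ℝ))) ≤ nr p ∧ nr p ≤ B ^ (ell K₀ i + kapS K₀) := by
  have h1 := (ell_bounds hi).1
  have h2 := PA.kap_nonneg K₀
  have h3 : 0 ≤ 1 / (8 * (K₀ : ℝ)) := by positivity
  refine ⟨Real.one_le_rpow hB (by linarith), fun p hp => ?_⟩
  obtain ⟨a1, a2, a3, a4, a5⟩ := (mem_Pset (one_pos.trans_le hB)).1 hp
  exact ⟨a1, a2, a3, (Real.rpow_le_rpow_of_exponent_le hB h1).trans a4.le, a5⟩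

/-- Case (ii): Möbius sums slightly shorter than the rows, with marks. -/
theorem cell_mid {M : O} (hM : Adm M) {K₀ : ℕ} (hK : 1 ≤ K₀) {η : ℝ} (hη : 0 < η)
    (hη1 : η ≤ 1 / 1000) (hKη : 5 / (24 * (K₀ : ℝ)) ≤ η) :
    ∃ C : ℝ, 0 < C ∧ ∀ (B ρ δ q E v x : ℝ) (qs : ℕ → ℝ) (ν : Chr M) (S : Finset O) (y t : O → ℝ),
      1 ≤ B → 8 ≤ B ^ η → 0 ≤ ρ → ρ ≤ 33 / 40 → δ ≤ 1 → 0 ≤ q → q ≤ δ →
      q / 6 ≤ ∑ i : Fin K₀, qs i * ell K₀ i → 0 ≤ v → v ≤ 19 / 50 → (δ - q / 2) * v ≤ E → 0 ≤ E →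
      ρ * (1 - v) - η ≤ x → x ≤ ρ + η →
      (∀ a ∈ S, a ≠ 0 ∧ nr a ≤ B ^ ρ ∧ y a ∈ Set.Icc (B ^ x) (2 * B ^ x) ∧
        |t a| ≤ Real.log B ^ 3 ∧
        B ^ (-η) * y a ^ ((1 + δ) / 2) ≤ ‖Mob ν a (y a) (t a * Complex.I)‖ ∧
        ∀ i < K₀, qs i = 0 ∨ Pw K₀ B i ^ ((1 + qs i) / 2) ≤ ‖slt M K₀ B i a‖) →
      (S.card : ℝ) ≤ C * B ^ (ρ * (1 - δ + E) + 50 * η) := by
  have hK0 : (0 : ℝ) < K₀ := by exact_mod_cast hK
  obtain ⟨C₁, J, hC₁, h₁⟩ := inv_moment hM K₀ (show 0 < 1 / (8 * (K₀ : ℝ)) by positivity) hη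
  obtain ⟨C₂, hC₂, h₂⟩ := poly J hη
  obtain ⟨C₃, hC₃, h₃⟩ := cell 2 hη
  refine ⟨C₃ * (C₁ * C₂), by positivity,
    fun B ρ δ q E v x qs ν S y t hB h8 hρ hρ1 hδ hq hqδ hm hv hv1 hE hE0 hx1 hx2 hS => ?_⟩
  have hB0 : 0 < B := one_pos.trans_le hB
  obtain ⟨z, hz0, hz1, hz2⟩ : ∃ z : ℝ, 0 ≤ z ∧ (ρ - x) / 2 ≤ z ∧ (z = 0 ∨ z = (ρ - x) / 2) :=
    ⟨max 0 ((ρ - x) / 2), le_max_left _ _, le_max_right _ _, max_choice _ _⟩
  have hρv : ρ * v ≤ ρ * (19 / 50) := mul_le_mul_of_nonneg_left hv1 hρ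
  have hz3 : z ≤ 1 / 6 := by rcases hz2 with h | h <;> linarith
  obtain ⟨I, hI, hIc, hl, hlow⟩ := select hK hKη qs hq (hqδ.trans hδ) hm hz0 hz3
  set l := ∑ i ∈ I, (ell K₀ i + kapS K₀) with hldef
  refine (h₃ S (fun a => ∏ i ∈ I, ‖slt M K₀ B i a‖ ^ 2) (fun a n => mu n * rc ν a n) B (B ^ x)
    (C₁ * C₂) (η + η + (ρ + 5 * η + (x + η) + l))
    (l + q * z - 2 * η + (2 : ℕ) * (x * ((1 + δ) / 2) - η)) y t hB (by positivity)
    (fun _ => by positivity) (fun a => polyB_mu_rc hM ν a) (by positivity)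
    (fun a ha => (hS a ha).2.2.1)
    (fun a ha => (hS a ha).2.2.2.1) (fun Y hY τ hτ => ?_) fun a ha => ?_).trans ?_
  · have hY0 : 0 < Y := lt_of_lt_of_le (by positivity) hY.1
    have hY1 := le_of_eight hB h8 hY.2
    have hZ : ∏ i ∈ I, B ^ (ell K₀ i + kapS K₀) = B ^ l := (Real.rpow_sum_of_pos hB0 _ _).symm
    have h4 := h₁ I (fun i => B ^ (ell K₀ i + kapS K₀)) (Pset M K₀ B) (cw K₀ B) B
      (B ^ (ρ + 5 * η)) Y τ ν hB (Real.rpow_le_self_of_one_le hB (by linarith)) hY0 hIc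
      (fun i hi => slots hB (hI i hi)) (fun i _ j _ h => disjoint_Pset M K₀ hB h)
      (norm_cw_le K₀ B) (by
        rw [hZ, ← Real.rpow_natCast, ← Real.rpow_mul hB0.le]
        refine (mul_le_mul_of_nonneg_right hY1 (by positivity)).trans ?_
        rw [← Real.rpow_add hB0]
        refine Real.rpow_le_rpow_of_exponent_le hB ?_
        push_cast
        rcases hz2 with h | h <;> linarith) (by
        rw [hZ, ← Real.rpow_natCast (B ^ l), ← Real.rpow_mul hB0.le,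
          ← Real.rpow_natCast (B ^ (ρ + 5 * η)), ← Real.rpow_mul hB0.le]
        refine (mul_le_mul_of_nonneg_right (pow_le_pow_left₀ hY0.le hY1 2) (by positivity)).trans ?_
        rw [← Real.rpow_natCast, ← Real.rpow_mul hB0.le, ← Real.rpow_add hB0]
        refine Real.rpow_le_rpow_of_exponent_le hB ?_
        push_cast
        rcases hz2 with h | h <;> linarith)
    have h5 : ∑ a ∈ S, (∏ i ∈ I, ‖slt M K₀ B i a‖ ^ 2) *
          ‖Sm (fun n => mu n * rc ν a n) Y (τ * Complex.I)‖ ^ 2 ≤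
        ∑ a ∈ rows (B ^ (ρ + 5 * η)), ‖Mob ν a Y (τ * Complex.I)‖ ^ 2 *
          ∏ i ∈ I, ‖slot (Pset M K₀ B i) (cw K₀ B i) a‖ ^ 2 := by
      simp only [← Mob_eq_Sm, slt, mul_comm (∏ i ∈ I, _)]
      exact Finset.sum_le_sum_of_subset_of_nonneg
        (fun a ha => (mem_rows (by positivity)).2 ⟨(hS a ha).1, (hS a ha).2.1.trans
          (Real.rpow_le_rpow_of_exponent_le hB (by linarith))⟩) fun _ _ _ => by positivity
    refine h5.trans (h4.trans ?_)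
    rw [hZ]
    calc _ ≤ C₁ * B ^ η * (C₂ * B ^ η) * (B ^ (ρ + 5 * η) * B ^ (x + η) * B ^ l) := by
          gcongr
          exact h₂ B τ hB hτ
      _ = _ := by
          rw [Real.rpow_add hB0 (η + η), Real.rpow_add hB0 η, Real.rpow_add hB0 _ l,
            Real.rpow_add hB0 (ρ + 5 * η)]
          ring
  · rw [← Mob_eq_Sm, Real.rpow_add hB0]
    exact mul_le_mul (hlow M a B hB (hS a ha).2.2.2.2.2)
      (lower hB (by linarith) (hS a ha).2.2.1.1 (hS a ha).2.2.2.2.1 2) (by positivity)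
      (by positivity)
  · refine mul_le_mul_of_nonneg_left (Real.rpow_le_rpow_of_exponent_le hB ?_) (by positivity)
    have h4 : (ρ - x) * δ - q * z ≤ ρ * E + η := by
      rcases hz2 with h | h
      · nlinarith [mul_nonneg hρ hE0, mul_nonneg (show 0 ≤ x - ρ by linarith) (hq.trans hqδ)]
      · rw [h]
        nlinarith [mul_le_mul_of_nonneg_right (show ρ - x ≤ ρ * v + η by linarith)
          (show 0 ≤ δ - q / 2 by linarith), mul_le_mul_of_nonneg_left hE hρ,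
          mul_le_mul_of_nonneg_left (show δ - q / 2 ≤ 1 by linarith) hη.le]
    push_cast
    nlinarith

/-- Case (iii): short plain sums, fourth moment with marks. -/
theorem cell_pln {M : O} (hM : Adm M) {K₀ : ℕ} (hK : 1 ≤ K₀) {η : ℝ} (hη : 0 < η)
    (hη1 : η ≤ 1 / 1000) (hKη : 5 / (24 * (K₀ : ℝ)) ≤ η) :
    ∃ C : ℝ, 0 < C ∧ ∀ (B ρ δ q E w x : ℝ) (qs : ℕ → ℝ) (ν : Chr M) (S : Finset O) (y t : O → ℝ),
      1 ≤ B → 8 ≤ B ^ η → 0 < ρ → ρ ≤ 33 / 40 → δ ≤ 1 → 0 ≤ q → q ≤ δ →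
      q / 6 ≤ ∑ i : Fin K₀, qs i * ell K₀ i → 0 ≤ E →
      (∀ s : ℝ, 0 ≤ s → s ≤ 1 - 2 * w → δ * s - q * min (2 / 7 * s) (3 / 50) ≤ E) →
      ρ * w - 2 * η ≤ x → x ≤ ρ / 2 + 2 * η →
      (∀ a ∈ S, ¬ Exc M a ∧ nr a ≤ B ^ ρ ∧ y a ∈ Set.Icc (B ^ x) (2 * B ^ x) ∧
        |t a| ≤ Real.log B ^ 3 ∧
        B ^ (-η) * y a ^ ((1 + δ) / 2) ≤ ‖Pln ν a (y a) (t a * Complex.I)‖ ∧
        ∀ i < K₀, qs i = 0 ∨ Pw K₀ B i ^ ((1 + qs i) / 2) ≤ ‖slt M K₀ B i a‖) →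
      (S.card : ℝ) ≤ C * B ^ (ρ * (1 - δ + E) + 50 * η) := by
  classical
  obtain ⟨C₁, J, hC₁, h₁⟩ := mom4_fill hM hη
  obtain ⟨C₂, hC₂, h₂⟩ := poly J hη
  obtain ⟨C₃, hC₃, h₃⟩ := cell 4 hη
  refine ⟨C₃ * (C₁ * C₂), by positivity,
    fun B ρ δ q E w x qs ν S y t hB h8 hρ hρ1 hδ hq hqδ hm hE0 hE hx1 hx2 hS => ?_⟩
  have hB0 : 0 < B := one_pos.trans_le hB
  obtain ⟨s, hs0, hs1, hs2, hs3⟩ : ∃ s : ℝ, 0 ≤ s ∧ ρ - 2 * x - 4 * η ≤ ρ * s ∧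
      2 * x + ρ * s ≤ ρ + 4 * η ∧ δ * s - q * min (2 / 7 * s) (3 / 50) ≤ E := by
    rcases le_total (ρ - 2 * x - 4 * η) 0 with h | h
    · exact ⟨0, le_rfl, by linarith, by linarith, by norm_num; exact hE0⟩
    · have e : ρ * ((ρ - 2 * x - 4 * η) / ρ) = ρ - 2 * x - 4 * η := mul_div_cancel₀ _ hρ.ne'
      refine ⟨(ρ - 2 * x - 4 * η) / ρ, by positivity, e.ge, by linarith, hE _ (by positivity) ?_⟩
      rw [div_le_iff₀ hρ]
      linarith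
  set μ := min (2 / 7 * s) (3 / 50) with hμ
  have hμ0 : 0 ≤ μ := le_min (by positivity) (by norm_num)
  have hμ1 : ρ * μ ≤ ρ * (2 / 7 * s) := mul_le_mul_of_nonneg_left (min_le_left _ _) hρ.le
  have hμ2 : ρ * μ ≤ ρ * (3 / 50) := mul_le_mul_of_nonneg_left (min_le_right _ _) hρ.le
  obtain ⟨I, hI, -, hl, hlow⟩ := select hK hKη qs hq (hqδ.trans hδ) hm (z := ρ * μ) (by positivity)
    (by linarith)
  have hlb : ∀ i ∈ I, 0 ≤ ell K₀ i + kapS K₀ ∧ ell K₀ i + kapS K₀ ≤ η := fun i hi => by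
    obtain ⟨h1, h2⟩ := ell_bounds (hI i hi)
    have h3 := PA.kap_nonneg K₀
    have h4 : 0 ≤ 1 / (8 * (K₀ : ℝ)) := by positivity
    constructor <;> linarith
  obtain ⟨I₁, hI₁, hb1, hb2⟩ := balanced I (fun i => ell K₀ i + kapS K₀) hη.le hlb
  have hsum := Finset.sum_sdiff (f := fun i => ell K₀ i + kapS K₀) hI₁
  set l := ∑ i ∈ I, (ell K₀ i + kapS K₀) with hldef
  set l₁ := ∑ i ∈ I₁, (ell K₀ i + kapS K₀) with hl₁
  set l₂ := ∑ i ∈ I \ I₁, (ell K₀ i + kapS K₀) with hl₂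
  have hl₂0 : 0 ≤ l₂ := Finset.sum_nonneg fun i hi => (hlb i (Finset.mem_sdiff.1 hi).1).1
  have key : ∀ I' ⊆ I, ∃ (Zs : Finset O) (c' : O → ℂ),
      (∀ z ∈ Zs, SP M z ∧ nr z ≤ B ^ ∑ i ∈ I', (ell K₀ i + kapS K₀)) ∧ (∀ z, ‖c' z‖ ≤ 1) ∧
      ∀ a, ∏ i ∈ I', ‖slt M K₀ B i a‖ ^ 2 = ‖slot Zs c' a‖ ^ 2 := fun I' hI' => by
    obtain ⟨Zs, c', k1, k2, k3⟩ := prod_slot_eq hM I' (fun i => B ^ (ell K₀ i + kapS K₀))
      (Pset M K₀ B) (cw K₀ B) (fun i hi p hp => by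
        obtain ⟨a1, a2, a3, -, a5⟩ := (slots hB (hI i (hI' hi))).2 p hp
        exact ⟨a1, a2, a3, a5⟩) (fun i _ j _ h => disjoint_Pset M K₀ hB h) (norm_cw_le K₀ B)
    refine ⟨Zs, c', by rw [Real.rpow_sum_of_pos hB0]; exact k1, k2, fun a => ?_⟩
    rw [← k3, norm_prod, Finset.prod_pow]
    rfl
  obtain ⟨Z₁, c₁, hZ₁, hc₁, e₁⟩ := key I₁ hI₁
  obtain ⟨Z₂, c₂, hZ₂, hc₂, e₂⟩ := key (I \ I₁) Finset.sdiff_subset
  refine (h₃ S (fun a => ∏ i ∈ I, ‖slt M K₀ B i a‖ ^ 2) (fun a => rc ν a) B (B ^ x)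
    (C₁ * C₂) (η + η + (ρ + 30 * η + (x + η) * 2 + l))
    (l + q * (ρ * μ) - 2 * η + (4 : ℕ) * (x * ((1 + δ) / 2) - η)) y t hB (by positivity)
    (fun _ => by positivity) (fun a => polyB_rc hM ν a) (by positivity)
    (fun a ha => (hS a ha).2.2.1)
    (fun a ha => (hS a ha).2.2.2.1) (fun Y hY τ hτ => ?_) fun a ha => ?_).trans ?_
  · have hY0 : 0 < Y := lt_of_lt_of_le (by positivity) hY.1
    have hY1 : Y ^ 2 ≤ B ^ ((x + η) * 2) := by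
      rw [Real.rpow_mul hB0.le, Real.rpow_two]
      exact pow_le_pow_left₀ hY0.le (le_of_eight hB h8 hY.2) 2
    have h4 := h₁ (B ^ (ρ + 30 * η)) Y (B ^ l₁) (B ^ l₂) τ ν Z₁ Z₂ c₁ c₂
      (Real.one_le_rpow hB (by linarith)) hY0 (Real.one_le_rpow hB hl₂0)
      (Real.rpow_le_rpow_of_exponent_le hB hb1) (by
        rw [← Real.rpow_natCast, ← Real.rpow_mul hB0.le]
        refine Real.rpow_le_rpow_of_exponent_le hB ?_
        push_cast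
        linarith) (by
        rw [← Real.rpow_natCast (B ^ l₁), ← Real.rpow_mul hB0.le,
          ← Real.rpow_natCast (B ^ l₂), ← Real.rpow_mul hB0.le, mul_assoc]
        refine (mul_le_mul_of_nonneg_right hY1 (by positivity)).trans ?_
        rw [← Real.rpow_add hB0, ← Real.rpow_add hB0]
        refine Real.rpow_le_rpow_of_exponent_le hB ?_
        push_cast
        linarith) hZ₁ hZ₂ hc₁ hc₂
    have h5 : ∑ a ∈ S, (∏ i ∈ I, ‖slt M K₀ B i a‖ ^ 2) * ‖Sm (rc ν a) Y (τ * Complex.I)‖ ^ 4 ≤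
        ∑ a ∈ nex M (B ^ (ρ + 30 * η)), ‖Pln ν a Y (τ * Complex.I)‖ ^ 4 *
          (‖slot Z₁ c₁ a‖ ^ 2 * ‖slot Z₂ c₂ a‖ ^ 2) := by
      refine le_trans (le_of_eq (Finset.sum_congr rfl fun a _ => ?_))
        (Finset.sum_le_sum_of_subset_of_nonneg (s := S)
        (fun a ha => (M4S.mem_nex (by positivity)).2 ⟨(hS a ha).2.1.trans
          (Real.rpow_le_rpow_of_exponent_le hB (by linarith)), (hS a ha).1⟩)
          fun _ _ _ => by positivity)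
      rw [← Finset.prod_sdiff hI₁, e₁, e₂, Pln_eq_Sm]
      ring
    refine h5.trans (h4.trans ?_)
    have h6 : (B ^ (ρ + 30 * η)) ^ η ≤ B ^ η :=
      Real.rpow_le_rpow (by positivity) (Real.rpow_le_self_of_one_le hB (by linarith)) hη.le
    rw [← Real.rpow_add hB0, show l₁ + l₂ = l by linarith]
    calc _ ≤ C₁ * B ^ η * (C₂ * B ^ η) * (B ^ (ρ + 30 * η) * B ^ ((x + η) * 2) * B ^ l) := by
          gcongr
          exact h₂ B τ hB hτ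
      _ = _ := by
          rw [Real.rpow_add hB0 (η + η), Real.rpow_add hB0 η, Real.rpow_add hB0 _ l,
            Real.rpow_add hB0 (ρ + 30 * η)]
          ring
  · rw [← Pln_eq_Sm, Real.rpow_add hB0]
    exact mul_le_mul (hlow M a B hB (hS a ha).2.2.2.2.2)
      (lower hB (by linarith) (hS a ha).2.2.1.1 (hS a ha).2.2.2.2.1 4) (by positivity)
      (by positivity)
  · refine mul_le_mul_of_nonneg_left (Real.rpow_le_rpow_of_exponent_le hB ?_) (by positivity)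
    push_cast
    nlinarith [mul_le_mul_of_nonneg_left hs3 hρ.le, mul_le_mul_of_nonneg_left hs1 (hq.trans hqδ),
      mul_le_mul_of_nonneg_right hδ hη.le]

theorem rpow_sq {B : ℝ} (hB : 0 < B) (e : ℝ) : (B ^ 2) ^ e = B ^ (2 * e) := by
  rw [← Real.rpow_natCast, ← Real.rpow_mul hB.le]; norm_num

/-- The detector in the normalisation of the count. -/
theorem detect {M : O} (hM : Adm M) {η : ℝ} (hη : 0 < η) (hη1 : η ≤ 1 / 1000) :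
    ∃ ε₁ B₀ : ℝ, 0 < ε₁ ∧ ∀ B ≥ B₀, 1 < B ∧ 8 ≤ B ^ η ∧ ∀ (ρ u σ T : ℝ) (ν : Chr M) (z : ℂ) (r : O),
      6 / 25 ≤ ρ → ρ ≤ 1 → 0 ≤ u → u ≤ 1 / 2 → 51 / 100 ≤ σ → σ ≤ 1 → ¬ Exc M r → nr r ≤ B ^ ρ →
      ZF M r σ T → Lc ν r z = 0 → σ - ε₁ ≤ z.re → |z.im| + Real.log B ^ 2 ≤ T →
      |z.im| ≤ Real.log B ^ 3 → ∃ t D N : ℝ, |t| ≤ Real.log B ^ 3 ∧ B ^ (-η) ≤ D ∧
        D ≤ B ^ (ρ * (1 + u)) ∧ B ^ (ρ * (1 + u) - η) ≤ D * N ∧ B ^ (-η) ≤ N ∧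
        N ≤ B ^ (ρ / 2 + 2 * η) ∧ B ^ (-η) * D ^ σ ≤ ‖Mob ν r D (t * Complex.I)‖ ∧
        B ^ (-η) * N ^ σ ≤ ‖Pln ν r N (t * Complex.I)‖ := by
  obtain ⟨ε₁, R₀, hε₁, h⟩ := detector hM (half_pos hη)
  obtain ⟨C, hC, hp⟩ := poly 1 (half_pos hη)
  obtain ⟨B₁, hB₁⟩ := detector_const (C := 8) hη
  obtain ⟨B₂, hB₂⟩ := detector_const (C := C) (half_pos hη)
  refine ⟨ε₁, max (max (Real.exp 15) R₀) (max B₁ B₂), hε₁, fun B hB => ?_⟩
  simp only [ge_iff_le, max_le_iff] at hB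
  obtain ⟨⟨hB3, hB4⟩, hB1, hB2⟩ := hB
  have hB : 1 < B := lt_of_lt_of_le (Real.one_lt_exp_iff.2 (by norm_num)) hB3
  have hB0 : 0 < B := one_pos.trans hB
  have hL : 15 ≤ Real.log B := (Real.le_log_iff_exp_le hB0).2 hB3
  have hBB : B ≤ B ^ 2 := le_self_pow₀ hB.le two_ne_zero
  refine ⟨hB, hB₁ B hB1, fun ρ u σ T ν z r hρ hρ1 hu hu1 hσ hσ1 hr hrρ hZ hz hzσ hT him => ?_⟩
  have hpl : 1 + |z.im| ≤ B ^ η := by
    have h1 := hp B z.im hB.le (by linarith)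
    rw [pow_one] at h1
    refine h1.trans ?_
    nth_rewrite 2 [← add_halves η]
    rw [Real.rpow_add hB0]
    exact mul_le_mul_of_nonneg_right (hB₂ B hB2) (by positivity)
  have hηB : B ^ η ≤ B := Real.rpow_le_self_of_one_le hB.le (by linarith)
  obtain ⟨D, N, k1, k2, k3, k4, k5, k6, k7⟩ := h (B ^ 2) (B ^ (ρ * (1 + u))) σ T ν r z
    (hB4.trans hBB) hr (hrρ.trans ((Real.rpow_le_self_of_one_le hB.le hρ1).trans hBB))
    (by
      rw [rpow_sq hB0]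
      exact Real.rpow_le_rpow_of_exponent_le hB.le (by nlinarith))
    (by
      rw [← Real.rpow_two]
      exact Real.rpow_le_rpow_of_exponent_le hB.le (by nlinarith)) hσ hσ1 hZ hz hzσ
    (by rw [Real.log_pow]; push_cast; nlinarith) (by linarith)
  have e1 : (B ^ 2) ^ (-(η / 2)) = B ^ (-η) := by rw [rpow_sq hB0]; congr 1; ring
  have e2 : (B ^ 2) ^ (η / 2) = B ^ η := by rw [rpow_sq hB0]; congr 1; ring
  rw [e1] at k1 k3 k4 k6 k7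
  rw [e2] at k5
  refine ⟨-z.im, D, N, by rwa [abs_neg], k1, k2, by rwa [sub_eq_add_neg, Real.rpow_add hB0], k4,
    k5.trans ?_, k6, k7⟩
  have h1 : Real.sqrt (nr r) ≤ B ^ (ρ / 2) := by
    rw [Real.sqrt_le_left (by positivity), ← Real.rpow_natCast, ← Real.rpow_mul hB0.le]
    convert hrρ using 2
    push_cast
    ring
  rw [two_mul, ← add_assoc, Real.rpow_add hB0, Real.rpow_add hB0]
  gcongr

theorem count {ε : ℝ} (hε : 0 < ε) : ∃ K₁ : ℕ, ∀ K₀ ≥ K₁,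
    ∀ {M : O}, Adm M → ∃ ε₁ C B₀ : ℝ, 0 < ε₁ ∧ ∀ B ≥ B₀, ∀ (R₀ δ q : ℝ) (qs : ℕ → ℝ) (S : Finset O),
      B ^ (6 / 25 : ℝ) ≤ R₀ → R₀ ≤ B ^ (33 / 40 : ℝ) → 1 / 50 ≤ δ → δ ≤ 1 → 0 ≤ q → q ≤ δ →
      q / 6 ≤ ∑ i : Fin K₀, qs i * ell K₀ i →
      (∀ r ∈ S, ¬ Exc M r ∧ nr r ≤ R₀ ∧
        (∃ (T : ℝ) (ν : Chr M) (ρ : ℂ), ZF M r ((1 + δ) / 2) T ∧ Lc ν r ρ = 0 ∧
          (1 + δ) / 2 - ε₁ ≤ ρ.re ∧ |ρ.im| + Real.log B ^ 2 ≤ T ∧ |ρ.im| ≤ Real.log B ^ 3) ∧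
        ∀ i < K₀, qs i = 0 ∨ Pw K₀ B i ^ ((1 + qs i) / 2) ≤ ‖slt M K₀ B i r‖) →
      (S.card : ℝ) ≤ C * B ^ ε * R₀ ^ (1 - δ + Eexc δ q) := by
  classical
  obtain ⟨η, hη, hη1, hηε⟩ : ∃ η : ℝ, 0 < η ∧ η ≤ 1 / 1000 ∧ 51 * η ≤ ε :=
    ⟨min (1 / 1000) (ε / 51), lt_min (by norm_num) (by positivity), min_le_left _ _,
      by linarith [min_le_right (1 / 1000) (ε / 51)]⟩
  refine ⟨⌈5 / (24 * η)⌉₊ + 1, fun K₀ hK₀ M hM => ?_⟩
  have hK : 1 ≤ K₀ := le_trans (by omega) hK₀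
  have hKη : 5 / (24 * (K₀ : ℝ)) ≤ η := by
    have h0 : (0 : ℝ) < K₀ := by exact_mod_cast hK
    have h1 : 5 / (24 * η) ≤ K₀ := Nat.ceil_le.1 (by omega)
    rw [div_le_iff₀ (by positivity)] at h1 ⊢
    linarith
  obtain ⟨ε₁, B₀, hε₁, hdet⟩ := detect hM hη hη1
  obtain ⟨C₀, hC₀, hpig⟩ := pigeon hM hη
  obtain ⟨C₁, hC₁, h₁⟩ := cell_long hM hη hη1
  obtain ⟨C₂, hC₂, h₂⟩ := cell_mid hM hK hη hη1 hKη
  obtain ⟨C₃, hC₃, h₃⟩ := cell_pln hM hK hη hη1 hKη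
  refine ⟨ε₁, C₀ * (C₁ + C₂ + C₃), B₀, hε₁,
    fun B hB R₀ δ q qs S hR₀ hR₁ hδ0 hδ hq hqδ hm hS => ?_⟩
  obtain ⟨hB1, h8, hdet⟩ := hdet B hB
  have hB0 : 0 < B := one_pos.trans hB1
  have hR0 : 0 < R₀ := lt_of_lt_of_le (by positivity) hR₀
  obtain ⟨ρ, rfl⟩ : ∃ ρ : ℝ, R₀ = B ^ ρ := ⟨_, (Real.rpow_logb hB0 hB1.ne' hR0).symm⟩
  rw [Real.rpow_le_rpow_left_iff hB1] at hR₀ hR₁
  obtain ⟨hE0, u, v, hu, hu1, hv, hv1, hEu, hEv, hEs⟩ := numeric hδ0 hδ hq hqδ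
  set E := Eexc δ q
  have hex : ∀ r : O, ∃ (ν : Chr M) (t D N : ℝ), r ∈ S → |t| ≤ Real.log B ^ 3 ∧ B ^ (-η) ≤ D ∧
      D ≤ B ^ (ρ * (1 + u)) ∧ B ^ (ρ * (1 + u) - η) ≤ D * N ∧ B ^ (-η) ≤ N ∧
      N ≤ B ^ (ρ / 2 + 2 * η) ∧ B ^ (-η) * D ^ ((1 + δ) / 2) ≤ ‖Mob ν r D (t * Complex.I)‖ ∧
      B ^ (-η) * N ^ ((1 + δ) / 2) ≤ ‖Pln ν r N (t * Complex.I)‖ := fun r => by
    by_cases hr : r ∈ S
    · obtain ⟨a1, a2, ⟨T, ν, z, a3, a4, a5, a6, a7⟩, -⟩ := hS r hr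
      obtain ⟨t, D, N, h⟩ := hdet ρ u _ T ν z r hR₀ (by linarith) hu hu1 (by linarith)
        (by linarith) a1 a2 a3 a4 a5 a6 a7
      exact ⟨ν, t, D, N, fun _ => h⟩
    · exact ⟨1, 0, 0, 0, fun h => (hr h).elim⟩
  choose ψ t D N hex using hex
  set F := B ^ (ρ * (1 - δ + E) + 50 * η) with hF
  have hF0 : 0 ≤ F := by positivity
  have hinv : B⁻¹ ≤ B ^ (-η) := by
    rw [← Real.rpow_neg_one]
    exact Real.rpow_le_rpow_of_exponent_le hB1.le (by linarith)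
  have hS₁ : ((S.filter fun r => B ^ (ρ * (1 - v)) ≤ D r).card : ℝ) ≤
      C₀ * B ^ η * ((C₁ + C₂) * F) := by
    refine hpig _ ψ D B _ hB1.le (by positivity) (fun a ha => ?_) fun ν X S' hX hsub hne hS' => ?_
    · obtain ⟨-, a1, a2, -⟩ := hex a (Finset.mem_filter.1 ha).1
      refine ⟨hinv.trans a1, a2.trans ?_⟩
      rw [← Real.rpow_two]
      exact Real.rpow_le_rpow_of_exponent_le hB1.le (by nlinarith)
    obtain ⟨x, rfl⟩ : ∃ x : ℝ, X = B ^ x := ⟨_, (Real.rpow_logb hB0 hB1.ne' hX).symm⟩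
    obtain ⟨a₀, ha₀⟩ := hne
    obtain ⟨b1, b2⟩ := Finset.mem_filter.1 (hsub ha₀)
    have hx2 : x ≤ ρ * (1 + u) :=
      (Real.rpow_le_rpow_left_iff hB1).1 ((hS' a₀ ha₀).2.1.trans (hex a₀ b1).2.2.1)
    have hx1 : ρ * (1 - v) ≤ x + η := (Real.rpow_le_rpow_left_iff hB1).1
      (le_of_eight hB1.le h8 (b2.trans ((hS' a₀ ha₀).2.2.trans (by linarith))))
    rcases le_total (4 * B ^ ρ) (B ^ x) with h | h
    · refine (h₁ B ρ δ E u x ν S' D t hB1.le h8 (by linarith) (by linarith) (by linarith) hu1 hEu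
        hE0 h ((Real.rpow_le_rpow_left_iff hB1).1 (by linarith)) hx2 fun a ha => ?_).trans
        (mul_le_mul_of_nonneg_right (by linarith) hF0)
      have c1 := (Finset.mem_filter.1 (hsub ha)).1
      obtain ⟨c2, c3⟩ := hS' a ha
      exact ⟨ne_zero_of_not_exc (hS a c1).1, (hS a c1).2.1, c3, (hex a c1).1,
        c2 ▸ (hex a c1).2.2.2.2.2.2.1⟩
    · refine (h₂ B ρ δ q E v x qs ν S' D t hB1.le h8 (by linarith) hR₁ hδ hq hqδ hm hv hv1 hEv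
        hE0 (by linarith) ((Real.rpow_le_rpow_left_iff hB1).1
          (le_of_eight hB1.le h8 (by linarith))) fun a ha => ?_).trans
        (mul_le_mul_of_nonneg_right (by linarith) hF0)
      have c1 := (Finset.mem_filter.1 (hsub ha)).1
      obtain ⟨c2, c3⟩ := hS' a ha
      exact ⟨ne_zero_of_not_exc (hS a c1).1, (hS a c1).2.1, c3, (hex a c1).1,
        c2 ▸ (hex a c1).2.2.2.2.2.2.1, (hS a c1).2.2.2⟩
  have hS₂ : ((S.filter fun r => ¬ B ^ (ρ * (1 - v)) ≤ D r).card : ℝ) ≤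
      C₀ * B ^ η * (C₃ * F) := by
    refine hpig _ ψ N B _ hB1.le (by positivity) (fun a ha => ?_) fun ν X S' hX hsub hne hS' => ?_
    · obtain ⟨-, -, -, -, a1, a2, -⟩ := hex a (Finset.mem_filter.1 ha).1
      refine ⟨hinv.trans a1, a2.trans ?_⟩
      rw [← Real.rpow_two]
      exact Real.rpow_le_rpow_of_exponent_le hB1.le (by linarith)
    obtain ⟨x, rfl⟩ : ∃ x : ℝ, X = B ^ x := ⟨_, (Real.rpow_logb hB0 hB1.ne' hX).symm⟩
    obtain ⟨a₀, ha₀⟩ := hne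
    obtain ⟨b1, b2⟩ := Finset.mem_filter.1 (hsub ha₀)
    have hx2 : x ≤ ρ / 2 + 2 * η :=
      (Real.rpow_le_rpow_left_iff hB1).1 ((hS' a₀ ha₀).2.1.trans (hex a₀ b1).2.2.2.2.2.1)
    have hN : N a₀ ≤ B ^ (x + η) := le_of_eight hB1.le h8 ((hS' a₀ ha₀).2.2.trans (by linarith))
    have hx1 : ρ * (1 + u) - η ≤ ρ * (1 - v) + (x + η) := by
      rw [← Real.rpow_le_rpow_left_iff hB1, Real.rpow_add hB0 (ρ * (1 - v))]
      exact (hex a₀ b1).2.2.2.1.trans (mul_le_mul (not_le.1 b2).le hN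
        (le_trans (by positivity) (hex a₀ b1).2.2.2.2.1) (by positivity))
    refine h₃ B ρ δ q E (u + v) x qs ν S' N t hB1.le h8 (by linarith) hR₁ hδ hq hqδ hm hE0
      (fun s hs hs' => hEs s hs (by linarith)) (by linarith) hx2 fun a ha => ?_
    have c1 := (Finset.mem_filter.1 (hsub ha)).1
    obtain ⟨c2, c3⟩ := hS' a ha
    exact ⟨(hS a c1).1, (hS a c1).2.1, c3, (hex a c1).1, c2 ▸ (hex a c1).2.2.2.2.2.2.2,
      (hS a c1).2.2.2⟩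
  have hc : (S.card : ℝ) = (S.filter fun r => B ^ (ρ * (1 - v)) ≤ D r).card +
      (S.filter fun r => ¬ B ^ (ρ * (1 - v)) ≤ D r).card := by
    rw [← Nat.cast_add, Finset.card_filter_add_card_filter_not]
  have hfin : B ^ η * F ≤ B ^ ε * (B ^ ρ) ^ (1 - δ + E) := by
    rw [hF, ← Real.rpow_mul hB0.le, ← Real.rpow_add hB0, ← Real.rpow_add hB0]
    exact Real.rpow_le_rpow_of_exponent_le hB1.le (by linarith)
  calc (S.card : ℝ) ≤ C₀ * (C₁ + C₂ + C₃) * (B ^ η * F) := by rw [hc]; linarith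
    _ ≤ C₀ * (C₁ + C₂ + C₃) * (B ^ ε * (B ^ ρ) ^ (1 - δ + E)) := by gcongr
    _ = _ := by ring

end CC

end Crest.Agent.R17
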