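import Crest.Agent.R17.LS2

/-!
# Row 17, module M11: forward Poisson summation for a pair, expansion of `Rs` in characters
-/

set_option autoImplicit false

noncomputable section

namespace Crest.Agent.R17.DPA1

open scoped ComplexConjugate

theorem coprime_two {M m : O} (hM : Adm M) (h : IsCoprime m M) : IsCoprime m 2 :=
  h.of_isCoprime_of_dvd_right ((show (2 : O) ∣ 72 from ⟨36, by norm_num⟩).trans hM.2)

theorem exists_chr_Rs {M : O} (hM : Adm M) {c : O} (hc : IsCoprime c 2) :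
    ∃ ν : Chr M, ∀ m, IsCoprime m M → ev ν m = Rs c m := by
  refine exists_chr (fun m => Rs c m) ?_ (fun m n hm hn => ?_) (fun m n _ h => ?_)
  · show Rs c 1 = 1
    rw [Rs_comm, Rs_one_left hc]
  · show Rs c (m * n) = Rs c m * Rs c n
    rw [Rs_comm c (m * n), Rs_mul_left (coprime_two hM hm) (coprime_two hM hn) hc, Rs_comm m,
      Rs_comm n]
  · exact Rs_congr (by simp)
      (((show (4 : O) ∣ 72 from ⟨18, by norm_num⟩).trans hM.2).trans h)

theorem Rs_expand {M : O} (hM : Adm M) [Fintype (Chr M)] : ∃ b : Chr M → Chr M → ℂ,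
    (∀ ν ν', ‖b ν ν'‖ ≤ 1) ∧ ∀ m n, IsCoprime m M → IsCoprime n M →
      Rs m n = ∑ ν, ∑ ν', b ν ν' * ev ν m * conj (ev ν' n) := by
  classical
  have : Fact (M ≠ 0) := ⟨hM.1⟩
  choose s hs using (Ideal.Quotient.mk_surjective (I := Ideal.span {M}))
  have h1 : ∀ q : O ⧸ Ideal.span {M}, ∃ ν : Chr M, IsUnit q →
      ∀ n, IsCoprime n M → Rs (s q) n = conj (ev ν n) := by
    intro q
    by_cases hq : IsUnit q
    · obtain ⟨ν, hν⟩ := exists_chr_Rs hM
        (coprime_two hM (isUnit_mk_iff.1 ((hs q).symm ▸ hq)))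
      exact ⟨ν⁻¹, fun _ n hn => by rw [ev_inv hM.1, Complex.conj_conj, hν n hn]⟩
    · exact ⟨1, fun h => absurd h hq⟩
  choose χ hχ using h1
  have h2 : ∀ ν' : Chr M, ∃ b : Chr M → ℂ, (∀ ν, ‖b ν‖ ≤ 1) ∧
      ∀ q, (if IsUnit q ∧ χ q = ν' then (1 : ℂ) else 0) = ∑ ν, b ν * ν q := fun ν' =>
    exists_mulChar_expansion _ (fun q => by split_ifs <;> simp)
      (fun q hq => if_neg fun h => hq h.1)
  choose b hb hb' using h2
  refine ⟨fun ν ν' => b ν' ν, fun ν ν' => hb ν' ν, fun m n hm hn => ?_⟩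
  have hu := isUnit_mk_iff.2 hm
  have e1 : Rs m n = Rs (s (Ideal.Quotient.mk _ m)) n :=
    Rs_congr (((show (4 : O) ∣ 72 from ⟨18, by norm_num⟩).trans hM.2).trans
      (mk_eq_mk_iff.1 (hs _).symm)) (by simp)
  rw [e1, hχ _ hu n hn, Finset.sum_comm]
  have e2 : ∀ ν' : Chr M, ∑ ν, b ν' ν * ev ν m * conj (ev ν' n) =
      if χ (Ideal.Quotient.mk _ m) = ν' then conj (ev ν' n) else 0 := by
    intro ν'
    rw [← Finset.sum_mul]
    have := hb' ν' (Ideal.Quotient.mk _ m)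
    simp only [hu, true_and] at this
    unfold ev
    rw [← this]
    split_ifs <;> simp
  rw [Finset.sum_congr rfl fun ν' _ => e2 ν', Finset.sum_ite_eq]
  simp

theorem sym_per (n x y : O) (h : n ∣ x - y) : sym n x = sym n y :=
  sym_congr ((rad_dvd n).trans h)

theorem gs_one_eq {j : ℕ} {n : O} (hn : n ≠ 0) : gs j n 1 = gam j n * (Real.sqrt (nr n) : ℂ) := by
  have : (Real.sqrt (nr n) : ℂ) ≠ 0 := by
    exact_mod_cast (Real.sqrt_pos.2 (nr_pos hn)).ne'
  rw [gam, div_mul_cancel₀ _ this]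

/-- The Fourier transform of `conj χ_{m₁} χ_{m₂}` modulo `m₁ m₂`. -/
theorem ft_pair {m₁ m₂ : O} (h₁ : PO m₁) (h₂ : PO m₂) (hs : Squarefree (m₁ * m₂)) (k : O) :
    ft (m₁ * m₂) (fun x => conj (sym m₁ x) * sym m₂ x) k =
      (Real.sqrt (nr m₁ * nr m₂) : ℂ) *
        (Rs m₁ m₂ * sym m₂ (-1) * gam 5 m₁ * conj (gam 5 m₂)) * (sym m₁ k * conj (sym m₂ k)) := by
  have hc : IsCoprime m₁ m₂ := (IsRelPrime.of_squarefree_mul hs).isCoprime
  have s₁ : Squarefree m₁ := hs.of_mul_left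
  have s₂ : Squarefree m₂ := hs.of_mul_right
  have n₁ := h₁.1.ne_zero
  have n₂ := h₂.1.ne_zero
  have e0 := Gauss_crt (f := fun x => conj (sym m₁ x)) (g := fun x => sym m₂ x) n₁ n₂ hc
    (fun x y h => by rw [sym_per m₁ x y h]) (fun x y h => sym_per m₂ x y h)
    (fun x y => by rw [sym_mul_right h₁, map_mul]) (fun x y => sym_mul_right h₂ x y) k
  have e1 : Gauss_G (fun x => conj (sym m₁ x)) m₁ k = gs 5 m₁ k := by
    refine Finset.sum_congr rfl fun x _ => ?_
    rw [sym_pow_add_six h₁.1 x (by norm_num), ← conj_sym h₁.1]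
  have e2 : Gauss_G (fun x => sym m₂ x) m₂ k = gs 1 m₂ k := by
    refine Finset.sum_congr rfl fun x _ => ?_
    rw [sym_pow_add_six h₂.1 x (by norm_num), pow_one]
  have e3 : gam 1 m₂ = sym m₂ (-1) * conj (gam 5 m₂) := by
    have a1 := gam_mul_gam (j := 1) (by norm_num) h₂ s₂
    have a2 := Gauss_conj_mul (norm_gam (j := 5) (by norm_num) h₂ s₂)
    rw [mul_one, pow_one] at a1
    rw [← a1]
    linear_combination (-gam 1 m₂) * a2
  have e4 : conj (sym m₁ m₂) * sym m₂ m₁ = Rs m₁ m₂ := by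
    rw [sym_recip h₂ h₁, Rs_comm m₂ m₁]
    linear_combination Rs m₁ m₂ * Gauss_conj_mul (norm_sym h₁.1 hc)
  change Gauss_G (fun x => conj (sym m₁ x) * sym m₂ x) (m₁ * m₂) k = _
  rw [e0, e1, e2, gs_sqfree (by norm_num) h₁ s₁, gs_sqfree (by norm_num) h₂ s₂, gs_one_eq n₁,
    gs_one_eq n₂, e3, e4, ← conj_sym h₁.1, Complex.conj_conj, pow_one,
    Real.sqrt_mul (nr_pos n₁).le]
  push_cast
  ring

theorem summable_pair {X : ℝ} (hX : 0 < X) {f : O → ℂ} (hf : ∀ k, ‖f k‖ ≤ 1) :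
    Summable fun k : O => f k * (gw (nr k / X) : ℂ) := by
  refine Summable.of_norm_bounded (summable_gw' hX) fun k => ?_
  rw [norm_mul, Complex.norm_real, Real.norm_of_nonneg (gw_pos _).le]
  exact mul_le_of_le_one_left (gw_pos _).le (hf k)

theorem pair_fwd {g m₁ m₂ : O} (hg : PO g) (h₁ : PO m₁) (h₂ : PO m₂)
    (hs : Squarefree (g * m₁ * m₂)) {A : ℝ} (hA : 0 < A) :
    ∑' a : O, conj (sym (g * m₁) a) * sym (g * m₂) a * (gw (nr a / A) : ℂ) =
      ∑ e ∈ pdiv g, mu e * (conj (sym m₁ e) * sym m₂ e) *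
        ((A / (nr e * Real.sqrt (nr m₁ * nr m₂)) : ℝ) : ℂ) *
        (Rs m₁ m₂ * sym m₂ (-1) * gam 5 m₁ * conj (gam 5 m₂)) *
        ∑' k : O, sym m₁ k * conj (sym m₂ k) * (gw (A * nr k / (nr e * nr m₁ * nr m₂)) : ℂ) := by
  classical
  have n₀ := hg.1.ne_zero
  have n₁ := h₁.1.ne_zero
  have n₂ := h₂.1.ne_zero
  have hs' : Squarefree (m₁ * m₂) := by
    rw [mul_assoc] at hs
    exact hs.of_mul_right
  set f : O → ℂ := fun x => conj (sym m₁ x) * sym m₂ x with hf
  have hf1 : ∀ k, ‖f k‖ ≤ 1 := fun k => by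
    rw [hf, norm_mul, Complex.norm_conj]
    exact mul_le_one₀ (norm_sym_le _ _) (norm_nonneg _) (norm_sym_le _ _)
  have e1 : ∀ a : O, conj (sym (g * m₁) a) * sym (g * m₂) a * (gw (nr a / A) : ℂ) =
      ∑ e ∈ pdiv g, mu e * ((if e ∣ a then f a else 0) * (gw (nr a / A) : ℂ)) := by
    intro a
    have a1 : conj (sym g a) * sym g a = ∑ e ∈ pdiv g, if e ∣ a then mu e else 0 := by
      rw [← Finset.sum_filter]
      by_cases ha : a = 0
      · subst ha
        simp only [dvd_zero, Finset.filter_true]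
        rw [sum_mu_pdiv n₀]
        split_ifs with h
        · rw [sym_eq_prod, h, Finset.prod_empty, map_one, mul_one]
        · obtain ⟨p, hp⟩ := Finset.nonempty_iff_ne_empty.2 h
          obtain ⟨p1, -, p3⟩ := BasicB.of_mem_pf hp
          rw [(sym_eq_zero_iff hg.1).2 fun hc =>
            p1.not_isUnit (isUnit_of_dvd_unit p3 (isCoprime_zero_right.1 hc)), mul_zero]
      · rw [sum_mu_coprime hg.1 ha]
        split_ifs with h
        · exact Gauss_conj_mul (norm_sym hg.1 h)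
        · rw [(sym_eq_zero_iff hg.1).2 h, mul_zero]
    rw [sym_mul_left n₀ n₁, sym_mul_left n₀ n₂, map_mul]
    calc _ = (conj (sym g a) * sym g a) * (f a * (gw (nr a / A) : ℂ)) := by rw [hf]; ring
      _ = _ := by
        rw [a1, Finset.sum_mul]
        refine Finset.sum_congr rfl fun e _ => ?_
        split_ifs <;> simp
  rw [tsum_congr e1, Summable.tsum_finsetSum fun e _ => Summable.mul_left _
    (summable_pair hA fun k => by split_ifs; exacts [hf1 k, by simp])]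
  refine Finset.sum_congr rfl fun e he => ?_
  have he0 : e ≠ 0 := ((mem_pdiv n₀).1 he).1.ne_zero
  have hpe := nr_pos he0
  have hp₁ := nr_pos n₁
  have hp₂ := nr_pos n₂
  have e2 : ∑' a : O, (if e ∣ a then f a else 0) * (gw (nr a / A) : ℂ) =
      ∑' b : O, f e * (f b * (gw (nr b / (A / nr e)) : ℂ)) := by
    rw [← (mul_right_injective₀ he0).tsum_eq (f := fun a : O =>
      (if e ∣ a then f a else 0) * (gw (nr a / A) : ℂ))]
    · refine tsum_congr fun b => ?_
      have : nr (e * b) / A = nr b / (A / nr e) := by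
        rw [nr_mul]
        field_simp
      rw [if_pos (dvd_mul_right e b), this, hf]
      simp only [sym_mul_right h₁, sym_mul_right h₂, map_mul]
      ring
    · intro a ha
      by_cases h : e ∣ a
      · obtain ⟨b, rfl⟩ := h
        exact ⟨b, rfl⟩
      · exact absurd (by simp [h]) ha
  rw [tsum_mul_left, e2, tsum_mul_left,
    poisson (mul_ne_zero n₁ n₂) f (fun x y h => by
      rw [hf]
      simp only
      rw [sym_per m₁ x y ((dvd_mul_right m₁ m₂).trans h),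
        sym_per m₂ x y ((dvd_mul_left m₂ m₁).trans h)]) (div_pos hA hpe)]
  have e3 : ∀ k : O, ft (m₁ * m₂) f k * (gw (A / nr e * nr k / nr (m₁ * m₂)) : ℂ) =
      ((Real.sqrt (nr m₁ * nr m₂) : ℂ) * (Rs m₁ m₂ * sym m₂ (-1) * gam 5 m₁ * conj (gam 5 m₂))) *
        (sym m₁ k * conj (sym m₂ k) * (gw (A * nr k / (nr e * nr m₁ * nr m₂)) : ℂ)) := by
    intro k
    have : A / nr e * nr k / nr (m₁ * m₂) = A * nr k / (nr e * nr m₁ * nr m₂) := by
      rw [nr_mul]
      field_simp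
    rw [hf, ft_pair h₁ h₂ hs', this]
    ring
  have e4 : ((A / (nr e * Real.sqrt (nr m₁ * nr m₂)) : ℝ) : ℂ) =
      ((A / nr e / nr (m₁ * m₂) : ℝ) : ℂ) * (Real.sqrt (nr m₁ * nr m₂) : ℂ) := by
    rw [← Complex.ofReal_mul, nr_mul]
    congr 1
    have h1 : 0 < Real.sqrt (nr m₁ * nr m₂) := Real.sqrt_pos.2 (mul_pos hp₁ hp₂)
    have h2 := Real.mul_self_sqrt (mul_pos hp₁ hp₂).le
    generalize Real.sqrt (nr m₁ * nr m₂) = r at h1 h2
    rw [← h2]
    field_simp
  rw [tsum_congr e3, tsum_mul_left, e4, hf]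
  ring

end Crest.Agent.R17.DPA1
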