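import Crest.Agent.R17.LS2Defs

/-!
# Row 17, module M11: auxiliary file for `pair_back` and `norm_ft_frozen`
-/

set_option autoImplicit false

noncomputable section

namespace Crest.Agent.R17

open scoped ComplexConjugate

namespace DPA2

theorem gam5_mul {m n : O} (hm : PO m) (hn : PO n) (h : IsCoprime m n) :
    gam 5 (m * n) = Rs m n * sym n m ^ 10 * gam 5 m * gam 5 n := by
  have e : Rs m n ^ 5 = Rs m n := by
    rw [show Rs m n ^ 5 = (Rs m n ^ 2) ^ 2 * Rs m n by ring, Rs_sq hm.2 hn.2]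
    ring
  rw [gam, gam, gam, gs_mul 5 hm hn h, sym_recip hm hn, mul_pow, e, nr_mul,
    Real.sqrt_mul (nr_pos hm.1.ne_zero).le]
  push_cast
  ring

theorem conj_Rs {m n : O} (hm : IsCoprime m 2) (hn : IsCoprime n 2) : conj (Rs m n) = Rs m n := by
  rcases sq_eq_one_iff.1 (Rs_sq hm hn) with h | h <;> rw [h] <;> simp

theorem ft_crt {f g : O → ℂ} {m n : O} (hm : m ≠ 0) (hn : n ≠ 0) (h : IsCoprime m n)
    (hf : ∀ x y, m ∣ x - y → f x = f y) (hg : ∀ x y, n ∣ x - y → g x = g y)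
    (hf' : ∀ x y, f (x * y) = f x * f y) (hg' : ∀ x y, g (x * y) = g x * g y) (k : O) :
    ft (m * n) (fun x => f x * g x) k = f n * g m * ft m f k * ft n g k :=
  Gauss_crt hm hn h hf hg hf' hg' k

theorem ft_pow {n : O} (hn : Primary n) {j : ℕ} (hj : j ≠ 0) (k : O) :
    ft n (fun x => sym n x ^ j) k = gs j n k :=
  Finset.sum_congr rfl fun x _ => by rw [sym_pow_add_six hn x hj]

theorem gs_eq_gam (j : ℕ) {n : O} (hn : n ≠ 0) : gs j n 1 = (Real.sqrt (nr n) : ℂ) * gam j n := by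
  have s1 : (Real.sqrt (nr n) : ℂ) ≠ 0 := by
    exact_mod_cast (Real.sqrt_pos.2 (nr_pos hn)).ne'
  rw [gam]
  field_simp

theorem rad_dvd_of {e d ρ : O} (hρ : ρ ≠ 0) (he : e ∣ ρ) (hd : d ∣ ρ) : rad (e * d ^ 3) ∣ ρ := by
  refine BasicB.prod_dvd_of_subset hρ fun p hp => ?_
  obtain ⟨h1, h2, h3⟩ := BasicB.of_mem_pf hp
  refine (mem_pf hρ).2 ⟨h1, h2, ?_⟩
  rcases h1.dvd_or_dvd h3 with h | h
  · exact h.trans he
  · exact (h1.dvd_of_dvd_pow h).trans hd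

/-- The Fourier transform of `χ_{m₁} conj χ_{m₂}`. -/
theorem ft_pair {m₁ m₂ : O} (h₁ : PO m₁) (h₂ : PO m₂) (s₁ : Squarefree m₁) (s₂ : Squarefree m₂)
    (hc : IsCoprime m₁ m₂) (a : O) :
    ft (m₁ * m₂) (fun x => sym m₁ x ^ 1 * sym m₂ x ^ 5) a =
      (Real.sqrt (nr m₁ * nr m₂) : ℂ) * Rs m₁ m₂ * (gam 1 m₁ * gam 5 m₂) *
        (sym m₁ a ^ 5 * sym m₂ a) := by
  rw [ft_crt h₁.1.ne_zero h₂.1.ne_zero hc (Gauss_sym_per m₁ 1) (Gauss_sym_per m₂ 5)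
      (fun x y => by rw [sym_mul_right h₁, mul_pow]) (fun x y => by rw [sym_mul_right h₂, mul_pow]),
    ft_pow h₁.1 one_ne_zero, ft_pow h₂.1 (by norm_num), gs_sqfree (by norm_num) h₁ s₁,
    gs_sqfree (by norm_num) h₂ s₂, gs_eq_gam 1 h₁.1.ne_zero, gs_eq_gam 5 h₂.1.ne_zero, map_pow,
    map_pow, conj_sym h₁.1, conj_sym h₂.1, sym_recip h₁ h₂,
    Real.sqrt_mul (nr_pos h₁.1.ne_zero).le]
  have e1 := sym_pow_six h₂.1 hc.symm
  have e2 : (sym m₂ a ^ 5) ^ 5 = sym m₂ a := by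
    rw [← pow_mul]
    simpa using Gauss_sym_pow h₂.1 a one_ne_zero 4
  rw [e2]
  push_cast
  linear_combination (Rs m₁ m₂ * sym m₁ a ^ 5 * (Real.sqrt (nr m₁) : ℂ) * gam 1 m₁ * sym m₂ a *
    (Real.sqrt (nr m₂) : ℂ) * gam 5 m₂) * e1

theorem alg₁ {u v w r β : ℂ} (hu : u ^ 6 = 1) (hv : v ^ 6 = 1) (hr : r ^ 6 = 1)
    (h : u * v ^ 3 * w = r * β) : u ^ 10 * (u * v ^ 3) * w ^ 5 * r = β ^ 5 := by
  have hβ : β = r ^ 5 * (u * v ^ 3 * w) := by rw [h]; linear_combination (-β) * hr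
  calc u ^ 10 * (u * v ^ 3) * w ^ 5 * r = u ^ 6 * (u ^ 5 * v ^ 3 * w ^ 5 * r) := by ring
    _ = (r ^ 6) ^ 4 * (v ^ 6) ^ 2 * (u ^ 5 * v ^ 3 * w ^ 5 * r) := by rw [hu, hv, hr]; ring
    _ = β ^ 5 := by rw [hβ]; ring

theorem alg₂ {u v w r β : ℂ} (hu : u ^ 6 = 1) (hv : v ^ 6 = 1) (hr : r ^ 6 = 1)
    (h : w * (u * v ^ 3) = r * β) : (u ^ 5) ^ 10 * w * (u * v ^ 3) ^ 5 * r ^ 5 = β := by
  have hβ : β = r ^ 5 * (w * (u * v ^ 3)) := by rw [h]; linear_combination (-β) * hr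
  calc (u ^ 5) ^ 10 * w * (u * v ^ 3) ^ 5 * r ^ 5
      = (u ^ 6) ^ 9 * (v ^ 6) ^ 2 * (r ^ 5 * (w * (u * v ^ 3))) := by ring
    _ = β := by rw [hu, hv, hβ]; ring

theorem pair_back {ρ e₁ e₂ d₁ d₂ m₁ m₂ : O} (hρ : PO ρ) (h₁ : PO m₁) (h₂ : PO m₂)
    (hs : Squarefree (ρ * m₁ * m₂)) (he₁ : Primary e₁) (he₂ : Primary e₂) (hd₁ : Primary d₁)
    (hd₂ : Primary d₂) (he₁' : e₁ ∣ ρ) (he₂' : e₂ ∣ ρ) (hd₁' : d₁ ∣ ρ) (hd₂' : d₂ ∣ ρ)
    {b : O} (hb : e₁ * d₁ ^ 3 * (e₂ * d₂ ^ 3) = ρ * b) {K : ℝ} (hK : 0 < K) :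
    gam 5 (e₁ * m₁) * conj (gam 5 (e₂ * m₂)) *
      ∑' k : O, sym (e₁ * m₁ * d₁ ^ 3) k * conj (sym (e₂ * m₂ * d₂ ^ 3) k) * (gw (nr k / K) : ℂ) =
      gam 5 e₁ * conj (gam 5 e₂) * ((K / (nr ρ * Real.sqrt (nr m₁ * nr m₂)) : ℝ) : ℂ) *
        (Rs m₁ m₂ * (sym m₁ (-1) * Rs e₁ m₁ * Rs (ρ * b) m₁) * (Rs e₂ m₂ * Rs (ρ * b) m₂)) *
        ∑' a : O, ft ρ (fun k => sym (e₁ * d₁ ^ 3) k * conj (sym (e₂ * d₂ ^ 3) k)) a *
          (conj (sym m₁ (a * b)) * sym m₂ (a * b)) *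
          (gw (K * nr a / (nr ρ * nr m₁ * nr m₂)) : ℂ) := by
  have zρ := hρ.1.ne_zero
  have z₁ := h₁.1.ne_zero
  have z₂ := h₂.1.ne_zero
  obtain ⟨c₁, hs₁, s₂⟩ := squarefree_mul_iff.1 hs
  obtain ⟨c₂, sρ, s₁⟩ := squarefree_mul_iff.1 hs₁
  have k₁ : IsCoprime ρ m₁ := c₂.isCoprime
  have k₂ : IsCoprime ρ m₂ := c₁.isCoprime.of_mul_left_left
  have k₃ : IsCoprime m₁ m₂ := c₁.isCoprime.of_mul_left_right
  have pe₁ := hρ.of_dvd he₁ he₁'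
  have pe₂ := hρ.of_dvd he₂ he₂'
  have pf₁ : PO (e₁ * d₁ ^ 3) := ⟨he₁.mul (hd₁.pow 3), pe₁.2.mul_left (hρ.of_dvd hd₁ hd₁').2.pow_left⟩
  have pf₂ : PO (e₂ * d₂ ^ 3) := ⟨he₂.mul (hd₂.pow 3), pe₂.2.mul_left (hρ.of_dvd hd₂ hd₂').2.pow_left⟩
  set F : O → ℂ := fun k => sym (e₁ * d₁ ^ 3) k * conj (sym (e₂ * d₂ ^ 3) k) with hF
  set G : O → ℂ := fun k => sym m₁ k ^ 1 * sym m₂ k ^ 5 with hG
  have Fp : ∀ x y, ρ ∣ x - y → F x = F y := fun x y h => by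
    simp only [hF]
    rw [sym_congr ((rad_dvd_of zρ he₁' hd₁').trans h),
      sym_congr ((rad_dvd_of zρ he₂' hd₂').trans h)]
  have Gp : ∀ x y, m₁ * m₂ ∣ x - y → G x = G y := fun x y h => by
    simp only [hG]
    rw [Gauss_sym_per m₁ 1 x y ((dvd_mul_right _ _).trans h),
      Gauss_sym_per m₂ 5 x y ((dvd_mul_left _ _).trans h)]
  have Fm : ∀ x y, F (x * y) = F x * F y := fun x y => by
    simp only [hF]
    rw [sym_mul_right pf₁, sym_mul_right pf₂, map_mul]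
    ring
  have Gm : ∀ x y, G (x * y) = G x * G y := fun x y => by
    simp only [hG]
    rw [sym_mul_right h₁, sym_mul_right h₂]
    ring
  have hFG : ∀ k, sym (e₁ * m₁ * d₁ ^ 3) k * conj (sym (e₂ * m₂ * d₂ ^ 3) k) = F k * G k := by
    intro k
    simp only [hF, hG]
    rw [mul_right_comm e₁, mul_right_comm e₂, sym_mul_left pf₁.1.ne_zero z₁,
      sym_mul_left pf₂.1.ne_zero z₂, map_mul, conj_sym h₂.1]
    ring
  have hP := poisson (mul_ne_zero zρ (mul_ne_zero z₁ z₂)) (fun k => F k * G k)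
    (fun x y h => by
      rw [Fp x y ((dvd_mul_right _ _).trans h), Gp x y ((dvd_mul_left _ _).trans h)]) hK
  simp only [hFG]
  rw [hP, ← mul_assoc, ← tsum_mul_left, ← tsum_mul_left]
  refine tsum_congr fun a => ?_
  rw [ft_crt zρ (mul_ne_zero z₁ z₂) (k₁.mul_right k₂) Fp Gp Fm Gm, ft_pair h₁ h₂ s₁ s₂ k₃,
    nr_mul, nr_mul, ← mul_assoc (nr ρ)]
  have c1 : ∀ {x : O}, x ∣ ρ → sym m₁ x ^ 6 = 1 := fun h =>
    sym_pow_six h₁.1 (k₁.symm.of_isCoprime_of_dvd_right h)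
  have c2 : ∀ {x : O}, x ∣ ρ → sym m₂ x ^ 6 = 1 := fun h =>
    sym_pow_six h₂.1 (k₂.symm.of_isCoprime_of_dvd_right h)
  have a1 := alg₁ (w := sym m₁ (e₂ * d₂ ^ 3)) (β := sym m₁ b) (c1 he₁') (c1 hd₁') (c1 dvd_rfl) (by
    rw [← sym_pow_right h₁, ← sym_mul_right h₁, ← sym_mul_right h₁, hb, sym_mul_right h₁])
  have a2 := alg₂ (w := sym m₂ (e₁ * d₁ ^ 3)) (β := sym m₂ b) (c2 he₂') (c2 hd₂') (c2 dvd_rfl) (by
    rw [← sym_pow_right h₂, ← sym_mul_right h₂, ← sym_mul_right h₂, hb, sym_mul_right h₂])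
  have eF : F (m₁ * m₂) = Rs (ρ * b) m₁ * Rs (ρ * b) m₂ *
      (sym m₁ e₁ * sym m₁ d₁ ^ 3 * sym m₁ (e₂ * d₂ ^ 3) ^ 5) *
      (sym m₂ (e₁ * d₁ ^ 3) * (sym m₂ e₂ * sym m₂ d₂ ^ 3) ^ 5) := by
    simp only [hF]
    rw [← hb, Rs_mul_left pf₁.2 pf₂.2 h₁.2, Rs_mul_left pf₁.2 pf₂.2 h₂.2, sym_mul_right pf₁,
      sym_mul_right pf₂, sym_recip pf₁ h₁, sym_recip pf₁ h₂, sym_recip pf₂ h₁, sym_recip pf₂ h₂,
      map_mul, map_mul, map_mul, conj_Rs pf₂.2 h₁.2, conj_Rs pf₂.2 h₂.2, conj_sym h₁.1,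
      conj_sym h₂.1, sym_mul_right h₁ e₁, sym_pow_right h₁, sym_mul_right h₂ e₂, sym_pow_right h₂]
    ring
  have g1 := gam_mul_gam (j := 1) (by norm_num) h₁ s₁
  have g2 : conj (gam 5 m₂) * gam 5 m₂ = 1 := Gauss_conj_mul (norm_gam (by norm_num) h₂ s₂)
  have hN : (0 : ℝ) < nr m₁ * nr m₂ := mul_pos (nr_pos z₁) (nr_pos z₂)
  have eK : ((K / (nr ρ * nr m₁ * nr m₂) : ℝ) : ℂ) * (Real.sqrt (nr m₁ * nr m₂) : ℂ) =
      ((K / (nr ρ * Real.sqrt (nr m₁ * nr m₂)) : ℝ) : ℂ) := by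
    rw [← Complex.ofReal_mul]
    congr 1
    have h1 := Real.mul_self_sqrt hN.le
    have h2 := Real.sqrt_pos.2 hN
    have h3 := nr_pos zρ
    rw [mul_assoc (nr ρ)]
    generalize Real.sqrt (nr m₁ * nr m₂) = S at *
    rw [← h1]
    field_simp
  rw [gam5_mul pe₁ h₁ (k₁.of_isCoprime_of_dvd_left he₁'),
    gam5_mul pe₂ h₂ (k₂.of_isCoprime_of_dvd_left he₂'), eF, ← eK, sym_mul_right h₁ a,
    sym_mul_right h₂ a, map_mul, map_mul, map_mul, map_mul, map_pow, conj_Rs pe₂.2 h₂.2,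
    conj_sym h₂.1, conj_sym h₁.1, conj_sym h₁.1, ← a1, ← a2, ← pow_one (sym m₁ (-1)), ← g1]
  simp only [hG]
  linear_combination (Rs e₁ m₁ * sym m₁ e₁ ^ 10 * gam 5 e₁ * gam 5 m₁ *
    (Rs e₂ m₂ * (sym m₂ e₂ ^ 5) ^ 10 * conj (gam 5 e₂)) *
    ((K / (nr ρ * nr m₁ * nr m₂) : ℝ) : ℂ) * (Rs (ρ * b) m₁ * Rs (ρ * b) m₂ *
      (sym m₁ e₁ * sym m₁ d₁ ^ 3 * sym m₁ (e₂ * d₂ ^ 3) ^ 5) *
      (sym m₂ (e₁ * d₁ ^ 3) * (sym m₂ e₂ * sym m₂ d₂ ^ 3) ^ 5)) *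
    (sym m₁ ρ * sym m₂ ρ ^ 5) * ft ρ F a * (Real.sqrt (nr m₁ * nr m₂) : ℂ) * Rs m₁ m₂ * gam 1 m₁ *
    (sym m₁ a ^ 5 * sym m₂ a) * (gw (K * nr a / (nr ρ * nr m₁ * nr m₂)) : ℂ)) * g2

/-! ### the frozen Gauss sum -/

theorem norm_ft_prod (n : O → ℕ) (a : O) {S : Finset O} (hS : ∀ p ∈ S, Prime p ∧ PO p) :
    ‖ft (∏ p ∈ S, p) (fun k => ∏ p ∈ S, sym p k ^ n p) a‖ =
      ∏ p ∈ S, ‖ft p (fun k => sym p k ^ n p) a‖ := by
  classical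
  induction S using Finset.induction_on with
  | empty =>
    have := gs_one 0 a
    rw [gs] at this
    simp only [sym_one_left, one_pow] at this
    simp only [Finset.prod_empty, ft, this, norm_one]
  | insert q S hq ih =>
    have hS' : ∀ p ∈ S, Prime p ∧ PO p := fun p hp => hS p (Finset.mem_insert_of_mem hp)
    obtain ⟨h1, h2⟩ := hS q (Finset.mem_insert_self q S)
    have hc : ∀ p ∈ S, IsCoprime q p := fun p hp =>
      (h1.irreducible.isRelPrime_iff_not_dvd.2 fun h =>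
        hq (BasicB.eq_of_dvd h1 (hS' p hp).1 h2.1 (hS' p hp).2.1 h ▸ hp)).isCoprime
    simp only [Finset.prod_insert hq]
    rw [ft_crt (f := fun k => sym q k ^ n q) (g := fun k => ∏ p ∈ S, sym p k ^ n p) h1.ne_zero
      (Finset.prod_ne_zero_iff.2 fun p hp => (hS' p hp).1.ne_zero)
      (IsCoprime.prod_right hc) (Gauss_sym_per q _)
      (fun x y h => Finset.prod_congr rfl fun p hp =>
        Gauss_sym_per p _ x y ((Finset.dvd_prod_of_mem _ hp).trans h))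
      (fun x y => by rw [sym_mul_right h2, mul_pow])
      (fun x y => by
        rw [← Finset.prod_mul_distrib]
        exact Finset.prod_congr rfl fun p hp => by rw [sym_mul_right (hS' p hp).2, mul_pow]),
      norm_mul, norm_mul, norm_mul, ih hS', norm_pow, norm_sym h2.1 (IsCoprime.prod_right hc),
      norm_prod, Finset.prod_eq_one fun p hp => by
        rw [norm_pow, norm_sym (hS' p hp).2.1 (hc p hp).symm, one_pow]]
    simp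

theorem norm_gs_ne {j : ℕ} (hj : ¬ 6 ∣ j) {p : O} (hp : Prime p) (h : PO p) (a : O) :
    ‖gs j p a‖ ≤ Real.sqrt (nr p) := by
  rw [gs_sqfree hj h hp.squarefree, norm_mul, Gauss_norm_gs hj h hp.squarefree, Complex.norm_conj,
    norm_pow]
  exact mul_le_of_le_one_left (Real.sqrt_nonneg _) (pow_le_one₀ (norm_nonneg _) (norm_sym_le _ _))

theorem gs_zero_ne {j : ℕ} (hj : ¬ 6 ∣ j) {p : O} (hp : Prime p) (h : PO p) : gs j p 0 = 0 := by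
  rw [gs_sqfree hj h hp.squarefree, (sym_eq_zero_iff h.1).2 fun hc =>
    hp.not_isUnit (isCoprime_zero_right.1 hc), zero_pow (by omega), map_zero, zero_mul]

theorem norm_gs_dvd {j : ℕ} (hj : 6 ∣ j) {p : O} (hp : Prime p) (h : PO p) (a : O) :
    ‖gs j p a‖ ≤ nr p ∧ (¬ p ∣ a → ‖gs j p a‖ ≤ 1) := by
  have h1 := one_le_nr hp.ne_zero
  rw [gs_prime_zero hj hp h]
  split_ifs with ha
  · refine ⟨?_, fun h => absurd ha h⟩
    have : ((nm p : ℂ) - 1) = ((nr p - 1 : ℝ) : ℂ) := by push_cast; rfl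
    rw [this, Complex.norm_real, Real.norm_of_nonneg (by linarith)]
    linarith
  · simpa using h1

open Classical in
theorem local_le {p : O} (hp : Prime p) (h : PO p) {ε₁ ε₂ δ₁ δ₂ : ℕ} (h₁ : ε₁ ≤ 1) (h₂ : ε₂ ≤ 1)
    (h₃ : δ₁ ≤ 1) (h₄ : δ₂ ≤ 1) {b : O} {β : ℕ} (hβ : p ^ β ∣ b)
    (hβ' : ε₁ + 3 * δ₁ + (ε₂ + 3 * δ₂) = 1 + β) (a : O) :
    Real.sqrt (nr p ^ δ₁ * nr p ^ δ₂) * ‖gs (ε₁ + 3 * δ₁ + 5 * (ε₂ + 3 * δ₂)) p a‖ ≤
      nr p * if δ₁ = 1 ∧ δ₂ = 1 ∧ p ^ 6 ∣ a * b then nr p else 1 := by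
  have h1 := one_le_nr hp.ne_zero
  have h0 : 0 ≤ nr p := by linarith
  have hs := Real.mul_self_sqrt h0
  have hs0 := Real.sqrt_nonneg (nr p)
  have hs1 : 1 ≤ Real.sqrt (nr p) := Real.one_le_sqrt.2 h1
  have hif : 1 ≤ if δ₁ = 1 ∧ δ₂ = 1 ∧ p ^ 6 ∣ a * b then nr p else 1 := by
    split_ifs
    · exact h1
    · exact le_rfl
  by_cases hd : δ₁ = 1 ∧ δ₂ = 1
  · obtain ⟨rfl, rfl⟩ := hd
    rw [pow_one, Real.sqrt_mul_self h0]
    refine mul_le_mul_of_nonneg_left ?_ h0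
    by_cases hj : 6 ∣ ε₁ + 3 * 1 + 5 * (ε₂ + 3 * 1)
    · obtain ⟨k1, k2⟩ := norm_gs_dvd hj hp h a
      by_cases ha : p ∣ a
      · rw [if_pos ⟨rfl, rfl, by
          rw [pow_succ']
          exact mul_dvd_mul ha ((pow_dvd_pow p (by omega)).trans hβ)⟩]
        exact k1
      · exact (k2 ha).trans hif
    · have h6 : 6 ≤ β := by interval_cases ε₁ <;> interval_cases ε₂ <;> omega
      rw [if_pos ⟨rfl, rfl, ((pow_dvd_pow p h6).trans hβ).mul_left a⟩]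
      refine (norm_gs_ne hj hp h a).trans ?_
      nlinarith
  · refine le_trans ?_ (le_mul_of_one_le_right h0 hif)
    by_cases hj : 6 ∣ ε₁ + 3 * δ₁ + 5 * (ε₂ + 3 * δ₂)
    · obtain ⟨rfl, rfl⟩ : δ₁ = 0 ∧ δ₂ = 0 := by
        interval_cases ε₁ <;> interval_cases ε₂ <;> interval_cases δ₁ <;> interval_cases δ₂ <;>
          omega
      simpa using (norm_gs_dvd hj hp h a).1
    · have k1 : Real.sqrt (nr p ^ δ₁ * nr p ^ δ₂) ≤ Real.sqrt (nr p) := by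
        refine Real.sqrt_le_sqrt ?_
        rw [← pow_add]
        simpa using pow_le_pow_right₀ h1 (show δ₁ + δ₂ ≤ 1 by omega)
      exact (mul_le_mul k1 (norm_gs_ne hj hp h a) (norm_nonneg _) hs0).trans hs.le

theorem pf_subset {d ρ : O} (hρ : ρ ≠ 0) (h : d ∣ ρ) : pf d ⊆ pf ρ := fun _ hp =>
  (mem_pf hρ).2 ⟨(BasicB.of_mem_pf hp).1, (BasicB.of_mem_pf hp).2.1,
    (BasicB.of_mem_pf hp).2.2.trans h⟩

theorem prod_ext {M : Type*} [CommMonoid M] {d ρ : O} (hd : d ≠ 0) (h : pf d ⊆ pf ρ) (f : O → M) :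
    ∏ p ∈ pf d, f p ^ vp p d = ∏ p ∈ pf ρ, f p ^ vp p d :=
  Finset.prod_subset h fun p hp hp' => by
    rw [not_not.1 fun h0 => hp' ((BasicB.mem_pf_iff hd (BasicB.pf_sub hp).1
      (BasicB.pf_sub hp).2).2 h0), pow_zero]

theorem nr_eq_prod {d ρ : O} (hd : Primary d) (h : pf d ⊆ pf ρ) :
    nr d = ∏ p ∈ pf ρ, nr p ^ vp p d := by
  rw [← prod_ext hd.ne_zero h]
  conv_lhs => rw [hd.eq_prod]
  simp only [nr, nm_prod, nm_pow, Nat.cast_prod, Nat.cast_pow]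

open Classical in
theorem prod_ite_le {d ρ : O} (hd : d ≠ 0) (c : O) (P : O → Prop) [DecidablePred P]
    (hP : ∀ p ∈ pf ρ, P p → vp p d = 1 ∧ p ^ 6 ∣ c) :
    ∏ p ∈ pf ρ, (if P p then nr p else 1) ≤ ∏ p ∈ (pf d).filter (fun p => p ^ 6 ∣ c), nr p := by
  rw [← Finset.prod_filter]
  refine LS2.nP_mono (fun p hp => ?_) fun p hp => (BasicB.pf_sub (Finset.mem_filter.1 hp).1).1.ne_zero
  obtain ⟨h1, h2⟩ := Finset.mem_filter.1 hp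
  obtain ⟨h3, h4⟩ := hP p h1 h2
  exact Finset.mem_filter.2 ⟨(BasicB.mem_pf_iff hd (BasicB.pf_sub h1).1 (BasicB.pf_sub h1).2).2
    (by omega), h4⟩

open Classical in
theorem norm_ft_frozen {ρ e₁ e₂ d₁ d₂ : O} (hρ : PO ρ) (hs : Squarefree ρ) (he₁ : Primary e₁)
    (he₂ : Primary e₂) (hd₁ : Primary d₁) (hd₂ : Primary d₂) (he₁' : e₁ ∣ ρ) (he₂' : e₂ ∣ ρ)
    (hd₁' : d₁ ∣ ρ) (hd₂' : d₂ ∣ ρ) {b : O} (hb : e₁ * d₁ ^ 3 * (e₂ * d₂ ^ 3) = ρ * b)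
    (hρb : ρ ∣ b) (a : O) :
    Real.sqrt (nr d₁ * nr d₂) *
        ‖ft ρ (fun k => sym (e₁ * d₁ ^ 3) k * conj (sym (e₂ * d₂ ^ 3) k)) a‖ ≤
      nr ρ * min (∏ p ∈ (pf d₁).filter (fun p => p ^ 6 ∣ a * b), nr p)
        (∏ p ∈ (pf d₂).filter (fun p => p ^ 6 ∣ a * b), nr p) ∧
    (ft ρ (fun k => sym (e₁ * d₁ ^ 3) k * conj (sym (e₂ * d₂ ^ 3) k)) 0 ≠ 0 →
      e₁ = e₂ ∧ d₁ = d₂) := by
  have zρ := hρ.1.ne_zero
  have p₁ : Primary (e₁ * d₁ ^ 3) := he₁.mul (hd₁.pow 3)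
  have p₂ : Primary (e₂ * d₂ ^ 3) := he₂.mul (hd₂.pow 3)
  have zb : b ≠ 0 := by
    rintro rfl
    exact (p₁.mul p₂).ne_zero (by rw [hb, mul_zero])
  have hS : ∀ p ∈ pf ρ, Prime p ∧ PO p := fun p hp =>
    ⟨(BasicB.of_mem_pf hp).1, hρ.of_dvd (BasicB.of_mem_pf hp).2.1 (BasicB.of_mem_pf hp).2.2⟩
  have hv : ∀ {e d p : O}, Primary e → Primary d → Prime p →
      vp p (e * d ^ 3) = vp p e + 3 * vp p d := fun he hd hp => by
    rw [vp_mul hp he.ne_zero (pow_ne_zero _ hd.ne_zero), vp_pow hp hd.ne_zero]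
  have hsub : ∀ {e d : O}, e ∣ ρ → d ∣ ρ → pf (e * d ^ 3) ⊆ pf ρ := fun he hd => by
    rw [← pf_rad]
    exact pf_subset zρ (rad_dvd_of zρ he hd)
  set n : O → ℕ := fun p => vp p e₁ + 3 * vp p d₁ + 5 * (vp p e₂ + 3 * vp p d₂) with hn
  have hle : ∀ {e p : O}, e ∣ ρ → Prime p → vp p e ≤ 1 := fun he hp =>
    BasicB.vp_le_one (hs.squarefree_of_dvd he) hp
  have hsum : ∀ p ∈ pf ρ, vp p e₁ + 3 * vp p d₁ + (vp p e₂ + 3 * vp p d₂) = 1 + vp p b := by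
    intro p hp
    rw [← hv he₁ hd₁ (hS p hp).1, ← hv he₂ hd₂ (hS p hp).1,
      ← vp_mul (hS p hp).1 p₁.ne_zero p₂.ne_zero, hb, vp_mul (hS p hp).1 zρ zb,
      hρ.1.squarefree_iff.1 hs p hp]
  have hF : (fun k => sym (e₁ * d₁ ^ 3) k * conj (sym (e₂ * d₂ ^ 3) k)) =
      fun k => ∏ p ∈ pf ρ, sym p k ^ n p := by
    funext k
    rw [conj_sym p₂, sym_eq_prod, sym_eq_prod (e₂ * d₂ ^ 3),
      prod_ext p₁.ne_zero (hsub he₁' hd₁') fun p => sym p k,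
      prod_ext p₂.ne_zero (hsub he₂' hd₂') fun p => sym p k, ← Finset.prod_pow,
      ← Finset.prod_mul_distrib]
    refine Finset.prod_congr rfl fun p hp => ?_
    rw [hv he₁ hd₁ (hS p hp).1, hv he₂ hd₂ (hS p hp).1, ← pow_mul, ← pow_add, hn, mul_comm _ 5]
  have hft : ∀ a, ‖ft ρ (fun k => sym (e₁ * d₁ ^ 3) k * conj (sym (e₂ * d₂ ^ 3) k)) a‖ =
      ∏ p ∈ pf ρ, ‖gs (n p) p a‖ := fun a => by
    have h1 := norm_ft_prod n a hS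
    rw [← rad, hρ.1.eq_rad hs] at h1
    rw [hF, h1]
    refine Finset.prod_congr rfl fun p hp => ?_
    rw [ft_pow (hS p hp).2.1]
    have := hsum p hp
    simp only [hn]
    omega
  refine ⟨?_, fun h0 => ?_⟩
  · have h1 : Real.sqrt (nr d₁ * nr d₂) *
        ‖ft ρ (fun k => sym (e₁ * d₁ ^ 3) k * conj (sym (e₂ * d₂ ^ 3) k)) a‖ ≤
        nr ρ * ∏ p ∈ pf ρ, (if vp p d₁ = 1 ∧ vp p d₂ = 1 ∧ p ^ 6 ∣ a * b then nr p else 1) := by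
      rw [hft, nr_eq_prod hd₁ (pf_subset zρ hd₁'), nr_eq_prod hd₂ (pf_subset zρ hd₂'),
        ← Finset.prod_mul_distrib, Real.sqrt_prod _ fun p _ => by positivity,
        ← Finset.prod_mul_distrib, nr_eq_prod hρ.1 subset_rfl, ← Finset.prod_mul_distrib]
      refine Finset.prod_le_prod (fun p _ => by positivity) fun p hp => ?_
      obtain ⟨k1, k2⟩ := hS p hp
      rw [hρ.1.squarefree_iff.1 hs p hp, pow_one]
      exact local_le k1 k2 (hle he₁' k1) (hle he₂' k1) (hle hd₁' k1) (hle hd₂' k1)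
        ((pow_dvd_iff_le_vp k1 zb).2 le_rfl) (hsum p hp) a
    refine h1.trans (mul_le_mul_of_nonneg_left (le_min ?_ ?_) (Nat.cast_nonneg _))
    · exact prod_ite_le hd₁.ne_zero _ (fun p => vp p d₁ = 1 ∧ vp p d₂ = 1 ∧ p ^ 6 ∣ a * b)
        fun p _ h => ⟨h.1, h.2.2⟩
    · exact prod_ite_le hd₂.ne_zero _ (fun p => vp p d₁ = 1 ∧ vp p d₂ = 1 ∧ p ^ 6 ∣ a * b)
        fun p _ h => ⟨h.2.1, h.2.2⟩
  · have h1 : ∀ p, Prime p → Primary p → vp p e₁ = vp p e₂ ∧ vp p d₁ = vp p d₂ := by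
      intro p hp hp'
      by_cases hpρ : p ∈ pf ρ
      · have h2 := Finset.prod_ne_zero_iff.1 (hft 0 ▸ norm_ne_zero_iff.2 h0) p hpρ
        have h3 : 6 ∣ n p := by
          by_contra h3
          exact h2 (by rw [gs_zero_ne h3 hp (hS p hpρ).2, norm_zero])
        have k1 := hle he₁' hp
        have k2 := hle he₂' hp
        have k3 := hle hd₁' hp
        have k4 := hle hd₂' hp
        simp only [hn] at h3
        generalize vp p e₁ = x₁, vp p e₂ = x₂, vp p d₁ = y₁, vp p d₂ = y₂ at *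
        interval_cases x₁ <;> interval_cases x₂ <;> interval_cases y₁ <;> interval_cases y₂ <;>
          omega
      · have h2 : vp p ρ = 0 := not_not.1 fun h => hpρ ((BasicB.mem_pf_iff zρ hp hp').2 h)
        have k1 := BasicB.vp_le_of_dvd hp zρ he₁'
        have k2 := BasicB.vp_le_of_dvd hp zρ he₂'
        have k3 := BasicB.vp_le_of_dvd hp zρ hd₁'
        have k4 := BasicB.vp_le_of_dvd hp zρ hd₂'
        omega
    exact ⟨he₁.ext_vp he₂ fun p hp hp' => (h1 p hp hp').1,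
      hd₁.ext_vp hd₂ fun p hp hp' => (h1 p hp hp').2⟩

end DPA2

end Crest.Agent.R17
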