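import Crest.Agent.R17.DPAuxG3

/-!
# Row 17, module M11: backward Poisson summation for cube-completed indices (`gp`)
-/

set_option autoImplicit false

noncomputable section

namespace Crest.Agent.R17.GP

open scoped ComplexConjugate
open Classical MeasureTheory LS2

/-- The main part, as a functional of the profile. -/
def Lam (M : O) (K L Z : ℝ) (β : O → O → ℂ) (f : ℝ → ℂ) : ℂ :=
  ∑ d₁ ∈ sp M L, ∑ d₂ ∈ sp M L, ∑ e₁ ∈ sp M L, ∑ e₂ ∈ sp M L,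
    ∑ m₁ ∈ sp M (L / nr d₁ ^ 3 / nr e₁), ∑ m₂ ∈ sp M (L / nr d₂ ^ 3 / nr e₂),
      if Cop d₁ d₂ e₁ e₂ m₁ m₂ then β d₁ (e₁ * m₁) * conj (β d₂ (e₂ * m₂)) *
        ∑ a ∈ rows Z, gF d₁ d₂ e₁ e₂ a * Ta K d₁ d₂ e₁ e₂ m₁ m₂ a f else 0

/-- The mean square of one child. -/
def YY {M : O} (L : ℝ) (β : O → ℂ) (ν : Chr M) (s : ℂ) (d e a : O) : ℝ :=
  ∑ t ∈ sp (M * d * e) L, wt d a * (nr e * nr d ^ 3) * ‖Bx L β ν s d e t a‖ ^ 2

/-- The dual mean square. -/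
def HH {M : O} (L Z : ℝ) (β : O → O → ℂ) (ν : Chr M) (s : ℂ) : ℝ :=
  ∑ a ∈ rows Z, ∑ d ∈ (sp M L).filter (· ∈ pdiv a), ∑ e ∈ (sp M L).filter (· ∈ pdiv a),
    YY L (β d) ν s d e a

theorem YY_nonneg {M : O} (L : ℝ) (β : O → ℂ) (ν : Chr M) (s : ℂ) (d e a : O) :
    0 ≤ YY L β ν s d e a :=
  Finset.sum_nonneg fun _ _ => mul_nonneg (mul_nonneg (wt_nonneg _ _) (by positivity))
    (by positivity)

theorem HH_nonneg {M : O} (L Z : ℝ) (β : O → O → ℂ) (ν : Chr M) (s : ℂ) : 0 ≤ HH L Z β ν s :=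
  Finset.sum_nonneg fun _ _ => Finset.sum_nonneg fun _ _ => Finset.sum_nonneg fun _ _ =>
    YY_nonneg _ _ _ _ _ _ _

theorem ne_zero_of_mem_sp {M n : O} {X : ℝ} (h : n ∈ sp M X) : n ≠ 0 := (Dual_SP_of_mem h).1.ne_zero

theorem fc_Lam (M : O) {K : ℝ} (hK : 0 < K) (L Z : ℝ) (β : O → O → ℂ) : FC (Lam M K L Z β) := by
  refine FC.sum _ fun d₁ hd₁ => FC.sum _ fun d₂ hd₂ => FC.sum _ fun e₁ he₁ => FC.sum _ fun e₂ he₂ =>
    FC.sum _ fun m₁ hm₁ => FC.sum _ fun m₂ hm₂ => ?_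
  by_cases h : Cop d₁ d₂ e₁ e₂ m₁ m₂
  · simp only [if_pos h]
    refine FC.const_mul (FC.sum _ fun a ha => FC.const_mul (FC.const_mul (FC.const_mul
      (FC.eval ?_) _) _) _) _
    have := nr_pos (ne_zero_of_mem_sp hd₁)
    have := nr_pos (ne_zero_of_mem_sp hd₂)
    have := nr_pos (ne_zero_of_mem_sp he₁)
    have := nr_pos (ne_zero_of_mem_sp he₂)
    have := nr_pos (ne_zero_of_mem_sp hm₁)
    have := nr_pos (ne_zero_of_mem_sp hm₂)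
    have := nr_pos (Finset.ne_of_mem_erase ha)
    positivity
  · simp only [if_neg h]
    exact FC.zero

theorem amgm {w₁ w₂ f₁ f₂ x y : ℝ} (h₁ : 0 ≤ w₁) (h₂ : 0 ≤ w₂) (g₁ : 0 ≤ f₁) (g₂ : 0 ≤ f₂) :
    min w₁ w₂ * (Real.sqrt (f₁ * f₂) * (x * y)) ≤ w₁ * f₁ * x ^ 2 + w₂ * f₂ * y ^ 2 := by
  have h0 : 0 ≤ min w₁ w₂ := le_min h₁ h₂
  have a1 : Real.sqrt (f₁ * f₂) * (x * y) ≤ f₁ * x ^ 2 + f₂ * y ^ 2 := by
    rw [Real.sqrt_mul g₁]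
    nth_rewrite 2 [← Real.sq_sqrt g₁, ← Real.sq_sqrt g₂]
    nlinarith [sq_nonneg (Real.sqrt f₁ * x - Real.sqrt f₂ * y), sq_nonneg (Real.sqrt f₁ * x),
      sq_nonneg (Real.sqrt f₂ * y)]
  have a2 := mul_le_mul_of_nonneg_right (min_le_left w₁ w₂) (show 0 ≤ f₁ * x ^ 2 by positivity)
  have a3 := mul_le_mul_of_nonneg_right (min_le_right w₁ w₂) (show 0 ≤ f₂ * y ^ 2 by positivity)
  have a4 := mul_le_mul_of_nonneg_left a1 h0
  nlinarith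

theorem cell_le {M d₁ d₂ e₁ e₂ a : O} (hM : Adm M) [Fintype (Chr M)] (hd₁ : SP M d₁)
    (hd₂ : SP M d₂) (he₁ : SP M e₁) (he₂ : SP M e₂) (ha : a ≠ 0) {K L R : ℝ} (hK : 1 ≤ K)
    (hL : 0 < L) (hR : L ≤ R) (β₁ β₂ : O → ℂ) {z : ℂ} (hz : 0 ≤ z.re) :
    ‖gF d₁ d₂ e₁ e₂ a * ∑ m₁ ∈ sp M (L / nr d₁ ^ 3 / nr e₁), ∑ m₂ ∈ sp M (L / nr d₂ ^ 3 / nr e₂),
      if Cop d₁ d₂ e₁ e₂ m₁ m₂ then β₁ (e₁ * m₁) * conj (β₂ (e₂ * m₂)) *
        Ta K d₁ d₂ e₁ e₂ m₁ m₂ a (fun y => (y : ℂ) ^ (-z)) else 0‖ ≤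
      K / L * R ^ (2 * z.re) * Fintype.card (Chr M) *
        if (d₁ ∈ pdiv a ∧ e₁ ∈ pdiv a) ∧ (d₂ ∈ pdiv a ∧ e₂ ∈ pdiv a) then
          ∑ ν : Chr M, YY L β₁ ν (z - 1 / 2) d₁ e₁ a +
            ∑ ν : Chr M, YY L β₂ ν (conj (z - 1 / 2)) d₂ e₂ a else 0 := by
  have hK0 : 0 < K := lt_of_lt_of_le one_pos hK
  have hR0 : 0 < R := lt_of_lt_of_le hL hR
  have n0 : 0 ≤ K / L * R ^ (2 * z.re) * Fintype.card (Chr M) *
      if (d₁ ∈ pdiv a ∧ e₁ ∈ pdiv a) ∧ (d₂ ∈ pdiv a ∧ e₂ ∈ pdiv a) then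
        ∑ ν : Chr M, YY L β₁ ν (z - 1 / 2) d₁ e₁ a +
          ∑ ν : Chr M, YY L β₂ ν (conj (z - 1 / 2)) d₂ e₂ a else 0 := by
    refine mul_nonneg (by positivity) ?_
    split_ifs
    · exact add_nonneg (Finset.sum_nonneg fun _ _ => YY_nonneg _ _ _ _ _ _ _)
        (Finset.sum_nonneg fun _ _ => YY_nonneg _ _ _ _ _ _ _)
    · exact le_rfl
  by_cases hv : Val d₁ d₂ e₁ e₂
  swap
  · have : ∀ m₁ m₂, ¬ Cop d₁ d₂ e₁ e₂ m₁ m₂ := fun _ _ h => hv h.1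
    simpa [this] using n0
  by_cases hb : bb d₁ d₂ e₁ e₂ ∣ a
  swap
  · rw [gF, if_neg hb, zero_mul, norm_zero]; exact n0
  obtain ⟨r1, r2, r3, r4, r5, r6, r7, r8⟩ := frozen hM hd₁ hd₂ he₁ he₂ hv
  have hra : rho d₁ d₂ e₁ e₂ ∣ a := r8.trans hb
  have na := one_le_nr ha
  rw [if_pos ⟨⟨(mem_pdiv ha).2 ⟨hd₁.1, r5.trans hra⟩, (mem_pdiv ha).2 ⟨he₁.1, r3.trans hra⟩⟩,
    (mem_pdiv ha).2 ⟨hd₂.1, r6.trans hra⟩, (mem_pdiv ha).2 ⟨he₂.1, r4.trans hra⟩⟩, norm_mul]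
  have a1 : (K * nr a / L ^ 2) ^ (-z.re) ≤ R ^ (2 * z.re) := by
    rw [Real.rpow_neg (by positivity), ← Real.inv_rpow (by positivity), inv_div,
      Real.rpow_mul hR0.le, Real.rpow_two]
    refine Real.rpow_le_rpow (by positivity) ?_ hz
    exact (div_le_self (by positivity) (one_le_mul_of_one_le_of_one_le hK na)).trans
      (pow_le_pow_left₀ hL.le hR 2)
  set T := (sp M L).filter (fun t => IsCoprime t a) with hT
  have a2 : ∀ {d e : O}, d ∣ a → e ∣ a → T ⊆ sp (M * d * e) L := by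
    intro d e hd he t ht
    rw [hT, Finset.mem_filter, LS2.mem_sp hL.le] at ht
    exact (LS2.mem_sp hL.le).2 ⟨⟨ht.1.1.1, ht.1.1.2.1, (ht.1.1.2.2.mul_right
      (ht.2.of_isCoprime_of_dvd_right hd)).mul_right (ht.2.of_isCoprime_of_dvd_right he)⟩, ht.1.2⟩
  have a3 : ∀ (ν ν' : Chr M), min (wt d₁ a) (wt d₂ a) *
      (Real.sqrt (nr e₁ * nr d₁ ^ 3 * (nr e₂ * nr d₂ ^ 3)) * ∑ t ∈ T,
        ‖Bx L β₁ ν (z - 1 / 2) d₁ e₁ t a‖ * ‖Bx L β₂ ν' (conj (z - 1 / 2)) d₂ e₂ t a‖) ≤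
      YY L β₁ ν (z - 1 / 2) d₁ e₁ a + YY L β₂ ν' (conj (z - 1 / 2)) d₂ e₂ a := by
    intro ν ν'
    rw [Finset.mul_sum, Finset.mul_sum]
    refine (Finset.sum_le_sum fun t _ => amgm (wt_nonneg _ _) (wt_nonneg _ _) (by positivity)
      (by positivity)).trans ?_
    rw [Finset.sum_add_distrib]
    refine add_le_add ?_ ?_
    · exact Finset.sum_le_sum_of_subset_of_nonneg (a2 (r5.trans hra) (r3.trans hra)) fun _ _ _ =>
        mul_nonneg (mul_nonneg (wt_nonneg _ _) (by positivity)) (by positivity)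
    · exact Finset.sum_le_sum_of_subset_of_nonneg (a2 (r6.trans hra) (r4.trans hra)) fun _ _ _ =>
        mul_nonneg (mul_nonneg (wt_nonneg _ _) (by positivity)) (by positivity)
  have a4 : min (wt d₁ a) (wt d₂ a) *
      (Real.sqrt (nr e₁ * nr d₁ ^ 3 * (nr e₂ * nr d₂ ^ 3)) * ∑ ν : Chr M, ∑ ν' : Chr M, ∑ t ∈ T,
        ‖Bx L β₁ ν (z - 1 / 2) d₁ e₁ t a‖ * ‖Bx L β₂ ν' (conj (z - 1 / 2)) d₂ e₂ t a‖) ≤
      Fintype.card (Chr M) * (∑ ν : Chr M, YY L β₁ ν (z - 1 / 2) d₁ e₁ a +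
        ∑ ν : Chr M, YY L β₂ ν (conj (z - 1 / 2)) d₂ e₂ a) := by
    rw [Finset.mul_sum, Finset.mul_sum]
    refine (Finset.sum_le_sum fun ν _ => ?_).trans
      (le_of_eq (a := ∑ ν : Chr M, ∑ ν' : Chr M, (YY L β₁ ν (z - 1 / 2) d₁ e₁ a +
        YY L β₂ ν' (conj (z - 1 / 2)) d₂ e₂ a)) ?_)
    · rw [Finset.mul_sum, Finset.mul_sum]
      exact Finset.sum_le_sum fun ν' _ => a3 ν ν'
    · simp only [Finset.sum_add_distrib, Finset.sum_const, Finset.card_univ, nsmul_eq_mul,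
        ← Finset.mul_sum]
      ring
  have h0 : 0 ≤ min (wt d₁ a) (wt d₂ a) := le_min (wt_nonneg _ _) (wt_nonneg _ _)
  refine (mul_le_mul (norm_gF_le hM hd₁ hd₂ he₁ he₂ hv a)
    (cell hM hd₁ hd₂ he₁ he₂ hv ha hb hK0 hL β₁ β₂ z) (norm_nonneg _) h0).trans ?_
  rw [← hT]
  have h1 : 0 ≤ min (wt d₁ a) (wt d₂ a) *
      (Real.sqrt (nr e₁ * nr d₁ ^ 3 * (nr e₂ * nr d₂ ^ 3)) * ∑ ν : Chr M, ∑ ν' : Chr M, ∑ t ∈ T,
        ‖Bx L β₁ ν (z - 1 / 2) d₁ e₁ t a‖ * ‖Bx L β₂ ν' (conj (z - 1 / 2)) d₂ e₂ t a‖) := by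
    positivity
  have a5 := mul_le_mul_of_nonneg_left (mul_le_mul a1 a4 h1 (by positivity))
    (show 0 ≤ K / L by positivity)
  refine le_trans (le_of_eq ?_) (a5.trans_eq ?_) <;> ring

theorem count4 (S : Finset O) (p : O → Prop) [DecidablePred p] {Y₁ Y₂ : O → O → ℝ} (h₁ : ∀ d e, 0 ≤ Y₁ d e)
    (h₂ : ∀ d e, 0 ≤ Y₂ d e) {D : ℝ} (hD : ((S.filter p).card : ℝ) ≤ D) :
    ∑ d₁ ∈ S, ∑ d₂ ∈ S, ∑ e₁ ∈ S, ∑ e₂ ∈ S,
      (if (p d₁ ∧ p e₁) ∧ (p d₂ ∧ p e₂) then Y₁ d₁ e₁ + Y₂ d₂ e₂ else 0) ≤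
      D ^ 2 * (∑ d ∈ S.filter p, ∑ e ∈ S.filter p, Y₁ d e +
        ∑ d ∈ S.filter p, ∑ e ∈ S.filter p, Y₂ d e) := by
  have e1 : ∑ d₁ ∈ S, ∑ d₂ ∈ S, ∑ e₁ ∈ S, ∑ e₂ ∈ S,
      (if (p d₁ ∧ p e₁) ∧ (p d₂ ∧ p e₂) then Y₁ d₁ e₁ + Y₂ d₂ e₂ else 0) =
      ∑ d₁ ∈ S.filter p, ∑ d₂ ∈ S.filter p, ∑ e₁ ∈ S.filter p, ∑ e₂ ∈ S.filter p,
        (Y₁ d₁ e₁ + Y₂ d₂ e₂) := by
    simp only [Finset.sum_filter, ite_sum]
    refine Finset.sum_congr rfl fun d₁ _ => Finset.sum_congr rfl fun d₂ _ =>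
      Finset.sum_congr rfl fun e₁ _ => Finset.sum_congr rfl fun e₂ _ => ?_
    by_cases a1 : p d₁ <;> by_cases a2 : p d₂ <;> by_cases a3 : p e₁ <;> by_cases a4 : p e₂ <;>
      simp [a1, a2, a3, a4]
  rw [e1]
  simp only [Finset.sum_add_distrib, Finset.sum_const, nsmul_eq_mul, ← Finset.mul_sum]
  have n1 : 0 ≤ ∑ d ∈ S.filter p, ∑ e ∈ S.filter p, Y₁ d e :=
    Finset.sum_nonneg fun _ _ => Finset.sum_nonneg fun _ _ => h₁ _ _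
  have n2 : 0 ≤ ∑ d ∈ S.filter p, ∑ e ∈ S.filter p, Y₂ d e :=
    Finset.sum_nonneg fun _ _ => Finset.sum_nonneg fun _ _ => h₂ _ _
  have := mul_le_mul_of_nonneg_right (pow_le_pow_left₀ (Nat.cast_nonneg _) hD 2) (add_nonneg n1 n2)
  linarith

theorem Lam_le {M : O} (hM : Adm M) [Fintype (Chr M)] {K L R Z D : ℝ} (hK : 1 ≤ K) (hL : 0 < L)
    (hR : L ≤ R) (hD : ∀ a ∈ rows Z, ((pdiv a).card : ℝ) ≤ D) (β : O → O → ℂ) {z : ℂ}
    (hz : 0 ≤ z.re) :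
    ‖Lam M K L Z β (fun y => (y : ℂ) ^ (-z))‖ ≤
      R ^ (2 * z.re) * Fintype.card (Chr M) * D ^ 2 * (∑ ν : Chr M, K / L * HH L Z β ν (z - 1 / 2) +
        ∑ ν : Chr M, K / L * HH L Z β ν (conj (z - 1 / 2))) := by
  have hK0 : 0 < K := lt_of_lt_of_le one_pos hK
  have hR0 : 0 < R := lt_of_lt_of_le hL hR
  set c : ℝ := K / L * R ^ (2 * z.re) * Fintype.card (Chr M) with hc
  have hc0 : 0 ≤ c := by positivity
  set Y₁ : O → O → O → ℝ := fun a d e => ∑ ν : Chr M, YY L (β d) ν (z - 1 / 2) d e a with hY₁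
  set Y₂ : O → O → O → ℝ := fun a d e => ∑ ν : Chr M, YY L (β d) ν (conj (z - 1 / 2)) d e a
    with hY₂
  have e1 : ‖Lam M K L Z β (fun y => (y : ℂ) ^ (-z))‖ ≤
      ∑ d₁ ∈ sp M L, ∑ d₂ ∈ sp M L, ∑ e₁ ∈ sp M L, ∑ e₂ ∈ sp M L, ∑ a ∈ rows Z, c *
        if (d₁ ∈ pdiv a ∧ e₁ ∈ pdiv a) ∧ (d₂ ∈ pdiv a ∧ e₂ ∈ pdiv a) then
          Y₁ a d₁ e₁ + Y₂ a d₂ e₂ else 0 := by
    refine (norm_sum_le _ _).trans (Finset.sum_le_sum fun d₁ hd₁ => ?_)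
    refine (norm_sum_le _ _).trans (Finset.sum_le_sum fun d₂ hd₂ => ?_)
    refine (norm_sum_le _ _).trans (Finset.sum_le_sum fun e₁ he₁ => ?_)
    refine (norm_sum_le _ _).trans (Finset.sum_le_sum fun e₂ he₂ => ?_)
    refine le_trans (le_of_eq ?_) ((norm_sum_le _ _).trans (Finset.sum_le_sum fun a ha =>
      cell_le hM (Dual_SP_of_mem hd₁) (Dual_SP_of_mem hd₂) (Dual_SP_of_mem he₁)
        (Dual_SP_of_mem he₂) (Finset.ne_of_mem_erase ha) hK hL hR (β d₁) (β d₂) hz))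
    congr 1
    simp only [Finset.mul_sum, ite_sum]
    rw [Finset.sum_congr rfl fun m₁ _ => Finset.sum_comm, Finset.sum_comm]
    refine Finset.sum_congr rfl fun a _ => Finset.sum_congr rfl fun m₁ _ =>
      Finset.sum_congr rfl fun m₂ _ => ?_
    split_ifs
    · ring
    · simp
  refine e1.trans ?_
  rw [Finset.sum_congr rfl fun d₁ _ => Finset.sum_congr rfl fun d₂ _ =>
      Finset.sum_congr rfl fun e₁ _ => Finset.sum_comm,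
    Finset.sum_congr rfl fun d₁ _ => Finset.sum_congr rfl fun d₂ _ => Finset.sum_comm,
    Finset.sum_congr rfl fun d₁ _ => Finset.sum_comm, Finset.sum_comm]
  simp only [← Finset.mul_sum]
  have e2 : ∀ a ∈ rows Z, ∑ d₁ ∈ sp M L, ∑ d₂ ∈ sp M L, ∑ e₁ ∈ sp M L, ∑ e₂ ∈ sp M L,
      (if (d₁ ∈ pdiv a ∧ e₁ ∈ pdiv a) ∧ (d₂ ∈ pdiv a ∧ e₂ ∈ pdiv a) then
        Y₁ a d₁ e₁ + Y₂ a d₂ e₂ else 0) ≤
      D ^ 2 * (∑ d ∈ (sp M L).filter (· ∈ pdiv a), ∑ e ∈ (sp M L).filter (· ∈ pdiv a), Y₁ a d e +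
        ∑ d ∈ (sp M L).filter (· ∈ pdiv a), ∑ e ∈ (sp M L).filter (· ∈ pdiv a), Y₂ a d e) := by
    intro a ha
    have := count4 (sp M L) (· ∈ pdiv a) (Y₁ := Y₁ a) (Y₂ := Y₂ a)
      (fun _ _ => Finset.sum_nonneg fun _ _ => YY_nonneg _ _ _ _ _ _ _)
      (fun _ _ => Finset.sum_nonneg fun _ _ => YY_nonneg _ _ _ _ _ _ _) (D := D)
      (le_trans (by exact_mod_cast Finset.card_le_card fun x hx => (Finset.mem_filter.1 hx).2)
        (hD a ha))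
    convert this
  have e3 : ∀ s : ℂ, ∑ a ∈ rows Z, ∑ d ∈ (sp M L).filter (· ∈ pdiv a),
      ∑ e ∈ (sp M L).filter (· ∈ pdiv a), ∑ ν : Chr M, YY L (β d) ν s d e a =
      ∑ ν : Chr M, HH L Z β ν s := by
    intro s
    rw [Finset.sum_congr rfl fun a _ => Finset.sum_congr rfl fun d _ => Finset.sum_comm,
      Finset.sum_congr rfl fun a _ => Finset.sum_comm, Finset.sum_comm]
    rfl
  refine (mul_le_mul_of_nonneg_left (Finset.sum_le_sum e2) hc0).trans_eq ?_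
  rw [← Finset.mul_sum, Finset.sum_add_distrib, e3, e3, hc]
  ring

theorem card_sp_le {M : O} {X R : ℝ} (hR : 1 ≤ R) (hX : 0 ≤ X) (h : X ≤ R) :
    ((sp M X).card : ℝ) ≤ 8 * R := by
  have h1 : (sp M X).card ≤ 7 * ⌊X⌋₊ + 1 :=
    (Finset.card_le_card (Finset.filter_subset _ _)).trans (card_ball_le _)
  have h2 : ((sp M X).card : ℝ) ≤ 7 * (⌊X⌋₊ : ℝ) + 1 := by exact_mod_cast h1
  linarith [Nat.floor_le hX]

theorem diag (S : Finset O) (T : O → Finset O) (c : O → O → ℝ) {τ B : ℝ} (hτ : 0 ≤ τ)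
    (hS : (S.card : ℝ) ≤ B) (hT : ∀ d ∈ S, ((T d).card : ℝ) ≤ B) :
    ∑ d₁ ∈ S, ∑ d₂ ∈ S, ∑ n₁ ∈ T d₁, ∑ n₂ ∈ T d₂,
      c d₁ n₁ * c d₂ n₂ * ((if d₁ = d₂ ∧ n₁ = n₂ then 1 else 0) + τ) ≤
      (1 + B ^ 2 * τ) * ∑ d ∈ S, ∑ n ∈ T d, c d n ^ 2 := by
  have hB : 0 ≤ B := le_trans (Nat.cast_nonneg _) hS
  have e1 : ∑ d₁ ∈ S, ∑ d₂ ∈ S, ∑ n₁ ∈ T d₁, ∑ n₂ ∈ T d₂,
      c d₁ n₁ * c d₂ n₂ * (if d₁ = d₂ ∧ n₁ = n₂ then 1 else 0) =
      ∑ d ∈ S, ∑ n ∈ T d, c d n ^ 2 := by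
    refine Finset.sum_congr rfl fun d hd => ?_
    rw [Finset.sum_eq_single_of_mem d hd fun d' _ h => by simp [h.symm]]
    refine Finset.sum_congr rfl fun n hn => ?_
    rw [Finset.sum_eq_single_of_mem n hn fun n' _ h => by simp [h.symm]]
    simp [sq]
  have e2 : ∑ d₁ ∈ S, ∑ d₂ ∈ S, ∑ n₁ ∈ T d₁, ∑ n₂ ∈ T d₂, c d₁ n₁ * c d₂ n₂ * τ =
      (∑ d ∈ S, ∑ n ∈ T d, c d n) ^ 2 * τ := by
    rw [sq, Finset.sum_mul_sum, Finset.sum_mul]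
    refine Finset.sum_congr rfl fun d₁ _ => ?_
    rw [Finset.sum_mul]
    refine Finset.sum_congr rfl fun d₂ _ => ?_
    rw [Finset.sum_mul_sum, Finset.sum_mul]
    exact Finset.sum_congr rfl fun n₁ _ => by rw [Finset.sum_mul]
  have e3 : (∑ d ∈ S, ∑ n ∈ T d, c d n) ^ 2 ≤ B ^ 2 * ∑ d ∈ S, ∑ n ∈ T d, c d n ^ 2 := by
    refine sq_sum_le_card_mul_sum_sq.trans ?_
    rw [sq B, mul_assoc, Finset.mul_sum S _ B]
    refine mul_le_mul hS (Finset.sum_le_sum fun d hd => sq_sum_le_card_mul_sum_sq.trans ?_)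
      (Finset.sum_nonneg fun _ _ => sq_nonneg _) hB
    exact mul_le_mul_of_nonneg_right (hT d hd) (Finset.sum_nonneg fun _ _ => sq_nonneg _)
  simp only [mul_add, Finset.sum_add_distrib]
  rw [e1, e2]
  have := mul_le_mul_of_nonneg_right e3 hτ
  linarith

theorem one_idx {M : O} (hM : Adm M) {K L R Λ τ : ℝ} (hK : 0 < K) (hL : 0 < L) (hR : L ≤ R)
    (hR1 : 1 ≤ R) (hΛ : 0 ≤ Λ) (hτ0 : 0 ≤ τ)
    (hτ : ∀ X : ℝ, 0 < X → X ≤ L ^ 2 / K → ∑' k : O,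
      (if X * Λ ≤ nr k then gw (nr k / X) * (1 + nr k) ^ (0 : ℝ) else 0) ≤ τ) (β : O → O → ℂ) :
    ∑ k ∈ rows K, ‖∑ d ∈ sp M L, ∑ m ∈ sp M (L / nr d ^ 3),
      β d m * (Real.sqrt (nr d) : ℂ) * gam 5 m * sym (m * d ^ 3) k‖ ^ 2 ≤
      (gw 1)⁻¹ * ((1 + (8 * R) ^ 2 * τ) * (K * ∑ d ∈ sp M L, nr d *
        ∑ n ∈ sp M (L / nr d ^ 3), ‖β d n‖ ^ 2) +
        ‖Lam M K L (L ^ 2 * Λ / K) β (fun y => (gw y : ℂ))‖) := by
  have h0 := open_sq ((sp M L).sigma fun d => sp M (L / nr d ^ 3))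
    (fun p => β p.1 p.2 * (Real.sqrt (nr p.1) : ℂ) * gam 5 p.2) (fun p k => sym (p.2 * p.1 ^ 3) k)
    (fun _ _ => norm_sym_le _ _) hK (rows K) fun k hk => ((mem_rows hK.le).1 hk).2
  simp only [Finset.sum_sigma] at h0
  refine h0.trans (mul_le_mul_of_nonneg_left ?_ (inv_nonneg.2 (gw_pos 1).le))
  have hX : ∀ d ∈ sp M L, 0 ≤ L / nr d ^ 3 ∧ L / nr d ^ 3 ≤ L := fun d hd =>
    ⟨by positivity, div_le_self hL.le (one_le_pow₀ (one_le_nr (ne_zero_of_mem_sp hd)))⟩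
  have e1 : ∑ d₁ ∈ sp M L, ∑ n₁ ∈ sp M (L / nr d₁ ^ 3), ∑ d₂ ∈ sp M L, ∑ n₂ ∈ sp M (L / nr d₂ ^ 3),
      β d₁ n₁ * (Real.sqrt (nr d₁) : ℂ) * gam 5 n₁ *
        conj (β d₂ n₂ * (Real.sqrt (nr d₂) : ℂ) * gam 5 n₂) *
        ∑' k : O, sym (n₁ * d₁ ^ 3) k * conj (sym (n₂ * d₂ ^ 3) k) * (gw (nr k / K) : ℂ) =
      ∑ d₁ ∈ sp M L, ∑ d₂ ∈ sp M L, ∑ e₁ ∈ sp M L, ∑ e₂ ∈ sp M L,
        ∑ m₁ ∈ sp M (L / nr d₁ ^ 3 / nr e₁), ∑ m₂ ∈ sp M (L / nr d₂ ^ 3 / nr e₂),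
          if Cop d₁ d₂ e₁ e₂ m₁ m₂ then β d₁ (e₁ * m₁) * conj (β d₂ (e₂ * m₂)) *
            Tp K d₁ d₂ (e₁ * m₁) (e₂ * m₂) else 0 := by
    refine Finset.sum_congr rfl fun d₁ hd₁ => ?_
    rw [Finset.sum_comm]
    refine Finset.sum_congr rfl fun d₂ hd₂ => ?_
    rw [← split (ne_zero_of_mem_sp hd₁) (ne_zero_of_mem_sp hd₂) (hX d₁ hd₁).1 (hX d₂ hd₂).1
      (hX d₁ hd₁).2 (hX d₂ hd₂).2 (fun n₁ n₂ => β d₁ n₁ * conj (β d₂ n₂) * Tp K d₁ d₂ n₁ n₂)]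
    refine Finset.sum_congr rfl fun n₁ _ => Finset.sum_congr rfl fun n₂ _ => ?_
    rw [Tp, Real.sqrt_mul (Nat.cast_nonneg _), map_mul, map_mul, Complex.conj_ofReal]
    push_cast
    ring
  rw [e1]
  refine (norm_le_norm_sub_add _ (Lam M K L (L ^ 2 * Λ / K) β (fun y => (gw y : ℂ)))).trans
    (add_le_add ?_ le_rfl)
  have e2 := diag (sp M L) (fun d => sp M (L / nr d ^ 3)) (fun d n => Real.sqrt (nr d) * ‖β d n‖)
    hτ0 (card_sp_le hR1 hL.le hR) fun d hd => card_sp_le hR1 (hX d hd).1 ((hX d hd).2.trans hR)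
  have e3 : ∑ d ∈ sp M L, ∑ n ∈ sp M (L / nr d ^ 3), (Real.sqrt (nr d) * ‖β d n‖) ^ 2 =
      ∑ d ∈ sp M L, nr d * ∑ n ∈ sp M (L / nr d ^ 3), ‖β d n‖ ^ 2 := by
    refine Finset.sum_congr rfl fun d _ => ?_
    rw [Finset.mul_sum]
    exact Finset.sum_congr rfl fun n _ => by rw [mul_pow, Real.sq_sqrt (Nat.cast_nonneg _)]
  rw [e3] at e2
  refine le_trans ?_ ((mul_le_mul_of_nonneg_left e2 hK.le).trans_eq (by ring))
  rw [Lam, ← Finset.sum_sub_distrib, Finset.mul_sum]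
  refine (norm_sum_le _ _).trans (Finset.sum_le_sum fun d₁ hd₁ => ?_)
  rw [← Finset.sum_sub_distrib, Finset.mul_sum]
  refine (norm_sum_le _ _).trans (Finset.sum_le_sum fun d₂ hd₂ => ?_)
  rw [split (ne_zero_of_mem_sp hd₁) (ne_zero_of_mem_sp hd₂) (hX d₁ hd₁).1 (hX d₂ hd₂).1
    (hX d₁ hd₁).2 (hX d₂ hd₂).2 (fun n₁ n₂ => Real.sqrt (nr d₁) * ‖β d₁ n₁‖ *
      (Real.sqrt (nr d₂) * ‖β d₂ n₂‖) * ((if d₁ = d₂ ∧ n₁ = n₂ then 1 else 0) + τ)),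
    ← Finset.sum_sub_distrib, Finset.mul_sum]
  refine (norm_sum_le _ _).trans (Finset.sum_le_sum fun e₁ he₁ => ?_)
  rw [← Finset.sum_sub_distrib, Finset.mul_sum]
  refine (norm_sum_le _ _).trans (Finset.sum_le_sum fun e₂ he₂ => ?_)
  rw [← Finset.sum_sub_distrib, Finset.mul_sum]
  refine (norm_sum_le _ _).trans (Finset.sum_le_sum fun m₁ hm₁ => ?_)
  rw [← Finset.sum_sub_distrib, Finset.mul_sum]
  refine (norm_sum_le _ _).trans (Finset.sum_le_sum fun m₂ hm₂ => ?_)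
  have hn : ∀ {d e m : O}, d ∈ sp M L → e ∈ sp M L → m ∈ sp M (L / nr d ^ 3 / nr e) →
      nr e * nr d ^ 3 * nr m ≤ L := by
    intro d e m hd he hm
    have a1 := nr_pos (ne_zero_of_mem_sp hd)
    have a2 := nr_pos (ne_zero_of_mem_sp he)
    have a3 := ((LS2.mem_sp (by positivity)).1 hm).2
    rw [div_div, le_div_iff₀ (by positivity)] at a3
    linarith
  by_cases hc : Cop d₁ d₂ e₁ e₂ m₁ m₂
  · rw [if_pos hc, if_pos hc, if_pos hc, ← mul_sub, norm_mul, norm_mul, Complex.norm_conj]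
    refine (mul_le_mul_of_nonneg_left (pair_est hM (Dual_SP_of_mem hd₁) (Dual_SP_of_mem hd₂)
      (Dual_SP_of_mem he₁) (Dual_SP_of_mem he₂) (Dual_SP_of_mem hm₁) (Dual_SP_of_mem hm₂) hc hK hΛ
      (hn hd₁ he₁ hm₁) (hn hd₂ he₂ hm₂) hτ) (by positivity)).trans_eq ?_
    rw [Real.sqrt_mul (Nat.cast_nonneg _)]
    ring
  · simp [hc]

theorem gp_main {M : O} (hM : Adm M) {ε : ℝ} (hε : 0 < ε) (J : ℕ) : ∃ C : ℝ, 0 < C ∧
    ∀ {I : Type} (S : Finset I) (w K L : I → ℝ) (β : I → O → O → ℂ) (R E : ℝ), 1 ≤ R →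
      (∀ i ∈ S, 0 ≤ w i ∧ 1 ≤ K i ∧ 0 < L i ∧ L i ≤ R) →
      (∀ (ν : Chr M) (s : ℂ), -(1 / 2) ≤ s.re → s.re ≤ 0 →
        ∑ i ∈ S, w i * (K i / L i) * HH (L i) (L i ^ 2 * R ^ ε / K i) (β i) ν s ≤
          E * (1 + |s.im|) ^ J) →
      ∑ i ∈ S, w i * ∑ k ∈ rows (K i), ‖∑ d ∈ sp M (L i), ∑ m ∈ sp M (L i / nr d ^ 3),
          β i d m * (Real.sqrt (nr d) : ℂ) * gam 5 m * sym (m * d ^ 3) k‖ ^ 2 ≤
        C * (∑ i ∈ S, w i * K i *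
          ∑ d ∈ sp M (L i), nr d * ∑ n ∈ sp M (L i / nr d ^ 3), ‖β i d n‖ ^ 2 + R ^ ε * E) := by
  have := finite_chr hM.1
  have : Fintype (Chr M) := Fintype.ofFinite _
  set σ : ℝ := min (ε / 4) (1 / 2) with hσ
  have hσ0 : 0 < σ := lt_min (by positivity) (by norm_num)
  have hσ1 : σ ≤ ε / 4 := min_le_left _ _
  have hσ2 : σ ≤ 1 / 2 := min_le_right _ _
  obtain ⟨C₁, hC₁, h₁⟩ := tsum_gw_tail_le (4 / ε) 0
  obtain ⟨C₂, hC₂, h₂⟩ := card_pdiv_le (ε := ε / (4 * (2 + ε))) (by positivity)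
  obtain ⟨C₃, hC₃, h₃⟩ := sep hσ0 J
  set N : ℝ := (Fintype.card (Chr M) : ℝ) with hN
  have hN0 : 0 ≤ N := Nat.cast_nonneg _
  have hg := inv_pos.2 (gw_pos 1)
  refine ⟨(gw 1)⁻¹ * (1 + 128 * C₁ + C₃ * (2 * N ^ 2 * C₂ ^ 2)), by positivity,
    fun {I} S w K L β R E hR hS hE => ?_⟩
  have hR0 : 0 < R := lt_of_lt_of_le one_pos hR
  have hΛ : 1 ≤ R ^ ε := Real.one_le_rpow hR hε.le
  have hE0 : 0 ≤ E := by
    have h1 := hE 1 0 (by norm_num) (by simp)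
    rw [Complex.zero_im, abs_zero, add_zero, one_pow, mul_one] at h1
    refine le_trans (Finset.sum_nonneg fun i hi => ?_) h1
    obtain ⟨a1, a2, a3, a4⟩ := hS i hi
    exact mul_nonneg (by positivity) (HH_nonneg _ _ _ _ _)
  have hZ : ∀ i ∈ S, L i ^ 2 / K i ≤ R ^ 2 := fun i hi => by
    obtain ⟨a1, a2, a3, a4⟩ := hS i hi
    exact (div_le_self (by positivity) a2).trans (pow_le_pow_left₀ a3.le a4 2)
  -- the main part
  have key := h₃ S w (fun i => Lam M (K i) (L i) (L i ^ 2 * R ^ ε / K i) (β i))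
    (2 * N ^ 2 * C₂ ^ 2 * (R ^ ε * E)) (fun i hi => (hS i hi).1)
    (fun i hi => fc_Lam M (lt_of_lt_of_le one_pos (hS i hi).2.1) _ _ _) fun z hz => by
      have b1 := fun ν => hE ν (z - 1 / 2) (by simp [hz]; linarith) (by simp [hz]; linarith)
      have b2 := fun ν => hE ν (conj (z - 1 / 2)) (by simp [hz]; linarith) (by simp [hz]; linarith)
      have c1 : (z - 1 / 2).im = z.im := by simp
      have c2 : |(conj (z - 1 / 2)).im| = |z.im| := by simp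
      simp only [c1] at b1
      simp only [c2] at b2
      have b3 : ∀ s : ℂ, (∀ ν : Chr M, ∑ i ∈ S, w i * (K i / L i) *
          HH (L i) (L i ^ 2 * R ^ ε / K i) (β i) ν s ≤ E * (1 + |z.im|) ^ J) →
          ∑ i ∈ S, w i * ∑ ν : Chr M, K i / L i * HH (L i) (L i ^ 2 * R ^ ε / K i) (β i) ν s ≤
            N * (E * (1 + |z.im|) ^ J) := by
        intro s hs
        simp only [Finset.mul_sum]
        rw [Finset.sum_comm]
        refine (Finset.sum_le_sum fun ν _ => ?_).trans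
          (le_of_eq (a := ∑ _ν : Chr M, E * (1 + |z.im|) ^ J) ?_)
        · simp only [← mul_assoc]; exact hs ν
        · rw [Finset.sum_const, Finset.card_univ, nsmul_eq_mul]
      have b4 : R ^ (2 * z.re) * (C₂ * R ^ (ε / 4)) ^ 2 ≤ C₂ ^ 2 * R ^ ε := by
        rw [mul_pow, ← Real.rpow_natCast (R ^ (ε / 4)), ← Real.rpow_mul hR0.le, mul_left_comm,
          ← Real.rpow_add hR0]
        refine mul_le_mul_of_nonneg_left (Real.rpow_le_rpow_of_exponent_le hR ?_) (by positivity)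
        rw [hz]; push_cast; linarith
      calc _ ≤ ∑ i ∈ S, w i * (R ^ (2 * z.re) * N * (C₂ * R ^ (ε / 4)) ^ 2 *
            (∑ ν : Chr M, K i / L i * HH (L i) (L i ^ 2 * R ^ ε / K i) (β i) ν (z - 1 / 2) +
            ∑ ν : Chr M, K i / L i *
              HH (L i) (L i ^ 2 * R ^ ε / K i) (β i) ν (conj (z - 1 / 2)))) := by
            refine Finset.sum_le_sum fun i hi => ?_
            obtain ⟨a1, a2, a3, a4⟩ := hS i hi
            refine mul_le_mul_of_nonneg_left (Lam_le hM a2 a3 a4 (fun a ha => ?_) (β i)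
              (by rw [hz]; exact hσ0.le)) a1
            rw [mem_rows (by positivity)] at ha
            refine (h₂ a ha.1).trans (mul_le_mul_of_nonneg_left ?_ hC₂.le)
            have d1 : nr a ≤ R ^ (2 + ε) := by
              rw [Real.rpow_add hR0, Real.rpow_two]
              refine ha.2.trans ?_
              rw [mul_div_right_comm]
              exact mul_le_mul_of_nonneg_right (hZ i hi) (by positivity)
            refine (Real.rpow_le_rpow (Nat.cast_nonneg _) d1 (by positivity)).trans_eq ?_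
            rw [← Real.rpow_mul hR0.le]
            congr 1
            field_simp
        _ = R ^ (2 * z.re) * (C₂ * R ^ (ε / 4)) ^ 2 * N * (∑ i ∈ S, w i *
            ∑ ν : Chr M, K i / L i * HH (L i) (L i ^ 2 * R ^ ε / K i) (β i) ν (z - 1 / 2) +
            ∑ i ∈ S, w i * ∑ ν : Chr M, K i / L i *
              HH (L i) (L i ^ 2 * R ^ ε / K i) (β i) ν (conj (z - 1 / 2))) := by
            rw [← Finset.sum_add_distrib, Finset.mul_sum]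
            exact Finset.sum_congr rfl fun i _ => by ring
        _ ≤ R ^ (2 * z.re) * (C₂ * R ^ (ε / 4)) ^ 2 * N *
            (N * (E * (1 + |z.im|) ^ J) + N * (E * (1 + |z.im|) ^ J)) :=
            mul_le_mul_of_nonneg_left (add_le_add (b3 _ b1) (b3 _ b2)) (by positivity)
        _ ≤ C₂ ^ 2 * R ^ ε * N * (N * (E * (1 + |z.im|) ^ J) + N * (E * (1 + |z.im|) ^ J)) :=
            mul_le_mul_of_nonneg_right (mul_le_mul_of_nonneg_right b4 hN0) (by positivity)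
        _ = _ := by ring
  -- the diagonal and the tail
  set τ : ℝ := 2 * C₁ / R ^ 2 with hτ
  have e1 : ∀ i ∈ S, w i * ∑ k ∈ rows (K i), ‖∑ d ∈ sp M (L i), ∑ m ∈ sp M (L i / nr d ^ 3),
      β i d m * (Real.sqrt (nr d) : ℂ) * gam 5 m * sym (m * d ^ 3) k‖ ^ 2 ≤
      (gw 1)⁻¹ * ((1 + 128 * C₁) * (w i * K i *
        ∑ d ∈ sp M (L i), nr d * ∑ n ∈ sp M (L i / nr d ^ 3), ‖β i d n‖ ^ 2) +
        w i * ‖Lam M (K i) (L i) (L i ^ 2 * R ^ ε / K i) (β i) (fun y => (gw y : ℂ))‖) := by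
    intro i hi
    obtain ⟨a1, a2, a3, a4⟩ := hS i hi
    have := one_idx hM (lt_of_lt_of_le one_pos a2) a3 a4 hR (Λ := R ^ ε) (τ := τ) (by positivity)
      (by positivity) (fun X hX hX' => by
        refine (h₁ X _ hX hΛ).trans ?_
        rw [abs_zero, zero_add, Real.rpow_one, ← Real.rpow_mul hR0.le,
          show ε * -(4 / ε) = -((4 : ℕ) : ℝ) by push_cast; field_simp, Real.rpow_neg hR0.le,
          Real.rpow_natCast, hτ, ← div_eq_mul_inv, div_le_div_iff₀ (by positivity) (by positivity)]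
        have d1 : 1 + X ≤ 2 * R ^ 2 := by linarith [hX'.trans (hZ i hi), one_le_pow₀ (n := 2) hR]
        have := mul_le_mul_of_nonneg_left d1 (show 0 ≤ C₁ * R ^ 2 by positivity)
        linarith) (β i)
    rw [show (8 * R) ^ 2 * τ = 128 * C₁ by rw [hτ]; field_simp; norm_num] at this
    exact (mul_le_mul_of_nonneg_left this a1).trans_eq (by ring)
  refine (Finset.sum_le_sum e1).trans ?_
  rw [← Finset.mul_sum, Finset.sum_add_distrib, ← Finset.mul_sum, mul_assoc]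
  refine mul_le_mul_of_nonneg_left ?_ hg.le
  have n1 : 0 ≤ ∑ i ∈ S, w i * K i *
      ∑ d ∈ sp M (L i), nr d * ∑ n ∈ sp M (L i / nr d ^ 3), ‖β i d n‖ ^ 2 :=
    Finset.sum_nonneg fun i hi => by
      obtain ⟨a1, a2, a3, a4⟩ := hS i hi
      positivity
  have n2 : 0 ≤ R ^ ε * E := by positivity
  have n3 := mul_nonneg (show 0 ≤ C₃ * (2 * N ^ 2 * C₂ ^ 2) by positivity) n1
  have n4 := mul_nonneg (show 0 ≤ 1 + 128 * C₁ by positivity) n2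
  linarith

end Crest.Agent.R17.GP
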