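import Crest.Agent.R17.LS2Core
import Crest.Agent.R17.LS2Red
import Crest.Agent.R17.LS2Triv

/-!
# Row 17, module M7: Heath-Brown's quadratic large sieve in `O`, and the trivial cubic large sieve

The finset `sp M X` (squarefree primary elements coprime to `M` of norm at most `X`) is defined in
`LS2Defs.lean`.
-/

set_option autoImplicit false

noncomputable section

namespace Crest.Agent.R17

open scoped ComplexConjugate

/-- **Quadratic large sieve.** -/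
theorem quad_large_sieve {ε : ℝ} (hε : 0 < ε) : ∃ C : ℝ, 0 < C ∧
    ∀ (K N : ℝ) (β : O → ℂ), 1 ≤ K → 1 ≤ N →
      ∑ k ∈ sp 6 K, ‖∑ n ∈ sp 6 N, β n * quad k n‖ ^ 2 ≤
        C * (K * N) ^ ε * (K + N) * ∑ n ∈ sp 6 N, ‖β n‖ ^ 2 := by
  refine LS2.final_of_step LS2.LS_two (fun ξ h1 h2 h => ?_) hε
  refine LS2.LS_of_Core ?_ (LS2.Core_of_LSw h1 h2 (LS2.LSw_of_LS (by linarith) h))
  have : 1 / ξ ≤ 1 := by rw [div_le_one (by linarith)]; exact h1
  linarith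

/-- Trivial large sieve for the cubic characters `χ_z^4` (all rows `n`, squarefree moduli `z`). -/
theorem cubic_trivial_sieve {ε : ℝ} (hε : 0 < ε) : ∃ C : ℝ, 0 < C ∧
    ∀ (N Z : ℝ) (c : O → ℂ), 1 ≤ N → 1 ≤ Z →
      ∑ n ∈ ball ⌊N⌋₊, ‖∑ z ∈ sp 6 Z, c z * sym z n ^ 4‖ ^ 2 ≤
        C * (N * Z) ^ ε * (N + Z ^ 2) * ∑ z ∈ sp 6 Z, ‖c z‖ ^ 2 :=
  LS2.triv_sieve (by norm_num) hε

end Crest.Agent.R17
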