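import Crest.Agent.R17.Weight

/-!
# Row 17, reflection module N1: contour shifts and the gamma factor
-/

set_option autoImplicit false

noncomputable section

namespace Crest.Agent.R17.RMA

open scoped ComplexConjugate Topology
open MeasureTheory Complex Filter

theorem integrable_exp_abs {c : ℝ} (hc : 0 < c) :
    Integrable (fun u : ℝ => Real.exp (-c * |u|)) := by
  rw [← integrableOn_univ, ← Set.Iic_union_Ioi (a := (0 : ℝ))]
  refine IntegrableOn.union ?_ ?_
  · refine (integrableOn_exp_mul_Iic hc 0).congr_fun (fun x hx => ?_) measurableSet_Iic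
    simp only
    rw [abs_of_nonpos hx]
    congr 1; ring
  · refine (exp_neg_integrableOn_Ioi 0 hc).congr_fun (fun x hx => ?_) measurableSet_Ioi
    simp only
    rw [abs_of_pos hx]

theorem integral_vertical_shift {F : ℂ → ℂ} {a b : ℝ} (hab : a ≤ b)
    (hF : DifferentiableOn ℂ F {s | a ≤ s.re ∧ s.re ≤ b})
    {C c : ℝ} (hc : 0 < c)
    (hb : ∀ s : ℂ, a ≤ s.re → s.re ≤ b → ‖F s‖ ≤ C * Real.exp (-c * |s.im|)) :
    ∫ u : ℝ, F (a + u * I) = ∫ u : ℝ, F (b + u * I) := by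
  have hint : ∀ x : ℝ, a ≤ x → x ≤ b → Integrable (fun u : ℝ => F (x + u * I)) := by
    intro x h1 h2
    have hcont : Continuous fun u : ℝ => F (x + u * I) :=
      hF.continuousOn.comp_continuous (by fun_prop) fun u => by simpa using ⟨h1, h2⟩
    refine ((integrable_exp_abs hc).const_mul C).mono' hcont.aestronglyMeasurable
      (Eventually.of_forall fun u => ?_)
    simpa using hb (x + u * I) (by simpa using h1) (by simpa using h2)
  have hlim : ∀ x : ℝ, a ≤ x → x ≤ b →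
      Tendsto (fun T : ℝ => ∫ u in (-T)..T, F (x + u * I)) atTop (𝓝 (∫ u : ℝ, F (x + u * I))) :=
    fun x h1 h2 => intervalIntegral_tendsto_integral (hint x h1 h2) tendsto_neg_atTop_atBot
      tendsto_id
  have hhor : ∀ T : ℝ, ‖∫ x in a..b, F (x + T * I)‖ ≤ C * Real.exp (-c * |T|) * |b - a| := by
    intro T
    refine intervalIntegral.norm_integral_le_of_norm_le_const fun x hx => ?_
    rw [Set.uIoc_of_le hab] at hx
    simpa using hb (x + T * I) (by simpa using hx.1.le) (by simpa using hx.2)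
  have hz : Tendsto (fun T : ℝ => C * Real.exp (-c * |T|) * |b - a|) atTop (𝓝 0) := by
    have : Tendsto (fun T : ℝ => -c * |T|) atTop atBot :=
      tendsto_abs_atTop_atTop.const_mul_atTop_of_neg (by linarith)
    simpa using ((Real.tendsto_exp_atBot.comp this).const_mul C).mul_const |b - a|
  have h1 : Tendsto (fun T : ℝ => ∫ x in a..b, F (x + T * I)) atTop (𝓝 0) :=
    squeeze_zero_norm hhor hz
  have h2 : Tendsto (fun T : ℝ => ∫ x in a..b, F (x + (-T : ℝ) * I)) atTop (𝓝 0) :=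
    squeeze_zero_norm (fun T => by simpa only [abs_neg] using hhor (-T)) hz
  have h3 := ((h2.sub h1).add ((hlim b hab le_rfl).const_smul I)).sub
    ((hlim a le_rfl hab).const_smul I)
  have h4 : ∀ T : ℝ, (∫ x in a..b, F (x + (-T : ℝ) * I)) - (∫ x in a..b, F (x + T * I)) +
      I • (∫ u in (-T)..T, F (b + u * I)) - I • (∫ u in (-T)..T, F (a + u * I)) = 0 := by
    intro T
    refine integral_boundary_rect_eq_zero_of_differentiableOn F ⟨a, -T⟩ ⟨b, T⟩
      (hF.mono fun s hs => ?_)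
    have := hs.1
    simp only [Set.uIcc_of_le hab] at this
    exact this
  simp only [h4] at h3
  have h5 := tendsto_nhds_unique tendsto_const_nhds h3
  simp only [sub_zero, zero_add, smul_eq_mul] at h5
  have h6 : I * ((∫ u : ℝ, F (a + u * I)) - ∫ u : ℝ, F (b + u * I)) = 0 := by
    linear_combination h5
  exact sub_eq_zero.1 ((mul_eq_zero.1 h6).resolve_left I_ne_zero)

theorem norm_sin_le (z : ℂ) : ‖Complex.sin z‖ ≤ Real.exp |z.im| := by
  have h1 : ‖Complex.exp (-z * I)‖ ≤ Real.exp |z.im| := by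
    rw [Complex.norm_exp]
    exact Real.exp_le_exp.2 (by simpa using le_abs_self z.im)
  have h2 : ‖Complex.exp (z * I)‖ ≤ Real.exp |z.im| := by
    rw [Complex.norm_exp]
    exact Real.exp_le_exp.2 (by simpa using neg_le_abs z.im)
  have := norm_sub_le (Complex.exp (-z * I)) (Complex.exp (z * I))
  rw [Complex.sin, norm_div, norm_mul, norm_I, mul_one, Complex.norm_two]
  linarith

theorem norm_Gamma_bd {a : ℝ} (ha : 0 < a) (b : ℝ) : ∃ M : ℝ, 0 < M ∧ ∀ s : ℂ, a ≤ s.re →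
    s.re ≤ b → ‖Gamma s‖ ≤ M := by
  have hc : ContinuousOn Real.Gamma (Set.Icc a b) := fun x hx =>
    (Real.differentiableAt_Gamma fun m => by
      have := hx.1
      have := Nat.cast_nonneg (α := ℝ) m
      intro h; linarith).continuousAt.continuousWithinAt
  obtain ⟨M, hM⟩ := isCompact_Icc.exists_bound_of_continuousOn hc
  refine ⟨|M| + 1, by positivity, fun s h1 h2 => ?_⟩
  have := hM s.re ⟨h1, h2⟩
  have h3 := WA.norm_Gamma_le (s := s) (by linarith)
  rw [Real.norm_eq_abs] at this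
  linarith [le_abs_self M, le_abs_self (Real.Gamma s.re)]

theorem norm_inv_Gamma_add {s : ℂ} (hs : 1 ≤ |s.im|) (N : ℕ) :
    ‖(Gamma (s + N))⁻¹‖ ≤ ‖(Gamma s)⁻¹‖ := by
  induction N with
  | zero => simp
  | succ N ih =>
    have h1 : 1 ≤ ‖s + N‖ := hs.trans (by simpa using abs_im_le_norm (s + N))
    have h0 : s + N ≠ 0 := norm_pos_iff.1 (by linarith)
    rw [Nat.cast_succ, ← add_assoc, Gamma_add_one _ h0, mul_inv, norm_mul, norm_inv (s + N)]
    exact (mul_le_of_le_one_left (norm_nonneg _) (inv_le_one_of_one_le₀ h1)).trans ih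

theorem norm_inv_Gamma_le (a b : ℝ) : ∃ C : ℝ, 0 < C ∧ ∀ s : ℂ, a ≤ s.re → s.re ≤ b →
    ‖(Gamma s)⁻¹‖ ≤ C * Real.exp (4 * |s.im|) := by
  obtain ⟨M₁, h₁⟩ := ((isCompact_Icc (a := a) (b := b)).reProdIm
    (isCompact_Icc (a := (-1 : ℝ)) (b := 1))).exists_bound_of_continuousOn
      differentiable_one_div_Gamma.continuous.continuousOn
  obtain ⟨N, hN⟩ := exists_nat_ge b
  obtain ⟨M₂, hM₂, h₂⟩ := norm_Gamma_bd one_pos (1 + N - a)
  refine ⟨|M₁| + M₂, by positivity, fun s ha hb => ?_⟩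
  have he : 1 ≤ Real.exp (4 * |s.im|) := Real.one_le_exp (by positivity)
  rcases le_total |s.im| 1 with h | h
  · have := h₁ s ⟨⟨ha, hb⟩, abs_le.1 h⟩
    nlinarith [le_abs_self M₁, abs_nonneg M₁]
  · have h3 := norm_inv_Gamma_add (s := s - N) (by simpa using h) N
    rw [sub_add_cancel] at h3
    set t : ℂ := s - N with ht
    have him : t.im = s.im := by simp [ht]
    have hre : t.re = s.re - N := by simp [ht]
    have ht0 : Gamma t ≠ 0 := Gamma_ne_zero fun m hm => by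
      have := congrArg Complex.im hm
      rw [him] at this
      simp at this
      rw [this] at h
      norm_num at h
    have ht1 : Gamma (1 - t) ≠ 0 := Gamma_ne_zero_of_re_pos (by simp [hre]; linarith)
    have hr := Gamma_mul_Gamma_one_sub t
    have hpi : (Real.pi : ℂ) ≠ 0 := ofReal_ne_zero.2 Real.pi_ne_zero
    have hs : Complex.sin (Real.pi * t) ≠ 0 := fun h0 => by
      rw [h0, div_zero] at hr
      exact mul_ne_zero ht0 ht1 hr
    have e : (Gamma t)⁻¹ = Gamma (1 - t) * Complex.sin (Real.pi * t) / Real.pi := by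
      rw [eq_div_iff hs] at hr
      rw [eq_div_iff hpi, inv_mul_eq_iff_eq_mul₀ ht0, ← mul_assoc, hr]
    have h4 := h₂ (1 - t) (by simp [hre]; linarith) (by simp [hre]; linarith)
    have h5 : ‖Complex.sin (Real.pi * t)‖ ≤ Real.exp (4 * |s.im|) := by
      refine (norm_sin_le _).trans (Real.exp_le_exp.2 ?_)
      rw [im_ofReal_mul, abs_mul, him, abs_of_pos Real.pi_pos]
      exact mul_le_mul_of_nonneg_right Real.pi_le_four (abs_nonneg _)
    have h6 : ‖(Gamma t)⁻¹‖ ≤ M₂ * Real.exp (4 * |s.im|) := by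
      rw [e, norm_div, norm_mul, Complex.norm_real, Real.norm_of_nonneg Real.pi_pos.le]
      refine (div_le_self (by positivity) (by linarith [Real.pi_gt_three])).trans ?_
      exact mul_le_mul h4 h5 (norm_nonneg _) hM₂.le
    nlinarith [abs_nonneg M₁]

theorem ratio_le {c : ℝ} (h0 : 1 / 3 ≤ c) (h1 : c < 1) (σ : ℕ) : ∃ C : ℝ, 0 < C ∧ ∀ u : ℝ,
    ‖Gamma (c + (σ + u * I))‖ * ‖(Gamma (c + 1 - (σ + u * I)))⁻¹‖ ≤ C * (1 + |u|) ^ (2 * σ) := by
  induction σ with
  | zero =>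
    refine ⟨3, by norm_num, fun u => ?_⟩
    have hne : (c : ℂ) - u * I ≠ 0 := fun h => by
      have := congrArg Complex.re h
      simp at this
      linarith
    have hG : Gamma ((c : ℂ) - u * I) ≠ 0 := Gamma_ne_zero_of_re_pos (by simp; linarith)
    have e1 : (c : ℂ) + 1 - (((0 : ℕ) : ℂ) + u * I) = (c - u * I) + 1 := by push_cast; ring
    have e2 : (c : ℂ) + (((0 : ℕ) : ℂ) + u * I) = conj ((c : ℂ) - u * I) := by simp
    have h2 : 1 / 3 ≤ ‖(c : ℂ) - u * I‖ := h0.trans (by simpa using re_le_norm ((c : ℂ) - u * I))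
    rw [e1, e2, Gamma_conj, Complex.norm_conj, Gamma_add_one _ hne, mul_inv, norm_mul, norm_inv,
      norm_inv, mul_left_comm, mul_inv_cancel₀ (norm_ne_zero_iff.2 hG), mul_zero, pow_zero,
      mul_one, mul_one]
    rw [inv_le_comm₀ (by linarith) (by norm_num)]
    linarith
  | succ σ ih =>
    obtain ⟨C, hC, ih⟩ := ih
    refine ⟨C * (σ + 1) ^ 2, by positivity, fun u => ?_⟩
    have hσ := Nat.cast_nonneg (α := ℝ) σ
    have hn1 : (c : ℂ) + (σ + u * I) ≠ 0 := fun h => by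
      have := congrArg Complex.re h
      simp at this
      linarith
    have hn2 : (c : ℂ) - (σ + u * I) ≠ 0 := fun h => by
      have := congrArg Complex.re h
      simp at this
      rcases Nat.eq_zero_or_pos σ with h | h
      · rw [h] at this; simp at this; linarith
      · have : (1 : ℝ) ≤ σ := by exact_mod_cast h
        linarith
    have e1 : (c : ℂ) + (((σ + 1 : ℕ) : ℂ) + u * I) = (c + (σ + u * I)) + 1 := by push_cast; ring
    have e2 : (c : ℂ) + 1 - (((σ + 1 : ℕ) : ℂ) + u * I) = c - (σ + u * I) := by push_cast; ring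
    have e3 : (c : ℂ) + 1 - (σ + u * I) = (c - (σ + u * I)) + 1 := by ring
    have e4 : (Gamma ((c : ℂ) - (σ + u * I)))⁻¹ =
        (c - (σ + u * I)) * (Gamma ((c : ℂ) + 1 - (σ + u * I)))⁻¹ := by
      rw [e3, Gamma_add_one _ hn2, mul_inv, ← mul_assoc, mul_inv_cancel₀ hn2, one_mul]
    have b0 : ‖(σ : ℂ) + u * I‖ ≤ σ + |u| := (norm_add_le _ _).trans (by simp)
    have bc : ‖(c : ℂ)‖ ≤ 1 := by
      rw [Complex.norm_real, Real.norm_of_nonneg (by linarith)]; exact h1.le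
    have hu := abs_nonneg u
    have b1 : ‖(c : ℂ) + (σ + u * I)‖ ≤ (σ + 1) * (1 + |u|) :=
      (norm_add_le _ _).trans (by nlinarith)
    have b2 : ‖(c : ℂ) - (σ + u * I)‖ ≤ (σ + 1) * (1 + |u|) :=
      (norm_sub_le _ _).trans (by nlinarith)
    rw [e1, e2, Gamma_add_one _ hn1, e4, norm_mul, norm_mul, mul_mul_mul_comm]
    refine (mul_le_mul (mul_le_mul b1 b2 (norm_nonneg _) (by positivity)) (ih u)
      (by positivity) (by positivity)).trans (le_of_eq ?_)
    ring

/-- The gamma factor. -/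
def gF (t : ℂ) : ℂ :=
  Gamma (1 / 3 + t) * Gamma (2 / 3 + t) / (Gamma (4 / 3 - t) * Gamma (5 / 3 - t))

theorem gF_eq (t : ℂ) : gF t =
    Gamma (1 / 3 + t) * (Gamma (4 / 3 - t))⁻¹ * (Gamma (2 / 3 + t) * (Gamma (5 / 3 - t))⁻¹) := by
  rw [gF, div_eq_mul_inv, mul_inv]; ring

theorem norm_gF_le (σ : ℕ) : ∃ C : ℝ, 0 < C ∧ ∀ u : ℝ,
    ‖gF (σ + u * I)‖ ≤ C * (1 + |u|) ^ (4 * σ) := by
  obtain ⟨C₁, h₁, H₁⟩ := ratio_le (c := 1 / 3) le_rfl (by norm_num) σ
  obtain ⟨C₂, h₂, H₂⟩ := ratio_le (c := 2 / 3) (by norm_num) (by norm_num) σ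
  refine ⟨C₁ * C₂, by positivity, fun u => ?_⟩
  have k₁ := H₁ u
  have k₂ := H₂ u
  push_cast at k₁ k₂
  rw [show (1 / 3 + 1 : ℂ) = 4 / 3 by norm_num] at k₁
  rw [show (2 / 3 + 1 : ℂ) = 5 / 3 by norm_num] at k₂
  rw [gF_eq, norm_mul, norm_mul, norm_mul]
  refine (mul_le_mul k₁ k₂ (by positivity) (by positivity)).trans (le_of_eq ?_)
  ring

theorem differentiableAt_gF {t : ℂ} (ht : 0 ≤ t.re) : DifferentiableAt ℂ gF t := by
  have h : ∀ c : ℂ, 0 < c.re → DifferentiableAt ℂ (fun t => Gamma (c + t)) t := fun c hc =>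
    (differentiableAt_Gamma (c + t) fun m hm => by
      have := congrArg Complex.re hm
      have hm := Nat.cast_nonneg (α := ℝ) m
      simp at this
      linarith).comp t (by fun_prop)
  have h' : ∀ c : ℂ, DifferentiableAt ℂ (fun t => (Gamma (c - t))⁻¹) t := fun c =>
    (differentiable_one_div_Gamma (c - t)).comp t (by fun_prop)
  rw [show gF = _ from funext gF_eq]
  exact ((h _ (by norm_num)).mul (h' _)).mul ((h _ (by norm_num)).mul (h' _))

theorem norm_gF_strip (σ : ℝ) : ∃ C : ℝ, 0 < C ∧ ∀ t : ℂ, 0 ≤ t.re → t.re ≤ σ →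
    ‖gF t‖ ≤ C * Real.exp (8 * |t.im|) := by
  obtain ⟨M, hM, h₁⟩ := norm_Gamma_bd (a := 1 / 3) (by norm_num) (1 + σ)
  obtain ⟨C, hC, h₂⟩ := norm_inv_Gamma_le (-σ) 2
  refine ⟨M * C * (M * C), by positivity, fun t h0 h1 => ?_⟩
  have a1 := h₁ (1 / 3 + t) (by simp; linarith) (by simp; linarith)
  have a2 := h₁ (2 / 3 + t) (by simp; linarith) (by simp; linarith)
  have a3 := h₂ (4 / 3 - t) (by simp; linarith) (by simp; linarith)
  have a4 := h₂ (5 / 3 - t) (by simp; linarith) (by simp; linarith)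
  have i3 : |(4 / 3 - t).im| = |t.im| := by simp
  have i4 : |(5 / 3 - t).im| = |t.im| := by simp
  rw [i3] at a3
  rw [i4] at a4
  rw [gF_eq, norm_mul, norm_mul, norm_mul]
  refine (mul_le_mul (mul_le_mul a1 a3 (norm_nonneg _) hM.le)
    (mul_le_mul a2 a4 (norm_nonneg _) hM.le) (by positivity) (by positivity)).trans (le_of_eq ?_)
  rw [show 8 * |t.im| = 4 * |t.im| + 4 * |t.im| by ring, Real.exp_add]
  ring

/-- The density of the reflected kernel. -/
def K0 (t s : ℂ) : ℂ := (1 / (2 * Real.pi) : ℂ) * Wm (1 - t + s) * gF t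

theorem differentiableAt_K0 (s : ℂ) {t : ℂ} (ht : 0 ≤ t.re) :
    DifferentiableAt ℂ (fun t => K0 t s) t :=
  (((differentiable_Wm _).comp t (by fun_prop)).const_mul _).mul (differentiableAt_gF ht)

theorem norm_c_le : ‖(1 / (2 * Real.pi) : ℂ)‖ ≤ 1 := by
  rw [show (1 / (2 * Real.pi) : ℂ) = ((1 / (2 * Real.pi) : ℝ) : ℂ) by push_cast; ring,
    Complex.norm_real, Real.norm_of_nonneg (by positivity), div_le_one (by positivity)]
  linarith [Real.pi_gt_three]

theorem K0_shift (σ : ℕ) (s : ℂ) {x : ℝ} (hx : 0 < x) :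
    ∫ u : ℝ, K0 (u * I) s * (x : ℂ) ^ (-((u : ℂ) * I)) =
      ∫ u : ℝ, K0 (σ + u * I) s * (x : ℂ) ^ (-((σ : ℂ) + u * I)) := by
  have hσ := Nat.cast_nonneg (α := ℝ) σ
  obtain ⟨C, hC, h⟩ := norm_gF_strip σ
  have := integral_vertical_shift (F := fun t => K0 t s * (x : ℂ) ^ (-t)) (a := 0) (b := σ) hσ
    (fun t ht => ((differentiableAt_K0 s ht.1).mul (DifferentiableAt.const_cpow (by fun_prop)
      (Or.inl (ofReal_ne_zero.2 hx.ne')))).differentiableWithinAt)
    (C := Real.sqrt Real.pi * C * Real.exp ((1 + σ + |s.re|) ^ 2 / 4 + 81 + 9 * |s.im| +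
      σ * |Real.log x|)) one_pos fun t h0 h1 => ?_
  · simpa using this
  have h0' : 0 ≤ t.re := by simpa using h0
  have e1 : (1 - t + s).re = 1 - t.re + s.re := by simp
  have e2 : (1 - t + s).im = s.im - t.im := by simp; ring
  rw [norm_mul, K0, norm_mul, norm_mul, norm_Wm, Complex.norm_cpow_eq_rpow_re_of_pos hx, e1, e2,
    Real.rpow_def_of_pos hx]
  have b1 := mul_le_mul (mul_le_of_le_one_left (by positivity :
    0 ≤ Real.sqrt Real.pi * Real.exp (((1 - t.re + s.re) ^ 2 - (s.im - t.im) ^ 2) / 4)) norm_c_le)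
    (h t h0' h1) (norm_nonneg _) (by positivity)
  refine (mul_le_mul_of_nonneg_right b1 (Real.exp_pos _).le).trans ?_
  have e3 : Real.sqrt Real.pi * Real.exp (((1 - t.re + s.re) ^ 2 - (s.im - t.im) ^ 2) / 4) *
      (C * Real.exp (8 * |t.im|)) * Real.exp (Real.log x * (-t).re) =
      Real.sqrt Real.pi * C * Real.exp (((1 - t.re + s.re) ^ 2 - (s.im - t.im) ^ 2) / 4 +
        8 * |t.im| + Real.log x * (-t).re) := by
    rw [Real.exp_add, Real.exp_add]; ring
  rw [e3, mul_assoc (Real.sqrt Real.pi * C), ← Real.exp_add]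
  refine mul_le_mul_of_nonneg_left (Real.exp_le_exp.2 ?_) (by positivity)
  have c1 : (1 - t.re + s.re) ^ 2 ≤ (1 + σ + |s.re|) ^ 2 :=
    sq_le_sq' (by linarith [neg_abs_le s.re]) (by linarith [le_abs_self s.re])
  have c2 : |t.im| ≤ |s.im| + |s.im - t.im| := by
    have := abs_sub s.im (s.im - t.im)
    rwa [sub_sub_cancel] at this
  have c3 : Real.log x * (-t).re ≤ σ * |Real.log x| := by
    rw [neg_re]
    nlinarith [neg_abs_le (Real.log x), abs_nonneg (Real.log x)]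
  nlinarith [sq_nonneg (|s.im - t.im| - 18), sq_abs (s.im - t.im)]

theorem K0_bound (σ : ℕ) (B : ℝ) : ∃ C : ℝ, ∀ s : ℂ, |s.re| ≤ B →
    Integrable (fun u : ℝ => K0 (σ + u * I) s) ∧
    (∫ u : ℝ, ‖K0 (σ + u * I) s‖) ≤ C * (1 + |s.im|) ^ (4 * σ) := by
  have hσ := Nat.cast_nonneg (α := ℝ) σ
  obtain ⟨C, hC, h⟩ := norm_gF_le σ
  have hg := integrable_Wm_mul_pow 0 (4 * σ)
  set g : ℝ → ℝ := fun u => ‖Wm (((0 : ℝ) : ℂ) + u * I)‖ * (1 + |u|) ^ (4 * σ) with hgdef
  refine ⟨C * Real.exp ((1 + σ + B) ^ 2 / 4) * ∫ u, g u, fun s hs => ?_⟩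
  have hpt : ∀ u : ℝ, ‖K0 (σ + u * I) s‖ ≤
      C * Real.exp ((1 + σ + B) ^ 2 / 4) * (1 + |s.im|) ^ (4 * σ) * g (u - s.im) := by
    intro u
    have e1 : (1 - ((σ : ℂ) + u * I) + s).re = 1 - σ + s.re := by simp
    have e2 : (1 - ((σ : ℂ) + u * I) + s).im = s.im - u := by simp; ring
    have e3 : (((0 : ℝ) : ℂ) + ((u - s.im : ℝ) : ℂ) * I).re = 0 := by simp
    have e4 : (((0 : ℝ) : ℂ) + ((u - s.im : ℝ) : ℂ) * I).im = u - s.im := by simp
    have w : ‖Wm (1 - ((σ : ℂ) + u * I) + s)‖ ≤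
        Real.exp ((1 + σ + B) ^ 2 / 4) * ‖Wm (((0 : ℝ) : ℂ) + ((u - s.im : ℝ) : ℂ) * I)‖ := by
      rw [norm_Wm, norm_Wm, e1, e2, e3, e4, mul_left_comm, ← Real.exp_add]
      refine mul_le_mul_of_nonneg_left (Real.exp_le_exp.2 ?_) (by positivity)
      have c1 : (1 - σ + s.re) ^ 2 ≤ (1 + σ + B) ^ 2 :=
        sq_le_sq' (by linarith [neg_abs_le s.re]) (by linarith [le_abs_self s.re])
      nlinarith
    have p : (1 + |u|) ^ (4 * σ) ≤ (1 + |s.im|) ^ (4 * σ) * (1 + |u - s.im|) ^ (4 * σ) := by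
      rw [← mul_pow]
      refine pow_le_pow_left₀ (by positivity) ?_ _
      have := abs_add_le (u - s.im) s.im
      rw [sub_add_cancel] at this
      nlinarith [abs_nonneg s.im, abs_nonneg (u - s.im)]
    rw [K0, norm_mul, norm_mul]
    refine (mul_le_mul ((mul_le_of_le_one_left (norm_nonneg _) norm_c_le).trans w)
      ((h u).trans (mul_le_mul_of_nonneg_left p hC.le)) (norm_nonneg _) (by positivity)).trans
      (le_of_eq ?_)
    simp only [hgdef]
    ring
  have hcont : Continuous fun u : ℝ => K0 (σ + u * I) s :=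
    continuous_iff_continuousAt.2 fun u =>
      (differentiableAt_K0 s (t := σ + u * I) (by simp)).continuousAt.comp
        (f := fun u : ℝ => (σ : ℂ) + u * I) (by fun_prop)
  have hi := (hg.comp_sub_right s.im).const_mul
    (C * Real.exp ((1 + σ + B) ^ 2 / 4) * (1 + |s.im|) ^ (4 * σ))
  have hI : Integrable (fun u : ℝ => K0 (σ + u * I) s) :=
    hi.mono' hcont.aestronglyMeasurable (Eventually.of_forall hpt)
  refine ⟨hI, (integral_mono hI.norm hi hpt).trans (le_of_eq ?_)⟩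
  rw [integral_const_mul, integral_sub_right_eq_self g]
  ring

end Crest.Agent.R17.RMA
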