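import Crest.Agent.R17.Weight

/-!
# Row 17, theta module G: the Bessel profile `W0`, kernels and weak densities (real analysis only)

`W0 b = ∫ exp(-X - b/X) X^{-2/3} dX` (`= 2 b^{1/6} K_{1/3}(2√b)`).  A sequence `g` on `O` has weak
density `t` if `Y^{4/3} ∑ g(c) k(Y N c) → t ∫ k(x) x^{1/3} dx` for some admissible kernel `k`;
admissible kernels are stable under multiplicative convolution, which is commutative: this gives
uniqueness, linearity and the shape of the limit of the Fourier coefficients.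
-/

set_option autoImplicit false

noncomputable section

namespace Crest.Agent.R17

open scoped ComplexConjugate ENNReal Topology
open MeasureTheory Filter

/-- The Bessel profile. -/
def W0 (b : ℝ) : ℝ := ∫ X in Set.Ioi (0 : ℝ), Real.exp (-X - b / X) * X ^ (-(2 / 3 : ℝ))

/-- The radial part of the Fourier expansion. -/
def Mk (y b : ℝ) : ℝ := y ^ (2 / 3 : ℝ) * W0 (y ^ 2 * b)

/-- The profile of the differentiated expansion. -/
def U1 (x : ℝ) : ℝ := x ^ (1 / 3 : ℝ) * W0 x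

/-- The kernel produced by Poisson summation. -/
def Fk (y b X : ℝ) : ℝ := y / X * Real.exp (-y * (X + b / X))

/-- The moment `∫ k(x) x^{4/3} dx / x`. -/
def Mo (k : ℝ → ℝ) : ℝ := ∫ x in Set.Ioi (0 : ℝ), k x * x ^ (1 / 3 : ℝ)

/-- The smoothed sum `Y^{4/3} ∑ g(c) k(Y N c)`. -/
def Sk (g : O → ℂ) (k : ℝ → ℝ) (Y : ℝ) : ℂ :=
  ((Y ^ (4 / 3 : ℝ) : ℝ) : ℂ) * ∑' c : O, g c * (k (Y * nr c) : ℂ)

/-- Admissible kernels. -/
def KC (k : ℝ → ℝ) : Prop :=
  Measurable k ∧ (∀ x, 0 < x → 0 ≤ k x) ∧ 0 < Mo k ∧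
    ∀ A : ℝ, 1 < A → ∃ C : ℝ, ∀ x, 0 < x → k x ≤ C * x ^ (-A)

/-- Polynomially bounded sequences vanishing at `0`. -/
def PolyG (g : O → ℂ) : Prop := ∃ H B : ℝ, 0 ≤ B ∧ PolyB g H B

/-- Weak density. -/
def WD (g : O → ℂ) (t : ℂ) : Prop :=
  ∃ k, KC k ∧ Tendsto (Sk g k) (𝓝[>] 0) (𝓝 (t * (Mo k : ℂ)))

/-! ## part G1: the profile -/

theorem G1_exp_le {A : ℝ} (hA : 0 ≤ A) :
    ∃ C : ℝ, 0 < C ∧ ∀ u : ℝ, 0 < u → Real.exp (-u) ≤ C * u ^ (-A) := by
  refine ⟨(⌈A⌉₊.factorial : ℝ), by positivity, fun u hu => ?_⟩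
  have h1 : (1 : ℝ) ≤ ⌈A⌉₊.factorial := by exact_mod_cast Nat.factorial_pos _
  rw [Real.exp_neg, Real.rpow_neg hu.le, ← div_eq_mul_inv, inv_eq_one_div,
    div_le_div_iff₀ (Real.exp_pos _) (by positivity), one_mul]
  rcases le_total u 1 with h | h
  · exact (Real.rpow_le_one hu.le h hA).trans
      (one_le_mul_of_one_le_of_one_le h1 (Real.one_le_exp hu.le))
  · have h2 := Real.pow_div_factorial_le_exp u hu.le ⌈A⌉₊
    rw [div_le_iff₀' (by positivity), ← Real.rpow_natCast] at h2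
    exact (Real.rpow_le_rpow_of_exponent_le h (Nat.le_ceil A)).trans h2

theorem G1_le {b b' X : ℝ} (h : b ≤ b') (hX : 0 < X) :
    Real.exp (-X - b' / X) * X ^ (-(2 / 3 : ℝ)) ≤ Real.exp (-X - b / X) * X ^ (-(2 / 3 : ℝ)) := by
  gcongr

theorem G1_int0 :
    IntegrableOn (fun X : ℝ => Real.exp (-X - 0 / X) * X ^ (-(2 / 3 : ℝ))) (Set.Ioi 0) := by
  have := Real.GammaIntegral_convergent (s := 1 / 3) (by norm_num)
  norm_num at this ⊢
  exact this

theorem G1_norm_le {b : ℝ} (hb : 0 ≤ b) : ∀ᵐ X ∂(volume.restrict (Set.Ioi (0 : ℝ))),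
    ‖Real.exp (-X - b / X) * X ^ (-(2 / 3 : ℝ))‖ ≤ Real.exp (-X - 0 / X) * X ^ (-(2 / 3 : ℝ)) :=
  (ae_restrict_iff' measurableSet_Ioi).2 (Eventually.of_forall fun X (hX : 0 < X) => by
    rw [Real.norm_of_nonneg (by positivity)]; exact G1_le hb hX)

theorem integrableOn_W0 {b : ℝ} (hb : 0 ≤ b) :
    IntegrableOn (fun X : ℝ => Real.exp (-X - b / X) * X ^ (-(2 / 3 : ℝ))) (Set.Ioi 0) :=
  G1_int0.mono' (Measurable.aestronglyMeasurable (by fun_prop)) (G1_norm_le hb)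
theorem W0_pos {b : ℝ} (hb : 0 ≤ b) : 0 < W0 b := by
  rw [W0, setIntegral_pos_iff_support_of_nonneg_ae ((ae_restrict_iff' measurableSet_Ioi).2
    (Eventually.of_forall fun X (hX : 0 < X) => by positivity)) (integrableOn_W0 hb),
    Set.inter_eq_right.2]
  · simp
  · exact fun X (hX : 0 < X) => ne_of_gt (by positivity)
theorem W0_antitoneOn : AntitoneOn W0 (Set.Ici 0) := fun _ hb _ hb' h =>
  setIntegral_mono_on (integrableOn_W0 hb') (integrableOn_W0 hb) measurableSet_Ioi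
    fun _ hX => G1_le h hX
theorem continuousOn_W0 : ContinuousOn W0 (Set.Ici 0) :=
  continuousOn_of_dominated (fun _ _ => Measurable.aestronglyMeasurable (by fun_prop))
    (fun _ hb => G1_norm_le hb) G1_int0 (Eventually.of_forall fun X => by fun_prop)
theorem W0_le_rpow {A : ℝ} (hA : 0 ≤ A) : ∃ C : ℝ, 0 < C ∧ ∀ b, 0 < b → W0 b ≤ C * b ^ (-A) := by
  obtain ⟨C, hC, h⟩ := G1_exp_le hA
  have h3 : 0 < A + 1 / 3 := by linarith
  refine ⟨C * Real.Gamma (A + 1 / 3), by positivity, fun b hb => ?_⟩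
  rw [mul_right_comm, Real.Gamma_eq_integral h3, ← integral_const_mul]
  refine setIntegral_mono_on (integrableOn_W0 hb.le)
    ((Real.GammaIntegral_convergent h3).const_mul _) measurableSet_Ioi fun X (hX : 0 < X) => ?_
  have h1 := h (b / X) (by positivity)
  rw [Real.div_rpow hb.le hX.le, Real.rpow_neg hX.le, div_inv_eq_mul] at h1
  rw [sub_eq_add_neg, Real.exp_add, show A + 1 / 3 - 1 = A + -(2 / 3) by ring, Real.rpow_add hX]
  calc _ ≤ Real.exp (-X) * (C * (b ^ (-A) * X ^ A)) * X ^ (-(2 / 3 : ℝ)) := by gcongr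
    _ = _ := by ring
theorem Mk_pos {y b : ℝ} (hy0 : 0 < y) (hb : 0 ≤ b) : 0 < Mk y b :=
  mul_pos (by positivity) (W0_pos (by positivity))
theorem continuousOn_Mk {b : ℝ} (hb : 0 ≤ b) : ContinuousOn (fun y => Mk y b) (Set.Ioi 0) :=
  (Real.continuous_rpow_const (by norm_num)).continuousOn.mul
    (continuousOn_W0.comp (by fun_prop) fun y _ => show 0 ≤ y ^ 2 * b by positivity)
theorem Mk_mul {y b a : ℝ} (hy0 : 0 < y) (ha : 0 < a) :
    Mk (a * y) b = a ^ (2 / 3 : ℝ) * Mk y (a ^ 2 * b) := by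
  rw [Mk, Mk, Real.mul_rpow ha.le hy0.le, mul_assoc, show (a * y) ^ 2 * b = y ^ 2 * (a ^ 2 * b) by
    ring]
theorem Mo_Fk {y b : ℝ} (hy0 : 0 < y) (hb : 0 ≤ b) : Mo (Fk y b) = Mk y b := by
  have h := integral_comp_mul_left_Ioi'
    (fun X : ℝ => Real.exp (-X - y ^ 2 * b / X) * X ^ (-(2 / 3 : ℝ))) 0 hy0
  rw [mul_zero, smul_eq_mul] at h
  rw [Mk, W0, ← h, ← integral_const_mul, ← integral_const_mul]
  refine setIntegral_congr_fun measurableSet_Ioi fun x (hx : 0 < x) => ?_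
  have h1 : 0 < y ^ (2 / 3 : ℝ) := by positivity
  simp only [Fk]
  rw [Real.mul_rpow hy0.le hx.le, Real.rpow_neg hy0.le, show -(2 / 3 : ℝ) = 1 / 3 - 1 by ring,
    Real.rpow_sub_one hx.ne', show -(y * x) - y ^ 2 * b / (y * x) = -y * (x + b / x) by field_simp; ring]
  field_simp
theorem KC_Fk {y b : ℝ} (hy0 : 0 < y) (hb : 0 ≤ b) : KC (Fk y b) := by
  refine ⟨by unfold Fk; fun_prop, fun x hx => by unfold Fk; positivity,
    (Mo_Fk hy0 hb).symm ▸ Mk_pos hy0 hb, fun A hA => ?_⟩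
  obtain ⟨C, hC, h⟩ := G1_exp_le (A := A - 1) (by linarith)
  refine ⟨y * C * y ^ (-(A - 1)), fun x hx => ?_⟩
  have h1 := h (y * x) (by positivity)
  rw [Real.mul_rpow hy0.le hx.le, show -(A - 1) = -A + 1 by ring, Real.rpow_add_one hx.ne'] at h1
  have h2 : Real.exp (-y * (x + b / x)) ≤ Real.exp (-(y * x)) := by
    have : 0 ≤ y * (b / x) := by positivity
    exact Real.exp_le_exp.2 (by linarith)
  calc Fk y b x ≤ y / x * (C * (y ^ (-A + 1) * (x ^ (-A) * x))) := by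
        unfold Fk; gcongr; exact h2.trans h1
    _ = _ := by rw [show -(A - 1) = -A + 1 by ring]; field_simp
theorem U1_le_rpow {A : ℝ} (hA : -(1 / 3) ≤ A) :
    ∃ C : ℝ, 0 < C ∧ ∀ x, 0 < x → 0 ≤ U1 x ∧ U1 x ≤ C * x ^ (-A) := by
  obtain ⟨C, hC, h⟩ := W0_le_rpow (A := A + 1 / 3) (by linarith)
  refine ⟨C, hC, fun x hx => ⟨mul_nonneg (by positivity) (W0_pos hx.le).le, ?_⟩⟩
  calc U1 x ≤ x ^ (1 / 3 : ℝ) * (C * x ^ (-(A + 1 / 3))) := by
        unfold U1; gcongr; exact h x hx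
    _ = _ := by rw [mul_left_comm, ← Real.rpow_add hx]; congr 2; ring
theorem continuousOn_U1 : ContinuousOn U1 (Set.Ioi 0) :=
  (Real.continuous_rpow_const (by norm_num)).continuousOn.mul
    (continuousOn_W0.mono Set.Ioi_subset_Ici_self)
/-- Mellin transform (Fubini and two Gamma integrals). -/
theorem mellin_U1 {s : ℂ} (hs : -(1 / 3) < s.re) :
    IntegrableOn (fun x : ℝ => (U1 x : ℂ) * (x : ℂ) ^ (s - 1)) (Set.Ioi 0) ∧
      ∫ x in Set.Ioi (0 : ℝ), (U1 x : ℂ) * (x : ℂ) ^ (s - 1) =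
        Complex.Gamma (s + 1 / 3) * Complex.Gamma (s + 2 / 3) := by
  have r1 : (s + 1 / 3).re = s.re + 1 / 3 := by simp
  have r2 : (s + 2 / 3).re = s.re + 2 / 3 := by simp
  have p1 : 0 < s.re + 1 / 3 := by linarith
  obtain ⟨F, hF⟩ : ∃ F : ℝ → ℝ → ℂ, F = fun x X : ℝ =>
    ((Real.exp (-X) * X ^ (-(2 / 3 : ℝ)) : ℝ) : ℂ) *
    ((x : ℂ) ^ (s + 1 / 3 - 1) * Complex.exp (-(((1 / X : ℝ) : ℂ) * x))) := ⟨_, rfl⟩
  have hm : Measurable (Function.uncurry F) := by rw [hF]; unfold Function.uncurry; fun_prop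
  have hn : ∀ X : ℝ, 0 < X → ∀ x ∈ Set.Ioi (0 : ℝ), ‖F x X‖ = Real.exp (-X) * X ^ (-(2 / 3 : ℝ)) *
      (x ^ (s.re + 1 / 3 - 1) * Real.exp (-(1 / X * x))) := fun X hX x hx => by
    rw [hF, norm_mul, norm_mul, Complex.norm_real, Real.norm_of_nonneg (by positivity),
      Complex.norm_cpow_eq_rpow_re_of_pos hx, Complex.norm_exp, Complex.sub_re, r1]
    simp [-Complex.ofReal_inv]
  have hI : Integrable (Function.uncurry F)
      ((volume.restrict (Set.Ioi (0 : ℝ))).prod (volume.restrict (Set.Ioi (0 : ℝ)))) := by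
    rw [integrable_prod_iff' hm.aestronglyMeasurable]
    refine ⟨(ae_restrict_iff' measurableSet_Ioi).2 (Eventually.of_forall fun X (hX : 0 < X) => ?_), ?_⟩
    · refine (integrable_norm_iff (hm.comp measurable_prodMk_right).aestronglyMeasurable).1 ?_
      refine IntegrableOn.congr_fun (Integrable.const_mul (Integrable.of_integral_ne_zero ?_) _)
        (fun x hx => (hn X hX x hx).symm) measurableSet_Ioi
      rw [Real.integral_rpow_mul_exp_neg_mul_Ioi p1 (by positivity)]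
      positivity
    · refine IntegrableOn.congr_fun ((Real.GammaIntegral_convergent (s := s.re + 2 / 3)
        (by linarith)).mul_const (Real.Gamma (s.re + 1 / 3))) (fun X (hX : 0 < X) => ?_)
        measurableSet_Ioi
      simp only [Function.uncurry_apply_pair]
      rw [setIntegral_congr_fun measurableSet_Ioi (hn X hX), integral_const_mul,
        Real.integral_rpow_mul_exp_neg_mul_Ioi p1 (by positivity), one_div_one_div,
        show s.re + 2 / 3 - 1 = -(2 / 3) + (s.re + 1 / 3) by ring, Real.rpow_add hX]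
      ring
  have h1 : ∀ x ∈ Set.Ioi (0 : ℝ), ∫ X in Set.Ioi (0 : ℝ), F x X = (U1 x : ℂ) * (x : ℂ) ^ (s - 1) :=
    fun x (hx : 0 < x) => by
      rw [U1, W0, ← integral_const_mul, ← integral_complex_ofReal, ← integral_mul_const, hF]
      refine integral_congr_ae (Eventually.of_forall fun X => ?_)
      have e : (x : ℂ) ^ (s + 1 / 3 - 1) = ((x ^ (1 / 3 : ℝ) : ℝ) : ℂ) * (x : ℂ) ^ (s - 1) := by
        rw [Complex.ofReal_cpow hx.le, ← Complex.cpow_add _ _ (by exact_mod_cast hx.ne')]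
        congr 1; push_cast; ring
      simp only [e, sub_eq_add_neg (-X), Real.exp_add]
      push_cast
      rw [show -(1 / (X : ℂ) * x) = -(x / X) by ring]
      ring
  refine ⟨IntegrableOn.congr_fun hI.integral_prod_left h1 measurableSet_Ioi, ?_⟩
  rw [← setIntegral_congr_fun measurableSet_Ioi h1, integral_integral_swap hI,
    Complex.Gamma_eq_integral (s := s + 2 / 3) (by rw [r2]; linarith), Complex.GammaIntegral,
    ← integral_const_mul]
  refine setIntegral_congr_fun measurableSet_Ioi fun X (hX : 0 < X) => ?_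
  simp only [hF]
  rw [integral_const_mul, Complex.integral_cpow_mul_exp_neg_mul_Ioi (r1 ▸ p1) (by positivity),
    show s + 2 / 3 - 1 = ((-(2 / 3) : ℝ) : ℂ) + (s + 1 / 3) by push_cast; ring,
    Complex.cpow_add (x := X) _ (s + 1 / 3) (by exact_mod_cast hX.ne'), ← Complex.ofReal_cpow hX.le]
  push_cast
  rw [one_div_one_div]
  ring

/-! ## part G2: kernels and weak densities -/

/-- Multiplicative convolution. -/
def kconv (k k' : ℝ → ℝ) (x : ℝ) : ℝ := ∫ s in Set.Ioi (0 : ℝ), k s * k' (x / s) / s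

theorem kconv_comm (k k' : ℝ → ℝ) {x : ℝ} (hx : 0 < x) : kconv k k' x = kconv k' k x := by
  have himg : (fun s : ℝ => x / s) '' Set.Ioi 0 = Set.Ioi 0 := by
    ext t
    constructor
    · rintro ⟨s, hs, rfl⟩
      exact div_pos hx hs
    · intro ht
      refine ⟨x / t, div_pos hx ht, ?_⟩
      have : (0 : ℝ) < t := ht
      field_simp
  have hd : ∀ s ∈ Set.Ioi (0 : ℝ),
      HasDerivWithinAt (fun s : ℝ => x / s) (-x / s ^ 2) (Set.Ioi 0) s := by
    intro s hs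
    have hs' : s ≠ 0 := ne_of_gt hs
    have := ((hasDerivAt_inv hs').const_mul x).hasDerivWithinAt (s := Set.Ioi 0)
    have e : -x / s ^ 2 = x * -(s ^ 2)⁻¹ := by field_simp
    rw [e]
    simpa only [div_eq_mul_inv] using this
  have hinj : Set.InjOn (fun s : ℝ => x / s) (Set.Ioi 0) := by
    intro a ha b hb hab
    have ha' : (0 : ℝ) < a := ha
    have hb' : (0 : ℝ) < b := hb
    simp only at hab
    field_simp at hab
    exact hab.symm
  have key := integral_image_eq_integral_abs_deriv_smul measurableSet_Ioi hd hinj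
    (fun t => k' t * k (x / t) / t)
  rw [himg] at key
  unfold kconv
  rw [key]
  refine setIntegral_congr_fun measurableSet_Ioi fun s hs => ?_
  have hs' : (0 : ℝ) < s := hs
  have e1 : x / (x / s) = s := by field_simp
  have e2 : |-x / s ^ 2| = x / s ^ 2 := by
    rw [neg_div, abs_neg, abs_of_pos (by positivity)]
  simp only [e1, e2, smul_eq_mul]
  field_simp

theorem KC.dens2_bound {k : ℝ → ℝ} (h : KC k) {A : ℝ} (hA : 1 < A) :
    ∃ C : ℝ, 0 ≤ C ∧ ∀ x, 0 < x → k x ≤ C * x ^ (-A) := by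
  obtain ⟨C, hC⟩ := h.2.2.2 A hA
  refine ⟨C, ?_, hC⟩
  have := (h.2.1 1 one_pos).trans (hC 1 one_pos)
  simpa using this

theorem KC.dens2_integrableOn {k : ℝ → ℝ} (h : KC k) {A : ℝ} (hA : 1 < A) :
    IntegrableOn (fun s : ℝ => k s * s ^ (A - 1)) (Set.Ioi 0) := by
  have hm : Measurable fun s : ℝ => k s * s ^ (A - 1) :=
    h.1.mul (measurable_id.pow_const _)
  obtain ⟨C₁, -, hC₁⟩ := h.dens2_bound (A := (1 + A) / 2) (by linarith)
  obtain ⟨C₂, -, hC₂⟩ := h.dens2_bound (A := A + 1) (by linarith)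
  rw [← Set.Ioc_union_Ioi_eq_Ioi zero_le_one]
  refine IntegrableOn.union ?_ ?_
  · have hi : IntegrableOn (fun s : ℝ => C₁ * s ^ ((A - 3) / 2)) (Set.Ioc 0 1) := by
      refine Integrable.const_mul ?_ _
      have := intervalIntegral.intervalIntegrable_rpow' (a := 0) (b := 1) (r := (A - 3) / 2)
        (by linarith)
      exact this.1
    refine Integrable.mono' hi hm.aestronglyMeasurable ?_
    filter_upwards [ae_restrict_mem measurableSet_Ioc] with s hs
    have hs0 : 0 < s := hs.1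
    rw [Real.norm_of_nonneg (mul_nonneg (h.2.1 s hs0) (by positivity))]
    calc k s * s ^ (A - 1) ≤ C₁ * s ^ (-((1 + A) / 2)) * s ^ (A - 1) := by
          gcongr; exact hC₁ s hs0
      _ = C₁ * s ^ ((A - 3) / 2) := by
          rw [mul_assoc, ← Real.rpow_add hs0]; congr 2; ring
  · have hi : IntegrableOn (fun s : ℝ => C₂ * s ^ (-2 : ℝ)) (Set.Ioi 1) :=
      Integrable.const_mul (integrableOn_Ioi_rpow_of_lt (by norm_num) one_pos) _
    refine Integrable.mono' hi hm.aestronglyMeasurable ?_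
    filter_upwards [ae_restrict_mem measurableSet_Ioi] with s hs
    have hs0 : 0 < s := lt_trans one_pos hs
    rw [Real.norm_of_nonneg (mul_nonneg (h.2.1 s hs0) (by positivity))]
    calc k s * s ^ (A - 1) ≤ C₂ * s ^ (-(A + 1)) * s ^ (A - 1) := by
          gcongr; exact hC₂ s hs0
      _ = C₂ * s ^ (-2 : ℝ) := by
          rw [mul_assoc, ← Real.rpow_add hs0]; congr 2; ring

theorem KC.dens2_integrableOn_Mo {k : ℝ → ℝ} (h : KC k) :
    IntegrableOn (fun s : ℝ => k s * s ^ (1 / 3 : ℝ)) (Set.Ioi 0) :=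
  Integrable.of_integral_ne_zero h.2.2.1.ne'

theorem dens2_conv_le {k k' : ℝ → ℝ} (h : KC k) {A C : ℝ}
    (hC : ∀ x, 0 < x → k' x ≤ C * x ^ (-A)) {x s : ℝ} (hx : 0 < x) (hs : 0 < s) :
    k s * k' (x / s) / s ≤ C * x ^ (-A) * (k s * s ^ (A - 1)) := by
  have h1 := hC (x / s) (div_pos hx hs)
  have h2 := h.2.1 s hs
  calc k s * k' (x / s) / s ≤ k s * (C * (x / s) ^ (-A)) / s := by gcongr
    _ = C * x ^ (-A) * (k s * s ^ (A - 1)) := by
      rw [Real.div_rpow hx.le hs.le, Real.rpow_sub_one hs.ne', Real.rpow_neg hs.le]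
      field_simp

theorem dens2_measurable_conv {k k' : ℝ → ℝ} (h : Measurable k) (h' : Measurable k') :
    Measurable fun p : ℝ × ℝ => k p.2 * k' (p.1 / p.2) / p.2 := by
  fun_prop

theorem dens2_integrableOn_conv {k k' : ℝ → ℝ} (h : KC k) (h' : KC k') {x : ℝ} (hx : 0 < x) :
    IntegrableOn (fun s : ℝ => k s * k' (x / s) / s) (Set.Ioi 0) := by
  obtain ⟨C, -, hC⟩ := h'.dens2_bound (A := 2) one_lt_two
  have hm : Measurable fun s : ℝ => k s * k' (x / s) / s := by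
    have := h.1
    have := h'.1
    fun_prop
  refine Integrable.mono' ((h.dens2_integrableOn one_lt_two).const_mul (C * x ^ (-2 : ℝ)))
    hm.aestronglyMeasurable ?_
  filter_upwards [ae_restrict_mem measurableSet_Ioi] with s hs
  have hs0 : 0 < s := hs
  rw [Real.norm_of_nonneg
    (div_nonneg (mul_nonneg (h.2.1 s hs0) (h'.2.1 _ (div_pos hx hs0))) hs0.le)]
  exact dens2_conv_le h hC hx hs0

theorem dens2_inner_eq (k k' : ℝ → ℝ) {s x : ℝ} (hs : 0 < s) (hx : 0 < x) :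
    k s * k' (x / s) / s * x ^ (1 / 3 : ℝ) =
      k s * s ^ (1 / 3 : ℝ) * s⁻¹ * (k' (s⁻¹ * x) * (s⁻¹ * x) ^ (1 / 3 : ℝ)) := by
  rw [Real.mul_rpow (inv_nonneg.2 hs.le) hx.le, Real.inv_rpow hs.le, div_eq_inv_mul x s]
  have : 0 < s ^ (1 / 3 : ℝ) := by positivity
  field_simp

theorem dens2_inner_integral (k k' : ℝ → ℝ) {s : ℝ} (hs : 0 < s) :
    ∫ x in Set.Ioi (0 : ℝ), k s * k' (x / s) / s * x ^ (1 / 3 : ℝ) =
      k s * s ^ (1 / 3 : ℝ) * Mo k' := by
  rw [setIntegral_congr_fun measurableSet_Ioi fun x hx => dens2_inner_eq k k' hs hx,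
    integral_const_mul,
    integral_comp_mul_left_Ioi (fun x => k' x * x ^ (1 / 3 : ℝ)) 0 (inv_pos.2 hs)]
  simp only [mul_zero, inv_inv, smul_eq_mul, Mo]
  field_simp

theorem dens2_Mo_kconv {k k' : ℝ → ℝ} (h : KC k) (h' : KC k') :
    Mo (kconv k k') = Mo k * Mo k' := by
  have hm : Measurable fun p : ℝ × ℝ => k p.2 * k' (p.1 / p.2) / p.2 * p.1 ^ (1 / 3 : ℝ) :=
    (dens2_measurable_conv h.1 h'.1).mul (measurable_fst.pow_const _)
  have hint : Integrable (Function.uncurry fun x s : ℝ => k s * k' (x / s) / s * x ^ (1 / 3 : ℝ))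
      ((volume.restrict (Set.Ioi 0)).prod (volume.restrict (Set.Ioi 0))) := by
    refine (integrable_prod_iff' hm.aestronglyMeasurable).2 ⟨?_, ?_⟩
    · filter_upwards [ae_restrict_mem measurableSet_Ioi] with s hs
      have hs0 : 0 < s := hs
      have h1 : IntegrableOn (fun x : ℝ => k' (s⁻¹ * x) * (s⁻¹ * x) ^ (1 / 3 : ℝ)) (Set.Ioi 0) := by
        refine (integrableOn_Ioi_comp_mul_left_iff (fun x => k' x * x ^ (1 / 3 : ℝ)) 0
          (inv_pos.2 hs0)).2 ?_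
        rw [mul_zero]
        exact h'.dens2_integrableOn_Mo
      refine IntegrableOn.congr_fun (h1.const_mul (k s * s ^ (1 / 3 : ℝ) * s⁻¹)) ?_
        measurableSet_Ioi
      intro x hx
      exact (dens2_inner_eq k k' hs0 hx).symm
    · refine (h.dens2_integrableOn_Mo.mul_const (Mo k')).congr ?_
      filter_upwards [ae_restrict_mem measurableSet_Ioi] with s hs
      have hs0 : 0 < s := hs
      rw [← dens2_inner_integral k k' hs0]
      refine setIntegral_congr_fun measurableSet_Ioi fun x hx => ?_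
      have hx0 : 0 < x := hx
      exact (Real.norm_of_nonneg (mul_nonneg (div_nonneg (mul_nonneg (h.2.1 s hs0)
        (h'.2.1 _ (div_pos hx0 hs0))) hs0.le) (by positivity))).symm
  have hsw := integral_integral_swap hint
  calc Mo (kconv k k')
      = ∫ x in Set.Ioi (0 : ℝ), ∫ s in Set.Ioi (0 : ℝ), k s * k' (x / s) / s * x ^ (1 / 3 : ℝ) := by
        simp only [Mo, kconv, integral_mul_const]
    _ = ∫ s in Set.Ioi (0 : ℝ), k s * s ^ (1 / 3 : ℝ) * Mo k' := by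
        rw [hsw]
        exact setIntegral_congr_fun measurableSet_Ioi fun s hs => dens2_inner_integral k k' hs
    _ = Mo k * Mo k' := by rw [integral_mul_const]; rfl

theorem KC.conv {k k' : ℝ → ℝ} (h : KC k) (h' : KC k') :
    KC (kconv k k') ∧ Mo (kconv k k') = Mo k * Mo k' := by
  refine ⟨⟨?_, ?_, ?_, ?_⟩, dens2_Mo_kconv h h'⟩
  · exact ((dens2_measurable_conv h.1 h'.1).stronglyMeasurable.integral_prod_right'
      (ν := volume.restrict (Set.Ioi 0))).measurable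
  · intro x hx
    refine setIntegral_nonneg measurableSet_Ioi fun s hs => ?_
    have hs0 : 0 < s := hs
    exact div_nonneg (mul_nonneg (h.2.1 s hs0) (h'.2.1 _ (div_pos hx hs0))) hs0.le
  · rw [dens2_Mo_kconv h h']
    exact mul_pos h.2.2.1 h'.2.2.1
  · intro A hA
    obtain ⟨C, -, hC⟩ := h'.dens2_bound hA
    refine ⟨C * ∫ s in Set.Ioi (0 : ℝ), k s * s ^ (A - 1), fun x hx => ?_⟩
    calc kconv k k' x ≤ ∫ s in Set.Ioi (0 : ℝ), C * x ^ (-A) * (k s * s ^ (A - 1)) :=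
          setIntegral_mono_on (dens2_integrableOn_conv h h' hx)
            ((h.dens2_integrableOn hA).const_mul _) measurableSet_Ioi
            fun s hs => dens2_conv_le h hC hx hs
      _ = _ := by rw [integral_const_mul]; ring

theorem dens2_term_le {g : O → ℂ} (hg : PolyG g) {k : ℝ → ℝ} (h : KC k) :
    ∃ A C : ℝ, 2 ≤ A ∧ 0 ≤ C ∧ ∀ Y : ℝ, 0 < Y → ∀ c : O,
      ‖g c * (k (Y * nr c) : ℂ)‖ ≤ C * Y ^ (-A) * nr c ^ (-2 : ℝ) := by
  obtain ⟨H, B, hB, hg⟩ := hg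
  have hH := WeightB.H_nonneg hg
  obtain ⟨C, hC0, hC⟩ := h.dens2_bound (A := B + 2) (by linarith)
  refine ⟨B + 2, H * C, by linarith, by positivity, fun Y hY c => ?_⟩
  by_cases hc : c = 0
  · subst hc
    rw [hg.1, zero_mul, norm_zero]
    positivity
  have hn := nr_pos hc
  have hk := h.2.1 _ (mul_pos hY hn)
  rw [norm_mul, Complex.norm_real, Real.norm_of_nonneg hk]
  calc ‖g c‖ * k (Y * nr c) ≤ H * nr c ^ B * (C * (Y * nr c) ^ (-(B + 2))) :=
        mul_le_mul (hg.2 c) (hC _ (mul_pos hY hn)) hk (by positivity)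
    _ = H * C * Y ^ (-(B + 2)) * (nr c ^ B * nr c ^ (-(B + 2))) := by
        rw [Real.mul_rpow hY.le hn.le]; ring
    _ = _ := by rw [← Real.rpow_add hn]; congr 2; ring

theorem summable_Sk {g : O → ℂ} (hg : PolyG g) {k : ℝ → ℝ} (h : KC k) {Y : ℝ} (hY : 0 < Y) :
    Summable fun c : O => ‖g c * (k (Y * nr c) : ℂ)‖ := by
  obtain ⟨A, C, -, -, hC⟩ := dens2_term_le hg h
  exact Summable.of_nonneg_of_le (fun _ => norm_nonneg _) (hC Y hY)
    ((summable_nr_rpow one_lt_two).mul_left _)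

theorem norm_Sk_le {g : O → ℂ} (hg : PolyG g) {k : ℝ → ℝ} (h : KC k) {Y₀ : ℝ} (hY : 0 < Y₀) :
    ∃ C : ℝ, ∀ Y, Y₀ ≤ Y → ‖Sk g k Y‖ ≤ C := by
  obtain ⟨A, C, hA, hC0, hC⟩ := dens2_term_le hg h
  refine ⟨Y₀ ^ (4 / 3 - A) * (C * ∑' c : O, nr c ^ (-2 : ℝ)), fun Y hY' => ?_⟩
  have hY0 : 0 < Y := hY.trans_le hY'
  have hT : 0 ≤ ∑' c : O, nr c ^ (-2 : ℝ) := tsum_nonneg fun c => by positivity
  have h1 : ‖∑' c : O, g c * (k (Y * nr c) : ℂ)‖ ≤ C * Y ^ (-A) * ∑' c : O, nr c ^ (-2 : ℝ) := by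
    rw [← tsum_mul_left]
    exact tsum_of_norm_bounded ((summable_nr_rpow one_lt_two).mul_left _).hasSum (hC Y hY0)
  unfold Sk
  rw [norm_mul, Complex.norm_real, Real.norm_of_nonneg (by positivity)]
  calc Y ^ (4 / 3 : ℝ) * ‖∑' c : O, g c * (k (Y * nr c) : ℂ)‖
      ≤ Y ^ (4 / 3 : ℝ) * (C * Y ^ (-A) * ∑' c : O, nr c ^ (-2 : ℝ)) := by gcongr
    _ = Y ^ (4 / 3 - A) * (C * ∑' c : O, nr c ^ (-2 : ℝ)) := by
        rw [sub_eq_add_neg, Real.rpow_add hY0]; ring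
    _ ≤ _ := mul_le_mul_of_nonneg_right
        (Real.rpow_le_rpow_of_nonpos hY hY' (by linarith)) (by positivity)

theorem measurable_Sk (g : O → ℂ) {k : ℝ → ℝ} (h : Measurable k) : Measurable (Sk g k) := by
  unfold Sk
  refine Measurable.mul (Complex.measurable_ofReal.comp (measurable_id.pow_const _)) ?_
  refine Measurable.tsum fun c => ?_
  exact measurable_const.mul (Complex.measurable_ofReal.comp (h.comp (measurable_id.mul_const _)))

theorem Sk_kconv {g : O → ℂ} (hg : PolyG g) {k k' : ℝ → ℝ} (h : KC k) (h' : KC k') {Y : ℝ}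
    (hY : 0 < Y) :
    Sk g (kconv k k') Y = ∫ s in Set.Ioi (0 : ℝ), ((k s * s ^ (1 / 3 : ℝ) : ℝ) : ℂ) * Sk g k' (Y / s) := by
  have hg0 : g 0 = 0 := by
    obtain ⟨H, B, -, hg⟩ := hg
    exact hg.1
  set F : O → ℝ → ℂ := fun c s => g c * ((k s * k' (Y * nr c / s) / s : ℝ) : ℂ) with hF
  have hFi : ∀ c, Integrable (F c) (volume.restrict (Set.Ioi 0)) := by
    intro c
    by_cases hc : c = 0
    · subst hc
      simp only [hF, hg0, zero_mul]
      exact integrable_zero _ _ _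
    · exact (dens2_integrableOn_conv h h' (mul_pos hY (nr_pos hc))).ofReal.const_mul _
  have hFs : Summable fun c => ∫ s in Set.Ioi (0 : ℝ), ‖F c s‖ := by
    refine (summable_Sk hg (h.conv h').1 hY).congr fun c => ?_
    by_cases hc : c = 0
    · subst hc
      simp only [hF, hg0, zero_mul, norm_zero, integral_zero]
    have hx := mul_pos hY (nr_pos hc)
    rw [norm_mul, Complex.norm_real, Real.norm_of_nonneg ((h.conv h').1.2.1 _ hx), kconv,
      ← integral_const_mul]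
    refine setIntegral_congr_fun measurableSet_Ioi fun s hs => ?_
    have hs0 : 0 < s := hs
    simp only [hF]
    rw [norm_mul, Complex.norm_real, Real.norm_of_nonneg
      (div_nonneg (mul_nonneg (h.2.1 s hs0) (h'.2.1 _ (div_pos hx hs0))) hs0.le)]
  have h1 : ∑' c : O, g c * (kconv k k' (Y * nr c) : ℂ) = ∑' c, ∫ s in Set.Ioi (0 : ℝ), F c s := by
    refine tsum_congr fun c => ?_
    simp only [hF]
    rw [integral_const_mul, integral_complex_ofReal]
    rfl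
  unfold Sk
  rw [h1, integral_tsum_of_summable_integral_norm hFi hFs, ← integral_const_mul]
  refine setIntegral_congr_fun measurableSet_Ioi fun s hs => ?_
  have hs0 : 0 < s := hs
  have e : (Y ^ (4 / 3 : ℝ) : ℝ) * (k s / s) = k s * s ^ (1 / 3 : ℝ) * (Y / s) ^ (4 / 3 : ℝ) := by
    have e1 : s ^ (4 / 3 : ℝ) = s ^ (1 / 3 : ℝ) * s := by
      rw [← Real.rpow_add_one hs0.ne']; norm_num
    rw [Real.div_rpow hY.le hs0.le, e1]
    have : 0 < s ^ (1 / 3 : ℝ) := by positivity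
    field_simp
  have e2 : ∑' c, F c s = ((k s / s : ℝ) : ℂ) * ∑' c : O, g c * (k' (Y / s * nr c) : ℂ) := by
    rw [← tsum_mul_left]
    refine tsum_congr fun c => ?_
    simp only [hF]
    rw [mul_div_right_comm Y]
    push_cast
    ring
  rw [e2, ← mul_assoc, ← mul_assoc, ← Complex.ofReal_mul, ← Complex.ofReal_mul, e]

theorem tendsto_Sk_kconv {g : O → ℂ} (hg : PolyG g) {k k' : ℝ → ℝ} (h : KC k) (h' : KC k') {l : ℂ}
    (hl : Tendsto (Sk g k') (𝓝[>] 0) (𝓝 l)) :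
    Tendsto (Sk g (kconv k k')) (𝓝[>] 0) (𝓝 ((Mo k : ℂ) * l)) := by
  obtain ⟨M, hM⟩ : ∃ M : ℝ, ∀ y, 0 < y → ‖Sk g k' y‖ ≤ M := by
    have h1 : ∀ᶠ y in 𝓝[>] (0 : ℝ), ‖Sk g k' y‖ < ‖l‖ + 1 :=
      hl.norm.eventually (gt_mem_nhds (lt_add_one _))
    obtain ⟨δ, hδ, hδ'⟩ := (mem_nhdsGT_iff_exists_Ioo_subset).1 h1
    obtain ⟨C, hC⟩ := norm_Sk_le hg h' (Y₀ := δ) hδ
    refine ⟨max (‖l‖ + 1) C, fun y hy => ?_⟩
    rcases lt_or_ge y δ with hy' | hy'
    · exact (le_of_lt (hδ' ⟨hy, hy'⟩)).trans (le_max_left _ _)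
    · exact (hC y hy').trans (le_max_right _ _)
  have hlim : Tendsto (fun Y : ℝ => ∫ s in Set.Ioi (0 : ℝ),
      ((k s * s ^ (1 / 3 : ℝ) : ℝ) : ℂ) * Sk g k' (Y / s)) (𝓝[>] 0)
      (𝓝 (∫ s in Set.Ioi (0 : ℝ), ((k s * s ^ (1 / 3 : ℝ) : ℝ) : ℂ) * l)) := by
    refine tendsto_integral_filter_of_dominated_convergence
      (fun s => k s * s ^ (1 / 3 : ℝ) * M) ?_ ?_ (h.dens2_integrableOn_Mo.mul_const M) ?_
    · refine Eventually.of_forall fun Y => Measurable.aestronglyMeasurable ?_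
      exact (Complex.measurable_ofReal.comp (h.1.mul (measurable_id.pow_const _))).mul
        ((measurable_Sk g h'.1).comp (measurable_const.div measurable_id))
    · filter_upwards [self_mem_nhdsWithin] with Y hY
      filter_upwards [ae_restrict_mem measurableSet_Ioi] with s hs
      have hs0 : 0 < s := hs
      have hk : 0 ≤ k s * s ^ (1 / 3 : ℝ) := mul_nonneg (h.2.1 s hs0) (by positivity)
      rw [norm_mul, Complex.norm_real, Real.norm_of_nonneg hk]
      exact mul_le_mul_of_nonneg_left (hM _ (div_pos hY hs0)) hk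
    · filter_upwards [ae_restrict_mem measurableSet_Ioi] with s hs
      have hs0 : 0 < s := hs
      refine Tendsto.const_mul _ (hl.comp ?_)
      refine tendsto_nhdsWithin_iff.2 ⟨?_, ?_⟩
      · have : Tendsto (fun Y : ℝ => Y / s) (𝓝 0) (𝓝 (0 / s)) := tendsto_id.div_const s
        rw [zero_div] at this
        exact this.mono_left nhdsWithin_le_nhds
      · filter_upwards [self_mem_nhdsWithin] with Y hY
        exact div_pos hY hs0
  rw [integral_mul_const, integral_complex_ofReal] at hlim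
  refine hlim.congr' ?_
  filter_upwards [self_mem_nhdsWithin] with Y hY
  exact (Sk_kconv hg h h' hY).symm

theorem dens2_Sk_comm {g : O → ℂ} (hg : PolyG g) (k k' : ℝ → ℝ) {Y : ℝ} (hY : 0 < Y) :
    Sk g (kconv k k') Y = Sk g (kconv k' k) Y := by
  obtain ⟨H, B, -, hg⟩ := hg
  unfold Sk
  congr 1
  refine tsum_congr fun c => ?_
  by_cases hc : c = 0
  · rw [hc, hg.1, zero_mul, zero_mul]
  · rw [kconv_comm k k' (mul_pos hY (nr_pos hc))]

theorem dens2_tendsto_left {g : O → ℂ} (hg : PolyG g) {k k' : ℝ → ℝ} (h : KC k) (h' : KC k')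
    {l : ℂ} (hl : Tendsto (Sk g k) (𝓝[>] 0) (𝓝 l)) :
    Tendsto (Sk g (kconv k k')) (𝓝[>] 0) (𝓝 ((Mo k' : ℂ) * l)) := by
  refine (tendsto_Sk_kconv hg h' h hl).congr' ?_
  filter_upwards [self_mem_nhdsWithin] with Y hY
  exact dens2_Sk_comm hg k' k hY

theorem WD.unique {g : O → ℂ} (hg : PolyG g) {t t' : ℂ} (h : WD g t) (h' : WD g t') : t = t' := by
  obtain ⟨k, hk, h⟩ := h
  obtain ⟨k', hk', h'⟩ := h'
  have e := tendsto_nhds_unique (dens2_tendsto_left hg hk hk' h) (tendsto_Sk_kconv hg hk hk' h')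
  have h1 : (Mo k : ℂ) ≠ 0 := by exact_mod_cast hk.2.2.1.ne'
  have h2 : (Mo k' : ℂ) ≠ 0 := by exact_mod_cast hk'.2.2.1.ne'
  apply mul_left_cancel₀ (mul_ne_zero h1 h2)
  linear_combination e

theorem PolyG.sub {g g' : O → ℂ} (hg : PolyG g) (hg' : PolyG g') : PolyG (g - g') := by
  obtain ⟨H, B, hB, hg⟩ := hg
  obtain ⟨H', B', hB', hg'⟩ := hg'
  have hH := WeightB.H_nonneg hg
  have hH' := WeightB.H_nonneg hg'
  refine ⟨H + H', max B B', le_max_of_le_left hB, by simp [hg.1, hg'.1], fun n => ?_⟩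
  by_cases hn : n = 0
  · subst hn
    rw [Pi.sub_apply, hg.1, hg'.1, sub_zero, norm_zero]
    positivity
  have h1 := one_le_nr hn
  calc ‖(g - g') n‖ ≤ ‖g n‖ + ‖g' n‖ := norm_sub_le _ _
    _ ≤ H * nr n ^ B + H' * nr n ^ B' := add_le_add (hg.2 n) (hg'.2 n)
    _ ≤ H * nr n ^ max B B' + H' * nr n ^ max B B' :=
        add_le_add
          (mul_le_mul_of_nonneg_left (Real.rpow_le_rpow_of_exponent_le h1 (le_max_left _ _)) hH)
          (mul_le_mul_of_nonneg_left (Real.rpow_le_rpow_of_exponent_le h1 (le_max_right _ _)) hH')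
    _ = _ := by ring

theorem PolyG.const_mul {g : O → ℂ} (hg : PolyG g) (a : ℂ) : PolyG fun c => a * g c := by
  obtain ⟨H, B, hB, hg⟩ := hg
  refine ⟨‖a‖ * H, B, hB, by simp [hg.1], fun n => ?_⟩
  rw [norm_mul, mul_assoc]
  exact mul_le_mul_of_nonneg_left (hg.2 n) (norm_nonneg _)

theorem WD.sub {g g' : O → ℂ} (hg : PolyG g) (hg' : PolyG g') {t t' : ℂ} (h : WD g t)
    (h' : WD g' t') : WD (g - g') (t - t') := by
  obtain ⟨k, hk, h⟩ := h
  obtain ⟨k', hk', h'⟩ := h'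
  obtain ⟨hK, hM⟩ := hk.conv hk'
  refine ⟨kconv k k', hK, ?_⟩
  have h1 := (dens2_tendsto_left hg hk hk' h).sub (tendsto_Sk_kconv hg' hk hk' h')
  have e : (Mo k' : ℂ) * (t * Mo k) - Mo k * (t' * Mo k') = (t - t') * (Mo (kconv k k') : ℂ) := by
    rw [hM]; push_cast; ring
  rw [e] at h1
  refine h1.congr' ?_
  filter_upwards [self_mem_nhdsWithin] with Y hY
  unfold Sk
  rw [← mul_sub, ← (summable_Sk hg hK hY).of_norm.tsum_sub (summable_Sk hg' hK hY).of_norm]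
  congr 1
  refine tsum_congr fun c => ?_
  rw [Pi.sub_apply, sub_mul]

theorem WD.const_mul {g : O → ℂ} {t : ℂ} (h : WD g t) (a : ℂ) : WD (fun c => a * g c) (a * t) := by
  obtain ⟨k, hk, h⟩ := h
  refine ⟨k, hk, ?_⟩
  rw [mul_assoc]
  refine (h.const_mul a).congr fun Y => ?_
  unfold Sk
  simp only [mul_assoc, tsum_mul_left]
  ring

theorem WD.dilate {g g' : O → ℂ} {t : ℂ} (h : WD g t) {ρ : O} (hρ : ρ ≠ 0)
    (h1 : ∀ c, g' (ρ * c) = g c) (h2 : ∀ c, ¬ ρ ∣ c → g' c = 0) :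
    WD g' (((nr ρ ^ (-(4 / 3 : ℝ)) : ℝ) : ℂ) * t) := by
  obtain ⟨k, hk, h⟩ := h
  refine ⟨k, hk, ?_⟩
  have hn := nr_pos hρ
  have hT : Tendsto (fun Y : ℝ => Y * nr ρ) (𝓝[>] 0) (𝓝[>] 0) := by
    refine tendsto_nhdsWithin_iff.2 ⟨?_, ?_⟩
    · have : Tendsto (fun Y : ℝ => Y * nr ρ) (𝓝 0) (𝓝 (0 * nr ρ)) := tendsto_id.mul_const _
      rw [zero_mul] at this
      exact this.mono_left nhdsWithin_le_nhds
    · filter_upwards [self_mem_nhdsWithin] with Y hY
      exact mul_pos hY hn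
  rw [mul_assoc]
  refine ((h.comp hT).const_mul _).congr' ?_
  filter_upwards [self_mem_nhdsWithin] with Y hY
  have hY0 : 0 < Y := hY
  have e : ∑' c : O, g' c * (k (Y * nr c) : ℂ) = ∑' c : O, g c * (k (Y * nr ρ * nr c) : ℂ) := by
    rw [← (mul_right_injective₀ hρ).tsum_eq (f := fun c => g' c * (k (Y * nr c) : ℂ))]
    · refine tsum_congr fun c => ?_
      rw [h1, nr_mul, mul_assoc]
    · intro c hc
      by_contra hc'
      refine hc ?_
      have : ¬ ρ ∣ c := fun ⟨d, hd⟩ => hc' ⟨d, hd.symm⟩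
      simp only [h2 c this, zero_mul]
  simp only [Function.comp, Sk]
  rw [e, ← mul_assoc, ← Complex.ofReal_mul, Real.mul_rpow hY0.le hn.le, Real.rpow_neg hn.le]
  congr 2
  have : 0 < nr ρ ^ (4 / 3 : ℝ) := by positivity
  field_simp

theorem PolyG.dilate {g g' : O → ℂ} (h : PolyG g) {ρ : O} (hρ : ρ ≠ 0)
    (h1 : ∀ c, g' (ρ * c) = g c) (h2 : ∀ c, ¬ ρ ∣ c → g' c = 0) : PolyG g' := by
  obtain ⟨H, B, hB, hg⟩ := h
  have hH := WeightB.H_nonneg hg
  refine ⟨H, B, hB, by rw [← mul_zero ρ, h1, hg.1], fun n => ?_⟩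
  by_cases hn : ρ ∣ n
  · obtain ⟨c, rfl⟩ := hn
    rw [h1]
    refine (hg.2 c).trans (mul_le_mul_of_nonneg_left ?_ hH)
    refine Real.rpow_le_rpow (by positivity) ?_ hB
    rw [nr_mul]
    exact le_mul_of_one_le_left (by positivity) (one_le_nr hρ)
  · rw [h2 n hn, norm_zero]
    positivity

/-! ## part G3: the shape of the limit -/

theorem G3_measurable_Fk (b : ℝ) : Measurable fun p : ℝ × ℝ => Fk p.1 b p.2 := by
  unfold Fk; fun_prop

theorem measurable_Sk_Fk (g : O → ℂ) (b Y : ℝ) : Measurable fun y => Sk g (Fk y b) Y := by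
  unfold Sk
  refine Measurable.const_mul (Measurable.tsum fun c => ?_) _
  unfold Fk; fun_prop

theorem G3_Fk_nonneg {y b s : ℝ} (hy : 0 ≤ y) (hs : 0 ≤ s) : 0 ≤ Fk y b s := by
  unfold Fk; positivity

theorem G3_Fk_le {a a' y b s : ℝ} (ha : 0 < a) (hy : y ∈ Set.Ioo a a') (hb : 0 ≤ b) (hs : 0 ≤ s) :
    Fk y b s ≤ a' / a * Fk a 0 s := by
  have hy0 : 0 < y := ha.trans hy.1
  have h1 : Real.exp (-y * (s + b / s)) ≤ Real.exp (-a * (s + 0 / s)) := by
    refine Real.exp_le_exp.2 ?_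
    have : 0 ≤ b / s := by positivity
    have h2 := hy.1
    rw [zero_div, add_zero]; nlinarith
  have h2 : a' / a * Fk a 0 s = a' / s * Real.exp (-a * (s + 0 / s)) := by
    unfold Fk; field_simp
  rw [h2]; unfold Fk
  have h3 : y / s ≤ a' / s := div_le_div_of_nonneg_right hy.2.le hs
  exact mul_le_mul h3 h1 (Real.exp_pos _).le (le_trans (by positivity) h3)

/-- The kernel obtained by integrating `Fk y b` over `y ∈ E`. -/
def G3_m (E : Set ℝ) (b s : ℝ) : ℝ := ∫ y in E, Fk y b s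

section
variable {a a' b : ℝ} {E : Set ℝ}

theorem G3_fin (hE' : E ⊆ Set.Ioo a a') : IsFiniteMeasure (volume.restrict E) :=
  ⟨by
    rw [Measure.restrict_apply_univ]
    exact lt_of_le_of_lt (measure_mono hE') measure_Ioo_lt_top⟩

theorem G3_integrableOn_Mk (ha : 0 < a) (hb : 0 ≤ b) (hE' : E ⊆ Set.Ioo a a') :
    IntegrableOn (fun y => Mk y b) E :=
  (((continuousOn_Mk hb).mono fun _ hy => ha.trans_le hy.1).integrableOn_Icc (a := a)
    (b := a')).mono_set (hE'.trans Set.Ioo_subset_Icc_self)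

theorem G3_Mo (ha : 0 < a) (hb : 0 ≤ b) (hE : MeasurableSet E) (hE' : E ⊆ Set.Ioo a a') :
    Mo (G3_m E b) = ∫ y in E, Mk y b := by
  have hm : Measurable fun p : ℝ × ℝ => Fk p.1 b p.2 * p.2 ^ (1 / 3 : ℝ) :=
    (G3_measurable_Fk b).mul (by fun_prop)
  have hint : Integrable (Function.uncurry fun y s : ℝ => Fk y b s * s ^ (1 / 3 : ℝ))
      ((volume.restrict E).prod (volume.restrict (Set.Ioi 0))) := by
    refine (integrable_prod_iff hm.aestronglyMeasurable).2 ⟨?_, ?_⟩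
    · filter_upwards [ae_restrict_mem hE] with y hy
      have hy0 : 0 < y := ha.trans (hE' hy).1
      exact Integrable.of_integral_ne_zero (KC_Fk hy0 hb).2.2.1.ne'
    · refine (G3_integrableOn_Mk ha hb hE').congr_fun (fun y hy => ?_) hE
      have hy0 : 0 < y := ha.trans (hE' hy).1
      beta_reduce
      rw [← Mo_Fk hy0 hb, Mo]
      refine setIntegral_congr_fun measurableSet_Ioi fun s hs => ?_
      have hs0 : 0 < s := hs
      have := G3_Fk_nonneg (b := b) hy0.le hs0.le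
      simp only [Real.norm_eq_abs]
      rw [abs_of_nonneg (by positivity)]
  calc Mo (G3_m E b) = ∫ s in Set.Ioi (0 : ℝ), ∫ y in E, Fk y b s * s ^ (1 / 3 : ℝ) := by
        simp only [Mo, G3_m, integral_mul_const]
    _ = ∫ y in E, ∫ s in Set.Ioi (0 : ℝ), Fk y b s * s ^ (1 / 3 : ℝ) :=
        (integral_integral_swap hint).symm
    _ = ∫ y in E, Mk y b := setIntegral_congr_fun hE fun y hy =>
        Mo_Fk (ha.trans (hE' hy).1) hb

theorem G3_int_pos (ha : 0 < a) (hb : 0 ≤ b) (hE : MeasurableSet E) (hE' : E ⊆ Set.Ioo a a')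
    (h0 : volume E ≠ 0) : 0 < ∫ y in E, Mk y b := by
  rw [setIntegral_pos_iff_support_of_nonneg_ae _ (G3_integrableOn_Mk ha hb hE')]
  · refine lt_of_lt_of_le (pos_iff_ne_zero.2 h0) (measure_mono fun y hy => ⟨?_, hy⟩)
    exact (Mk_pos (ha.trans (hE' hy).1) hb).ne'
  · filter_upwards [ae_restrict_mem hE] with y hy
    exact (Mk_pos (ha.trans (hE' hy).1) hb).le

theorem G3_KC (ha : 0 < a) (hb : 0 ≤ b) (hE : MeasurableSet E) (hE' : E ⊆ Set.Ioo a a')
    (h0 : volume E ≠ 0) : KC (G3_m E b) := by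
  have := G3_fin hE'
  refine ⟨?_, fun x hx => ?_, ?_, fun A hA => ?_⟩
  · exact ((G3_measurable_Fk b).stronglyMeasurable.integral_prod_left'
      (μ := volume.restrict E)).measurable
  · exact setIntegral_nonneg hE fun y hy => G3_Fk_nonneg (ha.trans (hE' hy).1).le hx.le
  · rw [G3_Mo ha hb hE hE']; exact G3_int_pos ha hb hE hE' h0
  · obtain ⟨C, hC⟩ := (KC_Fk ha le_rfl).2.2.2 A hA
    refine ⟨|a' / a| * C * volume.real E, fun x hx => ?_⟩
    have h1 : ‖∫ y in E, Fk y b x‖ ≤ |a' / a| * (C * x ^ (-A)) * volume.real E := by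
      refine norm_setIntegral_le_of_norm_le_const
        (lt_of_le_of_lt (measure_mono hE') measure_Ioo_lt_top) fun y hy => ?_
      rw [Real.norm_eq_abs, abs_of_nonneg (G3_Fk_nonneg (ha.trans (hE' hy).1).le hx.le)]
      refine (G3_Fk_le ha (hE' hy) hb hx.le).trans ?_
      exact mul_le_mul (le_abs_self _) (hC x hx) (G3_Fk_nonneg ha.le hx.le) (abs_nonneg _)
    calc G3_m E b x ≤ ‖∫ y in E, Fk y b x‖ := le_abs_self _
      _ ≤ _ := h1
      _ = _ := by ring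

theorem G3_term_le (ha : 0 < a) (hb : 0 ≤ b) (g : O → ℂ) {Y y : ℝ} (hY : 0 < Y)
    (hy : y ∈ Set.Ioo a a') (c : O) :
    ‖g c * (Fk y b (Y * nr c) : ℂ)‖ ≤ |a' / a| * ‖g c * (Fk a 0 (Y * nr c) : ℂ)‖ := by
  have hs : 0 ≤ Y * nr c := by positivity
  rw [norm_mul, norm_mul, Complex.norm_real, Complex.norm_real, Real.norm_eq_abs, Real.norm_eq_abs,
    abs_of_nonneg (G3_Fk_nonneg (ha.trans hy.1).le hs), abs_of_nonneg (G3_Fk_nonneg ha.le hs),
    mul_left_comm]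
  refine mul_le_mul_of_nonneg_left ((G3_Fk_le ha hy hb hs).trans ?_) (norm_nonneg _)
  exact mul_le_mul_of_nonneg_right (le_abs_self _) (G3_Fk_nonneg ha.le hs)

theorem G3_Sk {g : O → ℂ} (hg : PolyG g) (ha : 0 < a) (hb : 0 ≤ b) (hE : MeasurableSet E)
    (hE' : E ⊆ Set.Ioo a a') {Y : ℝ} (hY : 0 < Y) :
    Sk g (G3_m E b) Y = ∫ y in E, Sk g (Fk y b) Y := by
  have := G3_fin hE'
  have hsum := summable_Sk hg (KC_Fk ha le_rfl) hY
  have hb1 : ∀ c : O, ∀ᵐ y ∂volume.restrict E, ‖g c * (Fk y b (Y * nr c) : ℂ)‖ ≤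
      |a' / a| * ‖g c * (Fk a 0 (Y * nr c) : ℂ)‖ := fun c => by
    filter_upwards [ae_restrict_mem hE] with y hy using G3_term_le ha hb g hY (hE' hy) c
  have hint : ∀ c : O, Integrable (fun y => g c * (Fk y b (Y * nr c) : ℂ)) (volume.restrict E) :=
    fun c => Integrable.of_bound (Measurable.aestronglyMeasurable (by unfold Fk; fun_prop)) _ (hb1 c)
  unfold Sk
  rw [integral_const_mul, ← integral_tsum_of_summable_integral_norm hint]
  · congr 1
    refine tsum_congr fun c => ?_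
    rw [integral_const_mul, integral_complex_ofReal]; rfl
  · refine Summable.of_nonneg_of_le (fun c => integral_nonneg fun y => norm_nonneg _) (fun c => ?_)
      ((hsum.mul_left |a' / a|).mul_right ((volume.restrict E).real Set.univ))
    refine le_trans (Real.le_norm_self _) (norm_integral_le_of_norm_le_const ?_)
    filter_upwards [hb1 c] with y hy using by rwa [norm_norm]

theorem G3_memLp {g : O → ℂ} (hg : PolyG g) (ha : 0 < a) (hb : 0 ≤ b) {Y : ℝ} (hY : 0 < Y) :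
    MemLp (fun y => Sk g (Fk y b) Y) 2 (volume.restrict (Set.Ioo a a')) := by
  have hsum := summable_Sk hg (KC_Fk ha le_rfl) hY
  refine MemLp.of_bound (measurable_Sk_Fk g b Y).aestronglyMeasurable
    (‖((Y ^ (4 / 3 : ℝ) : ℝ) : ℂ)‖ * ∑' c : O, |a' / a| * ‖g c * (Fk a 0 (Y * nr c) : ℂ)‖) ?_
  filter_upwards [ae_restrict_mem measurableSet_Ioo] with y hy
  unfold Sk
  rw [norm_mul]
  refine mul_le_mul_of_nonneg_left ?_ (norm_nonneg _)
  exact tsum_of_norm_bounded (hsum.mul_left _).hasSum fun c => G3_term_le ha hb g hY hy c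

theorem G3_sq (f : ℝ → ℂ) (μ : Measure ℝ) : ∫⁻ y, ‖f y‖ₑ ^ 2 ∂μ = eLpNorm f 2 μ ^ 2 := by
  have := eLpNorm_nnreal_pow_eq_lintegral (f := f) (μ := μ) (p := 2) two_ne_zero
  simpa using this.symm

theorem G3_limit {g : O → ℂ} (hg : PolyG g) (ha : 0 < a) (hb : 0 ≤ b)
    (hC : ∀ ε : ℝ≥0∞, 0 < ε → ∃ δ : ℝ, 0 < δ ∧ ∀ Y ∈ Set.Ioo 0 δ, ∀ Y' ∈ Set.Ioo 0 δ,
      ∫⁻ y in Set.Ioo a a', ‖Sk g (Fk y b) Y - Sk g (Fk y b) Y'‖ₑ ^ 2 ≤ ε) :
    ∃ f : ℝ → ℂ, MemLp f 2 (volume.restrict (Set.Ioo a a')) ∧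
      Tendsto (fun Y => eLpNorm ((fun y => Sk g (Fk y b) Y) - f) 2
        (volume.restrict (Set.Ioo a a'))) (𝓝[>] 0) (𝓝 0) ∧
      ∀ E : Set ℝ, MeasurableSet E → E ⊆ Set.Ioo a a' →
        Tendsto (Sk g (G3_m E b)) (𝓝[>] 0) (𝓝 (∫ y in E, f y)) := by
  classical
  set μ := volume.restrict (Set.Ioo a a') with hμ
  let G : ℝ → Lp ℂ 2 μ := fun Y => if h : 0 < Y then (G3_memLp (a' := a') hg ha hb h).toLp _ else 0
  have hG : ∀ Y (h : 0 < Y), G Y = (G3_memLp (a' := a') hg ha hb h).toLp _ := fun Y h => dif_pos h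
  have hc : Cauchy (Filter.map G (𝓝[>] 0)) := by
    refine EMetric.cauchy_iff.2 ⟨Filter.map_neBot.ne, fun ε hε => ?_⟩
    obtain ⟨η, hη0, hη⟩ := exists_between hε
    obtain ⟨δ, hδ, h⟩ := hC (η ^ 2) (ENNReal.pow_pos hη0 2)
    refine ⟨G '' Set.Ioo 0 δ, Filter.image_mem_map (Ioo_mem_nhdsGT hδ), ?_⟩
    rintro _ ⟨Y, hY, rfl⟩ _ ⟨Y', hY', rfl⟩
    rw [hG Y hY.1, hG Y' hY'.1, Lp.edist_toLp_toLp]
    have h1 := h Y hY Y' hY'
    rw [G3_sq (fun y => Sk g (Fk y b) Y - Sk g (Fk y b) Y')] at h1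
    exact lt_of_le_of_lt ((ENNReal.pow_le_pow_left_iff two_ne_zero).1 h1) hη
  obtain ⟨F, hF⟩ := cauchy_map_iff_exists_tendsto.1 hc
  have h2 : Tendsto (fun Y => eLpNorm ((fun y => Sk g (Fk y b) Y) - ⇑F) 2 μ) (𝓝[>] 0) (𝓝 0) := by
    refine (tendsto_iff_edist_tendsto_0.1 hF).congr' ?_
    filter_upwards [self_mem_nhdsWithin] with Y hY
    rw [hG Y hY, Lp.edist_def]
    exact eLpNorm_congr_ae ((MemLp.coeFn_toLp _).sub EventuallyEq.rfl)
  refine ⟨F, Lp.memLp F, h2, fun E hE hE' => ?_⟩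
  have hEμ : μ E ≠ ∞ := measure_ne_top _ _
  have h3 : Tendsto (fun Y => inner ℂ (indicatorConstLp 2 hE hEμ (1 : ℂ)) (G Y)) (𝓝[>] 0)
      (𝓝 (inner ℂ (indicatorConstLp 2 hE hEμ (1 : ℂ)) F)) := tendsto_const_nhds.inner hF
  have hr : μ.restrict E = volume.restrict E := Measure.restrict_restrict_of_subset hE'
  rw [L2.inner_indicatorConstLp_one, hr] at h3
  refine h3.congr' ?_
  filter_upwards [self_mem_nhdsWithin] with Y hY
  rw [L2.inner_indicatorConstLp_one, G3_Sk hg ha hb hE hE' hY, hG Y hY, ← hr]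
  exact integral_congr_ae (ae_restrict_of_ae (MemLp.coeFn_toLp _))

theorem G3_wd {g : O → ℂ} (ha : 0 < a) (hb : 0 ≤ b) (hE : MeasurableSet E)
    (hE' : E ⊆ Set.Ioo a a') (h0 : volume E ≠ 0) {l : ℂ}
    (h : Tendsto (Sk g (G3_m E b)) (𝓝[>] 0) (𝓝 l)) :
    WD g (l / ((∫ y in E, Mk y b : ℝ) : ℂ)) := by
  refine ⟨G3_m E b, G3_KC ha hb hE hE' h0, ?_⟩
  rw [G3_Mo ha hb hE hE', div_mul_cancel₀ _
    (Complex.ofReal_ne_zero.2 (G3_int_pos ha hb hE hE' h0).ne')]
  exact h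

end

/-- If the coefficient functions `y ↦ Sk g (Fk y b) Y` are Cauchy in `L²_loc` as `Y → 0`, the limit
is `t · Mk y b` with `t` the weak density of `g`. -/
theorem exists_wd_of_cauchy {g : O → ℂ} (hg : PolyG g) {b : ℝ} (hb : 0 ≤ b)
    (hC : ∀ a a' : ℝ, 0 < a → ∀ ε : ℝ≥0∞, 0 < ε → ∃ δ : ℝ, 0 < δ ∧
      ∀ Y ∈ Set.Ioo 0 δ, ∀ Y' ∈ Set.Ioo 0 δ,
        ∫⁻ y in Set.Ioo a a', ‖Sk g (Fk y b) Y - Sk g (Fk y b) Y'‖ₑ ^ 2 ≤ ε) :
    ∃ t : ℂ, WD g t ∧ ∀ a a' : ℝ, 0 < a →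
      Tendsto (fun Y => ∫⁻ y in Set.Ioo a a', ‖Sk g (Fk y b) Y - t * (Mk y b : ℂ)‖ₑ ^ 2)
        (𝓝[>] 0) (𝓝 0) := by
  obtain ⟨f₀, -, -, h₀⟩ := G3_limit (a' := 2) hg one_pos hb (hC 1 2 one_pos)
  have ht := G3_wd one_pos hb measurableSet_Ioo subset_rfl (by simp)
    (h₀ _ measurableSet_Ioo subset_rfl)
  refine ⟨_, ht, fun a a' ha => ?_⟩
  generalize (∫ y in Set.Ioo (1 : ℝ) 2, f₀ y) / ((∫ y in Set.Ioo (1 : ℝ) 2, Mk y b : ℝ) : ℂ) = t
    at ht
  obtain ⟨f, hf, h1, h2⟩ := G3_limit (a' := a') hg ha hb (hC a a' ha)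
  have hM : Integrable (fun y => t * (Mk y b : ℂ)) (volume.restrict (Set.Ioo a a')) :=
    (G3_integrableOn_Mk ha hb subset_rfl).ofReal.const_mul t
  have he : f =ᵐ[volume.restrict (Set.Ioo a a')] fun y => t * (Mk y b : ℂ) := by
    refine ae_eq_of_forall_setIntegral_eq_of_sigmaFinite
      (fun s _ _ => (hf.integrable one_le_two).integrableOn) (fun s _ _ => hM.integrableOn)
      fun s hs _ => ?_
    rw [Measure.restrict_restrict hs]
    have hE : MeasurableSet (s ∩ Set.Ioo a a') := hs.inter measurableSet_Ioo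
    by_cases h0 : volume (s ∩ Set.Ioo a a') = 0
    · rw [Measure.restrict_eq_zero.2 h0]; simp
    · have h3 := WD.unique hg (G3_wd ha hb hE Set.inter_subset_right h0
        (h2 _ hE Set.inter_subset_right)) ht
      rw [div_eq_iff (Complex.ofReal_ne_zero.2
        (G3_int_pos ha hb hE Set.inter_subset_right h0).ne')] at h3
      rw [h3, integral_const_mul, integral_complex_ofReal]
  have h4 := ENNReal.Tendsto.pow (n := 2) h1
  rw [zero_pow two_ne_zero] at h4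
  refine h4.congr fun Y => ?_
  rw [G3_sq (fun y => Sk g (Fk y b) Y - t * (Mk y b : ℂ))]
  congr 1
  exact eLpNorm_congr_ae (EventuallyEq.rfl.sub he)

end Crest.Agent.R17
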