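import Crest.Agent.R17.ReflDefs
import Crest.Agent.R17.ThetaDens

/-!
# Row 17, reflection module N: the proof of the Mellin transfer
-/

set_option autoImplicit false

noncomputable section

namespace Crest.Agent.R17

open MeasureTheory Complex Set Filter Asymptotics
open scoped Topology

namespace MelN2

/-- The Bessel sum. -/
def fS (a : O → ℂ) (A : ℝ) (x : ℝ) : ℂ := ∑' n : O, a n * (U1 (A * nr n * x) : ℂ)

/-- The Dirichlet series. -/
def dS (a : O → ℂ) (s : ℂ) : ℂ := ∑' n : O, a n * (nr n : ℂ) ^ (-s)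

variable {a b : O → ℂ} {H Ha Hb A B : ℝ}

theorem summable_coef (ha : PolyB a H 1) {k : ℝ} (hk : 2 < k) :
    Summable fun n : O => ‖a n‖ * nr n ^ (-k) := by
  have hH := WeightB.H_nonneg ha
  refine Summable.of_nonneg_of_le (fun n => by positivity) (fun n => ?_)
    ((summable_nr_rpow (σ := k - 1) (by linarith)).mul_left H)
  by_cases h0 : n = 0
  · rw [h0, ha.1, norm_zero, zero_mul]
    positivity
  · rw [show -(k - 1) = 1 + -k by ring, Real.rpow_add (nr_pos h0), ← mul_assoc]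
    exact mul_le_mul_of_nonneg_right (ha.2 n) (by positivity)

theorem term_le (ha : PolyB a H 1) (hA : 0 < A) {k : ℝ} (hk : 2 < k) :
    ∃ u : O → ℝ, Summable u ∧ (∀ n, 0 ≤ u n) ∧
      ∀ n x, 0 < x → ‖a n * (U1 (A * nr n * x) : ℂ)‖ ≤ u n * x ^ (-k) := by
  obtain ⟨C, hC, h⟩ := U1_le_rpow (A := k) (by linarith)
  refine ⟨fun n => C * A ^ (-k) * (‖a n‖ * nr n ^ (-k)), (summable_coef ha hk).mul_left _,
    fun n => by positivity, fun n x hx => ?_⟩
  by_cases h0 : n = 0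
  · simp [h0, ha.1]
  have hn := nr_pos h0
  obtain ⟨h1, h2⟩ := h (A * nr n * x) (by positivity)
  rw [norm_mul, Complex.norm_real, Real.norm_of_nonneg h1]
  refine (mul_le_mul_of_nonneg_left h2 (norm_nonneg _)).trans (le_of_eq ?_)
  rw [Real.mul_rpow (by positivity) hx.le, Real.mul_rpow hA.le hn.le]
  ring

theorem norm_fS_le (ha : PolyB a H 1) (hA : 0 < A) {k : ℝ} (hk : 2 < k) :
    ∃ C : ℝ, ∀ x, 0 < x → ‖fS a A x‖ ≤ C * x ^ (-k) := by
  obtain ⟨u, hu, -, h⟩ := term_le ha hA hk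
  exact ⟨∑' n, u n, fun x hx => tsum_of_norm_bounded (hu.hasSum.mul_right _) fun n => h n x hx⟩

theorem continuousOn_fS (ha : PolyB a H 1) (hA : 0 < A) : ContinuousOn (fS a A) (Ioi 0) := by
  obtain ⟨u, hu, hu0, h⟩ := term_le ha hA (k := 3) (by norm_num)
  intro x hx
  have hx : 0 < x / 2 := half_pos hx
  refine ContinuousAt.continuousWithinAt (ContinuousOn.continuousAt (s := Ioi (x / 2)) ?_
    (Ioi_mem_nhds (by linarith)))
  refine continuousOn_tsum (fun n => ?_) (hu.mul_right ((x / 2) ^ (-3 : ℝ))) fun n y hy => ?_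
  · by_cases h0 : n = 0
    · simp only [h0, ha.1, zero_mul]
      exact continuousOn_const
    have hn := nr_pos h0
    refine continuousOn_const.mul (continuous_ofReal.comp_continuousOn
      (continuousOn_U1.comp (by fun_prop) fun y hy => ?_))
    have : 0 < y := hx.trans hy
    exact mem_Ioi.2 (by positivity)
  · exact (h n y (hx.trans hy)).trans (mul_le_mul_of_nonneg_left
      (Real.rpow_le_rpow_of_nonpos hx (le_of_lt hy) (by norm_num)) (hu0 n))

theorem mellin_U {s : ℂ} (hs : -(1 / 3) < s.re) :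
    MellinConvergent (fun x => (U1 x : ℂ)) s ∧
      mellin (fun x => (U1 x : ℂ)) s = Gamma (s + 1 / 3) * Gamma (s + 2 / 3) := by
  simpa only [MellinConvergent, mellin, smul_eq_mul, mul_comm] using mellin_U1 hs

theorem mellin_fS (ha : PolyB a H 1) (hA : 0 < A) {s : ℂ} (hs : 2 < s.re) :
    mellin (fS a A) s = Gamma (s + 1 / 3) * Gamma (s + 2 / 3) * (A : ℂ) ^ (-s) * dS a s := by
  obtain ⟨h1, h2⟩ := mellin_U (s := s) (by linarith)
  have hi : ∀ n : O, Integrable (fun t : ℝ => (t : ℂ) ^ (s - 1) • (a n * (U1 (A * nr n * t) : ℂ)))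
      (volume.restrict (Ioi 0)) := by
    intro n
    by_cases h0 : n = 0
    · simp [h0, ha.1]
    exact ((MellinConvergent.comp_mul_left (mul_pos hA (nr_pos h0))).2 h1).const_smul (a n)
  have hn : ∀ n : O, ∫ t in Ioi (0 : ℝ), ‖(t : ℂ) ^ (s - 1) • (a n * (U1 (A * nr n * t) : ℂ))‖ =
      A ^ (-s.re) * (‖a n‖ * nr n ^ (-s.re)) *
        ∫ t in Ioi (0 : ℝ), ‖(t : ℂ) ^ (s - 1) • (U1 t : ℂ)‖ := by
    intro n
    by_cases h0 : n = 0
    · simp [h0, ha.1]
    have hc := mul_pos hA (nr_pos h0)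
    have h3 := integral_comp_mul_left_Ioi (fun t : ℝ => ‖(t : ℂ) ^ (s - 1) • (U1 t : ℂ)‖) 0 hc
    rw [mul_zero] at h3
    rw [setIntegral_congr_fun (g := fun t => ‖a n‖ * (A * nr n) ^ (1 - s.re) *
      ‖((A * nr n * t : ℝ) : ℂ) ^ (s - 1) • (U1 (A * nr n * t) : ℂ)‖) measurableSet_Ioi,
      integral_const_mul, h3, smul_eq_mul, sub_eq_add_neg, Real.rpow_add hc, Real.rpow_one,
      Real.mul_rpow hA.le (nr_pos h0).le]
    · have := hA.ne'
      have := (nr_pos h0).ne'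
      field_simp
    · intro t ht
      have ht : 0 < t := ht
      simp only [norm_smul, norm_mul]
      rw [Complex.norm_cpow_eq_rpow_re_of_pos ht,
        Complex.norm_cpow_eq_rpow_re_of_pos (mul_pos hc ht), Real.mul_rpow hc.le ht.le, sub_re,
        one_re, show 1 - s.re = -(s.re - 1) by ring, Real.rpow_neg hc.le]
      have := (Real.rpow_pos_of_pos hc (s.re - 1)).ne'
      field_simp
  have h4 := integral_tsum_of_summable_integral_norm hi (by
    simp only [hn]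
    exact ((summable_coef ha hs).mul_left _).mul_right _)
  rw [mellin]
  simp only [fS, smul_eq_mul] at h4 ⊢
  simp only [← tsum_mul_left]
  rw [← h4, dS, ← tsum_mul_left]
  refine tsum_congr fun n => ?_
  by_cases h0 : n = 0
  · simp [h0, ha.1]
  have h5 := mellin_comp_mul_left (fun x => (U1 x : ℂ)) s (mul_pos hA (nr_pos h0))
  rw [h2, ofReal_mul, mul_cpow_ofReal_nonneg hA.le (nr_pos h0).le, mellin] at h5
  simp only [smul_eq_mul] at h5
  simp only [mul_left_comm _ (a n)]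
  rw [integral_const_mul, h5]
  ring

theorem mellin_refl {f g : ℝ → ℂ} {ω : ℂ} (h : ∀ x : ℝ, 0 < x → f x = ω * (x : ℂ)⁻¹ * g x⁻¹)
    (s : ℂ) : mellin f s = ω * mellin g (1 - s) := by
  rw [← neg_sub, ← mellin_comp_inv, sub_eq_add_neg, ← mellin_cpow_smul, ← smul_eq_mul,
    ← mellin_const_smul]
  refine setIntegral_congr_fun measurableSet_Ioi fun x hx => ?_
  simp only [h x hx, smul_eq_mul, cpow_neg_one, mul_assoc]

theorem rpow_le_add {t p q r : ℝ} (ht : 0 < t) (h1 : p ≤ r) (h2 : r ≤ q) :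
    t ^ r ≤ t ^ p + t ^ q := by
  rcases le_total t 1 with h | h
  · exact (Real.rpow_le_rpow_of_exponent_ge ht h h1).trans (le_add_of_nonneg_right (by positivity))
  · exact (Real.rpow_le_rpow_of_exponent_le h h2).trans (le_add_of_nonneg_left (by positivity))

theorem mellin_strip {f : ℝ → ℂ} (hf : ContinuousOn f (Ioi 0)) {C C' : ℝ}
    (h1 : ∀ x, 0 < x → ‖f x‖ ≤ C * x ^ (-4 : ℝ)) (h2 : ∀ x, 0 < x → ‖f x‖ ≤ C' * x ^ (3 : ℝ)) :
    ∃ K : ℝ, ∀ s : ℂ, -2 ≤ s.re → s.re ≤ 3 → DifferentiableAt ℂ (mellin f) s ∧ ‖mellin f s‖ ≤ K := by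
  have hl := hf.locallyIntegrableOn (μ := volume) measurableSet_Ioi
  have ht : f =O[atTop] (· ^ (-4 : ℝ)) := IsBigO.of_bound C <| by
    filter_upwards [eventually_gt_atTop 0] with x hx
    rw [Real.norm_of_nonneg (by positivity)]
    exact h1 x hx
  have hb : f =O[𝓝[>] 0] (· ^ (-(-3) : ℝ)) := IsBigO.of_bound C' <| by
    filter_upwards [self_mem_nhdsWithin] with x hx
    have hx : 0 < x := hx
    rw [Real.norm_of_nonneg (by positivity), neg_neg]
    exact h2 x hx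
  have hi := fun (σ : ℝ) (h : σ < 4) (h' : -3 < σ) =>
    mellin_convergent_of_isBigO_scalar hl.norm ht.norm_left h hb.norm_left h'
  refine ⟨∫ t in Ioi (0 : ℝ), (t ^ ((-2 : ℝ) - 1) * ‖f t‖ + t ^ ((3 : ℝ) - 1) * ‖f t‖),
    fun s hs hs' => ⟨mellin_differentiableAt_of_isBigO_rpow hl ht (by linarith) hb (by linarith),
      norm_integral_le_of_norm_le ((hi _ (by norm_num) (by norm_num)).add
        (hi _ (by norm_num) (by norm_num))) ?_⟩⟩
  filter_upwards [ae_restrict_mem measurableSet_Ioi] with t ht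
  rw [norm_smul, Complex.norm_cpow_eq_rpow_re_of_pos ht, sub_re, one_re, ← add_mul]
  exact mul_le_mul_of_nonneg_right (rpow_le_add ht (by linarith) (by linarith)) (norm_nonneg _)

/-- The function whose line of integration is shifted. -/
def FF (L : ℂ → ℂ) (Y : ℝ) (s w : ℂ) : ℂ :=
  Wm (w + s) * (Y : ℂ) ^ w * L w * (Gamma (w + 1 / 3))⁻¹ * (Gamma (w + 2 / 3))⁻¹

theorem FF_diff {L : ℂ → ℂ} {Y : ℝ} (hY : 0 < Y) (s : ℂ) {w : ℂ} (hL : DifferentiableAt ℂ L w) :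
    DifferentiableAt ℂ (FF L Y s) w := by
  have h1 := differentiable_Wm
  have h2 := Complex.differentiable_one_div_Gamma
  refine ((((h1 _).comp w (by fun_prop : DifferentiableAt ℂ (fun w => w + s) w)).mul
    (differentiableAt_id.const_cpow (Or.inl (ofReal_ne_zero.2 hY.ne')))).mul hL).mul
    ((h2 _).comp w (by fun_prop : DifferentiableAt ℂ (fun w => w + 1 / 3) w)) |>.mul
    ((h2 _).comp w (by fun_prop : DifferentiableAt ℂ (fun w => w + 2 / 3) w))

theorem FF_le {L : ℂ → ℂ} {Y K C : ℝ} (hY : 0 < Y) (s : ℂ)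
    (hG : ∀ z : ℂ, -2 ≤ z.re → z.re ≤ 4 → ‖(Gamma z)⁻¹‖ ≤ C * Real.exp (4 * |z.im|))
    {w : ℂ} (h1 : -2 ≤ w.re) (h2 : w.re ≤ 3) (hL : ‖L w‖ ≤ K) :
    ‖FF L Y s w‖ ≤ Real.sqrt Real.pi * Real.exp ((3 + |s.re|) ^ 2 / 4 + 81 + 9 * |s.im|) *
      (Y ^ (-2 : ℝ) + Y ^ (3 : ℝ)) * K * C * C * Real.exp (-1 * |w.im|) := by
  have g1 := hG (w + 1 / 3) (by norm_num; linarith) (by norm_num; linarith)
  have g2 := hG (w + 2 / 3) (by norm_num; linarith) (by norm_num; linarith)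
  have hC : 0 ≤ C := (mul_nonneg_iff_of_pos_right (Real.exp_pos _)).1 ((norm_nonneg _).trans g1)
  have hK : 0 ≤ K := (norm_nonneg _).trans hL
  rw [show (w + 1 / 3).im = w.im by norm_num] at g1
  rw [show (w + 2 / 3).im = w.im by norm_num] at g2
  have g3 : ‖(Y : ℂ) ^ w‖ ≤ Y ^ (-2 : ℝ) + Y ^ (3 : ℝ) := by
    rw [Complex.norm_cpow_eq_rpow_re_of_pos hY]
    exact rpow_le_add hY h1 h2
  have g4 : ‖Wm (w + s)‖ ≤ Real.sqrt Real.pi *
      Real.exp ((3 + |s.re|) ^ 2 / 4 + 81 + 9 * |s.im| + -9 * |w.im|) := by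
    rw [norm_Wm, add_re, add_im]
    refine mul_le_mul_of_nonneg_left (Real.exp_le_exp.2 ?_) (Real.sqrt_nonneg _)
    have e1 : (w.re + s.re) ^ 2 ≤ (3 + |s.re|) ^ 2 :=
      sq_le_sq' (by linarith [neg_abs_le s.re]) (by linarith [le_abs_self s.re])
    have e2 : |w.im| ≤ |w.im + s.im| + |s.im| := by
      simpa using abs_sub (w.im + s.im) s.im
    nlinarith [sq_nonneg (|w.im + s.im| - 18), sq_abs (w.im + s.im)]
  rw [FF, norm_mul, norm_mul, norm_mul, norm_mul]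
  refine (mul_le_mul (mul_le_mul (mul_le_mul (mul_le_mul g4 g3 (norm_nonneg _) (by positivity)) hL
    (norm_nonneg _) (by positivity)) g1 (norm_nonneg _) (by positivity)) g2 (norm_nonneg _)
    (by positivity)).trans (le_of_eq ?_)
  rw [show -1 * |w.im| = -9 * |w.im| + 4 * |w.im| + 4 * |w.im| by ring]
  simp only [Real.exp_add]
  ring

theorem tsum_kernel {Kr : ℂ → ℂ → ℂ} {V : ℝ → ℂ → ℂ} (hK : KernelOK Kr V) (hb : PolyB b H 1)
    {c : ℝ} (hc : 0 < c) (s : ℂ) :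
    ∑' n : O, b n * V (c * nr n) s = ∫ u : ℝ, Kr (3 + u * I) s *
      ((c : ℂ) ^ (-(3 + (u : ℂ) * I)) * dS b (3 + u * I)) := by
  obtain ⟨C, J, h⟩ := hK 3 |s.re|
  obtain ⟨h1, -, h2⟩ := h s le_rfl
  simp only [Nat.cast_ofNat] at h1 h2
  have hn : ∀ (n : O) (u : ℝ), ‖(c : ℂ) ^ (-(3 + (u : ℂ) * I)) *
      (b n * (nr n : ℂ) ^ (-(3 + (u : ℂ) * I)))‖ = c ^ (-3 : ℝ) * (‖b n‖ * nr n ^ (-3 : ℝ)) := by
    intro n u
    by_cases h0 : n = 0
    · simp [h0, hb.1]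
    rw [norm_mul, norm_mul, Complex.norm_cpow_eq_rpow_re_of_pos hc,
      Complex.norm_cpow_eq_rpow_re_of_pos (nr_pos h0)]
    simp
  have hi : ∀ n : O, Integrable fun u : ℝ => Kr (3 + u * I) s * ((c : ℂ) ^ (-(3 + (u : ℂ) * I)) *
      (b n * (nr n : ℂ) ^ (-(3 + (u : ℂ) * I)))) := by
    intro n
    by_cases h0 : n = 0
    · simp [h0, hb.1]
    refine h1.mul_bdd (Continuous.aestronglyMeasurable ?_)
      (Eventually.of_forall fun u => (hn n u).le)
    exact (Continuous.const_cpow (by fun_prop) (Or.inl (ofReal_ne_zero.2 hc.ne'))).mul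
      (continuous_const.mul (Continuous.const_cpow (by fun_prop)
        (Or.inl (ofReal_ne_zero.2 (nr_pos h0).ne'))))
  simp only [dS, ← tsum_mul_left]
  rw [← integral_tsum_of_summable_integral_norm hi]
  · refine tsum_congr fun n => ?_
    by_cases h0 : n = 0
    · simp [h0, hb.1]
    rw [h2 _ (mul_pos hc (nr_pos h0)), ← integral_const_mul]
    congr 1
    funext u
    rw [ofReal_mul, mul_cpow_ofReal_nonneg hc.le (nr_pos h0).le]
    ring
  · simp only [norm_mul (Kr _ _), hn, integral_mul_const]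
    exact ((summable_coef hb (by norm_num)).mul_left _).mul_left _

theorem transfer {Kr : ℂ → ℂ → ℂ} {V : ℝ → ℂ → ℂ} (hK : KernelOK Kr V)
    (hKr : ∀ t s, Kr t s = (1 / (2 * Real.pi) : ℂ) * Wm (1 - t + s) *
      (Gamma (1 / 3 + t) * Gamma (2 / 3 + t) / (Gamma (4 / 3 - t) * Gamma (5 / 3 - t))))
    (hshift : ∀ (F : ℂ → ℂ) (C : ℝ), DifferentiableOn ℂ F {s | (-2 : ℝ) ≤ s.re ∧ s.re ≤ (3 : ℝ)} →
      (∀ s : ℂ, (-2 : ℝ) ≤ s.re → s.re ≤ (3 : ℝ) → ‖F s‖ ≤ C * Real.exp (-1 * |s.im|)) →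
      ∫ u : ℝ, F ((-2 : ℝ) + u * I) = ∫ u : ℝ, F ((3 : ℝ) + u * I))
    {C : ℝ} (hG : ∀ z : ℂ, -2 ≤ z.re → z.re ≤ 4 → ‖(Gamma z)⁻¹‖ ≤ C * Real.exp (4 * |z.im|))
    (ha : PolyB a Ha 1) (hb : PolyB b Hb 1) (hA : 0 < A) (hB : 0 < B) {ω : ℂ}
    (h : ∀ x : ℝ, 0 < x → fS a A x = ω * (x : ℂ)⁻¹ * fS b B x⁻¹) {X : ℝ} (hX : 0 < X) (s : ℂ) :
    Sm a X s = ω * ((A * X : ℝ) : ℂ) * ∑' n : O, b n * V (A * B * X * nr n) s := by
  obtain ⟨C1, h1⟩ := norm_fS_le ha hA (k := 4) (by norm_num)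
  obtain ⟨C2, h2⟩ := norm_fS_le hb hB (k := 4) (by norm_num)
  obtain ⟨K, hL⟩ := mellin_strip (continuousOn_fS ha hA) h1 (C' := ‖ω‖ * C2) fun x hx => by
    rw [h x hx, norm_mul, norm_mul, norm_inv, Complex.norm_real, Real.norm_of_nonneg hx.le]
    refine (mul_le_mul_of_nonneg_left (h2 _ (inv_pos.2 hx)) (by positivity)).trans (le_of_eq ?_)
    rw [Real.inv_rpow hx.le, Real.rpow_neg hx.le, inv_inv, show (4 : ℝ) = 3 + 1 by norm_num,
      Real.rpow_add hx, Real.rpow_one]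
    field_simp
  have hY := mul_pos hA hX
  have hA' : (A : ℂ) ≠ 0 := ofReal_ne_zero.2 hA.ne'
  have h3 := hshift (FF (mellin (fS a A)) (A * X) s) _
    (fun w hw => (FF_diff hY s (hL w hw.1 hw.2).1).differentiableWithinAt)
    fun w hw hw' => FF_le hY s hG hw hw' (hL w hw hw').2
  have h4 : ∀ u : ℝ, Wm ((3 : ℝ) + u * I + s) * (X : ℂ) ^ (((3 : ℝ) : ℂ) + u * I) *
      dS a ((3 : ℝ) + u * I) = FF (mellin (fS a A)) (A * X) s ((3 : ℝ) + u * I) := by
    intro u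
    have e : (((3 : ℝ) : ℂ) + u * I).re = 3 := by simp
    generalize ((3 : ℝ) : ℂ) + u * I = w at e
    have g1 : Gamma (w + 1 / 3) ≠ 0 := Gamma_ne_zero_of_re_pos (by norm_num [e])
    have g2 : Gamma (w + 2 / 3) ≠ 0 := Gamma_ne_zero_of_re_pos (by norm_num [e])
    have g3 : (A : ℂ) ^ w ≠ 0 := fun h => hA' ((cpow_eq_zero_iff _ _).1 h).1
    rw [FF, mellin_fS ha hA (by rw [e]; norm_num), ofReal_mul, mul_cpow_ofReal_nonneg hA.le hX.le,
      cpow_neg]
    generalize Gamma (w + 1 / 3) = G1 at g1 ⊢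
    generalize Gamma (w + 2 / 3) = G2 at g2 ⊢
    field_simp
  have h5 : ∀ u : ℝ, (1 / (2 * Real.pi) : ℂ) *
      FF (mellin (fS a A)) (A * X) s ((-2 : ℝ) + (-u : ℝ) * I) = ω * ((A * X : ℝ) : ℂ) *
        (Kr (3 + u * I) s * (((A * B * X : ℝ) : ℂ) ^ (-(3 + (u : ℂ) * I)) * dS b (3 + u * I))) := by
    intro u
    have e : ((3 : ℂ) + u * I).re = 3 := by simp
    rw [show (((-2 : ℝ) : ℂ) + (-u : ℝ) * I) = 1 - (3 + u * I) by push_cast; ring]
    generalize (3 : ℂ) + u * I = t at e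
    rw [FF, mellin_refl h, sub_sub_cancel, mellin_fS hb hB (by rw [e]; norm_num), hKr,
      show A * B * X = A * X * B by ring, ofReal_mul (A * X), mul_cpow_ofReal_nonneg hY.le hB.le,
      sub_eq_add_neg 1 t, cpow_add _ _ (ofReal_ne_zero.2 hY.ne'), cpow_one,
      show 1 + -t + 1 / 3 = 4 / 3 - t by ring, show 1 + -t + 2 / 3 = 5 / 3 - t by ring,
      add_comm t, add_comm t, div_eq_mul_inv (Gamma _ * Gamma _), mul_inv]
    ring
  rw [Sm_eq_integral ha hX (σ := 3) (by norm_num), tsum_kernel hK hb (by positivity),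
    ← integral_const_mul ((ω * ((A * X : ℝ) : ℂ)))]
  simp only [← h5]
  rw [integral_const_mul, integral_neg_eq_self
    (fun u : ℝ => FF (mellin (fS a A)) (A * X) s ((-2 : ℝ) + u * I)), h3]
  simp only [← h4]
  rfl

end MelN2

end Crest.Agent.R17
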