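import Crest.Agent.R17.ReflDefs
import Crest.Agent.R17.ThetaDens
import Crest.Agent.R17.ReflMelAuxA
import Crest.Agent.R17.ReflMelAuxN2

/-!
# Row 17, reflection module N: Mellin transfer from the Bessel weight `U1` to the weights `Wc`
-/

set_option autoImplicit false

noncomputable section

namespace Crest.Agent.R17

open scoped ComplexConjugate
open MeasureTheory Complex

/-- The gamma factor (`t = 1 - s`). -/
def gamF (t : ℂ) : ℂ :=
  Gamma (1 / 3 + t) * Gamma (2 / 3 + t) / (Gamma (4 / 3 - t) * Gamma (5 / 3 - t))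

/-- The density of the reflected kernel. -/
def Kr0 (t s : ℂ) : ℂ := (1 / (2 * Real.pi) : ℂ) * Wm (1 - t + s) * gamF t

/-- The reflected kernel. -/
def Vr (x : ℝ) (s : ℂ) : ℂ := ∫ u : ℝ, Kr0 (u * I) s * (x : ℂ) ^ (-((u : ℂ) * I))

/-- Shifting a vertical line of integration. -/
theorem integral_vertical_shift {F : ℂ → ℂ} {a b : ℝ} (hab : a ≤ b)
    (hF : DifferentiableOn ℂ F {s | a ≤ s.re ∧ s.re ≤ b})
    {C c : ℝ} (hc : 0 < c) (hb : ∀ s : ℂ, a ≤ s.re → s.re ≤ b → ‖F s‖ ≤ C * Real.exp (-c * |s.im|)) :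
    ∫ u : ℝ, F (a + u * I) = ∫ u : ℝ, F (b + u * I) :=
  RMA.integral_vertical_shift hab hF hc hb

/-- Crude growth of `1 / Γ` in vertical strips. -/
theorem norm_inv_Gamma_le (a b : ℝ) : ∃ C : ℝ, 0 < C ∧ ∀ s : ℂ, a ≤ s.re → s.re ≤ b →
    ‖(Gamma s)⁻¹‖ ≤ C * Real.exp (4 * |s.im|) :=
  RMA.norm_inv_Gamma_le a b

/-- Polynomial growth on the lines `Re t ∈ ℕ`. -/
theorem norm_gamF_le (σ : ℕ) : ∃ C : ℝ, 0 < C ∧ ∀ u : ℝ,
    ‖gamF (σ + u * I)‖ ≤ C * (1 + |u|) ^ (4 * σ) :=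
  RMA.norm_gF_le σ

theorem kernelOK_Kr0 : KernelOK Kr0 Vr := by
  intro σ B
  obtain ⟨C, h⟩ := RMA.K0_bound σ B
  exact ⟨C, 4 * σ, fun s hs => ⟨(h s hs).1, (h s hs).2, fun x hx => RMA.K0_shift σ s hx⟩⟩

/-- **Mellin transfer.** -/
theorem mellin_transfer {a b : O → ℂ} {Ha Hb : ℝ} (ha : PolyB a Ha 1) (hb : PolyB b Hb 1)
    {A B : ℝ} (hA : 0 < A) (hB : 0 < B) {ω : ℂ}
    (h : ∀ x : ℝ, 0 < x → ∑' n : O, a n * (U1 (A * nr n * x) : ℂ) =
      ω * (x : ℂ)⁻¹ * ∑' n : O, b n * (U1 (B * nr n / x) : ℂ))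
    {X : ℝ} (hX : 0 < X) (s : ℂ) :
    ∑' n : O, a n * Wc (nr n / X) s =
      ω * ((A * X : ℝ) : ℂ) * ∑' n : O, b n * Vr (A * B * X * nr n) s := by
  obtain ⟨C, -, hG⟩ := norm_inv_Gamma_le (-2) 4
  exact MelN2.transfer kernelOK_Kr0 (fun _ _ => rfl)
    (fun F C hF hb => integral_vertical_shift (by norm_num) hF one_pos hb) hG ha hb hA hB
    (fun x hx => by simpa only [MelN2.fS, div_eq_mul_inv] using h x hx) hX s

theorem summable_mul_Vr {b : O → ℂ} {Hb B : ℝ} (hb : PolyB b Hb B) {c : ℝ} (hc : 0 < c) (s : ℂ) :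
    Summable fun n : O => ‖b n * Vr (c * nr n) s‖ := by
  obtain ⟨σ, hσ⟩ := exists_nat_ge (B + 2)
  obtain ⟨C, J, h⟩ := kernelOK_Kr0 σ |s.re|
  obtain ⟨h1, -, h3⟩ := h s le_rfl
  have hH := WeightB.H_nonneg hb
  set K : ℝ := ∫ u : ℝ, ‖Kr0 (σ + u * I) s‖ with hK
  have hK0 : 0 ≤ K := integral_nonneg fun _ => norm_nonneg _
  refine Summable.of_nonneg_of_le (fun _ => norm_nonneg _) (fun n => ?_)
    ((summable_nr_rpow one_lt_two).mul_left (Hb * K * c ^ (-(σ : ℝ))))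
  by_cases hn : n = 0
  · rw [hn, hb.1, zero_mul, norm_zero]
    exact mul_nonneg (by positivity) (Real.rpow_nonneg (Nat.cast_nonneg _) _)
  have hp := nr_pos hn
  have hx := mul_pos hc hp
  have hV : ‖Vr (c * nr n) s‖ ≤ K * (c * nr n) ^ (-(σ : ℝ)) := by
    rw [h3 _ hx, hK, ← integral_mul_const]
    refine norm_integral_le_of_norm_le (h1.norm.mul_const _)
      (Filter.Eventually.of_forall fun u => le_of_eq ?_)
    rw [norm_mul, Complex.norm_cpow_eq_rpow_re_of_pos hx]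
    simp
  rw [norm_mul]
  refine (mul_le_mul (hb.2 n) hV (norm_nonneg _) (by positivity)).trans ?_
  have e : Hb * nr n ^ B * (K * (c * nr n) ^ (-(σ : ℝ))) =
      Hb * K * c ^ (-(σ : ℝ)) * nr n ^ (B + -(σ : ℝ)) := by
    rw [Real.mul_rpow hc.le hp.le, Real.rpow_add hp]; ring
  rw [e]
  exact mul_le_mul_of_nonneg_left
    (Real.rpow_le_rpow_of_exponent_le (one_le_nr hn) (by linarith)) (by positivity)

end Crest.Agent.R17
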