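import Crest.Agent.R17.ThetaVor
import Crest.Agent.R17.ReflMel

/-!
# Row 17, reflection module O: twisted Voronoi formula and the local computations
-/

set_option autoImplicit false

noncomputable section

namespace Crest.Agent.R17

open scoped ComplexConjugate

/-- Constants. -/
def c1 : ℝ := (81 : ℝ) ^ (5 / 6 : ℝ) * b1
def c2 : ℝ := 81 * b1 ^ 2

theorem c1_pos : 0 < c1 := by unfold c1; have := b1_pos; positivity
theorem c2_pos : 0 < c2 := by unfold c2; have := b1_pos; positivity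

/-! ## part O1 -/

theorem O1_polyB_mul {a : O → ℂ} {H B : ℝ} (ha : PolyB a H B) {e : O → ℂ}
    (he : ∀ n, ‖e n‖ ≤ 1) : PolyB (fun n => a n * e n) H B := by
  refine ⟨by simp [ha.1], fun n => ?_⟩
  rw [norm_mul]
  exact (mul_le_of_le_one_right (norm_nonneg _) (he n)).trans (ha.2 n)

theorem voronoi_W {α β : O} (h : IsCoprime α β) (hβ : β ≠ 0) {X : ℝ} (hX : 0 < X) (s : ℂ) :
    ∑' r : O, tauh r * eq (r * α) β * Wc (nr r / X) s =
      (ι β ^ 2)⁻¹ * ((c1 * X : ℝ) : ℂ) *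
        ∑' ν : O, Bc α β ν * Vr (c2 * X / nr β ^ 2 * nr ν) s := by
  obtain ⟨C, hC⟩ := polyB_tauh
  obtain ⟨C', hC'⟩ := polyB_Bc
  have hb := b1_pos
  have hn := nr_pos hβ
  have h1 := mellin_transfer (O1_polyB_mul hC fun r => (norm_eq (r * α) β).le) (hC' α β)
    (A := 81 * b1) (B := b1 / nr β ^ 2) (by positivity) (by positivity)
    (fun x hx => voronoi_add h hβ hx) hX s
  have e1 : 81 * b1 * (b1 / nr β ^ 2) * X = c2 * X / nr β ^ 2 := by
    unfold c2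
    ring
  have e2 : (81 : ℝ) ^ (-(1 / 6 : ℝ)) * (81 * b1 * X) = c1 * X := by
    have : (81 : ℝ) ^ (5 / 6 : ℝ) = (81 : ℝ) ^ (-(1 / 6 : ℝ)) * 81 := by
      rw [← Real.rpow_add_one (by norm_num)]
      norm_num
    unfold c1
    rw [this]
    ring
  rw [h1, e1, ← e2, Complex.ofReal_mul _ (81 * b1 * X)]
  ring

/-- Characters modulo `D` as functions on `O`. -/
structure IsChr (D : O) (ψ : O → ℂ) : Prop where
  mul : ∀ x y, ψ (x * y) = ψ x * ψ y
  per : ∀ x y, D ∣ x - y → ψ x = ψ y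
  zero : ∀ x, ¬ IsCoprime x D → ψ x = 0
  norm : ∀ x, IsCoprime x D → ‖ψ x‖ = 1

/-- The dual character. -/
def dualChr (D : O) (ψ : O → ℂ) (x : O) : ℂ := conj (ψ x) * cub D x

theorem IsChr.dual {D : O} (hD : Primary D) {ψ : O → ℂ} (h : IsChr D ψ) :
    IsChr D (dualChr D ψ) := by
  refine ⟨fun x y => ?_, fun x y hxy => ?_, fun x hx => ?_, fun x hx => ?_⟩
  · unfold dualChr
    rw [h.mul, map_mul, cub_mul_right]
    ring
  · unfold dualChr
    rw [h.per x y hxy, cub_congr ((rad_dvd D).trans hxy)]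
  · unfold dualChr
    rw [h.zero x hx, map_zero, zero_mul]
  · unfold dualChr
    rw [norm_mul, Complex.norm_conj, h.norm x hx, norm_cub hD hx.symm, one_mul]
theorem IsChr.mul_mul {D E : O} {ψ χ : O → ℂ} (h : IsChr D ψ) (h' : IsChr E χ) :
    IsChr (D * E) fun x => ψ x * χ x := by
  refine ⟨fun x y => ?_, fun x y hxy => ?_, fun x hx => ?_, fun x hx => ?_⟩
  · rw [h.mul, h'.mul]
    ring
  · rw [h.per x y ((dvd_mul_right D E).trans hxy), h'.per x y ((dvd_mul_left E D).trans hxy)]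
  · rw [IsCoprime.mul_right_iff, not_and_or] at hx
    rcases hx with hx | hx
    · rw [h.zero x hx, zero_mul]
    · rw [h'.zero x hx, mul_zero]
  · rw [IsCoprime.mul_right_iff] at hx
    rw [norm_mul, h.norm x hx.1, h'.norm x hx.2, one_mul]
theorem IsChr.ft_mul {D E : O} (hD : D ≠ 0) (hE : E ≠ 0) (hDE : IsCoprime D E) {ψ χ : O → ℂ}
    (h : IsChr D ψ) (h' : IsChr E χ) (k : O) :
    ft (D * E) (fun x => ψ x * χ x) k = ψ E * χ D * ft D ψ k * ft E χ k := by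
  rw [Crest.Agent.R17.ft_mul hD hE hDE ψ χ h.per h'.per k]
  unfold ft
  simp only [h.mul, h'.mul, mul_assoc, ← Finset.mul_sum]
  ring

theorem IsChr.O1_one {D : O} {ψ : O → ℂ} (h : IsChr D ψ) : ψ 1 = 1 := by
  have h1 := h.norm 1 isCoprime_one_left
  have h2 := h.mul 1 1
  rw [one_mul] at h2
  have h3 : ψ 1 ≠ 0 := fun h0 => by simp [h0] at h1
  exact mul_left_cancel₀ h3 (by rw [← h2, mul_one])

theorem IsChr.O1_conj {D : O} {ψ : O → ℂ} (h : IsChr D ψ) {x y : O} (hxy : D ∣ y * x - 1) :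
    conj (ψ x) = ψ y := by
  have hx : IsCoprime x D := by
    obtain ⟨k, hk⟩ := hxy
    exact ⟨y, -k, by linear_combination hk⟩
  have h1 : ψ y * ψ x = 1 := by rw [← h.mul, h.per _ _ hxy, h.O1_one]
  have h2 : conj (ψ x) * ψ x = 1 := by
    rw [Complex.conj_mul', h.norm x hx]
    simp
  have h3 : ψ x ≠ 0 := right_ne_zero_of_mul_eq_one h1
  exact mul_right_cancel₀ h3 (h2.trans h1.symm)

theorem O1_exists_inv {D c : O} (hD : D ≠ 0) (hc : IsCoprime c D) :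
    ∃ inv : O → O, ∀ a, IsCoprime a D → inv a ∈ res D ∧ D ∣ inv a * (c * a) - 1 := by
  have : ∀ a, ∃ a', IsCoprime a D → a' ∈ res D ∧ D ∣ a' * (c * a) - 1 := by
    intro a
    by_cases ha : IsCoprime a D
    · obtain ⟨u, v, huv⟩ := hc.mul_left ha
      obtain ⟨r, ⟨hr, k, hk⟩, -⟩ := exists_unique_res hD u
      exact ⟨r, fun _ => ⟨hr, -v - k * (c * a), by linear_combination huv - (c * a) * hk⟩⟩
    · exact ⟨0, fun h => absurd h ha⟩
  exact Classical.skolem.1 this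

theorem O1_sum_inv {D c : O} (hD : D ≠ 0) {χ : O → ℂ} (h : IsChr D χ) {inv : O → O}
    (hinv : ∀ a, IsCoprime a D → inv a ∈ res D ∧ D ∣ inv a * (c * a) - 1) (g : O → ℂ) :
    ∑ a ∈ res D, conj (χ a) * g (inv a) = χ c * ∑ x ∈ res D, χ x * g x := by
  classical
  have hcop : ∀ a, IsCoprime a D → IsCoprime (inv a) D := fun a ha => by
    obtain ⟨k, hk⟩ := (hinv a ha).2
    exact ⟨c * a, -k, by linear_combination hk⟩
  have hinv2 : ∀ a ∈ res D, IsCoprime a D → inv (inv a) = a := fun a ha hc => by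
    obtain ⟨k, hk⟩ := (hinv a hc).2
    obtain ⟨h1, l, hl⟩ := hinv _ (hcop a hc)
    refine (exists_unique_res hD a).unique ⟨h1, ?_⟩ ⟨ha, by simp⟩
    exact ⟨inv (inv a) * k - a * l, by linear_combination inv (inv a) * hk - a * hl⟩
  rw [Finset.mul_sum, ← Finset.sum_filter_of_ne (p := fun a => IsCoprime a D),
    ← Finset.sum_filter_of_ne (p := fun a => IsCoprime a D) (s := res D)
      (f := fun x => χ c * (χ x * g x))]
  · refine Finset.sum_nbij' inv inv ?_ ?_ ?_ ?_ ?_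
    · intro a ha
      rw [Finset.mem_filter] at ha ⊢
      exact ⟨(hinv a ha.2).1, hcop a ha.2⟩
    · intro a ha
      rw [Finset.mem_filter] at ha ⊢
      exact ⟨(hinv a ha.2).1, hcop a ha.2⟩
    · intro a ha
      rw [Finset.mem_filter] at ha
      exact hinv2 a ha.1 ha.2
    · intro a ha
      rw [Finset.mem_filter] at ha
      exact hinv2 a ha.1 ha.2
    · intro a ha
      rw [Finset.mem_filter] at ha
      have h1 : D ∣ c * inv a * a - 1 := by
        convert (hinv a ha.2).2 using 2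
        ring
      rw [h.O1_conj h1, h.mul, mul_assoc]
  · intro x _ hx
    by_contra hn
    exact hx (by rw [h.zero x hn, zero_mul, mul_zero])
  · intro x _ hx
    by_contra hn
    exact hx (by rw [h.zero x hn, map_zero, zero_mul])

/-- Voronoi formula twisted by the Gauss sums of a character modulo the generic modulus `D`. -/
theorem voronoi_twist {β₀ D b b' : O} (hβ : β₀ ≠ 0) (hD : Primary D) (hDβ : IsCoprime D β₀)
    (hb : IsCoprime b β₀) (hb' : β₀ ∣ b' - b * D ^ 2) {ψ : O → ℂ} (hψ : IsChr D ψ)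
    {X : ℝ} (hX : 0 < X) (s : ℂ) :
    ∑' r : O, tauh r * eq (r * b) β₀ * ft D ψ r * Wc (nr r / X) s =
      (ι (β₀ * D) ^ 2)⁻¹ * ((c1 * X : ℝ) : ℂ) * dualChr D ψ (9 * β₀ ^ 2) *
        ∑' ν : O, Bc b' β₀ ν * ft D (dualChr D ψ) (-ν) *
          Vr (c2 * X / nr (β₀ * D) ^ 2 * nr ν) s := by
  have hD0 := hD.ne_zero
  have hβD := mul_ne_zero hβ hD0
  have hc : IsCoprime (9 * β₀ ^ 2) D := by
    refine IsCoprime.mul_left ?_ hDβ.symm.pow_left
    rw [show (9 : O) = 3 ^ 2 by norm_num]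
    exact hD.isCoprime_three.symm.pow_left
  obtain ⟨inv, hinv⟩ := O1_exists_inv hD0 hc
  obtain ⟨C, hC⟩ := polyB_tauh
  obtain ⟨C', hC'⟩ := polyB_Bc
  have hcX : 0 < c2 * X / nr (β₀ * D) ^ 2 := by
    have := c2_pos
    have := nr_pos hβD
    positivity
  set Y := c2 * X / nr (β₀ * D) ^ 2 with hY
  set K := (ι (β₀ * D) ^ 2)⁻¹ * ((c1 * X : ℝ) : ℂ) with hK
  have hs1 : ∀ a : O, Summable fun r : O =>
      ψ a * (tauh r * eq (r * (b * D + a * β₀)) (β₀ * D) * Wc (nr r / X) s) := fun a =>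
    (summable_Sm (O1_polyB_mul hC fun r => (norm_eq _ _).le) hX s).of_norm.mul_left _
  have hs2 : ∀ a : O, Summable fun ν : O => K * (conj (dualChr D ψ a) *
      (Bc b' β₀ ν * eq (-ν * inv a) D * Vr (Y * nr ν) s)) := fun a =>
    ((summable_mul_Vr (O1_polyB_mul (hC' b' β₀) fun ν => (norm_eq _ _).le) hcX
      s).of_norm.mul_left _).mul_left _
  have e1 : ∀ r : O, tauh r * eq (r * b) β₀ * ft D ψ r * Wc (nr r / X) s = ∑ a ∈ res D,
      ψ a * (tauh r * eq (r * (b * D + a * β₀)) (β₀ * D) * Wc (nr r / X) s) := fun r => by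
    unfold ft
    rw [Finset.mul_sum, Finset.sum_mul]
    refine Finset.sum_congr rfl fun a _ => ?_
    rw [show r * (b * D + a * β₀) = D * (r * b) + β₀ * (r * a) by ring, eq_crt hβ hD0]
    ring
  have e2 : ∀ a : O, ∑' r : O,
      ψ a * (tauh r * eq (r * (b * D + a * β₀)) (β₀ * D) * Wc (nr r / X) s) =
      ∑' ν : O, K * (conj (dualChr D ψ a) *
        (Bc b' β₀ ν * eq (-ν * inv a) D * Vr (Y * nr ν) s)) := fun a => by
    by_cases ha : IsCoprime a D
    · have hcop : IsCoprime (b * D + a * β₀) (β₀ * D) := by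
        refine IsCoprime.mul_right ?_ ?_
        · exact (hb.mul_left hDβ).add_mul_right_left a
        · rw [add_comm]
          exact (ha.mul_left hDβ.symm).add_mul_right_left b
      rw [tsum_mul_left, voronoi_W hcop hβD hX s, tsum_mul_left, mul_left_comm, ← tsum_mul_left]
      congr 1
      refine tsum_congr fun ν => ?_
      rw [Bc_struct hβ hD hDβ hb (hinv a ha).2 hb' ν, dualChr, map_mul, Complex.conj_conj,
        neg_mul]
      ring
    · simp [dualChr, hψ.zero a ha]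
  rw [tsum_congr e1, Summable.tsum_finsetSum fun a _ => hs1 a, Finset.sum_congr rfl fun a _ => e2 a,
    ← Summable.tsum_finsetSum fun a _ => hs2 a, ← tsum_mul_left]
  refine tsum_congr fun ν => ?_
  have e3 := O1_sum_inv hD0 (hψ.dual hD) hinv fun x => eq (-ν * x) D
  unfold ft
  calc _ = K * (Bc b' β₀ ν * Vr (Y * nr ν) s) *
        ∑ a ∈ res D, conj (dualChr D ψ a) * eq (-ν * inv a) D := by
        rw [Finset.mul_sum]
        exact Finset.sum_congr rfl fun a _ => by ring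
    _ = _ := by
        rw [e3]
        ring

/-! ## part O2: local expansions -/

/-- The character `∏_{p ∣ r} conj χ_p^{v_p(h)}` modulo `r`. -/
def psiH (h r x : O) : ℂ := ∏ p ∈ pf r, sym p x ^ (5 * vp p h + 6)

theorem isChr_sym_pow {n : O} (hn : PO n) {j : ℕ} (hj : j ≠ 0) : IsChr n fun x => sym n x ^ j :=
  ⟨fun x y => by rw [sym_mul_right hn, mul_pow], Gauss_sym_per n j,
    fun x hx => by rw [(sym_eq_zero_iff hn.1).2 fun h => hx h.symm, zero_pow hj],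
    fun x hx => by rw [norm_pow, norm_sym hn.1 hx.symm, one_pow]⟩

theorem O2_po {r p : O} (hr : PO r) (hp : p ∈ pf r) : PO p :=
  hr.of_dvd (BasicB.of_mem_pf hp).2.1 (BasicB.of_mem_pf hp).2.2

theorem isChr_psiH (h : O) {r : O} (hr : PO r) : IsChr r (psiH h r) := by
  refine ⟨fun x y => ?_, fun x y hxy => ?_, fun x hx => ?_, fun x hx => ?_⟩
  · rw [psiH, psiH, psiH, ← Finset.prod_mul_distrib]
    exact Finset.prod_congr rfl fun p hp => by rw [sym_mul_right (O2_po hr hp), mul_pow]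
  · exact Finset.prod_congr rfl fun p hp =>
      Gauss_sym_per p _ x y ((BasicB.of_mem_pf hp).2.2.trans hxy)
  · have h0 := (sym_eq_zero_iff hr.1).2 fun h' => hx h'.symm
    rw [sym_eq_prod] at h0
    obtain ⟨p, hp, h1⟩ := Finset.prod_eq_zero_iff.1 h0
    exact Finset.prod_eq_zero hp (by rw [eq_zero_of_pow_eq_zero h1, zero_pow (by omega)])
  · rw [psiH, norm_prod]
    exact Finset.prod_eq_one fun p hp => by
      rw [norm_pow, norm_sym (O2_po hr hp).1
        (hx.symm.of_isCoprime_of_dvd_left (BasicB.of_mem_pf hp).2.2), one_pow]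

theorem O2_ft_gs {n : O} {f : O → ℂ} {j : ℕ} (hf : ∀ x, f x = sym n x ^ (j + 6)) (k : O) :
    ft n f k = gs j n k := Finset.sum_congr rfl fun x _ => by rw [hf]

theorem sym_eq_ft {n : O} (hn : PO n) (hs : Squarefree n) (x : O) :
    sym n x * gs 5 n 1 = ft n (fun a => sym n a ^ 5) x := by
  rw [O2_ft_gs (j := 5) fun a => (sym_pow_add_six hn.1 a (by omega)).symm,
    gs_sqfree (by omega) hn hs x, map_pow, conj_sym hn.1, ← pow_mul,
    Gauss_sym_pow hn.1 x one_ne_zero 4, pow_one]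
theorem ft_dual_five {n : O} (hn : PO n) (hs : Squarefree n) (ν : O) :
    ft n (dualChr n fun a => sym n a ^ 5) (-ν) = quad n (-1) * gs 3 n 1 * quad n ν := by
  rw [O2_ft_gs (j := 3) fun a => ?_, gs_sqfree (by omega) hn hs, sym_pow_three hn.1, conj_quad,
    ← neg_one_mul ν, quad_mul_right hn]
  · ring
  · rw [dualChr, map_pow, conj_sym hn.1, ← sym_sq hn.1, ← pow_mul, ← pow_add]
    exact Gauss_sym_pow hn.1 a (j := 3 + 6) (by omega) 3
theorem ft_dual_six {n : O} (hn : PO n) (hs : Squarefree n) (ν : O) :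
    ft n (dualChr n fun a => sym n a ^ 6) (-ν) = gc n 1 * sym n ν ^ 4 := by
  rw [O2_ft_gs (j := 2) fun a => ?_, gs_two hn.1, gc_sqfree hn.1 hs, ← neg_one_mul ν,
    cub_mul_right, cub_neg_one, one_mul, conj_cub, ← sym_sq hn.1, ← pow_mul, mul_comm]
  rw [dualChr, map_pow, conj_sym hn.1, ← sym_sq hn.1, ← pow_mul, ← pow_add]
  exact Gauss_sym_pow hn.1 a (j := 2 + 6) (by omega) 4

theorem O2_sum_pdiv {z : O} (hz : Primary z) (hs : Squarefree z) (F : O → ℂ) :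
    ∑ d ∈ pdiv z, F d = ∑ S ∈ (pf z).powerset, F (∏ q ∈ S, q) := by
  have hn := hz.ne_zero
  refine Finset.sum_nbij' pf (fun s => ∏ q ∈ s, q) (fun d hd => ?_) (fun s hs => ?_)
    (fun d hd => ?_) (fun s hs => ?_) fun d hd => ?_
  · refine Finset.mem_powerset.2 fun p hp => ?_
    obtain ⟨h3, h4, h5⟩ := BasicB.of_mem_pf hp
    exact (mem_pf hn).2 ⟨h3, h4, h5.trans ((mem_pdiv hn).1 hd).2⟩
  · have hs' := Finset.mem_powerset.1 hs
    have h2 := squarefree_prod_primes (s := s) fun q hq => BasicB.pf_sub (hs' hq)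
    exact (mem_pdiv hn).2 ⟨h2.2.1, BasicB.prod_dvd_of_subset hn hs'⟩
  · exact ((mem_pdiv hn).1 hd).1.eq_rad (hs.squarefree_of_dvd ((mem_pdiv hn).1 hd).2)
  · exact (squarefree_prod_primes fun q hq => BasicB.pf_sub (Finset.mem_powerset.1 hs hq)).2.2
  · exact congrArg F (((mem_pdiv hn).1 hd).1.eq_rad
      (hs.squarefree_of_dvd ((mem_pdiv hn).1 hd).2)).symm

theorem O2_coprime {S : Finset O} (hS : ∀ p ∈ S, Prime p ∧ PO p) {q : O} (hq : Prime q)
    (hq' : PO q) (h : q ∉ S) : IsCoprime q (∏ p ∈ S, p) :=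
  IsCoprime.prod_right fun p hp => hq.coprime_iff_not_dvd.2 fun hd =>
    h (BasicB.eq_of_dvd hq (hS p hp).1 hq'.1 (hS p hp).2.1 hd ▸ hp)

theorem O2_po_prod {S : Finset O} (hS : ∀ p ∈ S, Prime p ∧ PO p) : PO (∏ p ∈ S, p) :=
  ⟨Primary.prod fun p hp => (hS p hp).2.1, IsCoprime.prod_left fun p hp => (hS p hp).2.2⟩

/-- Gauss sums of a product of local characters factor up to a unimodular constant. -/
theorem O2_ft_prod (e : O → ℕ) (S : Finset O) : ∃ u : ℂ, (∀ p ∈ S, Prime p ∧ PO p) →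
    ‖u‖ = 1 ∧ ∀ k, ft (∏ p ∈ S, p) (fun x => ∏ p ∈ S, sym p x ^ (e p + 6)) k =
      u * ∏ p ∈ S, gs (e p) p k := by
  classical
  induction S using Finset.induction_on with
  | empty =>
    refine ⟨1, fun _ => ⟨norm_one, fun k => ?_⟩⟩
    simpa [ft] using sum_res_eq_char one_ne_zero k
  | insert q S hq ih =>
    obtain ⟨u, hu⟩ := ih
    refine ⟨sym q (∏ p ∈ S, p) ^ (e q + 6) * (∏ p ∈ S, sym p q ^ (e p + 6)) * u, fun hS => ?_⟩
    have hS' : ∀ p ∈ S, Prime p ∧ PO p := fun p hp => hS p (Finset.mem_insert_of_mem hp)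
    obtain ⟨h1, h2⟩ := hS q (Finset.mem_insert_self _ _)
    obtain ⟨hu1, hu2⟩ := hu hS'
    have hc := O2_coprime hS' h1 h2 hq
    refine ⟨?_, fun k => ?_⟩
    · rw [norm_mul, norm_mul, norm_pow, norm_sym h2.1 hc, hu1, norm_prod,
        Finset.prod_eq_one fun p hp => ?_]
      · simp
      · rw [norm_pow, norm_sym (hS' p hp).2.1
          (hc.symm.of_isCoprime_of_dvd_left (Finset.dvd_prod_of_mem _ hp)), one_pow]
    · simp only [Finset.prod_insert hq]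
      have h3 := Gauss_crt (f := fun x => sym q x ^ (e q + 6))
        (g := fun x => ∏ p ∈ S, sym p x ^ (e p + 6)) h1.ne_zero (O2_po_prod hS').1.ne_zero hc
        (Gauss_sym_per q _)
        (fun x y hxy => Finset.prod_congr rfl fun p hp =>
          Gauss_sym_per p _ x y ((Finset.dvd_prod_of_mem _ hp).trans hxy))
        (fun x y => by rw [sym_mul_right h2, mul_pow])
        (fun x y => by
          rw [← Finset.prod_mul_distrib]
          exact Finset.prod_congr rfl fun p hp => by rw [sym_mul_right (hS' p hp).2, mul_pow]) k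
      refine h3.trans ?_
      have h4 : Gauss_G (fun x => ∏ p ∈ S, sym p x ^ (e p + 6)) (∏ p ∈ S, p) k = _ := hu2 k
      rw [h4, show Gauss_G (fun x => sym q x ^ (e q + 6)) q k = gs (e q) q k from rfl]
      ring

theorem O2_gs_zero_prod {S : Finset O} (hS : ∀ p ∈ S, Prime p ∧ PO p) (k : O) :
    gs 0 (∏ p ∈ S, p) k = ∏ p ∈ S, gs 0 p k := by
  classical
  induction S using Finset.induction_on with
  | empty => simp
  | insert q S hq ih =>
    have hS' : ∀ p ∈ S, Prime p ∧ PO p := fun p hp => hS p (Finset.mem_insert_of_mem hp)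
    obtain ⟨h1, h2⟩ := hS q (Finset.mem_insert_self _ _)
    rw [Finset.prod_insert hq, Finset.prod_insert hq,
      gs_mul 0 h2 (O2_po_prod hS') (O2_coprime hS' h1 h2 hq), ih hS']
    simp

open Classical in
theorem mark_eq_sum {z : O} (hz : PO z) (hs : Squarefree z) (x : O) :
    (if z ∣ x then 1 else 0 : ℂ) =
      (((nr z)⁻¹ : ℝ) : ℂ) * ∑ za ∈ pdiv z, ft za (fun a => sym za a ^ 6) x := by
  have hP : ∀ p ∈ pf z, Prime p ∧ PO p := fun p hp => ⟨(BasicB.pf_sub hp).1, O2_po hz hp⟩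
  have hr : ∏ p ∈ pf z, p = z := hz.1.eq_rad hs
  have h1 : ∑ za ∈ pdiv z, ft za (fun a => sym za a ^ 6) x =
      ∏ p ∈ pf z, (1 + gs 0 p x) := by
    rw [O2_sum_pdiv hz.1 hs, Finset.prod_one_add]
    exact Finset.sum_congr rfl fun S hS =>
      O2_gs_zero_prod (fun p hp => hP p (Finset.mem_powerset.1 hS hp)) x
  have h2 : ∏ p ∈ pf z, (1 + gs 0 p x) = ∏ p ∈ pf z, if p ∣ x then (nm p : ℂ) else 0 :=
    Finset.prod_congr rfl fun p hp => by
      rw [gs_prime_zero (dvd_zero 6) (hP p hp).1 (hP p hp).2]; ring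
  rw [h1, h2]
  split_ifs with hx
  · rw [Finset.prod_congr rfl fun p hp => if_pos ((BasicB.of_mem_pf hp).2.2.trans hx),
      ← Nat.cast_prod, ← nm_prod, hr]
    have h3 : (nm z : ℂ) = ((nr z : ℝ) : ℂ) := by simp [nr]
    rw [h3, ← Complex.ofReal_mul, inv_mul_cancel₀ (nr_pos hz.1.ne_zero).ne', Complex.ofReal_one]
  · obtain ⟨p, hp, hpx⟩ : ∃ p ∈ pf z, ¬ p ∣ x := by
      by_contra! H
      refine hx (hr ▸ Finset.prod_dvd_of_coprime (fun p hp q hq hpq => ?_) H)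
      exact (hP p hp).1.coprime_iff_not_dvd.2 fun hd =>
        hpq (BasicB.eq_of_dvd (hP p hp).1 (hP q hq).1 (hP p hp).2.1 (hP q hq).2.1 hd)
    rw [Finset.prod_eq_zero hp (if_neg hpx), mul_zero]

/-- The local expansion at one prime. -/
theorem O2_local (p : O) (v : ℕ) : ∃ c0 c1 : ℂ, Prime p → PO p → v ≠ 0 →
    ‖c0‖ ≤ 1 ∧ ‖c1‖ ≤ (Real.sqrt (nr p))⁻¹ ∧ ∀ x, sym p x ^ v = c1 * gs (5 * v) p x + c0 := by
  classical
  by_cases h6 : 6 ∣ v
  · refine ⟨((1 - (nr p)⁻¹ : ℝ) : ℂ), ((-(nr p)⁻¹ : ℝ) : ℂ), fun hp hp' hv => ?_⟩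
    have h1 := one_le_nr hp.ne_zero
    have h2 : (nr p)⁻¹ ≤ 1 := inv_le_one_of_one_le₀ h1
    have h3 : 0 < (nr p)⁻¹ := by positivity
    refine ⟨?_, ?_, fun x => ?_⟩
    · rw [Complex.norm_real, Real.norm_of_nonneg (by linarith)]; linarith
    · rw [Complex.norm_real, norm_neg, Real.norm_of_nonneg h3.le]
      exact inv_anti₀ (by positivity) (Real.sqrt_le_iff.2 ⟨by linarith, by nlinarith⟩)
    · have h4 : (nm p : ℂ) = ((nr p : ℝ) : ℂ) := by simp [nr]
      have h5 : ((nr p : ℝ) : ℂ) ≠ 0 := by exact_mod_cast (by linarith : nr p ≠ 0)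
      rw [gs_prime_zero (h6.mul_left 5) hp hp', h4]
      generalize nr p = N at h5
      push_cast
      split_ifs with hx
      · rw [(sym_eq_zero_iff hp'.1).2 fun hc => hp.not_isUnit (hc.isUnit_of_dvd' dvd_rfl hx),
          zero_pow hv]
        field_simp
        ring
      · obtain ⟨v, rfl⟩ := h6
        rw [pow_mul, sym_pow_six hp'.1 (hp.coprime_iff_not_dvd.2 hx), one_pow]
        ring
  · refine ⟨0, (gs (5 * v) p 1)⁻¹, fun hp hp' hv => ?_⟩
    have h1 := Gauss_norm_gs (j := 5 * v) (by omega) hp' hp.squarefree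
    have h2 : gs (5 * v) p 1 ≠ 0 := by
      rw [← norm_ne_zero_iff, h1]
      exact (Real.sqrt_pos.2 (nr_pos hp.ne_zero)).ne'
    refine ⟨by simp, by rw [norm_inv, h1], fun x => ?_⟩
    rw [gs_sqfree (by omega) hp' hp.squarefree x, map_pow, conj_sym hp'.1, ← pow_mul,
      show 5 * (5 * v) = v + 6 * (4 * v) by ring, Gauss_sym_pow hp'.1 x hv]
    field_simp
    ring

open Classical in
theorem O2_local_bound {p : O} (hp : Prime p) (hp' : PO p) (v : ℕ) (ν : O) :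
    (Real.sqrt (nr p))⁻¹ * ‖gs (v + 2) p (-ν)‖ ≤ if v % 6 = 4 then
      (Real.sqrt (nr p))⁻¹ + if p ∣ ν then Real.sqrt (nr p) else 0 else 1 := by
  have h0 := nr_pos hp.ne_zero
  have h1 : 0 < Real.sqrt (nr p) := Real.sqrt_pos.2 h0
  by_cases h4 : v % 6 = 4
  · rw [if_pos h4, gs_prime_zero (by omega) hp hp']
    simp only [dvd_neg]
    split_ifs with hx
    · have h2 : ‖(nm p : ℂ) - 1‖ ≤ 1 + nr p := by
        refine (norm_sub_le _ _).trans ?_
        simp [nr, add_comm]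
      have h3 : (Real.sqrt (nr p))⁻¹ * nr p = Real.sqrt (nr p) := by
        rw [inv_mul_eq_iff_eq_mul₀ h1.ne', Real.mul_self_sqrt h0.le]
      calc _ ≤ (Real.sqrt (nr p))⁻¹ * (1 + nr p) := by gcongr
        _ = _ := by rw [mul_add, mul_one, h3]
    · simp
  · rw [if_neg h4, gs_sqfree (by omega) hp' hp.squarefree, norm_mul,
      Gauss_norm_gs (by omega) hp' hp.squarefree, Complex.norm_conj, norm_pow,
      mul_left_comm, inv_mul_cancel₀ h1.ne', mul_one]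
    exact pow_le_one₀ (norm_nonneg _) (norm_sym_le _ _)

open Classical in
theorem sym_eq_sum {h : O} (hh : PO h) : ∃ coef : O → ℂ,
    (∀ x, sym h x = ∑ r ∈ pdiv (rad h), coef r * ft r (psiH h r) x) ∧
    ∀ r ∈ pdiv (rad h), ∀ ν : O, ‖coef r * ft r (dualChr r (psiH h r)) (-ν)‖ ≤
      ∏ p ∈ (pf r).filter (fun p => vp p h % 6 = 4),
        ((Real.sqrt (nr p))⁻¹ + if p ∣ ν then Real.sqrt (nr p) else 0) := by
  choose c0 c1 hc using fun p => O2_local p (vp p h)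
  choose u hu using O2_ft_prod fun p => 5 * vp p h
  have hP : ∀ p ∈ pf h, Prime p ∧ PO p := fun p hp => ⟨(BasicB.pf_sub hp).1, O2_po hh hp⟩
  have hc' := fun p hp => hc p (hP p hp).1 (hP p hp).2 (BasicB.vp_ne_zero hp)
  refine ⟨fun r => (u (pf r))⁻¹ * (∏ p ∈ pf r, c1 p) * ∏ p ∈ pf h \ pf r, c0 p, fun x => ?_,
    fun r hr ν => ?_⟩
  · rw [O2_sum_pdiv (primary_rad h) (squarefree_rad h), pf_rad, sym_eq_prod,
      Finset.prod_congr rfl fun p hp => (hc' p hp).2.2 x, Finset.prod_add]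
    refine Finset.sum_congr rfl fun S hS => ?_
    have hS' : ∀ p ∈ S, Prime p ∧ PO p := fun p hp => hP p (Finset.mem_powerset.1 hS hp)
    have h1 := (squarefree_prod_primes (s := S) fun q hq => ⟨(hS' q hq).1, (hS' q hq).2.1⟩).2.2
    obtain ⟨h2, h3⟩ := hu S hS'
    have h4 : u S ≠ 0 := by rw [← norm_ne_zero_iff, h2]; exact one_ne_zero
    have h5 : psiH h (∏ q ∈ S, q) = fun x => ∏ p ∈ S, sym p x ^ (5 * vp p h + 6) := by
      funext y; rw [psiH, h1]
    simp only [h5, h3, h1, Finset.prod_mul_distrib]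
    field_simp
  · obtain ⟨hr1, hr2⟩ := (mem_pdiv (primary_rad h).ne_zero).1 hr
    have hsq := (squarefree_rad h).squarefree_of_dvd hr2
    have hsub : pf r ⊆ pf h := fun p hp => by
      obtain ⟨h3, h4, h5⟩ := BasicB.of_mem_pf hp
      exact (mem_pf hh.1.ne_zero).2 ⟨h3, h4, h5.trans (hr2.trans (rad_dvd h))⟩
    have hS' : ∀ p ∈ pf r, Prime p ∧ PO p := fun p hp => hP p (hsub hp)
    have hrr : ∏ p ∈ pf r, p = r := hr1.eq_rad hsq
    obtain ⟨w, hw⟩ := O2_ft_prod (fun p => vp p h + 2) (pf r)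
    obtain ⟨hw1, hw2⟩ := hw hS'
    have h5 : dualChr r (psiH h r) = fun x => ∏ p ∈ pf r, sym p x ^ (vp p h + 2 + 6) := by
      funext y
      rw [dualChr, psiH, map_prod, ← sym_sq hr1, sym_eq_prod, ← Finset.prod_pow,
        ← Finset.prod_mul_distrib]
      refine Finset.prod_congr rfl fun p hp => ?_
      have h6 : vp p r = 1 := le_antisymm (BasicB.vp_le_one hsq (hS' p hp).1)
        (Nat.one_le_iff_ne_zero.2 (BasicB.vp_ne_zero hp))
      rw [h6, pow_one, map_pow, conj_sym (hS' p hp).2.1, ← pow_mul, ← pow_add,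
        ← Gauss_sym_pow (hS' p hp).2.1 y (j := vp p h + 2 + 6) (by omega) (4 * vp p h + 4)]
      congr 1
      ring
    rw [hrr] at hw2
    rw [h5, hw2, Finset.prod_filter]
    simp only [norm_mul, norm_inv, (hu _ hS').1, hw1, norm_prod, inv_one, one_mul]
    have h7 : ∏ p ∈ pf h \ pf r, ‖c0 p‖ ≤ 1 :=
      Finset.prod_le_one (fun _ _ => norm_nonneg _) fun p hp => (hc' p (Finset.mem_sdiff.1 hp).1).1
    calc _ ≤ (∏ p ∈ pf r, ‖c1 p‖) * 1 * ∏ p ∈ pf r, ‖gs (vp p h + 2) p (-ν)‖ := by gcongr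
      _ = ∏ p ∈ pf r, ‖c1 p‖ * ‖gs (vp p h + 2) p (-ν)‖ := by
        rw [mul_one, Finset.prod_mul_distrib]
      _ ≤ _ := Finset.prod_le_prod (fun _ _ => by positivity) fun p hp =>
        (mul_le_mul_of_nonneg_right (hc' p (hsub hp)).2.1 (norm_nonneg _)).trans
          (O2_local_bound (hS' p hp).1 (hS' p hp).2 _ ν)

/-! ## part O3: separation of the variables -/

theorem O3_norm_le {D : O} {ψ : O → ℂ} (h : IsChr D ψ) (x : O) : ‖ψ x‖ ≤ 1 := by
  by_cases hx : IsCoprime x D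
  · exact (h.norm x hx).le
  · simp [h.zero x hx]

theorem O3_dual_mul {D E : O} (hD : D ≠ 0) (hE : E ≠ 0) (ψ χ : O → ℂ) :
    dualChr (D * E) (fun x => ψ x * χ x) = fun x => dualChr D ψ x * dualChr E χ x := by
  funext x
  simp only [dualChr, map_mul, cub_mul_left hD hE]
  ring

theorem O3_ft {a r z : O} (ha : a ≠ 0) (hr : r ≠ 0) (hz : z ≠ 0) (har : IsCoprime a r)
    (haz : IsCoprime a z) (hrz : IsCoprime r z) {f g k : O → ℂ} (hf : IsChr a f) (hg : IsChr r g)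
    (hk : IsChr z k) (x : O) : ft (a * r * z) (fun y => f y * g y * k y) x =
      f z * k a * (g z * k r) * (f r * g a) * (ft a f x * ft r g x * ft z k x) := by
  rw [(hf.mul_mul hg).ft_mul (mul_ne_zero ha hr) hz (haz.mul_left hrz) hk,
    hf.ft_mul ha hr har hg, hk.mul]
  ring

theorem O3_cross {a z : O} (ha : Primary a) (hz : Primary z) (haz : IsCoprime a z) :
    dualChr a (fun x => sym a x ^ 5) z * dualChr z (fun x => sym z x ^ 6) a =
      sym a z ^ 5 * sym z a ^ 6 := by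
  simp only [dualChr, sym_pow_six hz haz.symm, map_one, one_mul, mul_one, map_pow, conj_sym ha,
    cub_recip hz ha, ← sym_sq ha]
  have h := sym_pow_six ha haz
  calc (sym a z ^ 5) ^ 5 * sym a z ^ 2 * sym a z ^ 2 = sym a z ^ 5 * (sym a z ^ 6) ^ 4 := by ring
    _ = sym a z ^ 5 := by rw [h, one_pow, mul_one]

theorem O3_norm_arg {a : O} (ha : a ≠ 0) : ‖((nr a : ℝ) : ℂ) / ι a ^ 2‖ = 1 := by
  rw [norm_div, norm_pow, norm_ι_sq, Complex.norm_real, Real.norm_of_nonneg (nr_pos ha).le,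
    div_self (nr_pos ha).ne']

theorem O3_mul_le {x y : ℂ} (hx : ‖x‖ ≤ 1) (hy : ‖y‖ ≤ 1) : ‖x * y‖ ≤ 1 := by
  rw [norm_mul]
  exact mul_le_one₀ hx (norm_nonneg _) hy

theorem O3_div_le {x y : ℂ} (hx : ‖x‖ ≤ 1) (hy : ‖y‖ = 1) : ‖x / y‖ ≤ 1 := by
  rwa [norm_div, hy, div_one]

theorem O3_trunc (A : O → ℂ) : ∃ ρ : O → ℂ, (∀ x, ‖ρ x‖ ≤ 1) ∧ ∀ x, ‖A x‖ ≤ 1 → ρ x = A x := by
  classical
  refine ⟨fun x => if ‖A x‖ ≤ 1 then A x else 0, fun x => ?_, fun x hx => if_pos hx⟩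
  beta_reduce
  split_ifs with hx
  · exact hx
  · simp

theorem O3_alg {f g k l m n f' k' l' m' n' : O → ℂ}
    {u1 u2 u3 u4 u5 u6 v1 v2 v3 v4 e1 e2 e3 g5 g3 gz q sz ia ir iz ib na nr nz C : ℂ}
    (h1 : u1 ≠ 0) (h2 : u2 ≠ 0) (h3 : u3 ≠ 0) (h4 : u4 ≠ 0) (h5 : u5 ≠ 0) (h6 : u6 ≠ 0)
    (h7 : g5 ≠ 0) (h8 : sz ≠ 0) (j1 : na ≠ 0) (j2 : nr ≠ 0) (j3 : nz ≠ 0)
    (key : ∑' x, f x * g x * (u5 * u6 * (u3 * u4) * (u1 * u2) * (k x * g5 * l x * m x)) * n x =
      ((ib * (ia * ir * iz)) ^ 2)⁻¹ * C * (e1 * e2 * e3) * ∑' x, f' x *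
        (u5 * u6 * (v3 * v4) * (v1 * v2) * (q * g3 * k' x * l' x * (gz * m' x))) * n' x) :
    ∑' x, f x * g x * (k x * l x * m x) * n x =
      v1 / u1 * (v2 / u2) * e1 * q * (g3 / g5) * (na / ia ^ 2) *
        (v3 / u3 * (v4 / u4) * e3 * (gz / sz) * (nz / iz ^ 2)) * (e2 * (nr / ir ^ 2) * (ib ^ 2)⁻¹) *
        (C / (na * nr * nz) * sz) * ∑' x, f' x * l' x * k' x * m' x * n' x := by
  have a1 : ∑' x, f x * g x * (u5 * u6 * (u3 * u4) * (u1 * u2) * (k x * g5 * l x * m x)) * n x =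
      u5 * u6 * (u3 * u4) * (u1 * u2) * g5 * ∑' x, f x * g x * (k x * l x * m x) * n x := by
    rw [← tsum_mul_left]
    exact tsum_congr fun x => by ring
  have a2 : ∑' x, f' x *
      (u5 * u6 * (v3 * v4) * (v1 * v2) * (q * g3 * k' x * l' x * (gz * m' x))) * n' x =
      u5 * u6 * (v3 * v4) * (v1 * v2) * q * g3 * gz * ∑' x, f' x * l' x * k' x * m' x * n' x := by
    rw [← tsum_mul_left]
    exact tsum_congr fun x => by ring
  rw [a1, a2] at key
  refine mul_left_cancel₀ (mul_ne_zero (mul_ne_zero (mul_ne_zero (mul_ne_zero h5 h6)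
    (mul_ne_zero h3 h4)) (mul_ne_zero h1 h2)) h7) (key.trans ?_)
  generalize ∑' x, f' x * l' x * k' x * m' x * n' x = S
  have a3 : (1 : ℂ) = u1 * u1⁻¹ * (u2 * u2⁻¹) * (u3 * u3⁻¹) * (u4 * u4⁻¹) * (g5 * g5⁻¹) *
      (sz * sz⁻¹) * (na * na⁻¹) * (nr * nr⁻¹) * (nz * nz⁻¹) := by
    simp only [mul_inv_cancel₀, ne_eq, not_false_eq_true, h1, h2, h3, h4, h7, h8, j1, j2, j3,
      mul_one]
  refine (one_mul _).symm.trans ?_
  rw [a3]
  ring

theorem refl_core {β₀ b h r : O} (hβ : β₀ ≠ 0) (hb : IsCoprime b β₀) (hr : PO r)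
    (hrβ : IsCoprime r β₀) : ∃ (ρ ρ' : O → ℂ) (ω : ℂ), (∀ x, ‖ρ x‖ ≤ 1) ∧ (∀ x, ‖ρ' x‖ ≤ 1) ∧
    ‖ω‖ ≤ 1 ∧ ∀ r₁ za b' : O, PO r₁ → Squarefree r₁ → PO za → Squarefree za → IsCoprime r₁ r →
      IsCoprime r₁ za → IsCoprime r za → IsCoprime r₁ β₀ → IsCoprime za β₀ →
      β₀ ∣ b' - b * (r₁ * r * za) ^ 2 → ∀ X : ℝ, 0 < X → ∀ s : ℂ,
      ∑' x : O, tauh x * eq (x * b) β₀ *
          (sym r₁ x * ft r (psiH h r) x * ft za (fun a => sym za a ^ 6) x) * Wc (nr x / X) s =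
        ρ r₁ * ρ' za * ω * ((c1 * X / (nr r₁ * nr r * nr za) * Real.sqrt (nr za) : ℝ) : ℂ) *
          ∑' ν : O, Bc b' β₀ ν * ft r (dualChr r (psiH h r)) (-ν) * quad r₁ ν * sym za ν ^ 4 *
            Vr (c2 * X / (nr β₀ * (nr r₁ * nr r * nr za)) ^ 2 * nr ν) s := by
  have hr0 := hr.1.ne_zero
  have h2 := isChr_psiH h hr
  have d2 := h2.dual hr.1
  obtain ⟨ρ, hρ, hρA⟩ := O3_trunc fun a =>
    dualChr a (fun x => sym a x ^ 5) r / sym a r ^ 5 *
      (dualChr r (psiH h r) a / psiH h r a) * dualChr a (fun x => sym a x ^ 5) (9 * β₀ ^ 2) *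
      quad a (-1) * (gs 3 a 1 / gs 5 a 1) * (((nr a : ℝ) : ℂ) / ι a ^ 2)
  obtain ⟨ρ', hρ', hρA'⟩ := O3_trunc fun z =>
    dualChr r (psiH h r) z / psiH h r z * (dualChr z (fun x => sym z x ^ 6) r / sym z r ^ 6) *
      dualChr z (fun x => sym z x ^ 6) (9 * β₀ ^ 2) * (gc z 1 / ((Real.sqrt (nr z) : ℝ) : ℂ)) *
      (((nr z : ℝ) : ℂ) / ι z ^ 2)
  refine ⟨ρ, ρ', dualChr r (psiH h r) (9 * β₀ ^ 2) * (((nr r : ℝ) : ℂ) / ι r ^ 2) *
    (ι β₀ ^ 2)⁻¹, hρ, hρ', ?_, ?_⟩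
  · refine O3_mul_le (O3_mul_le (O3_norm_le d2 _) (O3_norm_arg hr0).le) ?_
    rw [norm_inv, norm_pow, norm_ι_sq]
    exact inv_le_one_of_one_le₀ (one_le_nr hβ)
  intro a z b' ha has hz hzs har haz hrz haβ hzβ hb' X hX s
  have ha0 := ha.1.ne_zero
  have hz0 := hz.1.ne_zero
  have h1 := isChr_sym_pow ha (j := 5) (by norm_num)
  have h3 := isChr_sym_pow hz (j := 6) (by norm_num)
  have d1 := h1.dual ha.1
  have d3 := h3.dual hz.1
  have n1 : ‖sym a r ^ 5‖ = 1 := h1.norm r har.symm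
  have n2 : ‖psiH h r a‖ = 1 := h2.norm a har
  have n3 : ‖psiH h r z‖ = 1 := h2.norm z hrz.symm
  have n4 : ‖sym z r ^ 6‖ = 1 := h3.norm r hrz
  have n5 : ‖sym a z ^ 5‖ = 1 := h1.norm z haz.symm
  have n6 : ‖sym z a ^ 6‖ = 1 := h3.norm a haz
  have sa : 0 < Real.sqrt (nr a) := Real.sqrt_pos.2 (nr_pos ha0)
  have sz : 0 < Real.sqrt (nr z) := Real.sqrt_pos.2 (nr_pos hz0)
  have g3 := Gauss_norm_gs (j := 3) (by norm_num) ha has
  have g5 := Gauss_norm_gs (j := 5) (by norm_num) ha has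
  rw [hρA a (O3_mul_le (O3_mul_le (O3_mul_le (O3_mul_le (O3_mul_le
      (O3_div_le (O3_norm_le d1 _) n1) (O3_div_le (O3_norm_le d2 _) n2)) (O3_norm_le d1 _))
      (norm_quad_le _ _)) (by rw [norm_div, g3, g5, div_self sa.ne'])) (O3_norm_arg ha0).le),
    hρA' z (O3_mul_le (O3_mul_le (O3_mul_le (O3_mul_le (O3_div_le (O3_norm_le d2 _) n3)
      (O3_div_le (O3_norm_le d3 _) n4)) (O3_norm_le d3 _))
      (by rw [norm_div, norm_gc hz.1 hzs, Complex.norm_real, Real.norm_of_nonneg sz.le,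
        div_self sz.ne'])) (O3_norm_arg hz0).le)]
  have key := voronoi_twist hβ ((ha.1.mul hr.1).mul hz.1) ((haβ.mul_left hrβ).mul_left hzβ) hb hb'
    ((h1.mul_mul h2).mul_mul h3) hX s
  rw [O3_dual_mul (mul_ne_zero ha0 hr0) hz0, O3_dual_mul ha0 hr0] at key
  simp only [O3_ft ha0 hr0 hz0 har haz hrz h1 h2 h3, O3_ft ha0 hr0 hz0 har haz hrz d1 d2 d3,
    O3_cross ha.1 hz.1 haz, ← sym_eq_ft ha has, ft_dual_five ha has, ft_dual_six hz hzs, nr_mul,
    map_mul] at key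
  have ne : ∀ {w : ℂ}, ‖w‖ = 1 → w ≠ 0 := fun hw => norm_ne_zero_iff.1 (hw ▸ one_ne_zero)
  have hn : ∀ {w : O}, w ≠ 0 → ((nr w : ℝ) : ℂ) ≠ 0 := fun hw =>
    Complex.ofReal_ne_zero.2 (nr_pos hw).ne'
  rw [Complex.ofReal_mul (c1 * X / _), Complex.ofReal_div, Complex.ofReal_mul (nr a * nr r),
    Complex.ofReal_mul (nr a)]
  exact O3_alg (ne n1) (ne n2) (ne n3) (ne n4) (ne n5) (ne n6)
    (norm_ne_zero_iff.1 (g5 ▸ sa.ne')) (Complex.ofReal_ne_zero.2 sz.ne')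
    (hn ha0) (hn hr0) (hn hz0) key

end Crest.Agent.R17
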