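import Crest.Agent.R17.LS2Defs
import Crest.Agent.R17.ReflAux

/-!
# Row 17, module M4, part P1: auxiliary lemmas (exact Poisson formula for a pair of columns)
-/

set_option autoImplicit false

noncomputable section

namespace Crest.Agent.R17

open scoped ComplexConjugate

namespace M4A

theorem conj_pow {j j' : ℕ} (hj : (j = 1 ∧ j' = 5) ∨ (j = 5 ∧ j' = 1)) {n : O} (hn : Primary n)
    (a : O) : conj (sym n a ^ j) = sym n a ^ j' := by
  rw [map_pow, conj_sym hn, ← pow_mul]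
  rcases hj with ⟨rfl, rfl⟩ | ⟨rfl, rfl⟩
  · rfl
  · exact Gauss_sym_pow hn a one_ne_zero 4

theorem gs_five_mul {j j' : ℕ} (hj : (j = 1 ∧ j' = 5) ∨ (j = 5 ∧ j' = 1)) {n : O}
    (hn : Primary n) (k : O) : gs (5 * j) n k = gs j' n k := by
  rcases hj with ⟨rfl, rfl⟩ | ⟨rfl, rfl⟩
  · rfl
  · rw [show 5 * 5 = 1 + 6 + 6 + 6 + 6 from rfl, gs_add_six _ hn, gs_add_six _ hn,
      gs_add_six _ hn, gs_add_six _ hn]

theorem odd_pow {j : ℕ} (hj : j = 1 ∨ j = 5) {z : ℂ} (hz : z ^ 2 = 1) : z ^ j = z := by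
  rcases hj with rfl | rfl
  · exact pow_one z
  · rw [show z ^ 5 = (z ^ 2) ^ 2 * z by ring, hz]; ring

open Classical in
theorem sum_mu {g : O} (hg : Primary g) (m : O) :
    ∑ e ∈ pdiv g, (if e ∣ m then mu e else 0) = if IsCoprime g m then 1 else 0 := by
  rw [← Finset.sum_filter]
  by_cases hm : m = 0
  · subst hm
    have h1 := sum_mu_coprime hg hg.ne_zero
    have h2 : (pdiv g).filter (· ∣ (0 : O)) = (pdiv g).filter (· ∣ g) := by
      refine Finset.filter_congr fun e he => ?_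
      exact ⟨fun _ => ((mem_pdiv hg.ne_zero).1 he).2, fun _ => dvd_zero e⟩
    have h3 : IsCoprime g 0 ↔ IsCoprime g g := by
      rw [isCoprime_zero_right, isCoprime_self]
    rw [h2]
    simp only [h3]
    convert h1
  · convert sum_mu_coprime hg hm

open Classical in
theorem sym_mul_conj {g : O} (hg : Primary g) {j : ℕ} (hj : j ≠ 0) (m : O) :
    sym g m ^ j * conj (sym g m ^ j) = if IsCoprime g m then 1 else 0 := by
  split_ifs with h
  · rw [mul_comm]
    exact Gauss_conj_mul (by rw [norm_pow, norm_sym hg h, one_pow])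
  · rw [(sym_eq_zero_iff hg).2 h, zero_pow hj, zero_mul]

open Classical in
theorem tsum_dvd {e : O} (he : e ≠ 0) (F : O → ℂ) :
    ∑' m : O, (if e ∣ m then F m else 0) = ∑' m : O, F (e * m) := by
  rw [← (mul_right_injective₀ he).tsum_eq (f := fun m => if e ∣ m then F m else 0)]
  · simp
  · intro m hm
    by_contra h
    apply hm
    have : ¬ e ∣ m := fun ⟨c, hc⟩ => h ⟨c, hc.symm⟩
    simp [this]

theorem summable_bdd {X : ℝ} (hX : 0 < X) {F : O → ℂ} (hF : ∀ m, ‖F m‖ ≤ 1) :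
    Summable fun m : O => (gw (nr m / X) : ℂ) * F m := by
  refine Summable.of_norm_bounded (summable_gw' hX) fun m => ?_
  rw [norm_mul, Complex.norm_real, Real.norm_of_nonneg (gw_pos _).le]
  exact mul_le_of_le_one_right (gw_pos _).le (hF m)

/-- The Fourier transform of `χ_{n₁}^j χ_{n₂}^{j'}`. -/
theorem ft_pair {j j' : ℕ} (hj : (j = 1 ∧ j' = 5) ∨ (j = 5 ∧ j' = 1)) {n₁ n₂ : O} (h1 : PO n₁)
    (h1s : Squarefree n₁) (h2 : PO n₂) (h2s : Squarefree n₂) (hc : IsCoprime n₁ n₂) (k : O) :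
    ft (n₁ * n₂) (fun x => sym n₁ x ^ j * sym n₂ x ^ j') k =
      (Real.sqrt (nr n₁) : ℂ) * (Real.sqrt (nr n₂) : ℂ) * (Rs n₁ n₂ * Rs n₂ n₂) *
        ((gam j n₁ * sym n₁ k ^ j') * conj (gam j n₂ * sym n₂ k ^ j')) := by
  have hj0 : j ≠ 0 := by omega
  have hj0' : j' ≠ 0 := by omega
  have hj6 : ¬ 6 ∣ j := by omega
  have hj6' : ¬ 6 ∣ j' := by omega
  have hjj : j + j' = 6 := by omega
  have hjo : j = 1 ∨ j = 5 := by omega
  have hjo' : j' = 1 ∨ j' = 5 := by omega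
  rw [IsChr.ft_mul h1.1.ne_zero h2.1.ne_zero hc (isChr_sym_pow h1 hj0) (isChr_sym_pow h2 hj0'),
    O2_ft_gs (j := j) (fun x => (sym_pow_add_six h1.1 x hj0).symm),
    O2_ft_gs (j := j') (fun x => (sym_pow_add_six h2.1 x hj0').symm),
    gs_sqfree hj6 h1 h1s, gs_sqfree hj6' h2 h2s, conj_pow hj h1.1, sym_recip h1 h2, mul_pow,
    odd_pow hjo (Rs_sq h1.2 h2.2), Rs_self h2]
  have e1 : sym n₂ n₁ ^ j * sym n₂ n₁ ^ j' = 1 := by
    rw [← pow_add, hjj, sym_pow_six h2.1 hc.symm]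
  have e2 : conj (gs j n₂ 1) = sym n₂ (-1) * gs j' n₂ 1 := by
    rw [conj_gs j h2, gs_five_mul hj h2.1, gs_sqfree hj6' h2 h2s,
      conj_pow (j' := j) (by omega) h2.1, odd_pow hjo (Gauss_neg_one h2)]
  have e3 := Gauss_neg_one h2
  have s1 : (Real.sqrt (nr n₁) : ℂ) ≠ 0 := by
    exact_mod_cast (Real.sqrt_pos.2 (nr_pos h1.1.ne_zero)).ne'
  have s2 : (Real.sqrt (nr n₂) : ℂ) ≠ 0 := by
    exact_mod_cast (Real.sqrt_pos.2 (nr_pos h2.1.ne_zero)).ne'
  rw [map_mul, gam, gam, map_div₀, Complex.conj_ofReal, e2]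
  field_simp
  linear_combination
    (Rs n₁ n₂ * sym n₁ k ^ j' * gs j n₁ 1 * conj (sym n₂ k ^ j') * gs j' n₂ 1) * e1 -
    (Rs n₁ n₂ * sym n₁ k ^ j' * gs j n₁ 1 * conj (sym n₂ k ^ j') * gs j' n₂ 1) * e3

theorem pair_poisson {j j' : ℕ} (hj : (j = 1 ∧ j' = 5) ∨ (j = 5 ∧ j' = 1)) {g n₁ n₂ : O}
    (h1 : PO (g * n₁)) (h1s : Squarefree (g * n₁)) (h2 : PO (g * n₂))
    (h2s : Squarefree (g * n₂)) (hg : Primary g) (hc : IsCoprime n₁ n₂) {X : ℝ} (hX : 0 < X) :
    ∑' m : O, (gw (nr m / X) : ℂ) * (sym (g * n₁) m ^ j * conj (sym (g * n₂) m ^ j)) =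
      ∑ e ∈ pdiv g, mu e * ((X / (nr e * Real.sqrt (nr n₁) * Real.sqrt (nr n₂)) : ℝ) : ℂ) *
        (Rs n₁ n₂ * Rs n₂ n₂) * ∑' k : O, (gw (X * nr k / (nr e * nr n₁ * nr n₂)) : ℂ) *
          ((gam j n₁ * sym n₁ e ^ j * sym n₁ k ^ j') *
            conj (gam j n₂ * sym n₂ e ^ j * sym n₂ k ^ j')) := by
  classical
  have hj0 : j ≠ 0 := by omega
  have p1 : PO n₁ := h1.of_dvd (hg.of_mul h1.1) (dvd_mul_left _ _)
  have p2 : PO n₂ := h2.of_dvd (hg.of_mul h2.1) (dvd_mul_left _ _)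
  have s1 : Squarefree n₁ := h1s.squarefree_of_dvd (dvd_mul_left _ _)
  have s2 : Squarefree n₂ := h2s.squarefree_of_dvd (dvd_mul_left _ _)
  have z1 := p1.1.ne_zero
  have z2 := p2.1.ne_zero
  set f : O → ℂ := fun x => sym n₁ x ^ j * sym n₂ x ^ j' with hf
  have hf1 : ∀ x, ‖f x‖ ≤ 1 := fun x => by
    rw [hf, norm_mul, norm_pow, norm_pow]
    exact mul_le_one₀ (pow_le_one₀ (norm_nonneg _) (norm_sym_le _ _)) (by positivity)
      (pow_le_one₀ (norm_nonneg _) (norm_sym_le _ _))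
  have hfp : ∀ x y, n₁ * n₂ ∣ x - y → f x = f y := fun x y h => by
    simp only [hf]
    rw [Gauss_sym_per n₁ j x y ((dvd_mul_right _ _).trans h),
      Gauss_sym_per n₂ j' x y ((dvd_mul_left _ _).trans h)]
  have step1 : ∀ m : O, (gw (nr m / X) : ℂ) * (sym (g * n₁) m ^ j * conj (sym (g * n₂) m ^ j)) =
      ∑ e ∈ pdiv g, mu e * (if e ∣ m then (gw (nr m / X) : ℂ) * f m else 0) := fun m => by
    have a1 : ∑ e ∈ pdiv g, mu e * (if e ∣ m then (gw (nr m / X) : ℂ) * f m else 0) =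
        (∑ e ∈ pdiv g, (if e ∣ m then mu e else 0)) * ((gw (nr m / X) : ℂ) * f m) := by
      rw [Finset.sum_mul]
      refine Finset.sum_congr rfl fun e _ => ?_
      split_ifs <;> simp
    rw [a1, sum_mu hg, ← sym_mul_conj hg hj0, sym_mul_left hg.ne_zero z1,
      sym_mul_left hg.ne_zero z2, mul_pow, mul_pow, map_mul, conj_pow hj p2.1]
    simp only [hf]
    ring
  simp only [step1]
  rw [Summable.tsum_finsetSum]
  · refine Finset.sum_congr rfl fun e he => ?_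
    have pe : Primary e := ((mem_pdiv hg.ne_zero).1 he).1
    have ze := pe.ne_zero
    have ne := nr_pos ze
    have n1 := nr_pos z1
    have n2 := nr_pos z2
    rw [tsum_mul_left, tsum_dvd ze]
    have a2 : ∀ m : O, (gw (nr (e * m) / X) : ℂ) * f (e * m) =
        f e * (f m * (gw (nr m / (X / nr e)) : ℂ)) := fun m => by
      have : nr (e * m) / X = nr m / (X / nr e) := by
        rw [nr_mul]; field_simp
      rw [this]
      simp only [hf]
      rw [sym_mul_right p1, sym_mul_right p2]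
      ring
    simp only [a2]
    rw [tsum_mul_left, poisson (mul_ne_zero z1 z2) f hfp (div_pos hX ne)]
    simp only [hf]
    simp only [ft_pair hj p1 s1 p2 s2 hc]
    rw [← tsum_mul_left, ← tsum_mul_left, ← tsum_mul_left, ← tsum_mul_left]
    refine tsum_congr fun k => ?_
    have a3 : X / nr e * nr k / nr (n₁ * n₂) = X * nr k / (nr e * nr n₁ * nr n₂) := by
      rw [nr_mul]; field_simp
    have a4 : X / nr e / nr (n₁ * n₂) * (Real.sqrt (nr n₁) * Real.sqrt (nr n₂)) =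
        X / (nr e * Real.sqrt (nr n₁) * Real.sqrt (nr n₂)) := by
      have b1 := Real.sqrt_pos.2 n1
      have b2 := Real.sqrt_pos.2 n2
      rw [nr_mul]
      nth_rewrite 1 [← Real.mul_self_sqrt n1.le, ← Real.mul_self_sqrt n2.le]
      field_simp
    rw [a3, ← a4]
    simp only [map_mul, conj_pow hj p2.1 e]
    push_cast
    ring
  · intro e _
    refine Summable.mul_left _ ?_
    refine Summable.of_norm_bounded (summable_bdd hX hf1).norm fun m => ?_
    split_ifs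
    · exact le_rfl
    · rw [norm_zero]; exact norm_nonneg _

theorem class_separate {M : O} (hM : Adm M) [Fintype (Chr M)] (F : O → O → ℂ)
    (hF : ∀ x y, ‖F x y‖ ≤ 1)
    (hper : ∀ x x' y y', (4 : O) ∣ x - x' → (4 : O) ∣ y - y' → F x y = F x' y') :
    ∃ b : Chr M → Chr M → ℂ, (∀ ψ ψ', ‖b ψ ψ'‖ ≤ 1) ∧ ∀ x y, IsCoprime x M → IsCoprime y M →
      F x y = ∑ ψ, ∑ ψ', b ψ ψ' * (ev ψ x * conj (ev ψ' y)) := by
  classical
  have : Fact (M ≠ 0) := ⟨hM.1⟩
  have h4 : (4 : O) ∣ M := Dvd.dvd.trans ⟨18, by norm_num⟩ hM.2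
  choose s hs using (Ideal.Quotient.mk_surjective (I := Ideal.span {M}))
  have hs4 : ∀ x : O, (4 : O) ∣ x - s (Ideal.Quotient.mk _ x) := fun x =>
    h4.trans (mk_eq_mk_iff.1 (hs _).symm)
  have A : ∀ q : O ⧸ Ideal.span {M}, ∃ b : Chr M → ℂ, (∀ χ, ‖b χ‖ ≤ 1) ∧
      ∀ a, (if IsUnit a then F (s a) (s q) else 0) = ∑ χ, b χ * χ a := fun q =>
    exists_mulChar_expansion _ (fun a => by split_ifs; exacts [hF _ _, by simp])
      (fun a ha => if_neg ha)
  choose b hb hb' using A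
  have B : ∀ ψ : Chr M, ∃ c : Chr M → ℂ, (∀ χ, ‖c χ‖ ≤ 1) ∧
      ∀ q, (if IsUnit q then conj (b q ψ) else 0) = ∑ χ, c χ * χ q := fun ψ =>
    exists_mulChar_expansion _
      (fun a => by split_ifs; exacts [by rw [Complex.norm_conj]; exact hb _ _, by simp])
      (fun a ha => if_neg ha)
  choose c hc hc' using B
  refine ⟨fun ψ ψ' => conj (c ψ ψ'), fun ψ ψ' => by rw [Complex.norm_conj]; exact hc _ _,
    fun x y hx hy => ?_⟩
  have e1 := hb' (Ideal.Quotient.mk _ y) (Ideal.Quotient.mk _ x)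
  rw [if_pos (isUnit_mk_iff.2 hx)] at e1
  rw [hper _ _ _ _ (hs4 x) (hs4 y), e1]
  refine Finset.sum_congr rfl fun ψ _ => ?_
  have e2 := congrArg conj (hc' ψ (Ideal.Quotient.mk _ y))
  rw [if_pos (isUnit_mk_iff.2 hy), Complex.conj_conj, map_sum] at e2
  rw [e2, Finset.sum_mul]
  refine Finset.sum_congr rfl fun ψ' _ => ?_
  rw [map_mul, ev, ev]
  ring

theorem gam_mul' {j : ℕ} (hj : j = 1 ∨ j = 5) {m n : O} (hm : PO m) (hn : PO n)
    (h : IsCoprime m n) :
    gam j (m * n) = Rs m n * sym n (m ^ 2) ^ j * gam j m * gam j n := by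
  rw [gam, gam, gam, gs_mul j hm hn h, sym_recip hm hn, mul_pow, odd_pow hj (Rs_sq hm.2 hn.2),
    sym_pow_right hn, nr_mul, Real.sqrt_mul (nr_pos hm.1.ne_zero).le]
  push_cast
  ring

open MeasureTheory in
/-- A weighted sum of integrals of non-negative functions below an integrable majorant. -/
theorem sum_integral_le {I : Type} (s : Finset I) (w : I → ℝ) (f : I → ℝ → ℝ) (G : ℝ → ℝ)
    (hw : ∀ i ∈ s, 0 ≤ w i) (hf : ∀ i ∈ s, ∀ u, 0 ≤ f i u) (hG : Integrable G)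
    (h : ∀ u, ∑ i ∈ s, w i * f i u ≤ G u) : ∑ i ∈ s, w i * ∫ u, f i u ≤ ∫ u, G u := by
  classical
  have e1 : ∑ i ∈ s, w i * ∫ u, f i u =
      ∑ i ∈ s.filter (fun i => Integrable (f i)), ∫ u, w i * f i u := by
    rw [Finset.sum_filter]
    refine Finset.sum_congr rfl fun i _ => ?_
    split_ifs with hi
    · rw [integral_const_mul]
    · rw [integral_undef hi, mul_zero]
  have hint : ∀ i ∈ s.filter (fun i => Integrable (f i)), Integrable fun u => w i * f i u :=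
    fun i hi => (Finset.mem_filter.1 hi).2.const_mul _
  rw [e1, ← integral_finsetSum _ hint]
  refine integral_mono (integrable_finsetSum _ hint) hG fun u => le_trans ?_ (h u)
  exact Finset.sum_le_sum_of_subset_of_nonneg (Finset.filter_subset _ _)
    fun i hi _ => mul_nonneg (hw i hi) (hf i hi u)

end M4A

end Crest.Agent.R17
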