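import Crest.Agent.R17.Rows
import Crest.Agent.R17.LS2
import Crest.Agent.R17.M4P1
import Crest.Agent.R17.DPAuxA2
import Crest.Agent.R17.DPAuxA1
import Crest.Agent.R17.DPAuxG4

/-!
# Row 17, module M11: Poisson summation in the rows, forwards (`fwd`) and backwards (`back`, `gp`)

`Sr` is a row sum (coefficients against `conj χ_n(a)`), `Sd` a dual sum (coefficients against
`γ₅(n) χ_n(k)`).  All sums over rows are sharp and exclude `0`; inside the proofs use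
`1_{N a ≤ A} ≤ e^{2π/√3} gw(N a / A)`.
-/

set_option autoImplicit false

noncomputable section

namespace Crest.Agent.R17

open scoped ComplexConjugate

/-- Row sum. -/
def Sr (M : O) (L : ℝ) (α : O → ℂ) (a : O) : ℂ := ∑ n ∈ sp M L, α n * conj (sym n a)

/-- Dual sum. -/
def Sd (M : O) (L : ℝ) (β : O → ℂ) (k : O) : ℂ := ∑ n ∈ sp M L, β n * gam 5 n * sym n k

/-- Dual sum over the indices `n = m d³` (`m`, `d` squarefree, not necessarily coprime). -/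
def Sg (M : O) (L : ℝ) (β : O → O → ℂ) (k : O) : ℂ :=
  ∑ d ∈ sp M L, ∑ m ∈ sp M (L / nr d ^ 3),
    β d m * (Real.sqrt (nr d) : ℂ) * gam 5 m * sym (m * d ^ 3) k

open Classical in
/-- The coefficients `m ↦ α(h m)` on the `m` coprime to `h`, with a character of `m` and the
normalised twist `(N(f m)/L)^s`. -/
def ext {M : O} (α : O → ℂ) (h : O) (ν : Chr M) (f L : ℝ) (s : ℂ) (m : O) : ℂ :=
  if IsCoprime m h then α (h * m) * ev ν m * ((nr m * f / L : ℝ) : ℂ) ^ s else 0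

/-- `∑ |α|²`. -/
def nsq (M : O) (L : ℝ) (α : O → ℂ) : ℝ := ∑ n ∈ sp M L, ‖α n‖ ^ 2

/-- `∑ |α(n)|² L / N n`. -/
def nsq1 (M : O) (L : ℝ) (α : O → ℂ) : ℝ := ∑ n ∈ sp M L, ‖α n‖ ^ 2 * (L / nr n)

open Classical in
/-- The weight `∏_{p ∣ d, p⁶ ∣ a} N p`. -/
def w6 (d a : O) : ℝ := ∏ p ∈ (pf d).filter (fun p => p ^ 6 ∣ a), nr p

theorem rows_mono {A A' : ℝ} (h : A ≤ A') : rows A ⊆ rows A' :=
  Finset.erase_subset_erase _ fun _ ha => mem_ball.2 ((mem_ball.1 ha).trans (Nat.floor_mono h))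
theorem rows_eq_empty {A : ℝ} (h : A < 1) : rows A = ∅ := by
  refine Finset.eq_empty_of_forall_notMem fun a ha => ?_
  rw [rows, Finset.mem_erase, mem_ball, Nat.floor_eq_zero.2 h] at ha
  exact ha.1 (nm_eq_zero.1 (Nat.le_zero.1 ha.2))
theorem card_rows_le {A : ℝ} (hA : 0 ≤ A) : ((rows A).card : ℝ) ≤ 7 * A := by
  have h1 := card_ball_le ⌊A⌋₊
  have h2 : (rows A).card ≤ 7 * ⌊A⌋₊ := by
    rw [rows, Finset.card_erase_of_mem (mem_ball.2 (by simp [nm]))]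
    omega
  have h3 : ((rows A).card : ℝ) ≤ 7 * (⌊A⌋₊ : ℝ) := by exact_mod_cast h2
  linarith [Nat.floor_le hA]
theorem mem_sp {M : O} {X : ℝ} (hX : 0 ≤ X) {n : O} : n ∈ sp M X ↔ SP M n ∧ nr n ≤ X :=
  LS2.mem_sp hX
theorem sp_eq_empty (M : O) {X : ℝ} (h : X < 1) : sp M X = ∅ := by
  classical
  refine Finset.eq_empty_of_forall_notMem fun a ha => ?_
  rw [sp, Finset.mem_filter, mem_ball, Nat.floor_eq_zero.2 h] at ha
  exact ha.2.1.ne_zero (nm_eq_zero.1 (Nat.le_zero.1 ha.1))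

/-! ## A. pair lemmas -/

/-- Poisson in the rows for the pair `(g m₁, g m₂)`. -/
theorem pair_fwd {g m₁ m₂ : O} (hg : PO g) (h₁ : PO m₁) (h₂ : PO m₂)
    (hs : Squarefree (g * m₁ * m₂)) {A : ℝ} (hA : 0 < A) :
    ∑' a : O, conj (sym (g * m₁) a) * sym (g * m₂) a * (gw (nr a / A) : ℂ) =
      ∑ e ∈ pdiv g, mu e * (conj (sym m₁ e) * sym m₂ e) *
        ((A / (nr e * Real.sqrt (nr m₁ * nr m₂)) : ℝ) : ℂ) *
        (Rs m₁ m₂ * sym m₂ (-1) * gam 5 m₁ * conj (gam 5 m₂)) *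
        ∑' k : O, sym m₁ k * conj (sym m₂ k) * (gw (A * nr k / (nr e * nr m₁ * nr m₂)) : ℂ) :=
  DPA1.pair_fwd hg h₁ h₂ hs hA

/-- Poisson in the dual rows for the pair `(f₁ m₁, f₂ m₂)`; `ρ` is squarefree and contains the
primes of `f₁ f₂`; `e₁ ∣ ρ`, `e₂ ∣ ρ` are the parts that enter the Gauss sums
(`f_i = e_i d_i³`).  `G` and the phase `ω` do not depend on `m₁, m₂`, except through characters
modulo `4`. -/
theorem pair_back {ρ e₁ e₂ d₁ d₂ m₁ m₂ : O} (hρ : PO ρ) (h₁ : PO m₁) (h₂ : PO m₂)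
    (hs : Squarefree (ρ * m₁ * m₂)) (he₁ : Primary e₁) (he₂ : Primary e₂) (hd₁ : Primary d₁)
    (hd₂ : Primary d₂) (he₁' : e₁ ∣ ρ) (he₂' : e₂ ∣ ρ) (hd₁' : d₁ ∣ ρ) (hd₂' : d₂ ∣ ρ)
    {b : O} (hb : e₁ * d₁ ^ 3 * (e₂ * d₂ ^ 3) = ρ * b) {K : ℝ} (hK : 0 < K) :
    gam 5 (e₁ * m₁) * conj (gam 5 (e₂ * m₂)) *
      ∑' k : O, sym (e₁ * m₁ * d₁ ^ 3) k * conj (sym (e₂ * m₂ * d₂ ^ 3) k) * (gw (nr k / K) : ℂ) =
      gam 5 e₁ * conj (gam 5 e₂) * ((K / (nr ρ * Real.sqrt (nr m₁ * nr m₂)) : ℝ) : ℂ) *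
        (Rs m₁ m₂ * (sym m₁ (-1) * Rs e₁ m₁ * Rs (ρ * b) m₁) * (Rs e₂ m₂ * Rs (ρ * b) m₂)) *
        ∑' a : O, ft ρ (fun k => sym (e₁ * d₁ ^ 3) k * conj (sym (e₂ * d₂ ^ 3) k)) a *
          (conj (sym m₁ (a * b)) * sym m₂ (a * b)) *
          (gw (K * nr a / (nr ρ * nr m₁ * nr m₂)) : ℂ) :=
  DPA2.pair_back hρ h₁ h₂ hs he₁ he₂ hd₁ hd₂ he₁' he₂' hd₁' hd₂' hb hK

/-- Size of the frozen Gauss sum: a product of local factors, `√p · 1_{p ∤ a}` if the exponents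
`v₁, v₂ ∈ {0,1,3,4}` of `p` in `f₁, f₂` differ and a Ramanujan sum if they agree. -/
theorem norm_ft_frozen {ρ e₁ e₂ d₁ d₂ : O} (hρ : PO ρ) (hs : Squarefree ρ) (he₁ : Primary e₁)
    (he₂ : Primary e₂) (hd₁ : Primary d₁) (hd₂ : Primary d₂) (he₁' : e₁ ∣ ρ) (he₂' : e₂ ∣ ρ)
    (hd₁' : d₁ ∣ ρ) (hd₂' : d₂ ∣ ρ) {b : O} (hb : e₁ * d₁ ^ 3 * (e₂ * d₂ ^ 3) = ρ * b)
    (hρb : ρ ∣ b) (a : O) :
    Real.sqrt (nr d₁ * nr d₂) *
        ‖ft ρ (fun k => sym (e₁ * d₁ ^ 3) k * conj (sym (e₂ * d₂ ^ 3) k)) a‖ ≤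
      nr ρ * min (w6 d₁ (a * b)) (w6 d₂ (a * b)) ∧
    (ft ρ (fun k => sym (e₁ * d₁ ^ 3) k * conj (sym (e₂ * d₂ ^ 3) k)) 0 ≠ 0 →
      e₁ = e₂ ∧ d₁ = d₂) :=
  DPA2.norm_ft_frozen hρ hs he₁ he₂ hd₁ hd₂ he₁' he₂' hd₁' hd₂' hb hρb a

/-- Functions of two classes modulo `4` are combinations of products of characters modulo `M`. -/
theorem Rs_expand {M : O} (hM : Adm M) [Fintype (Chr M)] : ∃ b : Chr M → Chr M → ℂ,
    (∀ ν ν', ‖b ν ν'‖ ≤ 1) ∧ ∀ m n, IsCoprime m M → IsCoprime n M →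
      Rs m n = ∑ ν, ∑ ν', b ν ν' * ev ν m * conj (ev ν' n) :=
  DPA1.Rs_expand hM

/-- `m ↦ Rs c m` is a character modulo `M`. -/
theorem exists_chr_Rs {M : O} (hM : Adm M) {c : O} (hc : IsCoprime c 2) :
    ∃ ν : Chr M, ∀ m, IsCoprime m M → ev ν m = Rs c m :=
  DPA1.exists_chr_Rs hM hc

/-! ## B. the three inequalities

Common scheme: open the square, freeze the common part of the pair, apply the pair lemma, remove the
condition `(m₁, m₂) = 1` by `sum_mu_coprime` (variable `t`), discard the tail of the dual variable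
(`tsum_gw_tail_le`), separate `m₁, m₂` in the Gaussian by `gw_eq_integral` on the line
`σ = min(ε/10, 1/2)` (twists `s = σ - 1/2 ± iu`), expand `Rs` (`Rs_expand`, `exists_chr_Rs`,
`exists_chr_sym`), use `|x y| ≤ (|x|² + |y|²)/2`, integrate the hypothesis against `|Γ(σ+iu)|`
(`integrable_Gamma_mul_pow`). -/

namespace B1

open Classical in
/-- The coefficients cut to `sp M L`. -/
def cut (M : O) (L : ℝ) (α : O → ℂ) (n : O) : ℂ := if n ∈ sp M L then α n else 0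

theorem cut_mem {M : O} {L : ℝ} {α : O → ℂ} {n : O} (h : cut M L α n ≠ 0) : n ∈ sp M L := by
  by_contra h'
  exact h (if_neg h')

theorem cut_of_mem {M : O} {L : ℝ} (α : O → ℂ) {n : O} (h : n ∈ sp M L) : cut M L α n = α n :=
  if_pos h

theorem supp_cut (M : O) {L : ℝ} (hL : 0 ≤ L) (α : O → ℂ) : Supp M L (cut M L α) :=
  fun _ h => (mem_sp hL).1 (cut_mem h)

theorem sp_mono (M : O) {L R : ℝ} (hL : 0 ≤ L) (h : L ≤ R) : sp M L ⊆ sp M R := fun _ hn =>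
  (mem_sp (hL.trans h)).2 ⟨((mem_sp hL).1 hn).1, ((mem_sp hL).1 hn).2.trans h⟩

theorem sum_cut {A : Type*} [AddCommMonoid A] (M : O) {L R : ℝ} (hL : 0 ≤ L) (h : L ≤ R)
    (α : O → ℂ) (F : O → ℂ → A) (hF : ∀ n, F n 0 = 0) :
    ∑ n ∈ sp M R, F n (cut M L α n) = ∑ n ∈ sp M L, F n (α n) := by
  rw [← Finset.sum_subset (sp_mono M hL h) fun n _ hn => by rw [cut, if_neg hn, hF]]
  exact Finset.sum_congr rfl fun n hn => by rw [cut_of_mem α hn]

theorem rowS_cut (M : O) {L R : ℝ} (hL : 0 ≤ L) (h : L ≤ R) (α : O → ℂ) (a : O) :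
    rowS M R 5 (cut M L α) a = Sr M L α a := by
  rw [rowS, sum_cut M hL h α (fun n z => z * sym n a ^ 5) fun _ => zero_mul _, Sr]
  exact Finset.sum_congr rfl fun n hn => by rw [conj_sym ((mem_sp hL).1 hn).1.1]

theorem cop_of_sqfree {x y : O} (h : Squarefree (x * y)) : IsCoprime x y :=
  isRelPrime_iff_isCoprime.1 (IsRelPrime.of_squarefree_mul h)

/-- The support of the dual sums. -/
theorem dual_supp {M : O} {L R : ℝ} (hL : 0 ≤ L) (hR : 0 ≤ R) {α : O → ℂ} {g e h k : O}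
    {ψ : Chr M} {w : ℂ} (hg : g ∈ sp M R) (hh : h ∈ sp M R)
    (h0 : rowS M R 1 (dualC 5 (cut M L α) g e h ψ w) k ≠ 0) :
    g ∈ sp M L ∧ h ∈ sp (M * g) (L / nr g) := by
  obtain ⟨n, hn, h1⟩ := Finset.exists_ne_zero_of_sum_ne_zero h0
  have h2 : cut M L α (g * h * n) ≠ 0 := fun h2 => h1 (by simp [dualC, h2])
  have h3 := cut_mem h2
  obtain ⟨hg1, -⟩ := (mem_sp hR).1 hg
  obtain ⟨hh1, -⟩ := (mem_sp hR).1 hh
  obtain ⟨hn1, -⟩ := (mem_sp hR).1 hn
  obtain ⟨h4, h5⟩ := (mem_sp hL).1 h3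
  have ng := nr_pos hg1.1.ne_zero
  refine ⟨P1b.mem_sp_of_dvd hL h3 hg1.1 ⟨h * n, by ring⟩, (mem_sp (by positivity)).2
    ⟨⟨hh1.1, hh1.2.1, hh1.2.2.mul_right ?_⟩, ?_⟩⟩
  · exact (cop_of_sqfree (h4.2.1.squarefree_of_dvd (dvd_mul_right _ _))).symm
  · rw [le_div_iff₀ ng]
    rw [nr_mul, nr_mul] at h5
    have := one_le_nr hn1.1.ne_zero
    have := nr_pos hh1.1.ne_zero
    nlinarith [mul_pos ng this]

/-- The dual sum in the normalisation of `Sd`. -/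
theorem dual_eq {M : O} {L R : ℝ} (hL : 0 < L) (hLR : L ≤ R) (α : O → ℂ) {g h : O} (e k : O)
    (ψ : Chr M) (w : ℂ) (hg : g ∈ sp M L) (hh : h ∈ sp (M * g) (L / nr g)) :
    Sd M (L / (nr g * nr h))
        (fun m => ext α (g * h) ψ (nr g * nr h) L w m * conj (sym m (e * h ^ 2))) k =
      ((nr g * nr h / L : ℝ) : ℂ) ^ w * rowS M R 1 (dualC 5 (cut M L α) g e h ψ w) k := by
  obtain ⟨hg1, -⟩ := (mem_sp hL.le).1 hg
  have ng := one_le_nr hg1.1.ne_zero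
  obtain ⟨hh1, -⟩ := (mem_sp (by positivity)).1 hh
  have nh := one_le_nr hh1.1.ne_zero
  have hf : 1 ≤ nr g * nr h := one_le_mul_of_one_le_of_one_le ng nh
  have hsub : sp M (L / (nr g * nr h)) ⊆ sp M R :=
    sp_mono M (by positivity) ((div_le_self hL.le hf).trans hLR)
  have hgh : IsCoprime g h := hh1.2.2.of_mul_right_right.symm
  rw [rowS, ← Finset.sum_subset hsub, Finset.mul_sum, Sd]
  · refine Finset.sum_congr rfl fun n hn => ?_
    obtain ⟨hn1, hn2⟩ := (mem_sp (by positivity)).1 hn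
    have nn := nr_pos hn1.1.ne_zero
    by_cases hc : IsCoprime n (g * h)
    · have hm : g * h * n ∈ sp M L := by
        refine (mem_sp hL.le).2 ⟨⟨(hg1.1.mul hh1.1).mul hn1.1, ?_,
          (hg1.2.2.mul_left hh1.2.2.of_mul_right_left).mul_left hn1.2.2⟩, ?_⟩
        · exact squarefree_mul_iff.2 ⟨hc.symm.isRelPrime,
            squarefree_mul_iff.2 ⟨hgh.isRelPrime, hg1.2.1, hh1.2.1⟩, hn1.2.1⟩
        · rw [le_div_iff₀ (by positivity)] at hn2
          rw [nr_mul, nr_mul]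
          linarith
      have e1 : ((nr n * (nr g * nr h) / L : ℝ) : ℂ) ^ w =
          (nr n : ℂ) ^ w * ((nr g * nr h / L : ℝ) : ℂ) ^ w := by
        rw [mul_div_assoc, Complex.ofReal_mul, Complex.mul_cpow_ofReal_nonneg nn.le (by positivity)]
      simp only [ext, if_pos hc, dualC, cut_of_mem α hm, e1, conj_sym hn1.1]
      ring
    · have h0 : cut M L α (g * h * n) = 0 := by
        by_contra h0
        exact hc (cop_of_sqfree ((mem_sp hL.le).1 (cut_mem h0)).1.2.1).symm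
      simp [ext, hc, dualC, h0]
  · intro n hn hn'
    have h0 : cut M L α (g * h * n) = 0 := by
      by_contra h0
      refine hn' ((mem_sp (by positivity)).2 ⟨((mem_sp (hL.le.trans hLR)).1 hn).1, ?_⟩)
      have h1 := ((mem_sp hL.le).1 (cut_mem h0)).2
      rw [nr_mul, nr_mul] at h1
      rw [le_div_iff₀ (by positivity)]
      linarith
    simp [dualC, h0]

theorem dual_le {M : O} {L R σ : ℝ} (hL : 0 < L) (hLR : L ≤ R) (hσ : 0 ≤ σ) (α : O → ℂ)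
    {g h : O} (e k : O) (ψ : Chr M) {w : ℂ} (hw : w.re = -(1 / 2) + σ) (hg : g ∈ sp M L)
    (hh : h ∈ sp (M * g) (L / nr g)) :
    ‖rowS M R 1 (dualC 5 (cut M L α) g e h ψ w) k‖ ^ 2 ≤ R ^ (2 * σ) * (nr g * nr h / L) *
      ‖Sd M (L / (nr g * nr h))
        (fun m => ext α (g * h) ψ (nr g * nr h) L w m * conj (sym m (e * h ^ 2))) k‖ ^ 2 := by
  obtain ⟨hg1, -⟩ := (mem_sp hL.le).1 hg
  have ng := one_le_nr hg1.1.ne_zero
  obtain ⟨hh1, -⟩ := (mem_sp (by positivity)).1 hh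
  have nh := one_le_nr hh1.1.ne_zero
  have hf : 1 ≤ nr g * nr h := one_le_mul_of_one_le_of_one_le ng nh
  set y : ℝ := nr g * nr h / L with hy
  have hy0 : 0 < y := by positivity
  have hR : 0 < R := hL.trans_le hLR
  rw [dual_eq hL hLR α e k ψ w hg hh, norm_mul, Complex.norm_cpow_eq_rpow_re_of_pos hy0, hw,
    mul_pow, ← mul_assoc]
  refine le_mul_of_one_le_left (by positivity) ?_
  have e1 : R ^ (2 * σ) * y * (y ^ (-(1 / 2) + σ)) ^ 2 = (R * y) ^ (2 * σ) := by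
    rw [Real.mul_rpow hR.le hy0.le, ← Real.rpow_natCast, ← Real.rpow_mul hy0.le, mul_assoc]
    congr 1
    nth_rewrite 1 [← Real.rpow_one y]
    rw [← Real.rpow_add hy0]
    congr 1
    push_cast
    ring
  rw [e1]
  refine Real.one_le_rpow ?_ (by positivity)
  rw [hy, ← mul_div_assoc, le_div_iff₀ hL]
  nlinarith

theorem OD_le {M : O} {L R σ A : ℝ} (hL : 0 < L) (hLR : L ≤ R) (hσ : 0 ≤ σ) (hA : 0 ≤ A)
    (Λ : ℝ) (α : O → ℂ) (ψ : Chr M) {w : ℂ} (hw : w.re = -(1 / 2) + σ) :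
    OD M R 5 1 (cut M L α) A L Λ ψ w ≤ R ^ (2 * σ) *
      ∑ g ∈ sp M L, ∑ e ∈ pdiv g, ∑ t ∈ sp (M * g) (L / nr g), A * nr g / (nr e * L) *
        ∑ k ∈ rows (nr e * (L / nr g) ^ 2 * Λ / A),
          ‖Sd M (L / (nr g * nr t))
            (fun m => ext α (g * t) ψ (nr g * nr t) L w m * conj (sym m (e * t ^ 2))) k‖ ^ 2 := by
  have hR : 0 ≤ R := hL.le.trans hLR
  rw [OD, ← Finset.sum_subset (sp_mono M hL.le hLR), Finset.mul_sum]
  · refine Finset.sum_le_sum fun g hg => ?_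
    obtain ⟨hg1, -⟩ := (mem_sp hL.le).1 hg
    have ng := one_le_nr hg1.1.ne_zero
    rw [Finset.mul_sum]
    refine Finset.sum_le_sum fun e he => ?_
    have ne := one_le_nr ((mem_pdiv hg1.1.ne_zero).1 he).1.ne_zero
    have hsub : sp (M * g) (L / nr g) ⊆ sp M R := fun t ht => by
      obtain ⟨h1, h2⟩ := (mem_sp (by positivity)).1 ht
      exact (mem_sp hR).2 ⟨⟨h1.1, h1.2.1, h1.2.2.of_mul_right_left⟩,
        h2.trans ((div_le_self hL.le ng).trans hLR)⟩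
    rw [← Finset.sum_subset hsub, Finset.mul_sum]
    · refine Finset.sum_le_sum fun t ht => ?_
      have nt := one_le_nr ((mem_sp (by positivity)).1 ht).1.1.ne_zero
      rw [show Λ * nr e * (L / nr g) ^ 2 / A = nr e * (L / nr g) ^ 2 * Λ / A by ring]
      refine (mul_le_mul_of_nonneg_left (Finset.sum_le_sum fun k _ =>
        dual_le hL hLR hσ α e k ψ hw hg ht) (by positivity)).trans_eq ?_
      rw [← Finset.mul_sum]
      field_simp
    · intro t ht ht'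
      refine mul_eq_zero_of_right _ (Finset.sum_eq_zero fun k _ => ?_)
      by_contra h0
      exact ht' (dual_supp hL.le hR (sp_mono M hL.le hLR hg) ht
        (norm_ne_zero_iff.1 (ne_zero_pow two_ne_zero h0))).2
  · intro g hg hg'
    refine Finset.sum_eq_zero fun e _ => Finset.sum_eq_zero fun t ht =>
      mul_eq_zero_of_right _ (Finset.sum_eq_zero fun k _ => ?_)
    by_contra h0
    exact hg' (dual_supp hL.le hR hg ht (norm_ne_zero_iff.1 (ne_zero_pow two_ne_zero h0))).1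

/-- The sharp sum is majorised by the Gaussian sum. -/
theorem maj {A : ℝ} (hA : 0 < A) (f : O → ℝ) (h0 : ∀ a, 0 ≤ f a) {H : ℝ} (hH : ∀ a, f a ≤ H) :
    ∑ a ∈ rows A, f a ≤ (gw 1)⁻¹ * ∑' a : O, gw (nr a / A) * f a := by
  have h1 := gw_pos 1
  have hs : Summable fun a : O => gw (nr a / A) * f a :=
    Summable.of_nonneg_of_le (fun a => mul_nonneg (gw_pos _).le (h0 a))
      (fun a => mul_le_mul_of_nonneg_left (hH a) (gw_pos _).le) ((summable_gw' hA).mul_right H)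
  rw [le_inv_mul_iff₀ h1, Finset.mul_sum]
  refine le_trans (Finset.sum_le_sum fun a ha => ?_)
    (hs.sum_le_tsum _ fun a _ => mul_nonneg (gw_pos _).le (h0 a))
  refine mul_le_mul_of_nonneg_right (gw_antitone ?_) (h0 a)
  rw [div_le_one hA]
  exact ((mem_rows hA.le).1 ha).2

theorem norm_Sr_le (M : O) (L : ℝ) (α : O → ℂ) (a : O) :
    ‖Sr M L α a‖ ≤ ∑ n ∈ sp M L, ‖α n‖ := by
  refine (norm_sum_le _ _).trans (Finset.sum_le_sum fun n _ => ?_)
  rw [norm_mul, Complex.norm_conj]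
  exact mul_le_of_le_one_right (norm_nonneg _) (norm_sym_le _ _)

theorem card_sp_le (M : O) {L : ℝ} (hL : 1 ≤ L) : ((sp M L).card : ℝ) ≤ 8 * L := by
  classical
  have h1 : (sp M L).card ≤ 7 * ⌊L⌋₊ + 1 := (Finset.card_filter_le _ _).trans (card_ball_le _)
  have h2 : ((sp M L).card : ℝ) ≤ 7 * (⌊L⌋₊ : ℝ) + 1 := by exact_mod_cast h1
  linarith [Nat.floor_le (show 0 ≤ L by linarith)]

theorem nsq_nonneg (M : O) (L : ℝ) (α : O → ℂ) : 0 ≤ nsq M L α :=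
  Finset.sum_nonneg fun _ _ => by positivity

end B1

/-- **Forward Poisson.**  `γ₅(t m) = γ₅(t) γ₅(m) Rs(t,m) conj χ_m(t²)` produces the twist by `t²`. -/
theorem fwd {M : O} (hM : Adm M) {ε : ℝ} (hε : 0 < ε) (J : ℕ) : ∃ C : ℝ, 0 < C ∧
    ∀ (R A L E : ℝ) (α : O → ℂ), 1 ≤ A → A ≤ R → 1 ≤ L → L ≤ R →
      (∀ (ν : Chr M) (s : ℂ), -(1 / 2) ≤ s.re → s.re ≤ 0 →
        ∑ g ∈ sp M L, ∑ e ∈ pdiv g, ∑ t ∈ sp (M * g) (L / nr g), A * nr g / (nr e * L) *
          ∑ k ∈ rows (nr e * (L / nr g) ^ 2 * R ^ ε / A),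
            ‖Sd M (L / (nr g * nr t))
              (fun m => ext α (g * t) ν (nr g * nr t) L s m * conj (sym m (e * t ^ 2))) k‖ ^ 2 ≤
          E * (1 + |s.im|) ^ J) →
      ∑ a ∈ rows A, ‖Sr M L α a‖ ^ 2 ≤ C * (A * nsq M L α + R ^ ε * E) := by
  set σ : ℝ := min (ε / 6) (1 / 2) with hσ
  have hσ0 : 0 < σ := lt_min (by positivity) (by norm_num)
  have hσ1 : σ ≤ 1 / 2 := min_le_right _ _
  have hσ2 : σ ≤ ε / 6 := min_le_left _ _
  obtain ⟨C, hC, H⟩ := poisson_family hM hσ0 (by linarith) J (8 / ε)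
  have hg := gw_pos 1
  refine ⟨(gw 1)⁻¹ * (1 + 8 * C), by positivity, fun R A L E α hA hAR hL hLR hE => ?_⟩
  have hR : 1 ≤ R := hA.trans hAR
  have hL0 : 0 < L := by linarith
  have hA0 : 0 < A := by linarith
  have hE0 : 0 ≤ E := by
    have h1 := hE 1 0 (by norm_num) le_rfl
    rw [Complex.zero_im, abs_zero, add_zero, one_pow, mul_one] at h1
    refine le_trans (Finset.sum_nonneg fun g _ => Finset.sum_nonneg fun e _ =>
      Finset.sum_nonneg fun t _ => mul_nonneg (by positivity)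
        (Finset.sum_nonneg fun k _ => by positivity)) h1
  have hn := B1.nsq_nonneg M L α
  have h1 := H ({()} : Finset Unit) (fun _ => 1) (fun _ => B1.cut M L α) (fun _ => A) (fun _ => L)
    5 1 R (R ^ ε) (R ^ (2 * σ) * E) (Or.inr ⟨rfl, rfl⟩) hR (Real.one_le_rpow hR hε.le)
    (fun _ _ => zero_le_one)
    (fun _ _ => ⟨B1.supp_cut M hL0.le α, hLR, (inv_le_one_of_one_le₀ hR).trans hA,
      hAR.trans (by nlinarith)⟩)
    (fun ψ u => by
      rw [Finset.sum_singleton, one_mul, mul_assoc]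
      have hw : (-(1 / 2) + (σ : ℂ) + u * Complex.I).re = -(1 / 2) + σ := by simp
      have hw' : (-(1 / 2) + (σ : ℂ) + u * Complex.I).im = u := by simp
      refine (B1.OD_le hL0 hLR hσ0.le hA0.le _ α ψ hw).trans
        (mul_le_mul_of_nonneg_left ?_ (by positivity))
      have := hE ψ _ (by rw [hw]; linarith) (by rw [hw]; linarith)
      rwa [hw'] at this)
  simp only [Finset.sum_singleton, one_mul] at h1
  rw [B1.sum_cut M hL0.le hLR α (fun _ z => ‖z‖ ^ 2) fun _ => by simp,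
    B1.sum_cut M hL0.le hLR α (fun _ z => ‖z‖) fun _ => by simp, Dq] at h1
  simp only [B1.rowS_cut M hL0.le hLR] at h1
  have h2 : R ^ (4 * σ) * (R ^ (2 * σ) * E) ≤ R ^ ε * E := by
    rw [← mul_assoc, ← Real.rpow_add (by linarith)]
    exact mul_le_mul_of_nonneg_right (Real.rpow_le_rpow_of_exponent_le hR (by linarith)) hE0
  have h3 : (∑ n ∈ sp M L, ‖α n‖) ^ 2 ≤ 8 * R * nsq M L α :=
    sq_sum_le_card_mul_sum_sq.trans (mul_le_mul_of_nonneg_right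
      ((B1.card_sp_le M hL).trans (by linarith)) hn)
  have h4 : R ^ (7 : ℝ) * (R ^ ε) ^ (-(8 / ε)) * R = 1 := by
    rw [← Real.rpow_mul (by linarith), ← Real.rpow_add (by linarith),
      ← Real.rpow_add_one (by linarith),
      show (7 : ℝ) + ε * -(8 / ε) + 1 = 0 by field_simp; ring, Real.rpow_zero]
  have h5 : C * R ^ (7 : ℝ) * (R ^ ε) ^ (-(8 / ε)) * (∑ n ∈ sp M L, ‖α n‖) ^ 2 ≤
      8 * C * (A * nsq M L α) := by
    calc _ ≤ C * R ^ (7 : ℝ) * (R ^ ε) ^ (-(8 / ε)) * (8 * R * nsq M L α) := by gcongr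
      _ = 8 * C * (R ^ (7 : ℝ) * (R ^ ε) ^ (-(8 / ε)) * R * nsq M L α) := by ring
      _ ≤ _ := by rw [h4]; gcongr
  refine (B1.maj hA0 _ (fun a => by positivity) (H := (∑ n ∈ sp M L, ‖α n‖) ^ 2) fun a =>
    pow_le_pow_left₀ (norm_nonneg _) (B1.norm_Sr_le M L α a) 2).trans ?_
  rw [mul_assoc]
  refine mul_le_mul_of_nonneg_left (h1.trans ?_) (by positivity)
  have h6 : 0 ≤ R ^ ε * E := by positivity
  have h7 := mul_le_mul_of_nonneg_left h2 hC.le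
  have h8 : 0 ≤ C * (R ^ ε * E) := by positivity
  change A * nsq M L α + _ + _ ≤ _
  linarith

/-- Trivial large sieve (from `fwd` with `A' = max A (2 L² R^ε)`: all dual ranges are empty). -/
theorem trivial_sieve {M : O} (hM : Adm M) {ε : ℝ} (hε : 0 < ε) : ∃ C : ℝ, 0 < C ∧
    ∀ (A L : ℝ) (α : O → ℂ), 0 ≤ A → 1 ≤ L →
      ∑ a ∈ rows A, ‖Sr M L α a‖ ^ 2 ≤ C * (A + L ^ (2 + ε)) * nsq M L α := by
  have hδ : 0 < ε / (2 + ε) := by positivity
  obtain ⟨C, hC, H⟩ := fwd hM hδ 0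
  refine ⟨2 * C, by positivity, fun A L α hA hL => ?_⟩
  have hL0 : 0 < L := by linarith
  have hn := B1.nsq_nonneg M L α
  have h1 : L ≤ L ^ (2 + ε) := Real.self_le_rpow_of_one_le hL (by linarith)
  set A' : ℝ := A + 2 * L ^ (2 + ε) with hA'
  have hA1 : 1 ≤ A' := by linarith
  have hA0 : 0 < A' := by linarith
  have key : L ^ 2 * A' ^ (ε / (2 + ε)) < A' := by
    have h2 : (L ^ (2 + ε)) ^ (2 / (2 + ε)) < A' ^ (2 / (2 + ε)) :=
      Real.rpow_lt_rpow (by positivity) (by linarith) (by positivity)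
    rw [← Real.rpow_mul hL0.le, show (2 + ε) * (2 / (2 + ε)) = ((2 : ℕ) : ℝ) by
      push_cast; field_simp, Real.rpow_natCast] at h2
    calc _ < A' ^ (2 / (2 + ε)) * A' ^ (ε / (2 + ε)) := by gcongr
      _ = A' := by
        rw [← Real.rpow_add hA0, show 2 / (2 + ε) + ε / (2 + ε) = 1 by field_simp, Real.rpow_one]
  have h2 := H A' A' L 0 α hA1 le_rfl hL (by linarith) fun ν s _ _ => by
    rw [zero_mul]
    refine le_of_eq (Finset.sum_eq_zero fun g hg => Finset.sum_eq_zero fun e he =>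
      Finset.sum_eq_zero fun t _ => ?_)
    have hg0 := ((mem_sp hL0.le).1 hg).1.1.ne_zero
    have ng := one_le_nr hg0
    have le : nr e ≤ nr g := by exact_mod_cast nm_le_of_dvd ((mem_pdiv hg0).1 he).2 hg0
    rw [rows_eq_empty, Finset.sum_empty, mul_zero]
    rw [div_lt_one hA0]
    refine lt_of_le_of_lt (mul_le_mul_of_nonneg_right ?_ (by positivity)) key
    rw [div_pow, ← mul_div_assoc, div_le_iff₀ (by positivity)]
    have : nr e ≤ nr g ^ 2 := by nlinarith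
    nlinarith [sq_nonneg L]
  rw [mul_zero, add_zero] at h2
  calc _ ≤ ∑ a ∈ rows A', ‖Sr M L α a‖ ^ 2 :=
        Finset.sum_le_sum_of_subset_of_nonneg (rows_mono (by linarith)) fun _ _ _ => by positivity
    _ ≤ C * (A' * nsq M L α) := h2
    _ ≤ C * ((2 * (A + L ^ (2 + ε))) * nsq M L α) := by gcongr; linarith
    _ = _ := by ring

/-- **Backward Poisson for cube-completed indices**, for a weighted family.  For a pair
`n_i = m_i d_i³` freeze `ρ = rad(d₁ d₂ gcd(m₁,m₂))`, `e_i = gcd(m_i, ρ)`; the new row is `a b` with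
`ρ b = f₁ f₂`, `f_i = e_i d_i³`, and `ρ ∣ b`; a row determines at most `16^{ω}` frozen data. -/
theorem gp {M : O} (hM : Adm M) {ε : ℝ} (hε : 0 < ε) (J : ℕ) : ∃ C : ℝ, 0 < C ∧
    ∀ {ι : Type} (S : Finset ι) (w K L : ι → ℝ) (β : ι → O → O → ℂ) (R E : ℝ), 1 ≤ R →
      (∀ i ∈ S, 0 ≤ w i ∧ 0 < K i ∧ K i ≤ R ∧ 0 < L i ∧ L i ≤ R) →
      (∀ (ν : Chr M) (s : ℂ), -(1 / 2) ≤ s.re → s.re ≤ 0 →
        ∑ i ∈ S, w i * (K i / L i) * ∑ a ∈ rows (L i ^ 2 * R ^ ε / K i),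
          ∑ d ∈ (sp M (L i)).filter (· ∈ pdiv a), ∑ e ∈ (sp M (L i)).filter (· ∈ pdiv a),
            ∑ t ∈ sp (M * d * e) (L i), w6 d a * (nr e * nr d ^ 3) *
              ‖Sr M (L i / (nr e * nr d ^ 3 * nr t))
                (ext (β i d) (e * t) ν (nr e * nr d ^ 3 * nr t) (L i) s) a‖ ^ 2 ≤
          E * (1 + |s.im|) ^ J) →
      ∑ i ∈ S, w i * ∑ k ∈ rows (K i), ‖Sg M (L i) (β i) k‖ ^ 2 ≤
        C * (∑ i ∈ S, w i * K i *
          ∑ d ∈ sp M (L i), nr d * nsq M (L i / nr d ^ 3) (β i d) + R ^ ε * E) := by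
  classical
  obtain ⟨C, hC, H⟩ := GP.gp_main hM hε J
  refine ⟨C, hC, fun {ι} S w K L β R E hR hS hE => ?_⟩
  have h1 := H (S.filter fun i => 1 ≤ K i) w K L β R E hR (fun i hi => by
      obtain ⟨hi, hK⟩ := Finset.mem_filter.1 hi
      obtain ⟨a1, -, -, a4, a5⟩ := hS i hi
      exact ⟨a1, hK, a4, a5⟩) fun ν s h1 h2 => by
    refine le_trans (Finset.sum_le_sum_of_subset_of_nonneg (Finset.filter_subset _ _)
      fun i hi _ => ?_) (hE ν s h1 h2)
    obtain ⟨a1, a2, -, a4, -⟩ := hS i hi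
    exact mul_nonneg (by positivity) (GP.HH_nonneg _ _ _ _ _)
  rw [← Finset.sum_subset (Finset.filter_subset (fun i => 1 ≤ K i) S) fun i hi hi' => by
    rw [rows_eq_empty (not_le.1 fun h => hi' (Finset.mem_filter.2 ⟨hi, h⟩)), Finset.sum_empty,
      mul_zero]]
  refine h1.trans (mul_le_mul_of_nonneg_left (add_le_add ?_ le_rfl) hC.le)
  refine Finset.sum_le_sum_of_subset_of_nonneg (Finset.filter_subset _ _) fun i hi _ => ?_
  obtain ⟨a1, a2, -, -, -⟩ := hS i hi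
  positivity

/-- **Backward Poisson** (the case `d = 1` of `gp`: take `β i d = if d = 1 then β i else 0`). -/
theorem back {M : O} (hM : Adm M) {ε : ℝ} (hε : 0 < ε) (J : ℕ) : ∃ C : ℝ, 0 < C ∧
    ∀ {ι : Type} (S : Finset ι) (w K L : ι → ℝ) (β : ι → O → ℂ) (R E : ℝ), 1 ≤ R →
      (∀ i ∈ S, 0 ≤ w i ∧ 0 < K i ∧ K i ≤ R ∧ 0 < L i ∧ L i ≤ R) →
      (∀ (ν : Chr M) (s : ℂ), -(1 / 2) ≤ s.re → s.re ≤ 0 →
        ∑ i ∈ S, w i * (K i / L i) * ∑ a ∈ rows (L i ^ 2 * R ^ ε / K i),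
          ∑ e ∈ (sp M (L i)).filter (· ∈ pdiv a), ∑ t ∈ sp (M * e) (L i), nr e *
            ‖Sr M (L i / (nr e * nr t)) (ext (β i) (e * t) ν (nr e * nr t) (L i) s) a‖ ^ 2 ≤
          E * (1 + |s.im|) ^ J) →
      ∑ i ∈ S, w i * ∑ k ∈ rows (K i), ‖Sd M (L i) (β i) k‖ ^ 2 ≤
        C * (∑ i ∈ S, w i * K i * nsq M (L i) (β i) + R ^ ε * E) := by
  classical
  obtain ⟨C, hC, H⟩ := gp hM hε J
  refine ⟨C, hC, fun {ι} S w K L β R E hR hS hE => ?_⟩
  have n1 : nr 1 = 1 := by simp [nr]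
  have one_mem : ∀ {X : ℝ}, 1 ≤ X → (1 : O) ∈ sp M X := fun {X} h =>
    (mem_sp (zero_le_one.trans h)).2 ⟨⟨primary_one, squarefree_one, isCoprime_one_left⟩, n1 ▸ h⟩
  have h1 := H S w K L (fun i d => if d = 1 then β i else 0) R E hR hS fun ν s h1 h2 => by
    refine le_trans (Finset.sum_le_sum fun i hi => ?_) (hE ν s h1 h2)
    obtain ⟨a1, a2, -, a4, -⟩ := hS i hi
    refine mul_le_mul_of_nonneg_left (Finset.sum_le_sum fun a _ => ?_) (by positivity)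
    rw [Finset.sum_eq_single (1 : O)]
    · simp [w6, n1]
    · intro d _ hd
      simp [hd, Sr, ext]
    · intro h
      have : (sp M (L i)).filter (· ∈ pdiv a) = ∅ := by
        refine Finset.eq_empty_of_forall_notMem fun e he => h ?_
        obtain ⟨b1, b2⟩ := Finset.mem_filter.1 he
        have b3 := (mem_sp a4.le).1 b1
        have b4 := one_le_nr b3.1.1.ne_zero
        refine Finset.mem_filter.2 ⟨one_mem (b4.trans b3.2), ?_⟩
        rw [pdiv, Finset.mem_filter, mem_ball] at b2 ⊢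
        refine ⟨le_trans ?_ b2.1, primary_one, one_dvd _⟩
        rw [nm_one]
        exact_mod_cast b4
      rw [this, Finset.sum_empty]
  have e1 : ∀ i k, Sg M (L i) (fun d => if d = 1 then β i else 0) k = Sd M (L i) (β i) k := by
    intro i k
    rw [Sg, Finset.sum_eq_single (1 : O)]
    · simp [Sd, n1]
    · intro d _ hd
      simp [hd]
    · intro h
      rw [n1, one_pow, div_one, sp_eq_empty M (not_le.1 fun h' => h (one_mem h')), Finset.sum_empty]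
  have e2 : ∀ i, ∑ d ∈ sp M (L i), nr d * nsq M (L i / nr d ^ 3) (if d = 1 then β i else 0) =
      nsq M (L i) (β i) := by
    intro i
    rw [Finset.sum_eq_single (1 : O)]
    · simp [n1]
    · intro d _ hd
      simp [hd, nsq]
    · intro h
      rw [n1, one_pow, div_one, nsq, sp_eq_empty M (not_le.1 fun h' => h (one_mem h')),
        Finset.sum_empty, mul_zero]
  simpa only [e1, e2] using h1

theorem DP3_mult {σ τ υ : Type*} (S : Finset σ) (T : Finset τ) (f : σ → ℝ) (F : τ → ℝ) (φ : σ → τ)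
    (ψ : σ → υ) (U : τ → Finset υ) {D : ℝ} (hF : ∀ j ∈ T, 0 ≤ F j)
    (hU : ∀ j ∈ T, ((U j).card : ℝ) ≤ D)
    (h : ∀ i ∈ S, f i ≤ 0 ∨ φ i ∈ T ∧ ψ i ∈ U (φ i) ∧ f i ≤ F (φ i))
    (inj : ∀ i ∈ S, ∀ i' ∈ S, φ i = φ i' → ψ i = ψ i' → i = i') :
    ∑ i ∈ S, f i ≤ D * ∑ j ∈ T, F j := by
  classical
  set S' := S.filter fun i => φ i ∈ T ∧ ψ i ∈ U (φ i) ∧ f i ≤ F (φ i)
  calc ∑ i ∈ S, f i ≤ ∑ i ∈ S', F (φ i) := by
        rw [Finset.sum_filter]
        refine Finset.sum_le_sum fun i hi => ?_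
        split_ifs with h'
        exacts [h'.2.2, (h i hi).resolve_right h']
    _ = ∑ j ∈ T, ∑ i ∈ S' with φ i = j, F j := (Finset.sum_fiberwise_of_maps_to'
        (fun i hi => (Finset.mem_filter.1 hi).2.1) _).symm
    _ ≤ _ := by
        rw [Finset.mul_sum]
        refine Finset.sum_le_sum fun j hj => ?_
        rw [Finset.sum_const, nsmul_eq_mul]
        refine mul_le_mul_of_nonneg_right (le_trans (Nat.cast_le.2 (Finset.card_le_card_of_injOn ψ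
          (fun i hi => ?_) fun i hi i' hi' e => ?_)) (hU j hj)) (hF j hj)
        · simp only [S', Finset.coe_filter, Finset.mem_filter, Set.mem_ofPred_eq] at hi
          exact hi.2 ▸ hi.1.2.2.1
        · simp only [S', Finset.coe_filter, Finset.mem_filter, Set.mem_ofPred_eq] at hi hi'
          exact inj i hi.1.1 i' hi'.1.1 (hi.2.trans hi'.2.symm) e

theorem DP3_split (s : Finset O) (t u : O → Finset O) (p : O → O → Prop) [∀ g, DecidablePred (p g)]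
    (F : O → O → O → ℝ) : ∑ g ∈ s, ∑ e ∈ t g, ∑ x ∈ u g, F g e x =
      ∑ g ∈ s, ∑ e ∈ t g, ∑ x ∈ (u g).filter (p g), F g e x +
        ∑ i ∈ s.sigma fun g => (t g).sigma fun _ => (u g).filter fun x => ¬ p g x,
          F i.1 i.2.1 i.2.2 := by
  simp only [Finset.sum_sigma, ← Finset.sum_add_distrib, Finset.sum_filter_add_sum_filter_not]

theorem DP3_po {M n : O} (hM : Adm M) (h : SP M n) : PO n :=
  ⟨h.1, h.2.2.of_isCoprime_of_dvd_right ((Dvd.intro 36 (by norm_num) : (2 : O) ∣ 72).trans hM.2)⟩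

theorem DP3_mem {M n : O} {X : ℝ} (h : n ∈ sp M X) : SP M n ∧ nr n ≤ X := by
  rcases lt_or_ge X 1 with hX | hX
  · simp [sp_eq_empty M hX] at h
  · exact (mem_sp (by linarith)).1 h

theorem DP3_sp {M m n : O} (hm : SP M m) (hn : SP M n) (h : IsCoprime m n) : SP M (m * n) :=
  ⟨hm.1.mul hn.1, squarefree_mul_iff.2 ⟨h.isRelPrime, hm.2.1, hn.2.1⟩, hm.2.2.mul_left hn.2.2⟩

open Classical in
theorem DP3_ext {M : O} (hM : Adm M) (α : O → ℂ) {h h' : O} (hh : h ≠ 0) (hh' : h' ≠ 0) (b a : O)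
    (ν ν' : Chr M) {f f' L : ℝ} (hf : f = nr h) (hf' : f' = nr h') (hL : 0 < L) (s s' : ℂ) (X : ℝ) :
    Sr M X (ext (fun m => ext α h ν f L s m * conj (sym m b)) h' ν' f' (L / f) s') a =
      (if IsCoprime h' h then ev ν h' * conj (sym h' b) else 0) *
        Sr M X (ext α (h * h') (ν * ν') (f * f') L (s + s')) (a * b) := by
  rw [Sr, Sr, Finset.mul_sum]
  refine Finset.sum_congr rfl fun n hn => ?_
  have hn := DP3_po hM (DP3_mem hn).1
  have h0 := hn.1.ne_zero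
  have h1 := nr_pos hh
  have h2 := nr_pos hh'
  have h3 := nr_pos h0
  subst hf hf'
  simp only [ext, IsCoprime.mul_left_iff, IsCoprime.mul_right_iff]
  by_cases c1 : IsCoprime h' h <;> by_cases c2 : IsCoprime n h <;> by_cases c3 : IsCoprime n h' <;>
    simp only [c1, c2, c3, and_self, and_true, and_false, if_true, if_false,
      zero_mul, mul_zero]
  rw [Complex.cpow_add _ _ (Complex.ofReal_ne_zero.2 (by positivity)), ev_mul, ev_mul_chr,
    sym_mul_left hh' h0, sym_mul_right hn, nr_mul, map_mul, map_mul, mul_assoc h,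
    show nr h' * nr n * nr h / L = nr n * (nr h * nr h') / L by ring,
    show nr n * nr h' / (L / nr h) = nr n * (nr h * nr h') / L by field_simp]
  ring

/-- The family of `dp`. -/
def DP3Fam (M : O) (L : ℝ) (i : Σ _ : O, Σ _ : O, O) : Prop :=
  SP M i.1 ∧ i.2.1 ∈ pdiv i.1 ∧ SP (M * i.1) i.2.2 ∧ nr i.1 * nr i.2.2 ≤ L

theorem DP3_card {L D : ℝ} (hD : ∀ n : O, n ≠ 0 → nr n ≤ L → ((pdiv n).card : ℝ) ≤ D) {m n : O}
    (hm : m ≠ 0) (hm' : nr m ≤ L) (hn : n ≠ 0) (hn' : nr n ≤ L) :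
    ((pdiv m ×ˢ pdiv m ×ˢ pdiv n).card : ℝ) ≤ D ^ 3 := by
  have h1 := hD m hm hm'
  have h2 := hD n hn hn'
  have h0 := (Nat.cast_nonneg _).trans h1
  rw [Finset.card_product, Finset.card_product, Nat.cast_mul, Nat.cast_mul, pow_three]
  gcongr

theorem DP3_diag {M : O} (hM : Adm M) (α : O → ℂ) (ν : Chr M) {L D : ℝ} (hL : 0 < L) {s : ℂ}
    (hs : -(1 / 2) ≤ s.re) (hD : ∀ n : O, n ≠ 0 → nr n ≤ L → ((pdiv n).card : ℝ) ≤ D)
    {S : Finset (Σ _ : O, Σ _ : O, O)} (hS : ∀ i ∈ S, DP3Fam M L i) :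
    ∑ i ∈ S, nsq M (L / (nr i.1 * nr i.2.2)) (fun m =>
      ext α (i.1 * i.2.2) ν (nr i.1 * nr i.2.2) L s m * conj (sym m (i.2.1 * i.2.2 ^ 2))) ≤
      D ^ 3 * nsq1 M L α := by
  simp only [nsq, Finset.sum_sigma']
  refine DP3_mult _ _ _ _ (fun j => j.1.1 * j.1.2.2 * j.2) (fun j => (j.1.1, j.1.2.1, j.1.2.2))
    (fun n => pdiv n ×ˢ pdiv n ×ˢ pdiv n) (fun n _ => by positivity)
    (fun n hn => DP3_card hD (DP3_mem hn).1.1.ne_zero (DP3_mem hn).2 (DP3_mem hn).1.1.ne_zero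
      (DP3_mem hn).2) ?_ ?_
  · rintro ⟨⟨g, e, t⟩, m⟩ hj
    obtain ⟨hi, hm⟩ := Finset.mem_sigma.1 hj
    obtain ⟨hg, he, ht, -⟩ := hS _ hi
    obtain ⟨hm, hmL⟩ := DP3_mem hm
    dsimp only at hg he ht hm hmL ⊢
    by_cases c : IsCoprime m (g * t)
    swap
    · simp [ext, c]
    have hn : SP M (g * t * m) := DP3_sp (DP3_sp hg ⟨ht.1, ht.2.1, ht.2.2.of_mul_right_left⟩
      ht.2.2.of_mul_right_right.symm) hm c.symm
    have h0 := hn.1.ne_zero
    have h1 := nr_pos hg.1.ne_zero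
    have h2 := nr_pos ht.1.ne_zero
    have h3 := nr_pos hm.1.ne_zero
    rw [le_div_iff₀ (by positivity)] at hmL
    obtain ⟨he, he'⟩ := (mem_pdiv hg.1.ne_zero).1 he
    refine Or.inr ⟨(mem_sp hL.le).2 ⟨hn, by rw [nr_mul, nr_mul]; linarith⟩, ?_, ?_⟩
    · simp only [Finset.mem_product, mem_pdiv h0]
      exact ⟨⟨hg.1, (dvd_mul_right _ _).mul_right _⟩, ⟨he, (he'.mul_right _).mul_right _⟩, ht.1,
        (dvd_mul_left _ _).mul_right _⟩
    · have h4 : ‖((nr m * (nr g * nr t) / L : ℝ) : ℂ) ^ s‖ ^ 2 ≤ L / nr (g * t * m) := by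
        rw [Complex.norm_cpow_eq_rpow_re_of_pos (by positivity), ← Real.rpow_mul_natCast (by positivity)]
        refine (Real.rpow_le_rpow_of_exponent_ge (z := -1) (by positivity) ((div_le_one hL).2 hmL)
          (by push_cast; linarith)).trans_eq ?_
        rw [Real.rpow_neg_one, inv_div, nr_mul, nr_mul, mul_comm (nr m)]
      have h5 := norm_ev_le hM.1 ν m
      have h6 := norm_sym_le m (e * t ^ 2)
      rw [ext, if_pos c, norm_mul, norm_mul, norm_mul, Complex.norm_conj]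
      calc _ ≤ (‖α (g * t * m)‖ * 1 * ‖((nr m * (nr g * nr t) / L : ℝ) : ℂ) ^ s‖ * 1) ^ 2 := by gcongr
        _ ≤ _ := by rw [mul_one, mul_one, mul_pow]; gcongr
  · rintro ⟨⟨g, e, t⟩, m⟩ hj ⟨⟨g', e', t'⟩, m'⟩ - h1 h2
    obtain ⟨hg, -, ht, -⟩ := hS _ (Finset.mem_sigma.1 hj).1
    obtain ⟨rfl, rfl, rfl⟩ : g = g' ∧ e = e' ∧ t = t' := by simpa using h2
    obtain rfl : m = m' := mul_left_cancel₀ (mul_ne_zero hg.1.ne_zero ht.1.ne_zero) h1
    rfl

theorem DP3_child {M : O} (hM : Adm M) (α : O → ℂ) (ν ν' : Chr M) {L D A Y : ℝ} (hL : 0 < L)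
    (hA : 0 ≤ A) (s s' : ℂ) (hD : ∀ n : O, n ≠ 0 → nr n ≤ L → ((pdiv n).card : ℝ) ≤ D)
    {S : Finset (Σ _ : O, Σ _ : O, O)} (hS : ∀ i ∈ S, DP3Fam M L i ∧ Y < nr i.1 * nr i.2.2)
    {X : (Σ _ : O, Σ _ : O, O) → ℝ} (hX : ∀ i ∈ S, 0 ≤ X i ∧ X i * (nr i.2.1 * nr i.2.2 ^ 2) ≤ A) :
    ∑ i ∈ S, nr i.2.2 * ∑ a ∈ rows (X i),
      ∑ e ∈ (sp M (L / (nr i.1 * nr i.2.2))).filter (· ∈ pdiv a),
        ∑ t ∈ sp (M * e) (L / (nr i.1 * nr i.2.2)), nr e *
          ‖Sr M (L / (nr i.1 * nr i.2.2) / (nr e * nr t)) (ext (fun m =>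
            ext α (i.1 * i.2.2) ν (nr i.1 * nr i.2.2) L s m * conj (sym m (i.2.1 * i.2.2 ^ 2)))
            (e * t) ν' (nr e * nr t) (L / (nr i.1 * nr i.2.2)) s') a‖ ^ 2 ≤
    D ^ 3 * ∑ h ∈ sp M L, ∑ a ∈ rows A,
      ∑ e ∈ (sp (M * h) L).filter (fun e => e ∈ pdiv a ∧ Y < nr h * nr e), nr e *
        ‖Sr M (L / (nr h * nr e)) (ext α (h * e) (ν * ν') (nr h * nr e) L (s + s')) a‖ ^ 2 := by
  simp only [Finset.mul_sum _ _ (nr _), Finset.sum_sigma']
  refine DP3_mult _ _ _ _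
    (fun j => ⟨j.1.1 * j.2.2.2, j.2.1 * (j.1.2.1 * j.1.2.2 ^ 2), j.1.2.2 * j.2.2.1⟩)
    (fun j => (j.1.1, j.1.2.1, j.1.2.2)) (fun j => pdiv j.1 ×ˢ pdiv j.1 ×ˢ pdiv j.2.2)
    (fun n _ => by positivity) (fun j hj => ?_) ?_ ?_
  · simp only [Finset.mem_sigma, Finset.mem_filter] at hj
    exact DP3_card hD (DP3_mem hj.1).1.1.ne_zero (DP3_mem hj.1).2 (DP3_mem hj.2.2.1).1.1.ne_zero
      (DP3_mem hj.2.2.1).2
  · rintro ⟨⟨g, e, t⟩, a, e', t'⟩ hj
    simp only [Finset.mem_sigma, Finset.mem_filter] at hj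
    obtain ⟨hi, ha, ⟨he', hea⟩, ht'⟩ := hj
    obtain ⟨⟨hg, he, ht, -⟩, hY⟩ := hS _ hi
    obtain ⟨hX0, hXA⟩ := hX _ hi
    obtain ⟨he', heL⟩ := DP3_mem he'
    obtain ⟨ht', htL⟩ := DP3_mem ht'
    obtain ⟨ha, haX⟩ := (mem_rows hX0).1 ha
    dsimp only at hg he ht hY hXA ⊢
    obtain ⟨he, heg⟩ := (mem_pdiv hg.1.ne_zero).1 he
    have hea := ((mem_pdiv ha).1 hea).2
    have h1 := one_le_nr hg.1.ne_zero
    have h2 := one_le_nr ht.1.ne_zero
    have h3 := one_le_nr he'.1.ne_zero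
    have h4 := one_le_nr ht'.1.ne_zero
    rw [le_div_iff₀ (by positivity)] at heL htL
    rw [DP3_ext hM α (mul_ne_zero hg.1.ne_zero ht.1.ne_zero)
      (mul_ne_zero he'.1.ne_zero ht'.1.ne_zero) _ _ ν ν' (nr_mul _ _).symm (nr_mul _ _).symm hL]
    by_cases c : IsCoprime (e' * t') (g * t)
    swap
    · simp [c]
    rw [if_pos c]
    simp only [IsCoprime.mul_left_iff, IsCoprime.mul_right_iff] at c
    have hh : SP M (g * t') :=
      DP3_sp hg ⟨ht'.1, ht'.2.1, ht'.2.2.of_mul_right_left⟩ c.1.2.symm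
    have he'' : SP (M * (g * t')) (t * e') := DP3_sp
      ⟨ht.1, ht.2.1, mul_assoc M g t' ▸ ht.2.2.mul_right c.2.2.symm⟩
      ⟨he'.1, he'.2.1, he'.2.2.mul_right (c.1.1.mul_right ht'.2.2.of_mul_right_right.symm)⟩
      c.2.1.symm
    have ha' := mul_ne_zero ha (mul_ne_zero he.ne_zero (pow_ne_zero 2 ht.1.ne_zero))
    refine Or.inr ⟨?_, ?_, ?_⟩
    · simp only [Finset.mem_sigma, Finset.mem_filter, mem_sp hL.le, mem_rows hA, mem_pdiv ha',
        nr_mul, nr_pow]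
      refine ⟨⟨hh, by nlinarith⟩, ⟨ha', le_trans (by gcongr) hXA⟩, ⟨he'', by nlinarith⟩,
        ⟨he''.1, ?_⟩, hY.trans_le (by gcongr <;> nlinarith)⟩
      rw [mul_comm t]
      exact mul_dvd_mul hea ((dvd_pow_self _ two_ne_zero).mul_left _)
    · simp only [Finset.mem_product, mem_pdiv hh.1.ne_zero, mem_pdiv he''.1.ne_zero]
      exact ⟨⟨hg.1, dvd_mul_right _ _⟩, ⟨he, heg.mul_right _⟩, ht.1, dvd_mul_right _ _⟩
    · have h5 := norm_ev_le hM.1 ν (e' * t')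
      have h6 := norm_sym_le (e' * t') (e * t ^ 2)
      rw [nr_mul, nr_mul, ← mul_assoc, div_div, show g * t' * (t * e') = g * t * (e' * t') by ring,
        show nr g * nr t' * (nr t * nr e') = nr g * nr t * (nr e' * nr t') by ring, norm_mul,
        norm_mul, Complex.norm_conj]
      gcongr
      exact mul_le_of_le_one_left (norm_nonneg _) (mul_le_one₀ h5 (norm_nonneg _) h6)
  · rintro ⟨⟨g, e, t⟩, a, e', t'⟩ hj ⟨⟨g₁, e₁, t₁⟩, a₁, e₁', t₁'⟩ - h1 h2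
    obtain ⟨⟨hg, he, ht, -⟩, -⟩ := hS _ (Finset.mem_sigma.1 hj).1
    obtain ⟨rfl, rfl, rfl⟩ : g = g₁ ∧ e = e₁ ∧ t = t₁ := by simpa using h2
    have := ((mem_pdiv hg.1.ne_zero).1 he).1.ne_zero
    obtain ⟨rfl, rfl, rfl⟩ : t' = t₁' ∧ a = a₁ ∧ e' = e₁' := by
      simpa [hg.1.ne_zero, ht.1.ne_zero, this] using h1
    rfl

/-- **Double Poisson.**  `fwd`, then for the terms with `N(g t) > Y` enlarge the dual range by the
factor `lam` and apply `back` (with `R⁵`, `ε/5`) to the family `(g, e, t)`; the child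
`(g, e, t, a', e', t')` is sent to `h = g t'`, `a = a' e t²`, `e'' = t e'` (divisor-bounded
multiplicity).  The terms with `N(g t) ≤ Y` are left to the user (none if `Y < 1`). -/
theorem dp {M : O} (hM : Adm M) {ε : ℝ} (hε : 0 < ε) (J : ℕ) : ∃ C : ℝ, 0 < C ∧
    ∀ (R A L lam' Y E₁ E₂ : ℝ) (α : O → ℂ), 1 ≤ A → A ≤ R → 1 ≤ L → L ≤ R → 1 ≤ lam' →
      lam' ≤ R → ε ≤ 1 →
      (∀ (ν : Chr M) (s : ℂ), -(1 / 2) ≤ s.re → s.re ≤ 0 →
        ∑ g ∈ sp M L, ∑ e ∈ pdiv g,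
          ∑ t ∈ (sp (M * g) (L / nr g)).filter (fun t => nr g * nr t ≤ Y), A * nr g / (nr e * L) *
          ∑ k ∈ rows (nr e * (L / nr g) ^ 2 * R ^ ε / A),
            ‖Sd M (L / (nr g * nr t))
              (fun m => ext α (g * t) ν (nr g * nr t) L s m * conj (sym m (e * t ^ 2))) k‖ ^ 2 ≤
          E₁ * (1 + |s.im|) ^ J) →
      (∀ (ν : Chr M) (s : ℂ), -1 ≤ s.re → s.re ≤ 0 →
        ∑ h ∈ sp M L, ∑ a ∈ rows (A / lam'),
          ∑ e ∈ (sp (M * h) L).filter (fun e => e ∈ pdiv a ∧ Y < nr h * nr e), nr e *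
            ‖Sr M (L / (nr h * nr e)) (ext α (h * e) ν (nr h * nr e) L s) a‖ ^ 2 ≤
          E₂ * (1 + |s.im|) ^ J) →
      ∑ a ∈ rows A, ‖Sr M L α a‖ ^ 2 ≤
        C * R ^ (3 * ε) * (A * nsq M L α + lam' * L * nsq1 M L α + E₁ + lam' * E₂) := by
  obtain ⟨Cf, hCf, Hf⟩ := fwd hM hε J
  obtain ⟨Cb, hCb, Hb⟩ := back hM (ε := ε / 8) (by positivity) J
  obtain ⟨Cd, hCd, Hd⟩ := card_pdiv_le (ε := ε / 6) (by positivity)
  refine ⟨Cf * (1 + Cb * Cd ^ 3), by positivity,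
    fun R A L l Y E₁ E₂ α hA hAR hL hLR hl hlR hε1 h1 h2 => ?_⟩
  have hR := hA.trans hAR
  obtain ⟨x, hx⟩ : ∃ x, x = R ^ (ε / 6) := ⟨_, rfl⟩
  have hx1 : 1 ≤ x := hx ▸ Real.one_le_rpow hR (by positivity)
  have hp : ∀ (n : ℕ) (y : ℝ), y = ε / 6 * n → R ^ y = x ^ n := fun n y hy => by
    rw [hy, hx, Real.rpow_mul_natCast (by linarith)]
  have e1 := hp 6 ε (by push_cast; ring)
  have e2 : (R ^ 4) ^ (ε / 8) = x ^ 3 := by
    rw [← Real.rpow_natCast_mul (by linarith), hp 3 _ (by push_cast; ring)]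
  have e3 : x ^ 6 ≤ R := e1 ▸ (Real.rpow_le_rpow_of_exponent_le hR hε1).trans_eq (Real.rpow_one R)
  have hD : ∀ n : O, n ≠ 0 → nr n ≤ L → ((pdiv n).card : ℝ) ≤ Cd * x := fun n hn hn' =>
    (Hd n hn).trans (by rw [hx]; gcongr; exact hn'.trans hLR)
  have hE₁ : 0 ≤ E₁ := le_trans (by positivity) ((h1 1 0 (by simp) le_rfl).trans_eq (by simp))
  have hE₂ : 0 ≤ E₂ := le_trans (by positivity) ((h2 1 0 (by simp) le_rfl).trans_eq (by simp))
  have hn : 0 ≤ nsq M L α := Finset.sum_nonneg fun _ _ => by positivity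
  have hn1 : 0 ≤ nsq1 M L α := Finset.sum_nonneg fun _ _ => by positivity
  rw [hp 18 _ (by push_cast; ring)]
  refine (Hf R A L (E₁ + Cb * Cd ^ 3 * (x ^ 9 * (l * L * nsq1 M L α) + x ^ 12 * (l * E₂))) α hA hAR
    hL hLR fun ν s hs hs' => ?_).trans ?_
  swap
  · rw [e1, mul_assoc Cf, mul_assoc Cf]
    refine mul_le_mul_of_nonneg_left ?_ hCf.le
    have a1 : 1 ≤ x ^ 18 := one_le_pow₀ hx1
    have a2 : x ^ 6 ≤ x ^ 18 := pow_le_pow_right₀ hx1 (by norm_num)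
    have a3 : x ^ 15 ≤ x ^ 18 := pow_le_pow_right₀ hx1 (by norm_num)
    calc _ = 1 * (A * nsq M L α) + x ^ 6 * E₁ +
          Cb * Cd ^ 3 * (x ^ 15 * (l * L * nsq1 M L α) + x ^ 18 * (l * E₂)) := by ring
      _ ≤ x ^ 18 * (A * nsq M L α) + x ^ 18 * E₁ +
          Cb * Cd ^ 3 * (x ^ 18 * (l * L * nsq1 M L α) + x ^ 18 * (l * E₂)) := by gcongr
      _ ≤ _ := by
        rw [← sub_nonneg]
        ring_nf
        positivity
  set S : Finset (Σ _ : O, Σ _ : O, O) := (sp M L).sigma fun g => (pdiv g).sigma fun _ =>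
    (sp (M * g) (L / nr g)).filter fun t => ¬ nr g * nr t ≤ Y with hSdef
  have hS : ∀ i ∈ S, DP3Fam M L i ∧ Y < nr i.1 * nr i.2.2 := fun i hi => by
    simp only [hSdef, Finset.mem_sigma, Finset.mem_filter, not_le] at hi
    exact ⟨⟨(DP3_mem hi.1).1, hi.2.1, (DP3_mem hi.2.2.1).1,
      (le_div_iff₀' (nr_pos (DP3_mem hi.1).1.1.ne_zero)).1 (DP3_mem hi.2.2.1).2⟩, hi.2.2.2⟩
  have hS' : ∀ i ∈ S, 1 ≤ nr i.1 ∧ 1 ≤ nr i.2.1 ∧ 1 ≤ nr i.2.2 ∧ nr i.2.1 ≤ nr i.1 := fun i hi => by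
    obtain ⟨⟨hg, he, ht, -⟩, -⟩ := hS i hi
    obtain ⟨he, he'⟩ := (mem_pdiv hg.1.ne_zero).1 he
    exact ⟨one_le_nr hg.1.ne_zero, one_le_nr he.ne_zero, one_le_nr ht.1.ne_zero,
      Nat.cast_le.2 (nm_le_of_dvd he' hg.1.ne_zero)⟩
  have hJ : 1 ≤ (1 + |s.im|) ^ J := one_le_pow₀ (by linarith [abs_nonneg s.im])
  have key := Hb S (fun i => A * nr i.1 / (nr i.2.1 * L))
    (fun i => l * (nr i.2.1 * (L / nr i.1) ^ 2 * R ^ ε / A)) (fun i => L / (nr i.1 * nr i.2.2))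
    (fun i m => ext α (i.1 * i.2.2) ν (nr i.1 * nr i.2.2) L s m * conj (sym m (i.2.1 * i.2.2 ^ 2)))
    (R ^ 4) (Cd ^ 3 * x ^ 9 * (l * E₂) * (1 + |s.im|) ^ J) (one_le_pow₀ hR) (fun i hi => by
      obtain ⟨a1, a2, a3, a4⟩ := hS' i hi
      refine ⟨by positivity, by positivity, ?_, by positivity, (div_le_self (by positivity)
        (one_le_mul_of_one_le_of_one_le a1 a3)).trans (hLR.trans (le_self_pow₀ hR (by norm_num)))⟩
      calc _ = l * (L ^ 2 * x ^ 6 * (nr i.2.1 / (nr i.1 ^ 2 * A))) := by rw [e1]; field_simp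
        _ ≤ R * (R ^ 2 * R * 1) := by
          gcongr
          exact div_le_one_of_le₀ ((a4.trans (le_self_pow₀ a1 two_ne_zero)).trans
            (le_mul_of_one_le_right (by positivity) hA)) (by positivity)
        _ = R ^ 4 := by ring) fun ν' s' h3 h4 => by
      have k1 := DP3_child hM α ν ν' (Y := Y) (A := A / l) (by positivity) (by positivity) s s' hD hS
        (X := fun i => (L / (nr i.1 * nr i.2.2)) ^ 2 * (R ^ 4) ^ (ε / 8) /
          (l * (nr i.2.1 * (L / nr i.1) ^ 2 * R ^ ε / A))) fun i hi => by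
          obtain ⟨a1, a2, a3, a4⟩ := hS' i hi
          refine ⟨by positivity, le_trans (le_of_eq ?_) (div_le_self (by positivity)
            (one_le_pow₀ (n := 3) hx1))⟩
          rw [e1, e2]
          field_simp
      have k2 := h2 (ν * ν') (s + s') (by rw [Complex.add_re]; linarith)
        (by rw [Complex.add_re]; linarith)
      have k3 : (1 + |(s + s').im|) ^ J ≤ (1 + |s.im|) ^ J * (1 + |s'.im|) ^ J := by
        rw [← mul_pow, Complex.add_im]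
        gcongr
        nlinarith [abs_add_le s.im s'.im, abs_nonneg s.im, abs_nonneg s'.im]
      calc _ = l * x ^ 6 * _ := by
            rw [Finset.mul_sum]
            refine Finset.sum_congr rfl fun i hi => ?_
            obtain ⟨a1, a2, a3, a4⟩ := hS' i hi
            rw [← mul_assoc (l * x ^ 6)]
            congr 1
            rw [e1]
            field_simp
        _ ≤ l * x ^ 6 * ((Cd * x) ^ 3 * (E₂ * ((1 + |s.im|) ^ J * (1 + |s'.im|) ^ J))) :=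
            mul_le_mul_of_nonneg_left (k1.trans (mul_le_mul_of_nonneg_left
              (k2.trans (by gcongr)) (by positivity))) (by positivity)
        _ = _ := by ring
  have diag : ∑ i ∈ S, A * nr i.1 / (nr i.2.1 * L) *
      (l * (nr i.2.1 * (L / nr i.1) ^ 2 * R ^ ε / A)) * nsq M (L / (nr i.1 * nr i.2.2)) (fun m =>
        ext α (i.1 * i.2.2) ν (nr i.1 * nr i.2.2) L s m * conj (sym m (i.2.1 * i.2.2 ^ 2))) ≤
      l * L * x ^ 6 * ((Cd * x) ^ 3 * nsq1 M L α) := by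
    refine le_trans ?_ (mul_le_mul_of_nonneg_left (DP3_diag hM α ν (by positivity) hs hD
      fun i hi => (hS i hi).1) (by positivity))
    rw [Finset.mul_sum]
    refine Finset.sum_le_sum fun i hi => mul_le_mul_of_nonneg_right ?_
      (Finset.sum_nonneg fun _ _ => by positivity)
    obtain ⟨a1, a2, a3, a4⟩ := hS' i hi
    refine le_trans (le_of_eq ?_) (div_le_self (by positivity) a1)
    rw [e1]
    field_simp
  rw [DP3_split _ _ _ fun g t => nr g * nr t ≤ Y]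
  calc _ ≤ E₁ * (1 + |s.im|) ^ J + Cb * (l * L * x ^ 6 * ((Cd * x) ^ 3 * nsq1 M L α) *
        (1 + |s.im|) ^ J + x ^ 3 * (Cd ^ 3 * x ^ 9 * (l * E₂) * (1 + |s.im|) ^ J)) := by
        refine add_le_add (h1 ν s hs hs') (le_trans (Finset.sum_le_sum fun i hi => ?_) (key.trans ?_))
        · obtain ⟨a1, a2, a3, a4⟩ := hS' i hi
          exact mul_le_mul_of_nonneg_left (Finset.sum_le_sum_of_subset_of_nonneg
            (rows_mono (le_mul_of_one_le_left (by positivity) hl)) fun _ _ _ => sq_nonneg _)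
            (by positivity)
        · rw [e2]
          exact mul_le_mul_of_nonneg_left (add_le_add_left
            (diag.trans (le_mul_of_one_le_right (by positivity) hJ)) _) hCb.le
    _ = _ := by ring

end Crest.Agent.R17
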