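import Crest.Agent.R17.PDefs
import Crest.Agent.R17.DP
import Crest.Agent.R17.Numeric

/-!
# Row 17, module M13: the sum over the non-exceptional rows from the class count
-/

set_option autoImplicit false

noncomputable section

namespace Crest.Agent.R17.RSum

open Finset

theorem of_mem_RS {M r : O} {A : ℝ} (h : r ∈ RS M A) : r ∈ rows A ∧ ¬ Exc M r := by
  classical
  rw [RS, mem_filter] at h
  obtain ⟨h0, h1, h2, h3, h4⟩ := h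
  refine ⟨h0, fun hE => h3 ?_⟩
  have : pf r = ∅ := by
    refine eq_empty_of_forall_notMem fun p hp => ?_
    obtain ⟨a1, -, a3⟩ := BasicB.of_mem_pf hp
    have b1 := hE p hp fun hM => a1.not_isUnit (h2.isUnit_of_dvd' a3 hM)
    have b2 := h4 p hp
    have b3 : vp p r ≠ 0 := fun h => (vp_eq_zero_iff a1 h1.ne_zero).1 h a3
    omega
  rw [h1.eq_prod, this, prod_empty]

theorem exists_j {B y e η : ℝ} (hB : 1 < B) (hy : 1 ≤ y) (hye : y ≤ B ^ e) (hη : 0 < η) :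
    ∃ j : ℕ, j * η ≤ e + η ∧ y ≤ B ^ (j * η) ∧ B ^ (j * η - η) ≤ y := by
  have hy0 : 0 < y := one_pos.trans_le hy
  have h0 : 0 ≤ Real.logb B y := Real.logb_nonneg hB hy
  have h1 : Real.logb B y ≤ e := (Real.logb_le_iff_le_rpow hB hy0).2 hye
  have h2 := Nat.le_ceil (Real.logb B y / η)
  have h3 := (Nat.ceil_lt_add_one (div_nonneg h0 hη.le)).le
  rw [div_le_iff₀ hη] at h2
  rw [div_add_one hη.ne', le_div_iff₀ hη] at h3
  refine ⟨⌈Real.logb B y / η⌉₊, by linarith, (Real.logb_le_iff_le_rpow hB hy0).1 h2, ?_⟩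
  exact (Real.le_logb_iff_rpow_le hB hy0).1 (by linarith)

theorem exists_k (P y μ : ℝ) (K : ℕ) : ∃ k : ℕ, k ≤ K ∧ (k = 0 ∨ P ^ ((1 + k * μ) / 2) ≤ y) ∧
    (k = K ∨ y ≤ P ^ ((1 + (k + 1) * μ) / 2)) := by
  classical
  obtain ⟨h1, h2, h3⟩ := (Nat.findGreatest_eq_iff
    (P := fun k : ℕ => P ^ ((1 + k * μ) / 2) ≤ y) (k := K)).1 rfl
  refine ⟨_, h1, ?_, ?_⟩
  · exact (eq_or_ne _ 0).imp_right h2
  · rcases h1.eq_or_lt with h | h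
    · exact Or.inl h
    · have := h3 (Nat.lt_succ_self _) h
      push_cast at this
      exact Or.inr (not_le.1 this).le

theorem prod_le {K₀ : ℕ} {B C ε : ℝ} (hB : 0 < B) (f e : Fin K₀ → ℝ) (hf : ∀ i, 0 ≤ f i)
    (h : ∀ i, f i ≤ C * B ^ ε * Pw K₀ B i ^ e i) :
    ∏ i, f i ≤ C ^ K₀ * B ^ (K₀ * ε + ∑ i : Fin K₀, ell K₀ i * e i) := by
  refine (prod_le_prod (fun i _ => hf i) fun i _ => h i).trans (le_of_eq ?_)
  rw [prod_mul_distrib, prod_const, card_univ, Fintype.card_fin, mul_pow, Real.rpow_add hB,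
    Real.rpow_sum_of_pos hB, mul_comm (K₀ : ℝ) ε, Real.rpow_mul_natCast hB.le, mul_assoc]
  congr 2
  refine prod_congr rfl fun i _ => ?_
  rw [Pw, ← Real.rpow_mul hB.le]

theorem NrmB_eq {B : ℝ} (hB : 0 < B) : NrmB B = B ^ (25 / 32 : ℝ) := by
  rw [NrmB, Apar, Xpar, ← Real.rpow_mul hB.le, ← Real.rpow_add hB, ← Real.rpow_add hB]
  norm_num

theorem fiber {B ρ η σ s c C₁ C₂ m β : ℝ} (S : Finset O) (g : O → ℝ) (hB : 1 ≤ B) (hσ : 1 / 2 ≤ σ)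
    (hC₁ : 0 ≤ C₁) (hC₂ : 0 ≤ C₂)
    (hS : ∀ r ∈ S, B ^ (ρ - η) ≤ nr r ∧ nr r ≤ B ^ ρ ∧ 0 ≤ g r ∧ g r ≤ C₁ * B ^ s)
    (hc : (S.card : ℝ) ≤ C₂ * B ^ c)
    (hexp : (13 / 16 + m - ρ + η) / 3 + σ + 23 / 48 * (1 - σ) + ρ * (σ - 1 / 2) + s + c ≤
      25 / 32 + (β - m)) :
    ∑ r ∈ S, (Apar B * B ^ m / nr r) ^ (1 / 3 : ℝ) *
      (B ^ σ * Xpar B ^ (1 - σ) * nr r ^ (σ - 1 / 2) * g r) ≤ C₁ * C₂ * (NrmB B * B ^ (β - m)) := by
  have hB0 : 0 < B := one_pos.trans_le hB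
  have key : ∀ r ∈ S, (Apar B * B ^ m / nr r) ^ (1 / 3 : ℝ) *
      (B ^ σ * Xpar B ^ (1 - σ) * nr r ^ (σ - 1 / 2) * g r) ≤
      C₁ * B ^ ((13 / 16 + m - ρ + η) / 3 + σ + 23 / 48 * (1 - σ) + ρ * (σ - 1 / 2) + s) := by
    intro r hr
    obtain ⟨h1, h2, h3, h4⟩ := hS r hr
    have h0 : 0 < nr r := (Real.rpow_pos_of_pos hB0 _).trans_le h1
    have a1 : (Apar B * B ^ m / nr r) ^ (1 / 3 : ℝ) ≤ B ^ ((13 / 16 + m - ρ + η) / 3) := by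
      rw [show (13 / 16 + m - ρ + η) / 3 = (13 / 16 + m - (ρ - η)) * (1 / 3) by ring,
        Real.rpow_mul hB0.le, Real.rpow_sub hB0, Real.rpow_add hB0, Apar]
      gcongr
    have a2 : nr r ^ (σ - 1 / 2) ≤ B ^ (ρ * (σ - 1 / 2)) := by
      rw [Real.rpow_mul hB0.le]
      exact Real.rpow_le_rpow h0.le h2 (by linarith)
    rw [Xpar, ← Real.rpow_mul hB0.le, Real.rpow_add hB0, Real.rpow_add hB0, Real.rpow_add hB0,
      Real.rpow_add hB0]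
    calc _ ≤ B ^ ((13 / 16 + m - ρ + η) / 3) *
          (B ^ σ * B ^ (23 / 48 * (1 - σ)) * B ^ (ρ * (σ - 1 / 2)) * (C₁ * B ^ s)) := by gcongr
      _ = _ := by ring
  refine (sum_le_card_nsmul _ _ _ key).trans ?_
  rw [nsmul_eq_mul, NrmB_eq hB0, ← Real.rpow_add hB0]
  refine le_trans ?_ (mul_le_mul_of_nonneg_left (Real.rpow_le_rpow_of_exponent_le hB hexp)
    (mul_nonneg hC₁ hC₂))
  rw [Real.rpow_add hB0 _ c]
  calc _ ≤ C₂ * B ^ c * (C₁ * B ^ ((13 / 16 + m - ρ + η) / 3 + σ + 23 / 48 * (1 - σ) +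
        ρ * (σ - 1 / 2) + s)) := by gcongr
    _ = _ := by ring

theorem sum_le_fibers {α κ : Type} [DecidableEq κ] (s : Finset α) (T : Finset κ) (g : α → κ)
    (f : α → ℝ) (hg : ∀ a ∈ s, g a ∈ T) {Y : ℝ}
    (h : ∀ t ∈ T, ∑ a ∈ s.filter (fun a => g a = t), f a ≤ Y) : ∑ a ∈ s, f a ≤ T.card * Y := by
  rw [← sum_fiberwise_of_maps_to hg, ← nsmul_eq_mul]
  exact sum_le_card_nsmul _ _ _ h

theorem exp_class {δ q ρ β : ℝ} (h₁ : 1 / 50 ≤ δ) (h₂ : (1 + δ) / 2 ≤ β) (hβ : 7 / 8 ≤ β)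
    (hβ1 : β ≤ 1) (h₃ : 0 ≤ q) (h₄ : q ≤ δ) (hρ : ρ ≤ 13 / 16 + 1 / 10000 + 1 / 20000) :
    (13 / 16 + 1 / 10000 - ρ + 1 / 20000) / 3 + (1 + δ) / 2 + 23 / 48 * (1 - (1 + δ) / 2) +
      ρ * ((1 + δ) / 2 - 1 / 2) + (1 / 20000 + (1 / 12 + q / 12 + 1 / 120000)) +
      (1 / 20000 + ρ * (1 - δ + Eexc δ q)) ≤ 25 / 32 + (β - 1 / 10000) := by
  have hE := (numeric h₁ (by linarith) h₃ h₄).1
  have hm : max (7 / 8) ((1 + δ) / 2) ≤ β := max_le hβ h₂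
  have hE' : Eexc δ q ≤ 16 / 13 * (β - 25 / 36 - 23 / 144 + 7 / 48 * δ - q / 12 - 1 / 2000) := by
    unfold Eexc; linarith
  have h5 : ρ * (2 / 3 - δ / 2 + Eexc δ q) ≤
      (13 / 16 + 1 / 10000 + 1 / 20000) * (2 / 3 - δ / 2 + Eexc δ q) :=
    mul_le_mul_of_nonneg_right hρ (by linarith)
  nlinarith

theorem main (Cl : O → O → ℝ → ℝ → ℝ → Prop)
    (hcl : ∀ {β ε₁ : ℝ}, 51 / 100 ≤ β → β ≤ 1 → ZeroFree β → 0 < ε₁ → ∀ {M : O}, Adm M →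
      ∃ (G : Finset ℝ) (B₀ : ℝ), (∀ σ ∈ G, 51 / 100 ≤ σ ∧ σ ≤ β) ∧
      ∀ B ≥ B₀, ∀ r : O, ¬ Exc M r → ∃ σ ∈ G, ZF M r σ (Real.log B ^ 2) ∧
        (σ = 51 / 100 ∨ Cl M r B σ ε₁))
    (hcc : ∃ K₁ : ℕ, ∀ K₀ ≥ K₁,
      ∀ {M : O}, Adm M → ∃ ε₁ C B₀ : ℝ, 0 < ε₁ ∧ ∀ B ≥ B₀,
        ∀ (R₀ δ q : ℝ) (qs : ℕ → ℝ) (S : Finset O),
        B ^ (6 / 25 : ℝ) ≤ R₀ → R₀ ≤ B ^ (33 / 40 : ℝ) → 1 / 50 ≤ δ → δ ≤ 1 → 0 ≤ q → q ≤ δ →
        (∀ i, 0 ≤ qs i) → q / 6 ≤ ∑ i : Fin K₀, qs i * ell K₀ i →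
        (∀ r ∈ S, ¬ Exc M r ∧ nr r ≤ R₀ ∧ Cl M r B ((1 + δ) / 2) ε₁ ∧
          ∀ i < K₀, qs i = 0 ∨ Pw K₀ B i ^ ((1 + qs i) / 2) ≤ ‖slt M K₀ B i r‖) →
        (S.card : ℝ) ≤ C * B ^ (1 / 20000 : ℝ) * R₀ ^ (1 - δ + Eexc δ q)) :
    ∃ (m : ℝ) (K₀ : ℕ), 0 < m ∧ m ≤ 1 / 100 ∧ 1 ≤ K₀ ∧ ∀ β : ℝ, 7 / 8 ≤ β → β ≤ 1 →
    ZeroFree β → ∀ {M : O}, Adm M → ∃ C B₀ : ℝ, ∀ B ≥ B₀, ∃ σ : O → ℝ,
      (∀ r ∈ RS M (Apar B * B ^ m), 1 / 2 ≤ σ r ∧ σ r ≤ 1 ∧ ZF M r (σ r) (Real.log B ^ 2)) ∧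
      ∑ r ∈ RS M (Apar B * B ^ m), (Apar B * B ^ m / nr r) ^ (1 / 3 : ℝ) *
          (B ^ σ r * Xpar B ^ (1 - σ r) * nr r ^ (σ r - 1 / 2) *
            ∏ i : Fin K₀, (‖slt M K₀ B i r‖ + Real.sqrt (Pw K₀ B i))) ≤
        C * NrmB B * B ^ (β - m) := by
  classical
  obtain ⟨K₁, hcc⟩ := hcc
  obtain ⟨K₀, hK1, hK⟩ : ∃ K₀ : ℕ, K₁ ≤ K₀ ∧ 1 ≤ K₀ := ⟨max K₁ 1, le_max_left _ _, le_max_right _ _⟩
  have hK' : (0 : ℝ) < K₀ := by exact_mod_cast hK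
  refine ⟨1 / 10000, K₀, by norm_num, by norm_num, hK, fun β hβ hβ1 hZ M hM => ?_⟩
  obtain ⟨ε₁, C, B₀, hε₁, hcc⟩ := hcc K₀ hK1 hM
  obtain ⟨G, B₁, hG, hcl⟩ := hcl (by linarith) hβ1 hZ hε₁ hM
  obtain ⟨C₀, hC₀, hs⟩ := slt_class hM (K₀ := K₀) (ε := 1 / (20000 * K₀)) (by positivity)
  set T : Finset (ℝ × ℕ × (Fin K₀ → ℕ)) :=
    insert β G ×ˢ range 20001 ×ˢ Fintype.piFinset fun _ => range 10001 with hT
  refine ⟨T.card * ((C₀ + 2) ^ K₀ * max C 7), max (Real.exp 3) (max B₀ B₁), fun B hB => ?_⟩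
  simp only [ge_iff_le, max_le_iff] at hB
  obtain ⟨hB3, hB0', hB1'⟩ := hB
  have hB1 : 1 < B := (Real.one_lt_exp_iff.2 (by norm_num)).trans_le hB3
  have hB0 : 0 < B := one_pos.trans hB1
  have hlog : 3 ≤ Real.log B := (Real.le_log_iff_exp_le hB0).2 hB3
  have hA : Apar B * B ^ (1 / 10000 : ℝ) = B ^ (13 / 16 + 1 / 10000 : ℝ) := by
    rw [Apar, ← Real.rpow_add hB0]
  set s := RS M (Apar B * B ^ (1 / 10000 : ℝ)) with hs_def
  have hmem : ∀ r ∈ s, ¬ Exc M r ∧ r ≠ 0 ∧ nr r ≤ B ^ (13 / 16 + 1 / 10000 : ℝ) := by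
    intro r hr
    obtain ⟨h1, h2⟩ := of_mem_RS hr
    rw [hA, mem_rows (by positivity)] at h1
    exact ⟨h2, h1⟩
  have hj : ∀ r : O, ∃ j : ℕ, r ∈ s → (j : ℝ) * (1 / 20000) ≤ 13 / 16 + 1 / 10000 + 1 / 20000 ∧
      nr r ≤ B ^ ((j : ℝ) * (1 / 20000)) ∧ B ^ ((j : ℝ) * (1 / 20000) - 1 / 20000) ≤ nr r := by
    intro r
    by_cases hr : r ∈ s
    · obtain ⟨-, h1, h2⟩ := hmem r hr
      obtain ⟨j, h⟩ := exists_j hB1 (one_le_nr h1) h2 (show (0 : ℝ) < 1 / 20000 by norm_num)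
      exact ⟨j, fun _ => h⟩
    · exact ⟨0, fun h => absurd h hr⟩
  choose j hj using hj
  have hσ : ∀ r : O, ∃ σ : ℝ, r ∈ s → σ ∈ insert β G ∧ ZF M r σ (Real.log B ^ 2) ∧
      (j r ≤ 4800 ∧ σ = β ∨ σ = 51 / 100 ∨ 4800 < j r ∧ Cl M r B σ ε₁) := by
    intro r
    by_cases hr : r ∈ s
    · rcases le_or_gt (j r) 4800 with h | h
      · exact ⟨β, fun _ => ⟨mem_insert_self _ _, hZ.zf hM (hmem r hr).1 _, Or.inl ⟨h, rfl⟩⟩⟩
      · obtain ⟨σ, h1, h2, h3⟩ := hcl B hB1' r (hmem r hr).1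
        exact ⟨σ, fun _ => ⟨mem_insert_of_mem h1, h2, Or.inr (h3.imp_right fun h' => ⟨h, h'⟩)⟩⟩
    · exact ⟨0, fun h => absurd h hr⟩
  choose σ hσ using hσ
  choose k hk using fun (r : O) (i : Fin K₀) =>
    exists_k (Pw K₀ B i) ‖slt M K₀ B i r‖ (1 / 10000) 10000
  have hG' : ∀ x ∈ insert β G, 51 / 100 ≤ x ∧ x ≤ β := by
    intro x hx
    rcases mem_insert.1 hx with rfl | hx
    · exact ⟨by linarith, le_rfl⟩
    · exact hG x hx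
  refine ⟨σ, fun r hr => ?_, ?_⟩
  · obtain ⟨h1, h2, -⟩ := hσ r hr
    exact ⟨by linarith [(hG' _ h1).1], (hG' _ h1).2.trans hβ1, h2⟩
  have hε : 1 ≤ B ^ (1 / (20000 * K₀) : ℝ) := Real.one_le_rpow hB1.le (by positivity)
  have hKε : (K₀ : ℝ) * (1 / (20000 * K₀)) = 1 / 20000 := by field_simp
  -- bounds for the slots
  have hsl : ∀ r ∈ s, ∀ i : Fin K₀,
      ‖slt M K₀ B i r‖ ≤ C₀ * B ^ (1 / (20000 * K₀) : ℝ) * Pw K₀ B i ^ σ r := by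
    intro r hr i
    obtain ⟨h1, h2, -⟩ := hσ r hr
    obtain ⟨h3, -, h4⟩ := hmem r hr
    refine hs B (σ r) _ i r hB1.le i.2 h3 (h4.trans ?_) (by linarith [(hG' _ h1).1])
      ((hG' _ h1).2.trans hβ1) h2 (by nlinarith)
    exact Real.rpow_le_self_of_one_le hB1.le (by norm_num)
  have hadd : ∀ (i : Fin K₀) (y e : ℝ), 1 / 2 ≤ e →
      y ≤ (C₀ + 1) * B ^ (1 / (20000 * K₀) : ℝ) * Pw K₀ B i ^ e →
      y + Real.sqrt (Pw K₀ B i) ≤ (C₀ + 2) * B ^ (1 / (20000 * K₀) : ℝ) * Pw K₀ B i ^ e := by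
    intro i y e he hy
    have h1 : Real.sqrt (Pw K₀ B i) ≤ Pw K₀ B i ^ e := by
      rw [Real.sqrt_eq_rpow]
      exact Real.rpow_le_rpow_of_exponent_le (PA.one_le_Pw i.2 hB1.le) he
    have h2 : Pw K₀ B i ^ e ≤ B ^ (1 / (20000 * K₀) : ℝ) * Pw K₀ B i ^ e :=
      le_mul_of_one_le_left (Real.rpow_pos_of_pos (PA.Pw_pos K₀ hB0 i) e).le hε
    linarith
  have hp1 : ∀ r ∈ s, ∏ i : Fin K₀, (‖slt M K₀ B i r‖ + Real.sqrt (Pw K₀ B i)) ≤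
      (C₀ + 2) ^ K₀ * B ^ (1 / 20000 + σ r / 6) := by
    intro r hr
    have := prod_le (C := C₀ + 2) (ε := 1 / (20000 * K₀)) hB0
      (fun i : Fin K₀ => ‖slt M K₀ B i r‖ + Real.sqrt (Pw K₀ B i)) (fun _ => σ r)
      (fun i => by positivity) fun i => hadd i _ _ (by linarith [(hG' _ (hσ r hr).1).1])
        ((hsl r hr i).trans (by
          have := PA.Pw_pos K₀ hB0 i
          gcongr; linarith))
    rwa [hKε, ← sum_mul, sum_ell hK, show 1 / 6 * σ r = σ r / 6 by ring] at this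
  have hp2 : ∀ r ∈ s, ∏ i : Fin K₀, (‖slt M K₀ B i r‖ + Real.sqrt (Pw K₀ B i)) ≤
      (C₀ + 2) ^ K₀ * B ^ (1 / 20000 + (1 / 12 +
        (∑ i : Fin K₀, (k r i : ℝ) * (1 / 10000) * ell K₀ i) / 2 + 1 / 120000)) := by
    intro r hr
    have := prod_le (C := C₀ + 2) (ε := 1 / (20000 * K₀)) hB0
      (fun i : Fin K₀ => ‖slt M K₀ B i r‖ + Real.sqrt (Pw K₀ B i))
      (fun i => (1 + ((k r i : ℝ) + 1) * (1 / 10000)) / 2)
      (fun i => by positivity) fun i => hadd i _ _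
        (by have : (0 : ℝ) ≤ k r i := Nat.cast_nonneg _
            linarith) (by
          have hP := PA.Pw_pos K₀ hB0 i
          rcases (hk r i).2.2 with h | h
          · refine (hsl r hr i).trans ?_
            have h1 : Pw K₀ B i ^ σ r ≤ Pw K₀ B i ^ ((1 + ((k r i : ℝ) + 1) * (1 / 10000)) / 2) := by
              refine Real.rpow_le_rpow_of_exponent_le (PA.one_le_Pw i.2 hB1.le) ?_
              rw [h]; push_cast
              linarith [(hG' _ (hσ r hr).1).2]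
            gcongr; linarith
          · refine h.trans (le_mul_of_one_le_left (by positivity) ?_)
            nlinarith)
    rw [hKε] at this
    convert this using 3
    have e : ∀ i : Fin K₀, ell K₀ i * ((1 + ((k r i : ℝ) + 1) * (1 / 10000)) / 2) =
        (k r i : ℝ) * (1 / 10000) * ell K₀ i / 2 + ell K₀ i * (10001 / 20000) := fun i => by ring
    simp only [e]
    rw [sum_add_distrib, ← sum_div, ← sum_mul, sum_ell hK]
    ring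
  rw [mul_assoc, mul_assoc]
  refine sum_le_fibers s T (fun r => (σ r, j r, k r)) _ (fun r hr => ?_) ?_
  · simp only [hT, mem_product, mem_range, Fintype.mem_piFinset]
    refine ⟨(hσ r hr).1, ?_, fun i => Nat.lt_succ_of_le (hk r i).1⟩
    have : (j r : ℝ) < 20001 := by linarith [(hj r hr).1]
    exact_mod_cast this
  rintro ⟨σ₀, j₀, k₀⟩ -
  set S := s.filter fun r => (σ r, j r, k r) = (σ₀, j₀, k₀) with hS
  have hY : 0 ≤ (C₀ + 2) ^ K₀ * max C 7 * (NrmB B * B ^ (β - 1 / 10000)) := by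
    rw [NrmB_eq hB0]; positivity
  rcases S.eq_empty_or_nonempty with h0 | ⟨r₀, hr₀⟩
  · rw [h0, sum_empty]; exact hY
  have hS' : ∀ r ∈ S, r ∈ s ∧ σ r = σ₀ ∧ j r = j₀ ∧ k r = k₀ := by
    intro r hr
    simpa only [hS, mem_filter, Prod.mk.injEq] using hr
  obtain ⟨a0, a1, a2, a3⟩ := hS' r₀ hr₀
  have b1 := hG' _ (hσ r₀ a0).1
  have b2 := (hj r₀ a0).1
  rw [a1] at b1
  rw [a2] at b2
  have hj0 : (0 : ℝ) ≤ j₀ := Nat.cast_nonneg _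
  have hC7 : (0 : ℝ) ≤ max C 7 := le_max_of_le_right (by norm_num)
  rw [sum_congr rfl fun r hr => by rw [(hS' r hr).2.1]]
  have hrange : ∀ r ∈ S, B ^ ((j₀ : ℝ) * (1 / 20000) - 1 / 20000) ≤ nr r ∧
      nr r ≤ B ^ ((j₀ : ℝ) * (1 / 20000)) := by
    intro r hr
    obtain ⟨c0, -, c2, -⟩ := hS' r hr
    rw [← c2]
    exact ⟨(hj r c0).2.2, (hj r c0).2.1⟩
  -- trivial count
  have htriv : (13 / 16 + 1 / 10000 - (j₀ : ℝ) * (1 / 20000) + 1 / 20000) / 3 + σ₀ +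
      23 / 48 * (1 - σ₀) + (j₀ : ℝ) * (1 / 20000) * (σ₀ - 1 / 2) + (1 / 20000 + σ₀ / 6) +
      (j₀ : ℝ) * (1 / 20000) ≤ 25 / 32 + (β - 1 / 10000) →
      ∑ r ∈ S, (Apar B * B ^ (1 / 10000 : ℝ) / nr r) ^ (1 / 3 : ℝ) *
        (B ^ σ₀ * Xpar B ^ (1 - σ₀) * nr r ^ (σ₀ - 1 / 2) *
          ∏ i : Fin K₀, (‖slt M K₀ B i r‖ + Real.sqrt (Pw K₀ B i))) ≤
        (C₀ + 2) ^ K₀ * max C 7 * (NrmB B * B ^ (β - 1 / 10000)) := by
    intro hexp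
    refine fiber S _ hB1.le (by linarith [b1.1]) (by positivity) hC7 (fun r hr =>
      ⟨(hrange r hr).1, (hrange r hr).2, by positivity, ?_⟩) ?_ hexp
    · obtain ⟨c0, c1, -⟩ := hS' r hr
      rw [← c1]; exact hp1 r c0
    · have h1 : S ⊆ rows (B ^ ((j₀ : ℝ) * (1 / 20000))) := fun r hr =>
        (mem_rows (by positivity)).2 ⟨(hmem r (hS' r hr).1).2.1, (hrange r hr).2⟩
      have h2 : (S.card : ℝ) ≤ (rows (B ^ ((j₀ : ℝ) * (1 / 20000)))).card := by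
        exact_mod_cast card_le_card h1
      refine h2.trans ((card_rows_le (by positivity)).trans ?_)
      gcongr
      exact le_max_right _ _
  by_cases hσ0 : σ₀ = 51 / 100
  · refine htriv ?_
    rw [hσ0]; linarith
  rcases le_or_gt j₀ 4800 with hj₀ | hj₀
  · have e : σ₀ = β := by
      rcases (hσ r₀ a0).2.2 with h | h | h
      · rw [← a1, h.2]
      · exact absurd (a1.symm.trans h) hσ0
      · omega
    refine htriv ?_
    have : (j₀ : ℝ) ≤ 4800 := by exact_mod_cast hj₀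
    rw [e]
    nlinarith
  obtain ⟨δ, rfl⟩ : ∃ δ : ℝ, σ₀ = (1 + δ) / 2 := ⟨2 * σ₀ - 1, by ring⟩
  have hell : ∀ i : Fin K₀, 0 ≤ ell K₀ i := fun i => by
    have h1 := (ell_bounds i.2).1
    have h2 := PA.kap_nonneg K₀
    have h3 : 0 ≤ 1 / (8 * (K₀ : ℝ)) := by positivity
    linarith
  set w : ℝ := ∑ i : Fin K₀, (k₀ i : ℝ) * (1 / 10000) * ell K₀ i with hw
  have hw0 : 0 ≤ w := sum_nonneg fun i _ => mul_nonneg (by positivity) (hell i)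
  have hδ : 1 / 50 ≤ δ := by linarith [b1.1]
  have hq0 : 0 ≤ min δ (6 * w) := le_min (by linarith) (by linarith)
  have hj₁ : (4800 : ℝ) ≤ j₀ := by exact_mod_cast hj₀.le
  have hcard := hcc B hB0' (B ^ ((j₀ : ℝ) * (1 / 20000))) δ (min δ (6 * w))
    (fun i => if h : i < K₀ then (k₀ ⟨i, h⟩ : ℝ) * (1 / 10000) else 0) S
    (Real.rpow_le_rpow_of_exponent_le hB1.le (by linarith))
    (Real.rpow_le_rpow_of_exponent_le hB1.le (by linarith)) hδ (by linarith [b1.2]) hq0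
    (min_le_left _ _) (fun i => by split_ifs <;> positivity)
    (by
      simp only [Fin.is_lt, dif_pos, Fin.eta]
      linarith [min_le_right δ (6 * w)])
    (fun r hr => by
      obtain ⟨c0, c1, c2, c3⟩ := hS' r hr
      refine ⟨(hmem r c0).1, (hrange r hr).2, ?_, fun i hi => ?_⟩
      · rcases (hσ r c0).2.2 with h | h | h
        · omega
        · exact absurd (c1.symm.trans h) hσ0
        · rw [← c1]; exact h.2
      · simp only [hi, dif_pos]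
        rw [← c3]
        refine (hk r ⟨i, hi⟩).2.1.imp (fun h => ?_) id
        rw [h]; simp)
  refine fiber S _ hB1.le (by linarith) (by positivity) hC7 (fun r hr =>
    ⟨(hrange r hr).1, (hrange r hr).2, by positivity, ?_⟩) ?_
    (exp_class hδ b1.2 hβ hβ1 hq0 (min_le_left _ _) b2)
  · obtain ⟨c0, c1, -, c3⟩ := hS' r hr
    rcases le_total δ (6 * w) with h | h
    · refine (hp1 r c0).trans ?_
      rw [min_eq_left h, c1]
      exact mul_le_mul_of_nonneg_left (Real.rpow_le_rpow_of_exponent_le hB1.le (by linarith))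
        (by positivity)
    · refine (hp2 r c0).trans ?_
      rw [min_eq_right h, c3]
      exact mul_le_mul_of_nonneg_left (Real.rpow_le_rpow_of_exponent_le hB1.le (by linarith))
        (by positivity)
  · refine hcard.trans ?_
    rw [← Real.rpow_mul hB0.le, mul_assoc, ← Real.rpow_add hB0]
    gcongr
    exact le_max_left _ _

end Crest.Agent.R17.RSum
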