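import Crest.Agent.R17.PDefs
import Crest.Agent.R17.Inv
import Crest.Agent.R17.Mom4
import Crest.Agent.R17.Numeric
import Crest.Agent.R17.CountsAuxS
import Crest.Agent.R17.CountsAuxC

/-!
# Row 17, module M13: counting the rows of each class, and the sum over the non-exceptional rows
-/

set_option autoImplicit false

noncomputable section

namespace Crest.Agent.R17

/-- The row `r` has a zero with `Re ρ ≥ σ - ε₁` inside a window that is zero-free to the right of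
`σ` with a margin. -/
def Cls (M r : O) (B σ ε₁ : ℝ) : Prop :=
  ∃ (T : ℝ) (ν : Chr M) (ρ : ℂ), ZF M r σ T ∧ Lc ν r ρ = 0 ∧ σ - ε₁ ≤ ρ.re ∧
    |ρ.im| + Real.log B ^ 2 ≤ T ∧ |ρ.im| ≤ Real.log B ^ 3

/-- Nested windows `T_i = i (log B)²`, `i ≤ 1/ε₁ + 3`: let `σ_i` be the least point of the grid
`51/100 + ε₁ ℕ`, capped at `β`, with `ZF M r σ_i T_i`; `σ_i` is monotone, so `σ_i = σ_{i+1}` for
some `i ≥ 1`. -/
theorem exists_class {β ε₁ : ℝ} (hβ : 51 / 100 ≤ β) (hβ1 : β ≤ 1) (h : ZeroFree β) (hε : 0 < ε₁)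
    {M : O} (hM : Adm M) : ∃ (G : Finset ℝ) (B₀ : ℝ), (∀ σ ∈ G, 51 / 100 ≤ σ ∧ σ ≤ β) ∧
      ∀ B ≥ B₀, ∀ r : O, ¬ Exc M r → ∃ σ ∈ G, ZF M r σ (Real.log B ^ 2) ∧
        (σ = 51 / 100 ∨ Cls M r B σ ε₁) := by
  classical
  obtain ⟨J, hJ⟩ := exists_nat_ge (1 / ε₁)
  have hJ' : 1 ≤ (J : ℝ) * ε₁ := by rwa [div_le_iff₀ hε] at hJ
  set g : ℕ → ℝ := fun j => min β (51 / 100 + j * ε₁) with hg
  refine ⟨(Finset.range (J + 1)).image g, Real.exp J, ?_, ?_⟩
  · intro σ hσ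
    obtain ⟨j, -, rfl⟩ := Finset.mem_image.1 hσ
    refine ⟨le_min hβ ?_, min_le_left _ _⟩
    have : 0 ≤ (j : ℝ) * ε₁ := by positivity
    linarith
  · intro B hB r hr
    have hL : (J : ℝ) ≤ Real.log B := by
      rw [Real.le_log_iff_exp_le ((Real.exp_pos _).trans_le hB)]; exact hB
    have hL2 : 0 ≤ Real.log B ^ 2 := sq_nonneg _
    have hPJ : ZF M r (g J) ((J + 1) * Real.log B ^ 2) := by
      have : g J = β := min_eq_left (by linarith)
      rw [this]; exact h.zf hM hr _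
    have hex : ∃ j : ℕ, ZF M r (g j) ((j + 1) * Real.log B ^ 2) := ⟨J, hPJ⟩
    have h1 := Nat.find_spec hex
    have h2 : Nat.find hex ≤ J := Nat.find_min' hex hPJ
    have h3 := fun j => @Nat.find_min _ _ hex j
    generalize Nat.find hex = j at h1 h2 h3
    refine ⟨g j, Finset.mem_image.2 ⟨j, Finset.mem_range.2 (by omega), rfl⟩,
      h1.mono le_rfl ?_, ?_⟩
    · have : (0 : ℝ) ≤ j * Real.log B ^ 2 := by positivity
      linarith
    · rcases j with _ | j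
      · left
        simp only [hg, Nat.cast_zero, zero_mul, add_zero]
        exact min_eq_right hβ
      · right
        have h4 := h3 j (Nat.lt_succ_self j)
        unfold ZF at h4
        push Not at h4
        obtain ⟨ν, ρ, a1, a2, a3⟩ := h4
        refine ⟨_, ν, ρ, h1, a3, ?_, ?_, ?_⟩
        · have : g (j + 1) ≤ g j + ε₁ := by
            simp only [hg]
            rcases le_total β (51 / 100 + j * ε₁) with hc | hc
            · rw [min_eq_left hc]; linarith [min_le_left β (51 / 100 + ((j + 1 : ℕ) : ℝ) * ε₁)]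
            · rw [min_eq_right hc]
              have := min_le_right β (51 / 100 + ((j + 1 : ℕ) : ℝ) * ε₁)
              push_cast at this ⊢
              linarith
          linarith
        · push_cast; linarith
        · have h5 : ((j : ℝ) + 1) ≤ Real.log B := by
            have : ((j + 1 : ℕ) : ℝ) ≤ J := by exact_mod_cast h2
            push_cast at this; linarith
          calc |ρ.im| ≤ (j + 1) * Real.log B ^ 2 := a2
            _ ≤ Real.log B * Real.log B ^ 2 := mul_le_mul_of_nonneg_right h5 hL2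
            _ = Real.log B ^ 3 := by ring

/-- **Count of the rows of class `(δ, q)`**, `σ = (1+δ)/2`, slot rates `q i`
(`|slt_i(r)| ≥ P_i^{(1+q_i)/2}`, or `q i = 0`: no information), weighted mean `q`.
Proof: `numeric` gives `u, v`; `detector` (ambient `R = B²`) with `D₀ = R₀^{1+u}` gives `D, N` for
each row; pigeonhole `ν` and the dyadic sizes of `D, N`; `sup_moment` (`sup_four`) for the row
dependent scale and twist.  (i) `D ≥ R₀`: `inv_long`.  (ii) `R₀^{1-v} ≤ D ≤ R₀`, `D = R₀^{1-v'}`: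
`greedy` with target `R₀^{v'/2}` among the slots, cut each slot to the primes
`≤ P_i B^{ε'}` (`sum_cw_tail`), `inv_moment` (slots with `q i = 0` are simply not used: remove them
from the chosen set, this only shortens the marks).  (iii) `D ≤ R₀^{1-v}`: `N = R₀^{m'}`,
`u + v - ε' ≤ m' ≤ 1/2 + ε'`, `s = max(0, 1 - 2m')`, `greedy` with target `R₀^{min(2s/7, 3/50)}`,
`balanced`, `prod_slot_eq`, `mom4_fill` with `A` slightly larger than `R₀`.
The total length of the slots is `B^{1/6} ≥ R₀^{0.2}`; every slot is `≤ B^{5/(24K₀)}`. -/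
theorem class_count {ε : ℝ} (hε : 0 < ε) : ∃ K₁ : ℕ, ∀ K₀ ≥ K₁,
    ∀ {M : O}, Adm M → ∃ ε₁ C B₀ : ℝ, 0 < ε₁ ∧ ∀ B ≥ B₀, ∀ (R₀ δ q : ℝ) (qs : ℕ → ℝ) (S : Finset O),
      B ^ (6 / 25 : ℝ) ≤ R₀ → R₀ ≤ B ^ (33 / 40 : ℝ) → 1 / 50 ≤ δ → δ ≤ 1 → 0 ≤ q → q ≤ δ →
      (∀ i, 0 ≤ qs i) → q / 6 ≤ ∑ i : Fin K₀, qs i * ell K₀ i →
      (∀ r ∈ S, ¬ Exc M r ∧ nr r ≤ R₀ ∧ Cls M r B ((1 + δ) / 2) ε₁ ∧
        ∀ i < K₀, qs i = 0 ∨ Pw K₀ B i ^ ((1 + qs i) / 2) ≤ ‖slt M K₀ B i r‖) →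
      (S.card : ℝ) ≤ C * B ^ ε * R₀ ^ (1 - δ + Eexc δ q) := by
  obtain ⟨K₁, h⟩ := CC.count hε
  refine ⟨K₁, fun K₀ hK M hM => ?_⟩
  obtain ⟨ε₁, C, B₀, h1, h2⟩ := h K₀ hK hM
  exact ⟨ε₁, C, B₀, h1, fun B hB R₀ δ q qs S a1 a2 a3 a4 a5 a6 _ a8 a9 =>
    h2 B hB R₀ δ q qs S a1 a2 a3 a4 a5 a6 a8 a9⟩

/-- **Sum over the non-exceptional rows.**  Dyadic `N r ~ R₀`.  `R₀ ≤ B^{6/25}`: take `σ = β`,
trivial count and `slt_class`.  Otherwise `exists_class`; class `σ = 51/100`: trivial count and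
`slt_class`; other classes: bin the slot rates on a grid of mesh `ε'` (`slt_class` gives
`q_i ≤ δ + ε'`; put `q = min(δ, 6 ∑ q_i ell_i)`), `class_count`.  The exponent
`(1/3) log(A/R₀) + (σ - 1/2 + 1 - δ + E) log R₀` is increasing in `R₀`, and at `R₀ = A` the total is
`NrmB B · B^{max(7/8,σ) - 1/2000}` by the definition of `Eexc`. -/
theorem row_sum : ∃ (m : ℝ) (K₀ : ℕ), 0 < m ∧ m ≤ 1 / 100 ∧ 1 ≤ K₀ ∧ ∀ β : ℝ, 7 / 8 ≤ β → β ≤ 1 →
    ZeroFree β → ∀ {M : O}, Adm M → ∃ C B₀ : ℝ, ∀ B ≥ B₀, ∃ σ : O → ℝ,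
      (∀ r ∈ RS M (Apar B * B ^ m), 1 / 2 ≤ σ r ∧ σ r ≤ 1 ∧ ZF M r (σ r) (Real.log B ^ 2)) ∧
      ∑ r ∈ RS M (Apar B * B ^ m), (Apar B * B ^ m / nr r) ^ (1 / 3 : ℝ) *
          (B ^ σ r * Xpar B ^ (1 - σ r) * nr r ^ (σ r - 1 / 2) *
            ∏ i : Fin K₀, (‖slt M K₀ B i r‖ + Real.sqrt (Pw K₀ B i))) ≤
        C * NrmB B * B ^ (β - m) :=
  RSum.main Cls (fun a b c d _ e => exists_class a b c d e) (class_count (by norm_num))

end Crest.Agent.R17
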