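import Crest.Agent.R17.LS2Avg
import Crest.Agent.R17.Count

/-!
# Row 17, module M11: auxiliary lemmas for `gp` (separation of variables, re-indexing)
-/

set_option autoImplicit false

noncomputable section

namespace Crest.Agent.R17.GP

open scoped ComplexConjugate
open Classical MeasureTheory LS2

/-- A weighted sum of integrals of non-negative functions below an integrable majorant. -/
theorem sum_integral_le {I : Type} (s : Finset I) (w : I → ℝ) (f : I → ℝ → ℝ) (G : ℝ → ℝ)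
    (hw : ∀ i ∈ s, 0 ≤ w i) (hf : ∀ i ∈ s, ∀ u, 0 ≤ f i u) (hG : Integrable G)
    (h : ∀ u, ∑ i ∈ s, w i * f i u ≤ G u) : ∑ i ∈ s, w i * ∫ u, f i u ≤ ∫ u, G u := by
  have e1 : ∑ i ∈ s, w i * ∫ u, f i u =
      ∑ i ∈ s.filter (fun i => Integrable (f i)), ∫ u, w i * f i u := by
    rw [Finset.sum_filter]
    refine Finset.sum_congr rfl fun i _ => ?_
    split_ifs with hi
    · rw [integral_const_mul]
    · rw [integral_undef hi, mul_zero]
  have hint : ∀ i ∈ s.filter (fun i => Integrable (f i)), Integrable fun u => w i * f i u :=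
    fun i hi => (Finset.mem_filter.1 hi).2.const_mul _
  rw [e1, ← integral_finsetSum _ hint]
  refine integral_mono (integrable_finsetSum _ hint) hG fun u => le_trans ?_ (h u)
  exact Finset.sum_le_sum_of_subset_of_nonneg (Finset.filter_subset _ _)
    fun i hi _ => mul_nonneg (hw i hi) (hf i hi u)

theorem sep_one {σ : ℝ} (hσ : 0 < σ) {Λ : (ℝ → ℂ) → ℂ} (h : FC Λ) :
    ‖Λ (fun y => (gw y : ℂ))‖ ≤ ∫ u : ℝ, ‖Complex.Gamma (σ + u * Complex.I)‖ *
      ‖Λ (fun y => (y : ℂ) ^ (-(σ + u * Complex.I)))‖ := by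
  obtain ⟨μ, hs, hL⟩ := h
  simp only [hL]
  set κ : ℝ := 2 * Real.pi / Real.sqrt 3 with hκ
  have hκ1 : 1 ≤ κ := le_trans (by norm_num) pois_three_le
  have hκ0 : 0 < κ := lt_of_lt_of_le one_pos hκ1
  have hre : ∀ u : ℝ, (-((σ : ℂ) + u * Complex.I)).re = -σ := fun u => by simp
  have hG := integrable_Gamma_mul_pow hσ 0
  simp only [pow_zero, mul_one] at hG
  have hcont : Continuous fun u : ℝ => Complex.Gamma (σ + u * Complex.I) := by
    refine continuous_iff_continuousAt.2 fun u => ?_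
    refine ContinuousAt.comp (f := fun u : ℝ => (σ : ℂ) + u * Complex.I)
      (Complex.differentiableAt_Gamma _ fun m hm => ?_).continuousAt (by fun_prop)
    have := congrArg Complex.re hm
    simp at this
    have : (0 : ℝ) ≤ m := Nat.cast_nonneg m
    linarith
  have hint : ∀ r : ℝ, 0 < r → Integrable (fun u : ℝ =>
      Complex.Gamma (σ + u * Complex.I) * (r : ℂ) ^ (-((σ : ℂ) + u * Complex.I))) := by
    intro r hr
    refine (hG.mul_const (r ^ (-σ))).mono' ?_ (Filter.Eventually.of_forall fun u => ?_)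
    · refine (hcont.mul ?_).aestronglyMeasurable
      simp only [avg_cpow hr]
      fun_prop
    · rw [norm_mul, Complex.norm_cpow_eq_rpow_re_of_pos hr, hre]
  have e : ∑ y ∈ μ.support, μ y * (gw y : ℂ) = (1 / (2 * Real.pi) : ℂ) * ∫ u : ℝ,
      Complex.Gamma (σ + u * Complex.I) * ((κ : ℂ) ^ (-((σ : ℂ) + u * Complex.I)) *
        ∑ y ∈ μ.support, μ y * (y : ℂ) ^ (-((σ : ℂ) + u * Complex.I))) := by
    have e1 : ∀ u : ℝ, Complex.Gamma (σ + u * Complex.I) *
        ((κ : ℂ) ^ (-((σ : ℂ) + u * Complex.I)) *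
          ∑ y ∈ μ.support, μ y * (y : ℂ) ^ (-((σ : ℂ) + u * Complex.I))) =
        ∑ y ∈ μ.support, μ y * (Complex.Gamma (σ + u * Complex.I) *
          ((κ * y : ℝ) : ℂ) ^ (-((σ : ℂ) + u * Complex.I))) := by
      intro u
      rw [Finset.mul_sum, Finset.mul_sum]
      refine Finset.sum_congr rfl fun y hy => ?_
      rw [Complex.ofReal_mul, Complex.mul_cpow_ofReal_nonneg hκ0.le (hs y hy).le]
      ring
    simp only [e1]
    rw [integral_finsetSum _ fun y hy => (hint _ (mul_pos hκ0 (hs y hy))).const_mul _,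
      Finset.mul_sum]
    refine Finset.sum_congr rfl fun y hy => ?_
    rw [integral_const_mul, gw_eq_integral (hs y hy) hσ]
    ring
  have e2 : ‖(1 / (2 * Real.pi) : ℂ)‖ ≤ 1 := by
    rw [show (1 / (2 * Real.pi) : ℂ) = ((1 / (2 * Real.pi) : ℝ) : ℂ) by push_cast; ring,
      Complex.norm_real, Real.norm_of_nonneg (by positivity), div_le_one (by positivity)]
    linarith [Real.pi_gt_three]
  rw [e, norm_mul]
  refine (mul_le_of_le_one_left (norm_nonneg _) e2).trans ?_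
  refine (norm_integral_le_integral_norm _).trans ?_
  have hint2 : Integrable (fun u : ℝ => ‖Complex.Gamma (σ + u * Complex.I)‖ *
      ‖∑ y ∈ μ.support, μ y * (y : ℂ) ^ (-((σ : ℂ) + u * Complex.I))‖) := by
    have := (integrable_finsetSum μ.support fun y hy => (hint y (hs y hy)).const_mul (μ y)).norm
    refine this.congr (Filter.Eventually.of_forall fun u => ?_)
    simp only
    rw [← norm_mul, Finset.mul_sum]
    congr 1
    exact Finset.sum_congr rfl fun y _ => by ring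
  refine integral_mono_of_nonneg (Filter.Eventually.of_forall fun u => norm_nonneg _) hint2
    (Filter.Eventually.of_forall fun u => ?_)
  simp only
  rw [norm_mul, norm_mul, Complex.norm_cpow_eq_rpow_re_of_pos hκ0, hre]
  refine mul_le_mul_of_nonneg_left (mul_le_of_le_one_left (norm_nonneg _) ?_) (norm_nonneg _)
  exact Real.rpow_le_one_of_one_le_of_nonpos hκ1 (by linarith)

/-- **Separation lemma**: a weighted family of finite functionals evaluated at the Gaussian is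
controlled by the values at the powers `y ^ (-z)`, `Re z = σ`. -/
theorem sep {σ : ℝ} (hσ : 0 < σ) (J : ℕ) : ∃ C : ℝ, 0 < C ∧
    ∀ {I : Type} (S : Finset I) (w : I → ℝ) (Λ : I → (ℝ → ℂ) → ℂ) (B : ℝ),
      (∀ i ∈ S, 0 ≤ w i) → (∀ i ∈ S, FC (Λ i)) →
      (∀ z : ℂ, z.re = σ →
        ∑ i ∈ S, w i * ‖Λ i (fun y => (y : ℂ) ^ (-z))‖ ≤ B * (1 + |z.im|) ^ J) →
      ∑ i ∈ S, w i * ‖Λ i (fun y => (gw y : ℂ))‖ ≤ C * B := by
  set K : ℝ := ∫ u : ℝ, ‖Complex.Gamma (σ + u * Complex.I)‖ * (1 + |u|) ^ J with hK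
  have hK0 : 0 ≤ K := integral_nonneg fun u => by positivity
  refine ⟨K + 1, by positivity, fun {I} S w Λ B hw hΛ hB => ?_⟩
  have hB0 : 0 ≤ B := by
    have h1 := hB σ (by simp)
    rw [Complex.ofReal_im, abs_zero, add_zero, one_pow, mul_one] at h1
    exact le_trans (Finset.sum_nonneg fun i hi => mul_nonneg (hw i hi) (norm_nonneg _)) h1
  calc _ ≤ ∑ i ∈ S, w i * ∫ u : ℝ, ‖Complex.Gamma (σ + u * Complex.I)‖ *
        ‖Λ i (fun y => (y : ℂ) ^ (-(σ + u * Complex.I)))‖ :=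
        Finset.sum_le_sum fun i hi => mul_le_mul_of_nonneg_left (sep_one hσ (hΛ i hi)) (hw i hi)
    _ ≤ ∫ u : ℝ, B * (‖Complex.Gamma (σ + u * Complex.I)‖ * (1 + |u|) ^ J) := by
        refine sum_integral_le S w _ _ hw (fun i _ u => by positivity)
          ((integrable_Gamma_mul_pow hσ J).const_mul _) fun u => ?_
        have h1 := hB (σ + u * Complex.I) (by simp)
        have h2 : ((σ : ℂ) + u * Complex.I).im = u := by simp
        rw [h2] at h1
        calc _ = ‖Complex.Gamma (σ + u * Complex.I)‖ * ∑ i ∈ S, w i *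
              ‖Λ i (fun y => (y : ℂ) ^ (-(σ + u * Complex.I)))‖ := by
              rw [Finset.mul_sum]
              exact Finset.sum_congr rfl fun i _ => by ring
          _ ≤ _ := (mul_le_mul_of_nonneg_left h1 (norm_nonneg _)).trans_eq (by ring)
    _ ≤ _ := by
        rw [integral_const_mul, ← hK]
        nlinarith

/-- Sums over the multiples of `e`. -/
theorem sum_dvd {α : Type*} [AddCommMonoid α] {M e : O} (he : SP M e) {X : ℝ} (hX : 0 ≤ X)
    (f : O → α) :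
    ∑ n ∈ sp M X, (if e ∣ n then f n else 0) =
      ∑ m ∈ sp M (X / nr e), if IsCoprime m e then f (e * m) else 0 := by
  have he0 := he.1.ne_zero
  have hne := nr_pos he0
  have hX' : 0 ≤ X / nr e := div_nonneg hX hne.le
  rw [← Finset.sum_filter, ← Finset.sum_filter]
  symm
  refine Finset.sum_bij (fun m _ => e * m) (fun m hm => ?_) (fun m _ m' _ h => ?_)
    (fun n hn => ?_) (fun m _ => rfl)
  · rw [Finset.mem_filter, LS2.mem_sp hX'] at hm
    obtain ⟨⟨h1, h2⟩, h3⟩ := hm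
    rw [Finset.mem_filter, LS2.mem_sp hX]
    refine ⟨⟨⟨he.1.mul h1.1, ?_, he.2.2.mul_left h1.2.2⟩, ?_⟩, dvd_mul_right _ _⟩
    · exact (squarefree_mul_iff.2 ⟨h3.symm.isRelPrime, he.2.1, h1.2.1⟩)
    · rw [nr_mul, mul_comm]; exact (le_div_iff₀ hne).1 h2
  · exact mul_left_cancel₀ he0 h
  · rw [Finset.mem_filter, LS2.mem_sp hX] at hn
    obtain ⟨⟨h1, h2⟩, m, rfl⟩ := hn
    refine ⟨m, ?_, rfl⟩
    rw [Finset.mem_filter, LS2.mem_sp hX']
    refine ⟨⟨SP_of_dvd h1 (he.1.of_mul h1.1) (dvd_mul_left _ _), ?_⟩,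
      (IsRelPrime.of_squarefree_mul h1.2.1).isCoprime.symm⟩
    rw [le_div_iff₀ hne, mul_comm, ← nr_mul]; exact h2

/-- Removing the coprimality of two variables. -/
theorem mob {M : O} {X₁ X₂ L : ℝ} (h₁ : 0 ≤ X₁) (h₂ : 0 ≤ X₂) (hL : X₁ ≤ L) (U V : O → ℂ) :
    ∑ m₁ ∈ sp M X₁, ∑ m₂ ∈ sp M X₂, (if IsCoprime m₁ m₂ then U m₁ * V m₂ else 0) =
      ∑ t ∈ sp M L, mu t * ((∑ m ∈ sp M (X₁ / nr t), if IsCoprime m t then U (t * m) else 0) *
        ∑ m ∈ sp M (X₂ / nr t), if IsCoprime m t then V (t * m) else 0) := by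
  have hL0 : 0 ≤ L := h₁.trans hL
  have e1 : ∀ m₁ ∈ sp M X₁, ∀ m₂ ∈ sp M X₂, (if IsCoprime m₁ m₂ then U m₁ * V m₂ else 0) =
      ∑ t ∈ sp M L, mu t * ((if t ∣ m₁ then U m₁ else 0) * if t ∣ m₂ then V m₂ else 0) := by
    intro m₁ hm₁ m₂ hm₂
    rw [LS2.mem_sp h₁] at hm₁
    rw [LS2.mem_sp h₂] at hm₂
    have := sum_mu_coprime hm₁.1.1 hm₂.1.1.ne_zero
    have e2 : (pdiv m₁).filter (· ∣ m₂) = (sp M L).filter fun t => t ∣ m₁ ∧ t ∣ m₂ := by
      ext t
      rw [Finset.mem_filter, Finset.mem_filter, mem_pdiv hm₁.1.1.ne_zero, LS2.mem_sp hL0]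
      refine ⟨fun h => ⟨⟨SP_of_dvd hm₁.1 h.1.1 h.1.2, ?_⟩, h.1.2, h.2⟩,
        fun h => ⟨⟨h.1.1.1, h.2.1⟩, h.2.2⟩⟩
      have : nr t ≤ nr m₁ := by exact_mod_cast nm_le_of_dvd h.1.2 hm₁.1.1.ne_zero
      linarith [hm₁.2]
    rw [e2, Finset.sum_filter] at this
    calc _ = (if IsCoprime m₁ m₂ then 1 else 0) * (U m₁ * V m₂) := by split_ifs <;> simp
      _ = _ := by
        rw [← this, Finset.sum_mul]
        refine Finset.sum_congr rfl fun t _ => ?_
        by_cases a1 : t ∣ m₁ <;> by_cases a2 : t ∣ m₂ <;> simp [a1, a2]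
  rw [Finset.sum_congr rfl fun m₁ hm₁ => Finset.sum_congr rfl fun m₂ hm₂ => e1 m₁ hm₁ m₂ hm₂]
  rw [Finset.sum_congr rfl fun m₁ _ => Finset.sum_comm, Finset.sum_comm]
  refine Finset.sum_congr rfl fun t ht => ?_
  have ht' := ((LS2.mem_sp hL0).1 ht).1
  rw [← sum_dvd ht' h₁, ← sum_dvd ht' h₂, Finset.sum_mul_sum, Finset.mul_sum]
  exact Finset.sum_congr rfl fun m₁ _ => by rw [Finset.mul_sum]

end Crest.Agent.R17.GP
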