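import Crest.Agent.R17.DPAuxG

set_option autoImplicit false

noncomputable section

namespace Crest.Agent.R17.GP

open scoped ComplexConjugate
open Classical MeasureTheory LS2

/-- The frozen modulus. -/
def rho (d₁ d₂ e₁ e₂ : O) : O := rad (d₁ * d₂ * (e₁ * e₂))

/-- The frozen factor of the new row. -/
def bb (d₁ d₂ e₁ e₂ : O) : O := e₁ * d₁ ^ 3 * (e₂ * d₂ ^ 3) / rho d₁ d₂ e₁ e₂

/-- Valid frozen data. -/
def Val (d₁ d₂ e₁ e₂ : O) : Prop := pf e₁ \ (pf d₁ ∪ pf d₂) = pf e₂ \ (pf d₁ ∪ pf d₂)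

/-- Valid frozen data and free parts. -/
def Cop (d₁ d₂ e₁ e₂ m₁ m₂ : O) : Prop :=
  Val d₁ d₂ e₁ e₂ ∧ IsCoprime m₁ (rho d₁ d₂ e₁ e₂) ∧ IsCoprime m₂ (rho d₁ d₂ e₁ e₂) ∧
    IsCoprime m₁ m₂

theorem pf_rho {d₁ d₂ e₁ e₂ : O} (hd₁ : d₁ ≠ 0) (hd₂ : d₂ ≠ 0) (he₁ : e₁ ≠ 0) (he₂ : e₂ ≠ 0) :
    pf (rho d₁ d₂ e₁ e₂) = pf d₁ ∪ pf d₂ ∪ (pf e₁ ∪ pf e₂) := by
  rw [rho, pf_rad, pf_mul (mul_ne_zero hd₁ hd₂) (mul_ne_zero he₁ he₂), pf_mul hd₁ hd₂,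
    pf_mul he₁ he₂]

theorem coprime_iff {m n : O} (hm : Primary m) (hn : n ≠ 0) :
    IsCoprime m n ↔ Disjoint (pf m) (pf n) :=
  ⟨disjoint_pf, isCoprime_of_disjoint_pf hm hn⟩

theorem dvd_of_pf_subset {e n : O} (he : Primary e) (hs : Squarefree e) (hn : n ≠ 0)
    (h : pf e ⊆ pf n) : e ∣ n := by
  rw [← he.eq_rad hs, rad]
  exact BasicB.prod_dvd_of_subset hn h

theorem pf_subset_of_dvd {e n : O} (hn : n ≠ 0) (h : e ∣ n) : pf e ⊆ pf n := fun _ hp =>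
  (mem_pf hn).2 ⟨(BasicB.pf_sub hp).1, (BasicB.pf_sub hp).2, (BasicB.of_mem_pf hp).2.2.trans h⟩

theorem sum_pf_eq {α : Type*} [AddCommMonoid α] {M n : O} {L : ℝ} (hn : SP M n) (hL : nr n ≤ L)
    {A : Finset O} (hA : A ⊆ pf n) (x : α) :
    ∑ e ∈ sp M L, (if pf e = A then x else 0) = x := by
  have hL0 : 0 ≤ L := le_trans (nr_pos hn.1.ne_zero).le hL
  rw [Finset.sum_eq_single (∏ p ∈ A, p), if_pos (pf_prod hA)]
  · intro e he hne
    refine if_neg fun h => hne ?_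
    have he' := ((LS2.mem_sp hL0).1 he).1
    rw [← he'.1.eq_rad he'.2.1, rad, h]
  · intro h
    refine absurd ((LS2.mem_sp hL0).2 ⟨SP_prod hn hA, le_trans ?_ hL⟩) h
    exact_mod_cast nm_le_of_dvd (BasicB.prod_dvd_of_subset hn.1.ne_zero hA) hn.1.ne_zero

theorem ite_sum {α β : Type*} [AddCommMonoid α] (P : Prop) [Decidable P] (s : Finset β)
    (f : β → α) : (if P then ∑ i ∈ s, f i else 0) = ∑ i ∈ s, if P then f i else 0 := by
  split_ifs <;> simp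

theorem split_sets {α : Type*} [DecidableEq α] (D A₁ A₂ B₁ B₂ : Finset α) :
    (Disjoint B₁ A₁ ∧ Disjoint B₂ A₂) ∧
      A₁ = (A₁ ∪ B₁) ∩ (D ∪ (A₂ ∪ B₂)) ∧ A₂ = (A₂ ∪ B₂) ∩ (D ∪ (A₁ ∪ B₁)) ↔
    A₁ \ D = A₂ \ D ∧ Disjoint B₁ (D ∪ (A₁ ∪ A₂)) ∧ Disjoint B₂ (D ∪ (A₁ ∪ A₂)) ∧
      Disjoint B₁ B₂ := by
  simp only [Finset.disjoint_left, Finset.ext_iff, Finset.mem_inter, Finset.mem_union,
    Finset.mem_sdiff, ← forall_and]
  refine forall_congr' fun p => ?_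
  tauto

/-- Freezing the common part of a pair. -/
theorem split {α : Type*} [AddCommMonoid α] {M d₁ d₂ : O} (hd₁ : d₁ ≠ 0) (hd₂ : d₂ ≠ 0)
    {X₁ X₂ L : ℝ} (h₁ : 0 ≤ X₁) (h₂ : 0 ≤ X₂) (hL₁ : X₁ ≤ L) (hL₂ : X₂ ≤ L) (H : O → O → α) :
    ∑ n₁ ∈ sp M X₁, ∑ n₂ ∈ sp M X₂, H n₁ n₂ =
      ∑ e₁ ∈ sp M L, ∑ e₂ ∈ sp M L, ∑ m₁ ∈ sp M (X₁ / nr e₁), ∑ m₂ ∈ sp M (X₂ / nr e₂),
        if Cop d₁ d₂ e₁ e₂ m₁ m₂ then H (e₁ * m₁) (e₂ * m₂) else 0 := by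
  have hL0 : 0 ≤ L := h₁.trans hL₁
  set D := pf d₁ ∪ pf d₂ with hD
  have e1 : ∀ n₁ ∈ sp M X₁, ∀ n₂ ∈ sp M X₂, H n₁ n₂ = ∑ e₁ ∈ sp M L, ∑ e₂ ∈ sp M L,
      if e₁ ∣ n₁ then (if e₂ ∣ n₂ then
        (if pf e₁ = pf n₁ ∩ (D ∪ pf n₂) ∧ pf e₂ = pf n₂ ∩ (D ∪ pf n₁) then H n₁ n₂ else 0)
        else 0) else 0 := by
    intro n₁ hn₁ n₂ hn₂
    rw [LS2.mem_sp h₁] at hn₁
    rw [LS2.mem_sp h₂] at hn₂
    conv_lhs => rw [← sum_pf_eq hn₁.1 (hn₁.2.trans hL₁) (A := pf n₁ ∩ (D ∪ pf n₂))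
      Finset.inter_subset_left (H n₁ n₂)]
    refine Finset.sum_congr rfl fun e₁ he₁ => ?_
    have he₁' := ((LS2.mem_sp hL0).1 he₁).1
    by_cases a1 : pf e₁ = pf n₁ ∩ (D ∪ pf n₂)
    · have b1 : e₁ ∣ n₁ := dvd_of_pf_subset he₁'.1 he₁'.2.1 hn₁.1.1.ne_zero
        (a1 ▸ Finset.inter_subset_left)
      rw [if_pos a1]
      conv_lhs => rw [← sum_pf_eq hn₂.1 (hn₂.2.trans hL₂) (A := pf n₂ ∩ (D ∪ pf n₁))
        Finset.inter_subset_left (H n₁ n₂)]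
      refine Finset.sum_congr rfl fun e₂ he₂ => ?_
      have he₂' := ((LS2.mem_sp hL0).1 he₂).1
      by_cases a2 : pf e₂ = pf n₂ ∩ (D ∪ pf n₁)
      · have b2 : e₂ ∣ n₂ := dvd_of_pf_subset he₂'.1 he₂'.2.1 hn₂.1.1.ne_zero
          (a2 ▸ Finset.inter_subset_left)
        rw [if_pos a2, if_pos b1, if_pos b2, if_pos ⟨a1, a2⟩]
      · simp [a2]
    · simp [a1]
  rw [Finset.sum_congr rfl fun n₁ hn₁ => Finset.sum_congr rfl fun n₂ hn₂ => e1 n₁ hn₁ n₂ hn₂]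
  rw [Finset.sum_congr rfl fun n₁ _ => Finset.sum_comm, Finset.sum_comm]
  refine Finset.sum_congr rfl fun e₁ he₁ => ?_
  rw [Finset.sum_congr rfl fun n₁ _ => Finset.sum_comm, Finset.sum_comm]
  refine Finset.sum_congr rfl fun e₂ he₂ => ?_
  have he₁' := ((LS2.mem_sp hL0).1 he₁).1
  have he₂' := ((LS2.mem_sp hL0).1 he₂).1
  have z₁ := he₁'.1.ne_zero
  have z₂ := he₂'.1.ne_zero
  simp only [Finset.sum_ite_irrel, Finset.sum_const_zero]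
  rw [sum_dvd he₁' h₁]
  refine Finset.sum_congr rfl fun m₁ hm₁ => ?_
  rw [sum_dvd he₂' h₂, ite_sum]
  refine Finset.sum_congr rfl fun m₂ hm₂ => ?_
  have hm₁' := ((LS2.mem_sp (div_nonneg h₁ (nr_pos z₁).le)).1 hm₁).1
  have hm₂' := ((LS2.mem_sp (div_nonneg h₂ (nr_pos z₂).le)).1 hm₂).1
  have y₁ := hm₁'.1.ne_zero
  have y₂ := hm₂'.1.ne_zero
  have zr : rho d₁ d₂ e₁ e₂ ≠ 0 := (primary_rad _).ne_zero
  rw [← ite_and, ← ite_and]
  refine if_congr ?_ rfl rfl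
  rw [Cop, Val, coprime_iff hm₁'.1 z₁, coprime_iff hm₂'.1 z₂, coprime_iff hm₁'.1 y₂,
    coprime_iff hm₁'.1 zr, coprime_iff hm₂'.1 zr,
    pf_rho hd₁ hd₂ z₁ z₂, pf_mul z₁ y₁, pf_mul z₂ y₂, ← hD]
  exact split_sets _ _ _ _ _

theorem frozen {M d₁ d₂ e₁ e₂ : O} (hM : Adm M) (hd₁ : SP M d₁) (hd₂ : SP M d₂) (he₁ : SP M e₁)
    (he₂ : SP M e₂) (hv : Val d₁ d₂ e₁ e₂) :
    PO (rho d₁ d₂ e₁ e₂) ∧ Squarefree (rho d₁ d₂ e₁ e₂) ∧ e₁ ∣ rho d₁ d₂ e₁ e₂ ∧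
      e₂ ∣ rho d₁ d₂ e₁ e₂ ∧ d₁ ∣ rho d₁ d₂ e₁ e₂ ∧ d₂ ∣ rho d₁ d₂ e₁ e₂ ∧
      e₁ * d₁ ^ 3 * (e₂ * d₂ ^ 3) = rho d₁ d₂ e₁ e₂ * bb d₁ d₂ e₁ e₂ ∧
      rho d₁ d₂ e₁ e₂ ∣ bb d₁ d₂ e₁ e₂ := by
  have z₁ := hd₁.1.ne_zero
  have z₂ := hd₂.1.ne_zero
  have y₁ := he₁.1.ne_zero
  have y₂ := he₂.1.ne_zero
  have hp : Primary (rho d₁ d₂ e₁ e₂) := primary_rad _
  have hs : Squarefree (rho d₁ d₂ e₁ e₂) := squarefree_rad _
  have hpf := pf_rho z₁ z₂ y₁ y₂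
  have hc : IsCoprime (rho d₁ d₂ e₁ e₂) M :=
    ((hd₁.2.2.mul_left hd₂.2.2).mul_left (he₁.2.2.mul_left he₂.2.2)).of_isCoprime_of_dvd_left
      (rad_dvd _)
  have w₁ := mul_ne_zero y₁ (pow_ne_zero 3 z₁)
  have w₂ := mul_ne_zero y₂ (pow_ne_zero 3 z₂)
  have h2 : rho d₁ d₂ e₁ e₂ * rho d₁ d₂ e₁ e₂ ∣ e₁ * d₁ ^ 3 * (e₂ * d₂ ^ 3) := by
    rw [(hp.mul hp).dvd_iff_vp (mul_ne_zero w₁ w₂)]
    intro p hp'
    rw [pf_mul hp.ne_zero hp.ne_zero, Finset.union_self] at hp'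
    have pp := (BasicB.pf_sub hp').1
    rw [vp_mul pp hp.ne_zero hp.ne_zero, hp.squarefree_iff.1 hs p hp', vp_mul pp w₁ w₂,
      vp_mul pp y₁ (pow_ne_zero 3 z₁), vp_mul pp y₂ (pow_ne_zero 3 z₂), vp_pow pp z₁,
      vp_pow pp z₂]
    by_cases a1 : p ∈ pf d₁
    · have := BasicB.vp_ne_zero a1; omega
    by_cases a2 : p ∈ pf d₂
    · have := BasicB.vp_ne_zero a2; omega
    have a3 := Finset.ext_iff.1 hv p
    rw [hpf] at hp'
    simp only [Finset.mem_sdiff, Finset.mem_union] at a3 hp'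
    have a5 : ¬ (p ∈ pf d₁ ∨ p ∈ pf d₂) := fun h => h.elim a1 a2
    have a4 : p ∈ pf e₁ ∧ p ∈ pf e₂ := (hp'.resolve_left a5).elim
      (fun h => ⟨h, (a3.1 ⟨h, a5⟩).1⟩) (fun h => ⟨(a3.2 ⟨h, a5⟩).1, h⟩)
    have := BasicB.vp_ne_zero a4.1
    have := BasicB.vp_ne_zero a4.2
    omega
  obtain ⟨c, hc'⟩ := h2
  have hb : bb d₁ d₂ e₁ e₂ = rho d₁ d₂ e₁ e₂ * c := by
    rw [bb, hc', mul_assoc, mul_div_cancel_left₀ _ hp.ne_zero]
  refine ⟨PO.of_adm hM hp hc, hs, dvd_of_pf_subset he₁.1 he₁.2.1 hp.ne_zero ?_,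
    dvd_of_pf_subset he₂.1 he₂.2.1 hp.ne_zero ?_, dvd_of_pf_subset hd₁.1 hd₁.2.1 hp.ne_zero ?_,
    dvd_of_pf_subset hd₂.1 hd₂.2.1 hp.ne_zero ?_, by rw [hb, hc', mul_assoc], ⟨c, hb⟩⟩
  all_goals
    rw [hpf]
    intro p hp
    simp only [Finset.mem_union, hp, true_or, or_true]

/-- Truncation of a series over the dual variable. -/
theorem trunc {h : O → ℂ} {B X Λ : ℝ} (hX : 0 < X) (hB : 0 ≤ B)
    (hh : ∀ a, ‖h a‖ ≤ B * gw (nr a / X))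
    {b : O} (hb : b ≠ 0) (S : Finset O) (hS : ∀ a, a ≠ 0 → a * b ∉ S → X * Λ ≤ nr a) :
    ‖∑' a, h a - ∑ a ∈ S, (if b ∣ a then h (a / b) else 0)‖ ≤
      ‖h 0‖ + B * ∑' k : O, (if X * Λ ≤ nr k then gw (nr k / X) * (1 + nr k) ^ (0 : ℝ) else 0) := by
  have hinj : Function.Injective fun a : O => a * b := mul_left_injective₀ hb
  set A := S.preimage (fun a : O => a * b) hinj.injOn with hA
  have e1 : ∑ a ∈ S, (if b ∣ a then h (a / b) else 0) = ∑ a ∈ A, h a := by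
    rw [← Finset.sum_filter]
    symm
    refine Finset.sum_bij (fun a _ => a * b) (fun a ha => ?_) (fun a _ a' _ h => hinj h)
      (fun a ha => ?_) (fun a _ => ?_)
    · rw [hA, Finset.mem_preimage] at ha
      exact Finset.mem_filter.2 ⟨ha, dvd_mul_left _ _⟩
    · obtain ⟨h1, c, rfl⟩ := Finset.mem_filter.1 ha
      exact ⟨c, by rw [hA, Finset.mem_preimage, mul_comm]; exact h1, mul_comm _ _⟩
    · rw [mul_div_cancel_right₀ _ hb]
  have s1 : Summable h :=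
    Summable.of_norm_bounded ((summable_gw' hX).mul_left B) hh
  have s2 : HasSum (fun a => if a ∈ A then h a else 0) (∑ a ∈ A, h a) := by
    have := hasSum_sum_of_ne_finset_zero (f := fun a => if a ∈ A then h a else 0) (s := A)
      (L := SummationFilter.unconditional O) fun a ha => if_neg ha
    rwa [Finset.sum_congr rfl fun a ha => if_pos ha] at this
  have s3 : Summable fun k : O =>
      (if X * Λ ≤ nr k then gw (nr k / X) * (1 + nr k) ^ (0 : ℝ) else 0) := by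
    refine Summable.of_nonneg_of_le (fun k => ?_) (fun k => ?_) (summable_gw' hX)
    · split_ifs
      · exact mul_nonneg (gw_pos _).le (by positivity)
      · exact le_rfl
    · split_ifs
      · rw [Real.rpow_zero, mul_one]
      · exact (gw_pos _).le
  rw [e1]
  refine (s1.hasSum.sub s2).norm_le_of_bounded
    ((hasSum_ite_eq (0 : O) ‖h 0‖).add (s3.hasSum.mul_left B)) fun a => ?_
  have n1 : 0 ≤ B * (if X * Λ ≤ nr a then gw (nr a / X) * (1 + nr a) ^ (0 : ℝ) else 0) := by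
    refine mul_nonneg hB ?_
    split_ifs
    · exact mul_nonneg (gw_pos _).le (by positivity)
    · exact le_rfl
  by_cases a0 : a = 0
  · subst a0
    rw [if_pos rfl]
    refine le_trans ?_ (le_add_of_nonneg_right n1)
    split_ifs <;> simp
  · rw [if_neg a0, zero_add]
    by_cases a1 : a ∈ A
    · rw [if_pos a1, sub_self, norm_zero]; exact n1
    · rw [if_neg a1, sub_zero, if_pos (hS a a0 (by rwa [hA, Finset.mem_preimage] at a1)),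
        Real.rpow_zero, mul_one]
      exact hh a

/-- Opening the square. -/
theorem open_sq {τ : Type*} (P : Finset τ) (c : τ → ℂ) (x : τ → O → ℂ) (hx : ∀ p k, ‖x p k‖ ≤ 1)
    {K : ℝ} (hK : 0 < K) (S : Finset O) (hS : ∀ k ∈ S, nr k ≤ K) :
    ∑ k ∈ S, ‖∑ p ∈ P, c p * x p k‖ ^ 2 ≤ (gw 1)⁻¹ *
      ‖∑ p ∈ P, ∑ q ∈ P, c p * conj (c q) * ∑' k : O, x p k * conj (x q k) * (gw (nr k / K) : ℂ)‖ := by
  have s1 : ∀ p q, Summable fun k : O => x p k * conj (x q k) * (gw (nr k / K) : ℂ) := by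
    intro p q
    refine Summable.of_norm_bounded (summable_gw' hK) fun k => ?_
    rw [norm_mul, norm_mul, Complex.norm_conj, Complex.norm_real, Real.norm_of_nonneg (gw_pos _).le]
    exact mul_le_of_le_one_left (gw_pos _).le
      (mul_le_one₀ (hx _ _) (norm_nonneg _) (hx _ _))
  have e1 : ∀ k : O, ((gw (nr k / K) * ‖∑ p ∈ P, c p * x p k‖ ^ 2 : ℝ) : ℂ) =
      ∑ p ∈ P, ∑ q ∈ P, c p * conj (c q) * (x p k * conj (x q k) * (gw (nr k / K) : ℂ)) := by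
    intro k
    rw [Complex.ofReal_mul, Complex.ofReal_pow, ← Complex.mul_conj', map_sum, Finset.sum_mul_sum,
      Finset.mul_sum]
    refine Finset.sum_congr rfl fun p _ => ?_
    rw [Finset.mul_sum]
    refine Finset.sum_congr rfl fun q _ => ?_
    rw [map_mul]; ring
  have s2 : HasSum (fun k : O => ((gw (nr k / K) * ‖∑ p ∈ P, c p * x p k‖ ^ 2 : ℝ) : ℂ))
      (∑ p ∈ P, ∑ q ∈ P, c p * conj (c q) *
        ∑' k : O, x p k * conj (x q k) * (gw (nr k / K) : ℂ)) := by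
    simp only [e1]
    exact hasSum_sum fun p _ => hasSum_sum fun q _ => (s1 p q).hasSum.mul_left _
  have s3 := Complex.hasSum_re s2
  simp only [Complex.ofReal_re] at s3
  have s4 := sum_le_hasSum S (fun k _ => mul_nonneg (gw_pos _).le (by positivity)) s3
  rw [le_inv_mul_iff₀ (gw_pos 1), Finset.mul_sum]
  refine le_trans (Finset.sum_le_sum fun k hk => ?_) (s4.trans (Complex.re_le_norm _))
  exact mul_le_mul_of_nonneg_right (gw_antitone ((div_le_one hK).2 (hS k hk))) (by positivity)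

/-- Separation of the two variables in the power kernel. -/
theorem kernel {n₁ n₂ f₁ f₂ K L x : ℝ} (h₁ : 0 < n₁) (h₂ : 0 < n₂) (g₁ : 0 < f₁) (g₂ : 0 < f₂)
    (hK : 0 < K) (hL : 0 < L) (hx : 0 < x) (z : ℂ) :
    ((K / Real.sqrt (n₁ * n₂) : ℝ) : ℂ) * ((K * x / (f₁ * n₁ * (f₂ * n₂)) : ℝ) : ℂ) ^ (-z) =
      ((K / L * Real.sqrt (f₁ * f₂) : ℝ) : ℂ) * ((K * x / L ^ 2 : ℝ) : ℂ) ^ (-z) *
        (((n₁ * f₁ / L : ℝ) : ℂ) ^ (z - 1 / 2) *
          conj (((n₂ * f₂ / L : ℝ) : ℂ) ^ (conj (z - 1 / 2)))) := by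
  have a1 : K / Real.sqrt (n₁ * n₂) = Real.exp (Real.log K - (Real.log n₁ + Real.log n₂) / 2) := by
    rw [Real.exp_sub, Real.exp_log hK, ← Real.log_mul h₁.ne' h₂.ne', Real.exp_half,
      Real.exp_log (mul_pos h₁ h₂)]
  have a2 : K / L * Real.sqrt (f₁ * f₂) =
      Real.exp (Real.log K - Real.log L + (Real.log f₁ + Real.log f₂) / 2) := by
    rw [Real.exp_add, Real.exp_sub, Real.exp_log hK, Real.exp_log hL,
      ← Real.log_mul g₁.ne' g₂.ne', Real.exp_half, Real.exp_log (mul_pos g₁ g₂)]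
  rw [a1, a2, avg_cpow (by positivity), avg_cpow (by positivity), avg_cpow (by positivity),
    avg_cpow (by positivity), ← Complex.exp_conj, map_mul, Complex.conj_conj, Complex.conj_ofReal,
    Complex.ofReal_exp, Complex.ofReal_exp, ← Complex.exp_add, ← Complex.exp_add,
    ← Complex.exp_add, ← Complex.exp_add]
  congr 1
  rw [Real.log_div (by positivity) (by positivity), Real.log_div (by positivity) (by positivity),
    Real.log_div (by positivity) (by positivity), Real.log_div (by positivity) (by positivity),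
    Real.log_mul (by positivity) (by positivity), Real.log_mul (by positivity) (by positivity),
    Real.log_mul (by positivity) (by positivity), Real.log_mul (by positivity) (by positivity),
    Real.log_mul (by positivity) (by positivity), Real.log_mul (by positivity) (by positivity),
    Real.log_pow]
  push_cast
  ring

end Crest.Agent.R17.GP
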