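import Crest.Agent.R17.DPAuxG2
import Crest.Agent.R17.DPAuxA1
import Crest.Agent.R17.DPAuxA2
import Crest.Agent.R17.Rows

/-!
# Row 17, module M11: auxiliary lemmas for `gp` (one pair of columns, one frozen cell)
-/

set_option autoImplicit false

noncomputable section

namespace Crest.Agent.R17.GP

open scoped ComplexConjugate
open Classical MeasureTheory LS2

/-- The weight `∏_{p ∣ d, p⁶ ∣ a} N p`. -/
def wt (d a : O) : ℝ := ∏ p ∈ (pf d).filter (fun p => p ^ 6 ∣ a), nr p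

/-- The frozen character. -/
def Phi (d₁ d₂ e₁ e₂ : O) : O → ℂ := fun k => sym (e₁ * d₁ ^ 3) k * conj (sym (e₂ * d₂ ^ 3) k)

/-- The frozen coefficient of the row `a`. -/
def gF (d₁ d₂ e₁ e₂ a : O) : ℂ :=
  if bb d₁ d₂ e₁ e₂ ∣ a then
    gam 5 e₁ * conj (gam 5 e₂) * ((Real.sqrt (nr d₁ * nr d₂) / nr (rho d₁ d₂ e₁ e₂) : ℝ) : ℂ) *
      ft (rho d₁ d₂ e₁ e₂) (Phi d₁ d₂ e₁ e₂) (a / bb d₁ d₂ e₁ e₂)
  else 0

/-- The phase. -/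
def ph (e₁ e₂ c m₁ m₂ : O) : ℂ :=
  Rs m₁ m₂ * (sym m₁ (-1) * Rs e₁ m₁ * Rs c m₁) * (Rs e₂ m₂ * Rs c m₂)

/-- The term of the row `a` for a pair. -/
def Ta (K : ℝ) (d₁ d₂ e₁ e₂ m₁ m₂ a : O) (f : ℝ → ℂ) : ℂ :=
  ph e₁ e₂ (e₁ * d₁ ^ 3 * (e₂ * d₂ ^ 3)) m₁ m₂ * (conj (sym m₁ a) * sym m₂ a) *
    (((K / Real.sqrt (nr m₁ * nr m₂) : ℝ) : ℂ) *
      f (K * nr a / (nr e₁ * nr d₁ ^ 3 * nr m₁ * (nr e₂ * nr d₂ ^ 3 * nr m₂))))

/-- The complete sum for a pair. -/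
def Tp (K : ℝ) (d₁ d₂ n₁ n₂ : O) : ℂ :=
  (Real.sqrt (nr d₁ * nr d₂) : ℂ) * (gam 5 n₁ * conj (gam 5 n₂) *
    ∑' k : O, sym (n₁ * d₁ ^ 3) k * conj (sym (n₂ * d₂ ^ 3) k) * (gw (nr k / K) : ℂ))

/-- The new row sums. -/
def Bx {M : O} (L : ℝ) (β : O → ℂ) (ν : Chr M) (s : ℂ) (d e t a : O) : ℂ :=
  ∑ m ∈ sp M (L / (nr e * nr d ^ 3 * nr t)),
    (if IsCoprime m (e * t) then β (e * t * m) * ev ν m *
      ((nr m * (nr e * nr d ^ 3 * nr t) / L : ℝ) : ℂ) ^ s else 0) * conj (sym m a)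

theorem wt_nonneg (d a : O) : 0 ≤ wt d a := Finset.prod_nonneg fun _ _ => Nat.cast_nonneg _

theorem norm_Phi_le (d₁ d₂ e₁ e₂ k : O) : ‖Phi d₁ d₂ e₁ e₂ k‖ ≤ 1 := by
  rw [Phi, norm_mul, Complex.norm_conj]
  exact mul_le_one₀ (norm_sym_le _ _) (norm_nonneg _) (norm_sym_le _ _)

theorem norm_ft_le {q : O} (hq : q ≠ 0) {f : O → ℂ} (hf : ∀ k, ‖f k‖ ≤ 1) (a : O) :
    ‖ft q f a‖ ≤ nr q := by
  refine (norm_sum_le _ _).trans ?_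
  have := Finset.sum_le_card_nsmul (res q) (fun x => ‖f x * eq (a * x) q‖) 1 fun x _ => by
    rw [norm_mul, norm_eq, mul_one]; exact hf x
  rwa [card_res hq, nsmul_eq_mul, mul_one] at this

theorem norm_ph_le {e₁ e₂ c m₁ m₂ : O} (he₁ : IsCoprime e₁ 2) (he₂ : IsCoprime e₂ 2)
    (hc : IsCoprime c 2) (h₁ : IsCoprime m₁ 2) (h₂ : IsCoprime m₂ 2) : ‖ph e₁ e₂ c m₁ m₂‖ ≤ 1 := by
  simp only [ph, norm_mul, Dual_norm_Rs h₁ h₂, Dual_norm_Rs he₁ h₁, Dual_norm_Rs he₂ h₂,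
    Dual_norm_Rs hc h₁, Dual_norm_Rs hc h₂, one_mul, mul_one]
  exact norm_sym_le _ _

theorem phase {M : O} (hM : Adm M) [Fintype (Chr M)] {e₁ e₂ c : O} (he₁ : IsCoprime e₁ 2)
    (he₂ : IsCoprime e₂ 2) (hc : IsCoprime c 2) : ∃ b : Chr M → Chr M → ℂ,
      (∀ ν ν', ‖b ν ν'‖ ≤ 1) ∧ ∀ m₁ m₂, SP M m₁ → SP M m₂ →
        ph e₁ e₂ c m₁ m₂ = ∑ ν, ∑ ν', b ν ν' * (ev ν m₁ * conj (ev ν' m₂)) := by
  obtain ⟨b, hb, hb'⟩ := DPA1.Rs_expand hM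
  obtain ⟨ν₀, h₀⟩ := exists_chr_sym hM (s := -1) (by norm_num) (by
    rw [BasicB.pf_unit isUnit_one.neg]; simp)
  obtain ⟨ν₁, h₁⟩ := DPA1.exists_chr_Rs hM he₁
  obtain ⟨ν₂, h₂⟩ := DPA1.exists_chr_Rs hM he₂
  obtain ⟨ν₃, h₃⟩ := DPA1.exists_chr_Rs hM hc
  refine ⟨fun ν ν' => b (ν * (ν₀ * ν₁ * ν₃)⁻¹) (ν' * (ν₂ * ν₃)), fun _ _ => hb _ _,
    fun m₁ m₂ hm₁ hm₂ => ?_⟩
  rw [← Equiv.sum_comp (Equiv.mulRight (ν₀ * ν₁ * ν₃)), ph, hb' m₁ m₂ hm₁.2.2 hm₂.2.2,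
    Finset.sum_mul, Finset.sum_mul]
  refine Finset.sum_congr rfl fun ν _ => ?_
  rw [Finset.sum_mul, Finset.sum_mul]
  conv_rhs => rw [← Equiv.sum_comp (Equiv.mulRight (ν₂ * ν₃)⁻¹)]
  refine Finset.sum_congr rfl fun ν' _ => ?_
  simp only [Equiv.coe_mulRight, mul_inv_cancel_right, inv_mul_cancel_right]
  rw [ev_mul_chr ν', ev_inv hM.1, map_mul, Complex.conj_conj]
  simp only [ev_mul_chr, h₀ m₁ hm₁.1 hm₁.2.2, h₁ m₁ hm₁.2.2, h₂ m₂ hm₂.2.2, h₃ m₁ hm₁.2.2,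
    h₃ m₂ hm₂.2.2]
  ring

theorem norm_gam_five {M e : O} (hM : Adm M) (he : SP M e) : ‖gam 5 e‖ = 1 :=
  norm_gam (by norm_num) (PO.of_adm hM he.1 he.2.2) he.2.1

theorem norm_gF_le {M d₁ d₂ e₁ e₂ : O} (hM : Adm M) (hd₁ : SP M d₁) (hd₂ : SP M d₂)
    (he₁ : SP M e₁) (he₂ : SP M e₂) (hv : Val d₁ d₂ e₁ e₂) (a : O) :
    ‖gF d₁ d₂ e₁ e₂ a‖ ≤ min (wt d₁ a) (wt d₂ a) := by
  obtain ⟨r1, r2, r3, r4, r5, r6, r7, r8⟩ := frozen hM hd₁ hd₂ he₁ he₂ hv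
  rw [gF]
  split_ifs with h
  · obtain ⟨c, rfl⟩ := h
    have zb : bb d₁ d₂ e₁ e₂ ≠ 0 := fun h0 => by
      rw [h0, mul_zero] at r7
      exact ((he₁.1.mul (hd₁.1.pow 3)).mul (he₂.1.mul (hd₂.1.pow 3))).ne_zero r7
    have := (DPA2.norm_ft_frozen r1 r2 he₁.1 he₂.1 hd₁.1 hd₂.1 r3 r4 r5 r6 r7 r8 c).1
    have hr := nr_pos r1.1.ne_zero
    rw [mul_div_cancel_left₀ _ zb, norm_mul, norm_mul, norm_mul, Complex.norm_conj,
      norm_gam_five hM he₁, norm_gam_five hM he₂, Complex.norm_real,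
      Real.norm_of_nonneg (by positivity), one_mul, one_mul, div_mul_eq_mul_div, div_le_iff₀' hr,
      mul_comm (bb d₁ d₂ e₁ e₂) c]
    exact this
  · rw [norm_zero]; exact le_min (wt_nonneg _ _) (wt_nonneg _ _)

/-- The complete sum of a pair minus its main part. -/
theorem pair_est {M d₁ d₂ e₁ e₂ m₁ m₂ : O} (hM : Adm M) (hd₁ : SP M d₁) (hd₂ : SP M d₂)
    (he₁ : SP M e₁) (he₂ : SP M e₂) (hm₁ : SP M m₁) (hm₂ : SP M m₂) (hc : Cop d₁ d₂ e₁ e₂ m₁ m₂)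
    {K L Λ τ : ℝ} (hK : 0 < K) (hΛ : 0 ≤ Λ) (n₁ : nr e₁ * nr d₁ ^ 3 * nr m₁ ≤ L)
    (n₂ : nr e₂ * nr d₂ ^ 3 * nr m₂ ≤ L)
    (hτ : ∀ X : ℝ, 0 < X → X ≤ L ^ 2 / K → ∑' k : O,
      (if X * Λ ≤ nr k then gw (nr k / X) * (1 + nr k) ^ (0 : ℝ) else 0) ≤ τ) :
    ‖Tp K d₁ d₂ (e₁ * m₁) (e₂ * m₂) - ∑ a ∈ rows (L ^ 2 * Λ / K),
        gF d₁ d₂ e₁ e₂ a * Ta K d₁ d₂ e₁ e₂ m₁ m₂ a (fun y => (gw y : ℂ))‖ ≤
      Real.sqrt (nr d₁ * nr d₂) * K * ((if d₁ = d₂ ∧ e₁ * m₁ = e₂ * m₂ then 1 else 0) + τ) := by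
  obtain ⟨hv, c₁, c₂, c₃⟩ := hc
  obtain ⟨r1, r2, r3, r4, r5, r6, r7, r8⟩ := frozen hM hd₁ hd₂ he₁ he₂ hv
  have p₁ := PO.of_adm hM hm₁.1 hm₁.2.2
  have p₂ := PO.of_adm hM hm₂.1 hm₂.2.2
  have q₁ := PO.of_adm hM he₁.1 he₁.2.2
  have q₂ := PO.of_adm hM he₂.1 he₂.2.2
  have t₁ := PO.of_adm hM hd₁.1 hd₁.2.2
  have t₂ := PO.of_adm hM hd₂.1 hd₂.2.2
  have hf : IsCoprime (e₁ * d₁ ^ 3 * (e₂ * d₂ ^ 3)) 2 :=
    (q₁.2.mul_left t₁.2.pow_left).mul_left (q₂.2.mul_left t₂.2.pow_left)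
  have zb : bb d₁ d₂ e₁ e₂ ≠ 0 := fun h0 => by
    rw [h0, mul_zero] at r7
    exact ((he₁.1.mul (hd₁.1.pow 3)).mul (he₂.1.mul (hd₂.1.pow 3))).ne_zero r7
  have hs : Squarefree (rho d₁ d₂ e₁ e₂ * m₁ * m₂) :=
    squarefree_mul_iff.2 ⟨(c₂.symm.mul_left c₃).isRelPrime,
      squarefree_mul_iff.2 ⟨c₁.symm.isRelPrime, r2, hm₁.2.1⟩, hm₂.2.1⟩
  have hPB := DPA2.pair_back r1 p₁ p₂ hs he₁.1 he₂.1 hd₁.1 hd₂.1 r3 r4 r5 r6 r7 hK
  have hN := congrArg nr r7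
  rw [nr_mul, nr_mul, nr_mul, nr_mul, nr_pow, nr_pow] at hN
  have hNF := (DPA2.norm_ft_frozen r1 r2 he₁.1 he₂.1 hd₁.1 hd₂.1 r3 r4 r5 r6 r7 r8 0).2
  set ρ := rho d₁ d₂ e₁ e₂ with hρ
  set b := bb d₁ d₂ e₁ e₂ with hb
  have nρ := nr_pos r1.1.ne_zero
  have nb := one_le_nr zb
  have nm₁ := one_le_nr hm₁.1.ne_zero
  have nm₂ := one_le_nr hm₂.1.ne_zero
  set h : O → ℂ := fun a => ft ρ (Phi d₁ d₂ e₁ e₂) a * (conj (sym m₁ (a * b)) * sym m₂ (a * b)) *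
    (gw (K * nr a / (nr ρ * nr m₁ * nr m₂)) : ℂ) with hh
  set c₀ : ℂ := (Real.sqrt (nr d₁ * nr d₂) : ℂ) * (gam 5 e₁ * conj (gam 5 e₂) *
    ((K / (nr ρ * Real.sqrt (nr m₁ * nr m₂)) : ℝ) : ℂ) *
      ph e₁ e₂ (e₁ * d₁ ^ 3 * (e₂ * d₂ ^ 3)) m₁ m₂) with hc₀
  have e1 : Tp K d₁ d₂ (e₁ * m₁) (e₂ * m₂) = c₀ * ∑' a, h a := by
    rw [Tp, hPB, hc₀, ph, r7, mul_assoc (Real.sqrt _ : ℂ)]
    rfl
  have e2 : ∑ a ∈ rows (L ^ 2 * Λ / K),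
      gF d₁ d₂ e₁ e₂ a * Ta K d₁ d₂ e₁ e₂ m₁ m₂ a (fun y => (gw y : ℂ)) =
      c₀ * ∑ a ∈ rows (L ^ 2 * Λ / K), if b ∣ a then h (a / b) else 0 := by
    rw [Finset.mul_sum]
    refine Finset.sum_congr rfl fun a _ => ?_
    rw [gF, ← hb, ← hρ]
    split_ifs with h1
    · obtain ⟨c, rfl⟩ := h1
      have a1 : K * nr (b * c) / (nr e₁ * nr d₁ ^ 3 * nr m₁ * (nr e₂ * nr d₂ ^ 3 * nr m₂)) =
          K * nr c / (nr ρ * nr m₁ * nr m₂) := by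
        rw [show nr e₁ * nr d₁ ^ 3 * nr m₁ * (nr e₂ * nr d₂ ^ 3 * nr m₂) =
          nr e₁ * nr d₁ ^ 3 * (nr e₂ * nr d₂ ^ 3) * (nr m₁ * nr m₂) by ring, hN, nr_mul]
        field_simp
      simp only [hh, hc₀, Ta]
      rw [mul_div_cancel_left₀ _ zb, a1, mul_comm c b]
      push_cast
      ring
    · simp
  have hX : 0 < nr ρ * nr m₁ * nr m₂ / K := by positivity
  have hL : 0 ≤ L := le_trans (by positivity) n₁
  have hXb : nr ρ * nr m₁ * nr m₂ * nr b ≤ L ^ 2 := by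
    calc _ = nr e₁ * nr d₁ ^ 3 * nr m₁ * (nr e₂ * nr d₂ ^ 3 * nr m₂) := by
          linear_combination (-(nr m₁ * nr m₂)) * hN
      _ ≤ L * L := mul_le_mul n₁ n₂ (by positivity) hL
      _ = _ := by ring
  have t := trunc (h := h) (B := nr ρ) (Λ := Λ) hX nρ.le (fun a => by
      simp only [hh]
      rw [norm_mul, norm_mul, norm_mul, Complex.norm_conj, Complex.norm_real,
        Real.norm_of_nonneg (gw_pos _).le, div_div_eq_mul_div, mul_comm (nr a) K]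
      refine mul_le_mul_of_nonneg_right ?_ (gw_pos _).le
      exact (mul_le_of_le_one_right (norm_nonneg _) (mul_le_one₀ (norm_sym_le _ _)
        (norm_nonneg _) (norm_sym_le _ _))).trans (norm_ft_le r1.1.ne_zero (norm_Phi_le _ _ _ _) _))
    zb (rows (L ^ 2 * Λ / K)) (fun a ha hab => by
      rw [mem_rows (by positivity), not_and, not_le, nr_mul] at hab
      have a1 := hab (mul_ne_zero ha zb)
      rw [div_lt_iff₀ hK] at a1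
      rw [div_mul_eq_mul_div, div_le_iff₀ hK]
      refine le_of_mul_le_mul_right ?_ (lt_of_lt_of_le one_pos nb)
      have := mul_le_mul_of_nonneg_right hXb hΛ
      linarith)
  have t1 := hτ _ hX (div_le_div_of_nonneg_right
    ((le_mul_of_one_le_right (by positivity) nb).trans hXb) hK.le)
  have t2 : ‖h 0‖ ≤ nr ρ * (if d₁ = d₂ ∧ e₁ * m₁ = e₂ * m₂ then 1 else 0) := by
    simp only [hh, zero_mul]
    split_ifs with h1
    · rw [norm_mul, norm_mul, norm_mul, Complex.norm_conj, Complex.norm_real,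
        Real.norm_of_nonneg (gw_pos _).le]
      refine mul_le_mul ?_ (gw_le_one (by positivity)) (gw_pos _).le nρ.le
      exact (mul_le_of_le_one_right (norm_nonneg _) (mul_le_one₀ (norm_sym_le _ _)
        (norm_nonneg _) (norm_sym_le _ _))).trans (norm_ft_le r1.1.ne_zero (norm_Phi_le _ _ _ _) _)
    · rw [mul_zero, norm_le_zero_iff]
      by_contra h0
      have b1 := left_ne_zero_of_mul h0
      obtain ⟨b2, b3⟩ := hNF (left_ne_zero_of_mul b1)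
      have b4 := right_ne_zero_of_mul b1
      have b5 : sym m₁ 0 ≠ 0 := fun h => left_ne_zero_of_mul b4 (by rw [h, map_zero])
      have b6 := right_ne_zero_of_mul b4
      rw [Ne, sym_eq_zero_iff hm₁.1, not_not, isCoprime_zero_right] at b5
      rw [Ne, sym_eq_zero_iff hm₂.1, not_not, isCoprime_zero_right] at b6
      exact h1 ⟨b3, by rw [b2, hm₁.1.eq_one_of_isUnit b5, hm₂.1.eq_one_of_isUnit b6]⟩
  have t3 : ‖c₀‖ ≤ Real.sqrt (nr d₁ * nr d₂) * (K / nr ρ) := by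
    rw [hc₀, norm_mul, norm_mul, norm_mul, norm_mul, Complex.norm_conj, norm_gam_five hM he₁,
      norm_gam_five hM he₂, Complex.norm_real, Complex.norm_real,
      Real.norm_of_nonneg (Real.sqrt_nonneg _), Real.norm_of_nonneg (by positivity), one_mul,
      one_mul]
    refine mul_le_mul_of_nonneg_left ?_ (Real.sqrt_nonneg _)
    refine (mul_le_of_le_one_right (by positivity) (norm_ph_le q₁.2 q₂.2 hf p₁.2 p₂.2)).trans ?_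
    refine div_le_div_of_nonneg_left hK.le nρ (le_mul_of_one_le_right nρ.le ?_)
    exact Real.one_le_sqrt.2 (one_le_mul_of_one_le_of_one_le nm₁ nm₂)
  rw [e1, e2, ← mul_sub, norm_mul]
  refine (mul_le_mul t3 (t.trans (add_le_add t2 (mul_le_mul_of_nonneg_left t1 nρ.le)))
    (norm_nonneg _) (by positivity)).trans_eq ?_
  field_simp

theorem inner {M d e t a : O} (he : SP M e) (ht : SP M t) (hd : d ≠ 0) (hea : e ∣ a)
    {L : ℝ} (hL : 0 < L) (β : O → ℂ) (ν : Chr M) (s : ℂ) :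
    ∑ m ∈ sp M (L / nr d ^ 3 / nr e / nr t), (if IsCoprime m t then
      β (e * (t * m)) * conj (sym (t * m) a) *
        ((nr (t * m) * (nr e * nr d ^ 3) / L : ℝ) : ℂ) ^ s * ev ν (t * m) else 0) =
      ev ν t * conj (sym t a) * Bx L β ν s d e t a := by
  have nd := nr_pos hd
  have ne := nr_pos he.1.ne_zero
  have nt := nr_pos ht.1.ne_zero
  rw [Bx, Finset.mul_sum, show L / nr d ^ 3 / nr e / nr t = L / (nr e * nr d ^ 3 * nr t) by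
    field_simp]
  refine Finset.sum_congr rfl fun m hm => ?_
  have hm' := ((LS2.mem_sp (by positivity)).1 hm).1
  rw [sym_mul_left ht.1.ne_zero hm'.1.ne_zero, ev_mul, nr_mul,
    show nr t * nr m * (nr e * nr d ^ 3) = nr m * (nr e * nr d ^ 3 * nr t) by ring, map_mul,
    ← mul_assoc e]
  by_cases h1 : IsCoprime m a
  · have h2 : IsCoprime m (e * t) ↔ IsCoprime m t :=
      ⟨fun h => h.of_mul_right_right, fun h => (h1.of_isCoprime_of_dvd_right hea).mul_right h⟩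
    rw [if_congr h2 rfl rfl]
    split_ifs
    · ring
    · simp
  · rw [(sym_eq_zero_iff hm'.1).2 h1]
    simp

theorem norm_inner_le {M d e t a : O} (hM : Adm M) (he : SP M e) (ht : SP M t) (hd : d ≠ 0)
    (hea : e ∣ a) {L : ℝ} (hL : 0 < L) (β : O → ℂ) (ν : Chr M) (s : ℂ) :
    ‖∑ m ∈ sp M (L / nr d ^ 3 / nr e / nr t), (if IsCoprime m t then
      β (e * (t * m)) * conj (sym (t * m) a) *
        ((nr (t * m) * (nr e * nr d ^ 3) / L : ℝ) : ℂ) ^ s * ev ν (t * m) else 0)‖ ≤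
      if IsCoprime t a then ‖Bx L β ν s d e t a‖ else 0 := by
  rw [inner he ht hd hea hL, norm_mul, norm_mul, Complex.norm_conj]
  split_ifs with h
  · exact mul_le_of_le_one_left (norm_nonneg _)
      (mul_le_one₀ (norm_ev_le hM.1 _ _) (norm_nonneg _) (norm_sym_le _ _))
  · rw [(sym_eq_zero_iff ht.1).2 h]; simp

/-- The sum over the free variables in one frozen cell. -/
theorem cell {M d₁ d₂ e₁ e₂ a : O} (hM : Adm M) [Fintype (Chr M)] (hd₁ : SP M d₁) (hd₂ : SP M d₂)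
    (he₁ : SP M e₁) (he₂ : SP M e₂) (hv : Val d₁ d₂ e₁ e₂) (ha : a ≠ 0)
    (hb : bb d₁ d₂ e₁ e₂ ∣ a) {K L : ℝ} (hK : 0 < K) (hL : 0 < L) (β₁ β₂ : O → ℂ) (z : ℂ) :
    ‖∑ m₁ ∈ sp M (L / nr d₁ ^ 3 / nr e₁), ∑ m₂ ∈ sp M (L / nr d₂ ^ 3 / nr e₂),
      if Cop d₁ d₂ e₁ e₂ m₁ m₂ then β₁ (e₁ * m₁) * conj (β₂ (e₂ * m₂)) *
        Ta K d₁ d₂ e₁ e₂ m₁ m₂ a (fun y => (y : ℂ) ^ (-z)) else 0‖ ≤
      K / L * Real.sqrt (nr e₁ * nr d₁ ^ 3 * (nr e₂ * nr d₂ ^ 3)) * (K * nr a / L ^ 2) ^ (-z.re) *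
        ∑ ν : Chr M, ∑ ν' : Chr M, ∑ t ∈ (sp M L).filter (fun t => IsCoprime t a),
          ‖Bx L β₁ ν (z - 1 / 2) d₁ e₁ t a‖ * ‖Bx L β₂ ν' (conj (z - 1 / 2)) d₂ e₂ t a‖ := by
  obtain ⟨r1, r2, r3, r4, r5, r6, r7, r8⟩ := frozen hM hd₁ hd₂ he₁ he₂ hv
  have q₁ := PO.of_adm hM he₁.1 he₁.2.2
  have q₂ := PO.of_adm hM he₂.1 he₂.2.2
  have t₁ := PO.of_adm hM hd₁.1 hd₁.2.2
  have t₂ := PO.of_adm hM hd₂.1 hd₂.2.2
  have hf : IsCoprime (e₁ * d₁ ^ 3 * (e₂ * d₂ ^ 3)) 2 :=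
    (q₁.2.mul_left t₁.2.pow_left).mul_left (q₂.2.mul_left t₂.2.pow_left)
  obtain ⟨c, hc, hc'⟩ := phase hM q₁.2 q₂.2 hf
  have nd₁ := one_le_nr hd₁.1.ne_zero
  have nd₂ := one_le_nr hd₂.1.ne_zero
  have ne₁ := one_le_nr he₁.1.ne_zero
  have ne₂ := one_le_nr he₂.1.ne_zero
  have na := nr_pos ha
  have hra : rho d₁ d₂ e₁ e₂ ∣ a := r8.trans hb
  set s : ℂ := z - 1 / 2 with hs
  set U : Chr M → O → ℂ := fun ν m => β₁ (e₁ * m) * conj (sym m a) *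
    ((nr m * (nr e₁ * nr d₁ ^ 3) / L : ℝ) : ℂ) ^ s * ev ν m with hU
  set V : Chr M → O → ℂ := fun ν m => β₂ (e₂ * m) * conj (sym m a) *
    ((nr m * (nr e₂ * nr d₂ ^ 3) / L : ℝ) : ℂ) ^ (conj s) * ev ν m with hV
  set κ : ℂ := ((K / L * Real.sqrt (nr e₁ * nr d₁ ^ 3 * (nr e₂ * nr d₂ ^ 3)) : ℝ) : ℂ) *
    ((K * nr a / L ^ 2 : ℝ) : ℂ) ^ (-z) with hκ
  have X₁ : 0 ≤ L / nr d₁ ^ 3 / nr e₁ := by positivity
  have X₂ : 0 ≤ L / nr d₂ ^ 3 / nr e₂ := by positivity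
  have X₃ : L / nr d₁ ^ 3 / nr e₁ ≤ L :=
    (div_le_self (by positivity) ne₁).trans (div_le_self hL.le (one_le_pow₀ nd₁))
  have e1 : ∀ m₁ ∈ sp M (L / nr d₁ ^ 3 / nr e₁), ∀ m₂ ∈ sp M (L / nr d₂ ^ 3 / nr e₂),
      (if Cop d₁ d₂ e₁ e₂ m₁ m₂ then β₁ (e₁ * m₁) * conj (β₂ (e₂ * m₂)) *
        Ta K d₁ d₂ e₁ e₂ m₁ m₂ a (fun y => (y : ℂ) ^ (-z)) else 0) =
      ∑ ν, ∑ ν', κ * c ν ν' * if IsCoprime m₁ m₂ then U ν m₁ * conj (V ν' m₂) else 0 := by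
    intro m₁ hm₁ m₂ hm₂
    have hm₁' := ((LS2.mem_sp X₁).1 hm₁).1
    have hm₂' := ((LS2.mem_sp X₂).1 hm₂).1
    by_cases h1 : IsCoprime m₁ a
    · by_cases h2 : IsCoprime m₂ a
      · have h3 : Cop d₁ d₂ e₁ e₂ m₁ m₂ ↔ IsCoprime m₁ m₂ :=
          ⟨fun h => h.2.2.2, fun h => ⟨hv, h1.of_isCoprime_of_dvd_right hra,
            h2.of_isCoprime_of_dvd_right hra, h⟩⟩
        rw [if_congr h3 rfl rfl]
        split_ifs with h4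
        · rw [Ta, hc' m₁ m₂ hm₁' hm₂', kernel (nr_pos hm₁'.1.ne_zero) (nr_pos hm₂'.1.ne_zero)
            (by positivity) (by positivity) hK hL na, ← hs, ← hκ, Finset.sum_mul, Finset.sum_mul,
            Finset.mul_sum]
          refine Finset.sum_congr rfl fun ν _ => ?_
          rw [Finset.sum_mul, Finset.sum_mul, Finset.mul_sum]
          refine Finset.sum_congr rfl fun ν' _ => ?_
          simp only [hU, hV, map_mul, Complex.conj_conj]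
          ring
        · simp
      · have h3 := (sym_eq_zero_iff hm₂'.1).2 h2
        simp [Ta, hV, h3]
    · have h3 := (sym_eq_zero_iff hm₁'.1).2 h1
      simp [Ta, hU, h3]
  rw [Finset.sum_congr rfl fun m₁ hm₁ => Finset.sum_congr rfl fun m₂ hm₂ => e1 m₁ hm₁ m₂ hm₂]
  rw [Finset.sum_congr rfl fun m₁ _ => Finset.sum_comm, Finset.sum_comm, Finset.mul_sum]
  refine (norm_sum_le _ _).trans (Finset.sum_le_sum fun ν _ => ?_)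
  rw [Finset.sum_congr rfl fun m₁ _ => Finset.sum_comm, Finset.sum_comm, Finset.mul_sum]
  refine (norm_sum_le _ _).trans (Finset.sum_le_sum fun ν' _ => ?_)
  simp only [← Finset.mul_sum]
  rw [mob X₁ X₂ X₃ (U ν) (fun m => conj (V ν' m)), norm_mul, norm_mul]
  have n1 : ‖κ‖ = K / L * Real.sqrt (nr e₁ * nr d₁ ^ 3 * (nr e₂ * nr d₂ ^ 3)) *
      (K * nr a / L ^ 2) ^ (-z.re) := by
    rw [hκ, norm_mul, Complex.norm_real, Real.norm_of_nonneg (by positivity),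
      Complex.norm_cpow_eq_rpow_re_of_pos (by positivity), Complex.neg_re]
  rw [← n1]
  refine mul_le_mul (mul_le_of_le_one_right (norm_nonneg _) (hc _ _)) ?_ (norm_nonneg _)
    (norm_nonneg _)
  rw [Finset.sum_filter]
  refine (norm_sum_le _ _).trans (Finset.sum_le_sum fun t ht => ?_)
  have ht' := ((LS2.mem_sp hL.le).1 ht).1
  have b1 := norm_inner_le hM he₁ ht' hd₁.1.ne_zero (r3.trans hra) hL β₁ ν s
  have b2 := norm_inner_le hM he₂ ht' hd₂.1.ne_zero (r4.trans hra) hL β₂ ν' (conj s)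
  have b3 : (∑ m ∈ sp M (L / nr d₂ ^ 3 / nr e₂ / nr t),
      if IsCoprime m t then conj (V ν' (t * m)) else 0) =
      conj (∑ m ∈ sp M (L / nr d₂ ^ 3 / nr e₂ / nr t),
        if IsCoprime m t then V ν' (t * m) else 0) := by
    rw [map_sum]
    exact Finset.sum_congr rfl fun m _ => by split_ifs <;> simp
  rw [norm_mul, norm_mul, b3, Complex.norm_conj]
  refine (mul_le_of_le_one_left (by positivity) (norm_mu_le t)).trans ?_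
  refine (mul_le_mul b1 b2 (norm_nonneg _) ((norm_nonneg _).trans b1)).trans_eq ?_
  split_ifs <;> simp

end Crest.Agent.R17.GP
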