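import Mathlib

/-!
# Row 17 (quasi-Riemann hypothesis, `Re s > 7/8`): basic definitions

`O = ℤ[ω]` (`ω² = -1 - ω`), norm `nm`, embedding `ι : O →+* ℂ`, primary elements (`≡ 1 mod 3`),
cubic / quadratic / sextic residue symbols, Gauss sums, additive character, weights, theta
coefficients, row sums and L-functions.  See `Crest/Agent/R17/Doc.lean` for the blueprint.
DO NOT change a definition of this file (add new files instead).
-/

set_option autoImplicit false

noncomputable section

namespace Crest.Agent.R17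

open scoped ComplexConjugate

/-- The Eisenstein integers `x + y ω`. -/
abbrev O : Type := QuadraticAlgebra ℤ (-1) (-1)

/-- `ω`, a primitive cube root of unity. -/
def om : O := ⟨0, 1⟩

/-- `λ = 1 + 2ω = √-3`. -/
def lam : O := ⟨1, 2⟩

/-- The norm `x² - xy + y²` as a natural number. -/
def nm (z : O) : ℕ := (z.re ^ 2 - z.re * z.im + z.im ^ 2).toNat

/-- The norm as a real number. -/
abbrev nr (z : O) : ℝ := (nm z : ℝ)

theorem form_nonneg (x y : ℤ) : 0 ≤ x ^ 2 - x * y + y ^ 2 := by nlinarith [sq_nonneg (2 * x - y), sq_nonneg y]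

theorem nm_cast (z : O) : (nm z : ℤ) = z.re ^ 2 - z.re * z.im + z.im ^ 2 :=
  Int.toNat_of_nonneg (form_nonneg _ _)

theorem nm_mul (z w : O) : nm (z * w) = nm z * nm w := by
  apply Int.natCast_inj.mp
  push_cast
  rw [nm_cast, nm_cast, nm_cast]
  simp only [QuadraticAlgebra.re_mul, QuadraticAlgebra.im_mul]
  ring

theorem nm_eq_zero {z : O} : nm z = 0 ↔ z = 0 := by
  constructor
  · intro h
    have h1 : (nm z : ℤ) = 0 := by exact_mod_cast h
    rw [nm_cast] at h1
    have h2 : z.im = 0 := by nlinarith [sq_nonneg (2 * z.re - z.im), sq_nonneg z.im]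
    have h3 : z.re = 0 := by rw [h2] at h1; nlinarith
    ext <;> simp [h2, h3]
  · rintro rfl; simp [nm]

/-- Conjugation `x + yω ↦ (x - y) - yω`. -/
def cj (z : O) : O := ⟨z.re - z.im, -z.im⟩

theorem mul_cj (z : O) : z * cj z = (nm z : O) := by
  have h : ((nm z : ℕ) : O) = ((nm z : ℤ) : O) := by simp
  rw [h, nm_cast]
  ext
  · simp only [cj, QuadraticAlgebra.re_mul, QuadraticAlgebra.re_intCast]; push_cast; ring
  · simp only [cj, QuadraticAlgebra.im_mul, QuadraticAlgebra.im_intCast]; ring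

/-- Nearest-integer division of an integer by a positive integer. -/
def rdiv (a n : ℤ) : ℤ := (2 * a + n) / (2 * n)

theorem rdiv_bound (a : ℤ) {n : ℤ} (hn : 0 < n) :
    -n ≤ 2 * (a - n * rdiv a n) ∧ 2 * (a - n * rdiv a n) < n := by
  have h1 := Int.emod_add_mul_ediv (2 * a + n) (2 * n)
  have h2 := Int.emod_nonneg (2 * a + n) (show 2 * n ≠ 0 by omega)
  have h3 := Int.emod_lt_of_pos (2 * a + n) (show 0 < 2 * n by omega)
  unfold rdiv
  constructor <;> nlinarith

/-- Euclidean quotient (coordinatewise rounding of `z / w`). -/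
def quo (z w : O) : O := ⟨rdiv (z * cj w).re (nm w), rdiv (z * cj w).im (nm w)⟩

theorem nm_sub_mul_quo_lt (z : O) {w : O} (hw : w ≠ 0) : nm (z - w * quo z w) < nm w := by
  have hn : (0 : ℤ) < nm w := by
    have : nm w ≠ 0 := fun h => hw (nm_eq_zero.1 h)
    omega
  set n : ℤ := (nm w : ℤ) with hndef
  have hcj : nm (cj w) = nm w := by
    apply Int.natCast_inj.mp; rw [nm_cast, nm_cast]; simp only [cj]; ring
  have key : (z - w * quo z w) * cj w = z * cj w - (nm w : O) * quo z w := by
    rw [← mul_cj]; ring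
  have h1 : ((z - w * quo z w) * cj w).re = (z * cj w).re - n * rdiv (z * cj w).re n := by
    rw [key]; simp [quo, hndef]
  have h2 : ((z - w * quo z w) * cj w).im = (z * cj w).im - n * rdiv (z * cj w).im n := by
    rw [key]; simp [quo, hndef]
  obtain ⟨a1, a2⟩ := rdiv_bound (z * cj w).re hn
  obtain ⟨b1, b2⟩ := rdiv_bound (z * cj w).im hn
  rw [← h1] at a1 a2
  rw [← h2] at b1 b2
  have h3 : (nm ((z - w * quo z w) * cj w) : ℤ) = nm (z - w * quo z w) * n := by
    rw [nm_mul, hcj]; push_cast; rfl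
  rw [nm_cast] at h3
  set x := ((z - w * quo z w) * cj w).re
  set y := ((z - w * quo z w) * cj w).im
  have h4 : 4 * (x ^ 2 - x * y + y ^ 2) ≤ 3 * n ^ 2 := by nlinarith
  have h5 : (nm (z - w * quo z w) : ℤ) < n := by nlinarith
  rw [hndef] at h5
  exact_mod_cast h5

instance : EuclideanDomain O :=
  { (inferInstance : CommRing O), (inferInstance : Nontrivial O) with
    quotient := quo
    remainder := fun z w => z - w * quo z w
    quotient_zero := fun a => by
      ext <;> simp [quo, rdiv, nm]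
    quotient_mul_add_remainder_eq := fun a b => by ring
    r := fun a b => nm a < nm b
    r_wellFounded := (measure nm).wf
    remainder_lt := fun a b hb => nm_sub_mul_quo_lt a hb
    mul_left_not_lt := fun a b hb => by
      have : nm b ≠ 0 := fun h => hb (nm_eq_zero.1 h)
      rw [nm_mul]
      exact not_lt.2 (Nat.le_mul_of_pos_right _ (Nat.pos_of_ne_zero this)) }

/-- The complex number `ω = (-1 + √3 i)/2`. -/
def omC : ℂ := ⟨-1 / 2, Real.sqrt 3 / 2⟩

theorem omC_mul : omC * omC = -1 - omC := by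
  have h : Real.sqrt 3 * Real.sqrt 3 = 3 := Real.mul_self_sqrt (by norm_num)
  apply Complex.ext
  · simp [omC]; nlinarith
  · simp [omC]; ring

/-- The embedding of `O` in `ℂ`. -/
def ι : O →+* ℂ where
  toFun z := (z.re : ℂ) + (z.im : ℂ) * omC
  map_one' := by simp [QuadraticAlgebra.re_one, QuadraticAlgebra.im_one]
  map_mul' z w := by
    simp only [QuadraticAlgebra.re_mul, QuadraticAlgebra.im_mul]
    push_cast
    linear_combination (-(z.im : ℂ) * w.im) * omC_mul
  map_zero' := by simp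
  map_add' z w := by
    simp only [QuadraticAlgebra.re_add, QuadraticAlgebra.im_add]; push_cast; ring

/-- The elements of norm at most `X`. -/
def ball (X : ℕ) : Finset O :=
  (((Finset.Icc (-2 * (X : ℤ)) (2 * X)) ×ˢ (Finset.Icc (-2 * (X : ℤ)) (2 * X))).image
    (fun v => (⟨v.1, v.2⟩ : O))).filter (fun z => nm z ≤ X)

/-- Primary elements: `n ≡ 1 (mod 3)`. -/
def Primary (n : O) : Prop := (3 : O) ∣ n - 1

open Classical in
/-- The primary prime divisors of `n` (empty for `n = 0`; the prime `λ` is ignored). -/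
def pf (n : O) : Finset O := (ball (nm n)).filter (fun p => Prime p ∧ Primary p ∧ p ∣ n)

/-- The `p`-adic valuation (for `n ≠ 0`, `p` prime). -/
def vp (p n : O) : ℕ := multiplicity p n

/-- The radical (product of the primary prime divisors). -/
def rad (n : O) : O := ∏ p ∈ pf n, p

open Classical in
/-- The Möbius function (used on primary elements). -/
def mu (n : O) : ℂ := if Squarefree n then (-1) ^ (pf n).card else 0

open Classical in
/-- A complete residue system modulo `n ≠ 0`. -/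
def res (n : O) : Finset O := (ball (nm n)).filter (fun x => x % n = x)

open Classical in
/-- Cubic residue character modulo a prime `p ∤ 3`: `cub1 p a ≡ a ^ ((N p - 1)/3) (mod p)`. -/
def cub1 (p a : O) : ℂ :=
  ∑ k ∈ Finset.range 3, if p ∣ a ^ ((nm p - 1) / 3) - om ^ k then omC ^ k else 0

open Classical in
/-- Quadratic residue character modulo a prime `p ∤ 2`. -/
def quad1 (p a : O) : ℂ :=
  if p ∣ a then 0 else if p ∣ a ^ ((nm p - 1) / 2) - 1 then 1 else -1

/-- The cubic residue symbol `(a / n)₃` (depends only on the prime-to-`λ` part of the ideal `(n)`;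
zero when `a` and that part are not coprime). -/
def cub (n a : O) : ℂ := ∏ p ∈ pf n, cub1 p a ^ vp p n

/-- The quadratic residue symbol `(a / n)₂` (used for `n` coprime to `6`). -/
def quad (n a : O) : ℂ := ∏ p ∈ pf n, quad1 p a ^ vp p n

/-- The sextic residue symbol `χ_n(a) = (a / n)₆` (used for `n` coprime to `6`):
`χ² = cub`, `χ³ = quad`. -/
def sym (n a : O) : ℂ := quad n a * conj (cub n a)

/-- The additive character `e(z) = exp(4πi Im z / √3)` of `ℂ`; `O` is self-dual for it. -/
def eC (z : ℂ) : ℂ := Complex.exp (4 * Real.pi * Complex.I * (z.im : ℂ) / (Real.sqrt 3 : ℂ))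

/-- `e(x / n)`. -/
def eq (x n : O) : ℂ := eC (ι x / ι n)

/-- Gauss sum `∑_{x mod n} χ_n(x)^j e(k x / n)` of the `j`-th power of the sextic symbol
(zero-extended also for `j = 0`: the summand is `0` unless `x` is coprime to `n`). -/
def gs (j : ℕ) (n k : O) : ℂ := ∑ x ∈ res n, sym n x ^ (j + 6) * eq (k * x) n

/-- Normalised Gauss sum `γ_j(n)`. -/
def gam (j : ℕ) (n : O) : ℂ := gs j n 1 / (Real.sqrt (nr n) : ℂ)

/-- Cubic Gauss sum `∑_{x mod n} (x/n)₃ e(k x / n)` (makes sense also for even `n`). -/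
def gc (n k : O) : ℂ := ∑ x ∈ res n, cub n x * eq (k * x) n

/-- The argument `α(n) = n / |n|`. -/
def arg (n : O) : ℂ := ι n / (‖ι n‖ : ℂ)

/-- The self-dual Gaussian profile `gw x = exp(-2πx/√3)` (applied to norms). -/
def gw (x : ℝ) : ℝ := Real.exp (-(2 * Real.pi / Real.sqrt 3) * x)

/-- The log-Gaussian weight `W(y) y^s = exp(-(log y)² + s log y)`. -/
def Wc (y : ℝ) (s : ℂ) : ℂ := Complex.exp (-((Real.log y : ℂ)) ^ 2 + s * (Real.log y : ℂ))

/-- Its Mellin transform: `∫_0^∞ Wc y 0 · y^{s-1} dy = √π exp(s²/4)`. -/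
def Wm (s : ℂ) : ℂ := (Real.sqrt Real.pi : ℂ) * Complex.exp (s ^ 2 / 4)

/-- For an index `μ = m d³` (`m` squarefree): the part `m`. -/
def sq1 (n : O) : O := ∏ p ∈ (pf n).filter (fun p => vp p n % 3 = 1), p

/-- For an index `μ = m d³` (`m` squarefree): the part `d`. -/
def cu (n : O) : O := ∏ p ∈ pf n, p ^ (vp p n / 3)

open Classical in
/-- The cubic theta coefficient with angular factor: for primary `μ = m d³`, `m` squarefree,
`th μ = γ₂(m) √(N d) conj α(μ)`, and `0` on all other elements. -/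
def th (n : O) : ℂ :=
  if Primary n ∧ ∀ p ∈ pf n, vp p n % 3 ≠ 2 then
    gc (sq1 n) 1 / (Real.sqrt (nr (sq1 n)) : ℂ) * (Real.sqrt (nr (cu n)) : ℂ) * conj (arg n)
  else 0

/-- Characters modulo `M` (always `M ≠ 0`, `72 ∣ M`). -/
abbrev Chr (M : O) : Type := MulChar (O ⧸ Ideal.span {M}) ℂ

/-- Value of a character modulo `M`. -/
def ev {M : O} (ν : Chr M) (n : O) : ℂ := ν (Ideal.Quotient.mk _ n)

/-- Admissible moduli. -/
def Adm (M : O) : Prop := M ≠ 0 ∧ (72 : O) ∣ M

open Classical in
/-- The row character `n ↦ ν(n) conj χ_n(a)` on primary `n` (zero elsewhere). -/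
def rc {M : O} (ν : Chr M) (a n : O) : ℂ := if Primary n then ev ν n * conj (sym n a) else 0

/-- Möbius sum of the row `a` at scale `D` with weight `W(y) y^s`. -/
def Mob {M : O} (ν : Chr M) (a : O) (D : ℝ) (s : ℂ) : ℂ :=
  ∑' n : O, mu n * rc ν a n * Wc (nr n / D) s

/-- Plain character sum of the row `a` at scale `X`. -/
def Pln {M : O} (ν : Chr M) (a : O) (X : ℝ) (s : ℂ) : ℂ :=
  ∑' n : O, rc ν a n * Wc (nr n / X) s

open Classical in
/-- Smooth prime sum of the row `a` at scale `P`. -/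
def Prm {M : O} (ν : Chr M) (a : O) (P : ℝ) (s : ℂ) : ℂ :=
  ∑' p : O, if Prime p then rc ν a p * Wc (nr p / P) s else 0

/-- A prime slot: `∑_{p ∈ Ps} c(p) conj χ_p(a)`. -/
def slot (Ps : Finset O) (c : O → ℂ) (a : O) : ℂ := ∑ p ∈ Ps, c p * conj (sym p a)

/-- Exceptional rows: away from `M` the row is a sixth power (includes `a = 0`). -/
def Exc (M a : O) : Prop := ∀ p ∈ pf a, ¬ p ∣ M → 6 ∣ vp p a

/-- The "conductor" of a row: the product of the norms of the primes `p ∤ M` with `6 ∤ v_p(a)`. -/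
def cond (M a : O) : ℝ := by
  classical exact ∏ p ∈ (pf a).filter (fun p => ¬ p ∣ M ∧ ¬ 6 ∣ vp p a), nr p

/-- The row character is principal. -/
def Princ {M : O} (ν : Chr M) (a : O) : Prop :=
  ∀ n, Primary n → IsCoprime n (M * a) → rc ν a n = 1

/-- The Dirichlet series of the row character. -/
def Lser {M : O} (ν : Chr M) (a : O) (s : ℂ) : ℂ := ∑' n : O, rc ν a n * (nr n : ℂ) ^ (-s)

/-- `L` is the analytic continuation of the Dirichlet series of the row character. -/
def IsL {M : O} (ν : Chr M) (a : O) (L : ℂ → ℂ) : Prop :=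
  DifferentiableOn ℂ L {1}ᶜ ∧ (∀ s : ℂ, 1 < s.re → L s = Lser ν a s) ∧
    (¬ Princ ν a → Differentiable ℂ L)

/-- The L-function of the row character (`exists_isL` shows that it has the properties `IsL`). -/
def Lc {M : O} (ν : Chr M) (a : O) : ℂ → ℂ := Classical.epsilon (IsL ν a)

/-- All the L-functions of the family are zero-free in `Re s > β`. -/
def ZeroFree (β : ℝ) : Prop :=
  ∀ (M : O), Adm M → ∀ (ν : Chr M) (a : O), a ≠ 0 → ∀ s : ℂ, β < s.re →
    (s ≠ 1 ∨ ¬ Princ ν a) → Lc ν a s ≠ 0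

open Classical in
/-- The completed, marked cubic-theta sum of the dual row `r`:
`∑_{z ∈ Zs} c(z) ∑_{μ, z ∣ μ} th(μ) φ(μ) χ_μ(r) W_s(N μ / (D N z))`. -/
def Tc (φ : O → ℂ) (Zs : Finset O) (c : O → ℂ) (D : ℝ) (s : ℂ) (r : O) : ℂ :=
  ∑ z ∈ Zs, c z * ∑' n : O, if z ∣ n then th n * φ n * sym n r * Wc (nr n / (D * nr z)) s else 0

/-- `φ` is bounded by `1`, periodic modulo `M` and supported on the elements coprime to `M`. -/
def PerB (M : O) (φ : O → ℂ) : Prop :=
  (∀ n, ‖φ n‖ ≤ 1) ∧ (∀ n n', M ∣ n - n' → φ n = φ n') ∧ ∀ n, ¬ IsCoprime n M → φ n = 0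

/-- Squarefree primary elements coprime to `M`. -/
def SP (M n : O) : Prop := Primary n ∧ Squarefree n ∧ IsCoprime n M

end Crest.Agent.R17
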