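import Mathlib

/-!
# Row 17, module M8 (reflected energy), part R: real inequalities
-/

set_option autoImplicit false

noncomputable section

namespace Crest.Agent.R17.En

/-! ### The shapes of the bounds -/

theorem le_root {x y : ℝ} (hx : 0 ≤ x) (h : x ^ 4 ≤ y) : x ≤ y ^ (1 / 4 : ℝ) := by
  rw [one_div]
  exact (Real.le_rpow_inv_iff_of_pos hx ((pow_nonneg hx 4).trans h) (by norm_num)).2
    (by exact_mod_cast h)

theorem root_le {x y : ℝ} (hx : 0 ≤ x) (hy : 0 ≤ y) (h : y ≤ x ^ 4) : y ^ (1 / 4 : ℝ) ≤ x := by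
  rw [one_div]
  exact (Real.rpow_inv_le_iff_of_pos hy hx (by norm_num)).2 (by exact_mod_cast h)

theorem root_pow {y : ℝ} (hy : 0 ≤ y) : (y ^ (1 / 4 : ℝ)) ^ 4 = y := by
  rw [one_div]
  exact_mod_cast Real.rpow_inv_natCast_pow hy (n := 4) (by norm_num)

/-- the bound of the bilinear estimate (rows `≤ K`, marks `≤ Z`, columns `≤ L`) -/
def Cb (K Z L ρ : ℝ) : ℝ :=
  K * (L * Z + min (L * Z ^ 2) ((L ^ 3 * Z ^ 9 * ρ) ^ (1 / 4 : ℝ))) +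
    L * Z * (L + min (L * Z) (Z ^ 2))

theorem Cb_nonneg {K Z L ρ : ℝ} (hK : 0 ≤ K) (hZ : 0 ≤ Z) (hL : 0 ≤ L) (hρ : 0 ≤ ρ) :
    0 ≤ Cb K Z L ρ := by
  unfold Cb
  positivity

theorem le_Cb {K Z L ρ : ℝ} (hK : 0 ≤ K) (hZ : 0 ≤ Z) (hL : 0 ≤ L) (hρ : 0 ≤ ρ) :
    K * L * Z ≤ Cb K Z L ρ := by
  have h1 : 0 ≤ K * min (L * Z ^ 2) ((L ^ 3 * Z ^ 9 * ρ) ^ (1 / 4 : ℝ)) := by positivity
  have h2 : 0 ≤ L * Z * (L + min (L * Z) (Z ^ 2)) := by positivity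
  unfold Cb
  linarith

theorem Cb_div {K Z L ρ t : ℝ} (hK : 0 ≤ K) (hZ : 0 ≤ Z) (hL : 0 ≤ L) (hρ : 0 ≤ ρ) (ht : 1 ≤ t) :
    Cb (K / t) (Z / t) L ρ ≤ t⁻¹ * Cb K Z L ρ := by
  have h0 : Z / t ≤ Z := div_le_self hZ ht
  have h1 : 0 ≤ Z / t := by positivity
  have h2 : Cb (K / t) (Z / t) L ρ = t⁻¹ * (K * (L * (Z / t) + min (L * (Z / t) ^ 2)
      ((L ^ 3 * (Z / t) ^ 9 * ρ) ^ (1 / 4 : ℝ))) + L * Z * (L + min (L * (Z / t)) ((Z / t) ^ 2))) := by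
    unfold Cb
    ring
  rw [h2, Cb]
  gcongr

theorem Cb_mul {K Z L ρ a : ℝ} (hK : 0 ≤ K) (hZ : 0 ≤ Z) (hL : 0 ≤ L) (hρ : 0 ≤ ρ) (ha : 1 ≤ a) :
    Cb K Z (a * L) ρ ≤ a ^ 2 * Cb K Z L ρ := by
  have ha0 : 0 ≤ a := by linarith
  have ha2 : a ≤ a ^ 2 := by nlinarith
  have h0 : 0 ≤ L ^ 3 * Z ^ 9 * ρ := by positivity
  have h1 : ((a * L) ^ 3 * Z ^ 9 * ρ) ^ (1 / 4 : ℝ) ≤ a * (L ^ 3 * Z ^ 9 * ρ) ^ (1 / 4 : ℝ) := by
    refine root_le (by positivity) (by positivity) ?_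
    rw [mul_pow a _ 4, root_pow h0, mul_pow, mul_assoc, mul_assoc, ← mul_assoc (L ^ 3)]
    exact mul_le_mul_of_nonneg_right (pow_le_pow_right₀ ha (by norm_num)) h0
  have h2 : min (a * L * Z ^ 2) (((a * L) ^ 3 * Z ^ 9 * ρ) ^ (1 / 4 : ℝ)) ≤
      a * min (L * Z ^ 2) ((L ^ 3 * Z ^ 9 * ρ) ^ (1 / 4 : ℝ)) := by
    rw [mul_min_of_nonneg _ _ ha0]
    exact min_le_min (le_of_eq (mul_assoc _ _ _)) h1
  have h3 : min (a * L * Z) (Z ^ 2) ≤ a * min (L * Z) (Z ^ 2) := by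
    rw [mul_min_of_nonneg _ _ ha0]
    exact min_le_min (le_of_eq (mul_assoc _ _ _)) (le_mul_of_one_le_left (sq_nonneg Z) ha)
  have h4 : 0 ≤ K * (L * Z + min (L * Z ^ 2) ((L ^ 3 * Z ^ 9 * ρ) ^ (1 / 4 : ℝ))) := by positivity
  have h5 := mul_le_mul_of_nonneg_left h2 hK
  have h6 := mul_le_mul_of_nonneg_left h3 (by positivity : 0 ≤ a * L * Z)
  have h7 := mul_le_mul_of_nonneg_right ha2 h4
  unfold Cb
  linarith

/-- the bound of one block (`a = 3^{j/3}`, `E ≤ N d ≤ 2E`, `N n ≤ N`) -/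
theorem block_le_Cb {K Z L ρ a E N f : ℝ} (hK : 0 ≤ K) (hZ : 0 ≤ Z) (ha : 1 ≤ a) (hE : 1 ≤ E)
    (hN : 0 ≤ N) (hL : N * a ^ 3 * E ^ 3 = L) (hf : 0 ≤ f) (hρ : f ≤ ρ) :
    a * (2 * E) ^ 2 * (K * min (N * Z ^ 2) ((N + 2 * E * f * Z ^ 2) * Z) +
      N * (2 * E) * min (N * Z ^ 2) ((N + Z ^ 2) * Z)) ≤ 8 * Cb K Z L ρ := by
  have ha0 : 0 ≤ a := by linarith
  have hE0 : 0 ≤ E := by linarith
  have hρ0 : 0 ≤ ρ := hf.trans hρ
  have hL0 : 0 ≤ L := by rw [← hL]; positivity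
  have h1 : ∀ i ≤ 3, ∀ j ≤ 3, N * a ^ i * E ^ j ≤ L := fun i hi j hj => by
    rw [← hL]
    gcongr
  have h2 := h1 1 (by norm_num) 2 (by norm_num)
  have h3 := h1 1 (by norm_num) 3 (by norm_num)
  have h4 := h1 0 (by norm_num) 0 (by norm_num)
  simp only [pow_one, pow_zero, mul_one] at h2 h3 h4
  set μ := min (N * Z ^ 2) (E * ρ * Z ^ 3) with hμ
  have hμ0 : 0 ≤ μ := by positivity
  have hμ1 : μ ≤ N * Z ^ 2 := min_le_left _ _
  have hμ2 : μ ≤ E * ρ * Z ^ 3 := min_le_right _ _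
  have h5 : min (N * Z ^ 2) ((N + 2 * E * f * Z ^ 2) * Z) ≤ N * Z + 2 * μ := by
    have e1 : 0 ≤ N * Z := by positivity
    have e2 : E * f * Z ^ 3 ≤ E * ρ * Z ^ 3 := by gcongr
    rcases min_choice (N * Z ^ 2) (E * ρ * Z ^ 3) with h | h
    · exact (min_le_left _ _).trans (by linarith)
    · exact (min_le_right _ _).trans (by linarith)
  have h6 : a * E ^ 2 * μ ≤ min (L * Z ^ 2) ((L ^ 3 * Z ^ 9 * ρ) ^ (1 / 4 : ℝ)) := by
    refine le_min ?_ (le_root (by positivity) ?_)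
    · nlinarith [mul_le_mul_of_nonneg_left hμ1 (by positivity : 0 ≤ a * E ^ 2),
        mul_le_mul_of_nonneg_right h2 (sq_nonneg Z)]
    · calc (a * E ^ 2 * μ) ^ 4 = a ^ 4 * (E ^ 8 * (μ ^ 3 * μ)) := by ring
        _ ≤ a ^ 9 * (E ^ 8 * ((N * Z ^ 2) ^ 3 * (E * ρ * Z ^ 3))) := by gcongr; norm_num
        _ = L ^ 3 * Z ^ 9 * ρ := by rw [← hL]; ring
  have h7 : min (N * Z ^ 2) ((N + Z ^ 2) * Z) ≤ Z * (L + min (L * Z) (Z ^ 2)) := by
    have e1 : 0 ≤ Z * L := by positivity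
    have e2 : N * Z ≤ L * Z := by gcongr
    have e3 : N * Z ^ 2 ≤ L * Z ^ 2 := by gcongr
    rcases min_choice (L * Z) (Z ^ 2) with h | h <;> rw [h]
    · exact (min_le_left _ _).trans (by linarith)
    · exact (min_le_right _ _).trans (by linarith)
  have h8 := mul_le_mul_of_nonneg_left h5 (by positivity : 0 ≤ a * E ^ 2 * K)
  have h9 := mul_le_mul_of_nonneg_left h6 hK
  have h10 := mul_le_mul h3 h7 (by positivity) hL0
  have h11 := mul_le_mul_of_nonneg_left h2 (by positivity : 0 ≤ K * Z)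
  have h12 : 0 ≤ K * L * Z := by positivity
  unfold Cb
  linarith

/-- the bound for a fixed frozen part of radical norm `ρ` -/
def Fb (K D Z ρ : ℝ) : ℝ :=
  K + min (K * Z) (Real.sqrt K * Z * D ^ (1 / 4 : ℝ)) + K ^ 2 * ρ ^ 2 * Z / D +
    min (K ^ 2 * ρ ^ 2 * Z / D * Z) (Z ^ 2)

theorem Fb_nonneg {K D Z ρ : ℝ} (hK : 0 ≤ K) (hD : 0 < D) (hZ : 0 ≤ Z) : 0 ≤ Fb K D Z ρ := by
  unfold Fb
  positivity

theorem Fb_mono {K K' D Z ρ ρ' : ℝ} (hK : 0 ≤ K) (hKK : K ≤ K') (hD : 0 < D) (hZ : 0 ≤ Z)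
    (hρ : 0 ≤ ρ) (hρρ : ρ ≤ ρ') : Fb K D Z ρ ≤ Fb K' D Z ρ' := by
  have hK' : 0 ≤ K' := hK.trans hKK
  unfold Fb
  gcongr

/-- from `Cb` to `Fb`: rows `∼ K₁`, inactive part of the marks of norm `w` -/
theorem Cb_le_Fb {c : ℝ} (hc : 0 < c) : ∃ C : ℝ, 0 < C ∧ ∀ K₁ D Z ρ w : ℝ, 0 < K₁ → 0 < D →
    0 < Z → 1 ≤ ρ → 1 ≤ w →
    w ^ 2 * ((D / (K₁ * ρ)) ^ 2 * (w / Z) *
      Cb (2 * K₁) (2 * Z / w) ((2 * K₁) ^ 2 * (2 * Z / w) / (D * w / (c * ρ ^ 2))) ρ) ≤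
      C * (D * Z) * Fb K₁ D Z ρ := by
  set C₁ : ℝ := 2 + 4 / c with hC₁
  have hC1 : 2 ≤ C₁ := le_add_of_nonneg_right (by positivity)
  refine ⟨16 * c * (2 * C₁ + 16 * c + 4), by positivity, fun K D Z ρ w hK hD hZ hρ hw => ?_⟩
  have hρ0 : 0 < ρ := by linarith
  have hw0 : 0 < w := by linarith
  set Z' := 2 * Z / w with hZ'
  set L := (2 * K) ^ 2 * Z' / (D * w / (c * ρ ^ 2)) with hL
  set B := K ^ 2 * ρ ^ 2 * Z / D with hB
  set R := Real.sqrt K * Z * D ^ (1 / 4 : ℝ) with hR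
  have hZ0 : 0 < Z' := by positivity
  have hL0 : 0 < L := by positivity
  have hB0 : 0 < B := by positivity
  have hR0 : 0 < R := by positivity
  have h1 : L = 8 * c * B / w ^ 2 := by
    rw [hL, hZ', hB]
    field_simp
    norm_num
  have h2 : Z' ≤ 2 * Z := div_le_self (by positivity) hw
  have h3 : L ≤ 8 * c * B := by
    rw [h1]
    exact div_le_self (by positivity) (one_le_pow₀ hw)
  have h4 : R ^ 4 = K ^ 2 * Z ^ 4 * D := by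
    rw [hR, mul_pow, mul_pow, root_pow hD.le, show 4 = 2 * 2 from rfl, pow_mul, Real.sq_sqrt hK.le]
  have h5 : (L ^ 3 * Z' ^ 9 * ρ) ^ (1 / 4 : ℝ) ≤ L * Z' * (C₁ * R / K) := by
    refine root_le (by positivity) (by positivity) ?_
    have e1 : 4 ≤ c * C₁ ^ 4 * ρ * w ^ 3 := by
      calc 4 = c * (4 / c) ^ 1 * 1 * 1 := by field_simp
        _ ≤ c * C₁ ^ 1 * ρ * w ^ 3 := by
          gcongr
          · linarith
          · exact one_le_pow₀ hw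
        _ ≤ c * C₁ ^ 4 * ρ * w ^ 3 := by
          gcongr
          · linarith
          · norm_num
    have e2 : L ^ 3 * Z' ^ 9 * ρ = L ^ 3 * Z' ^ 4 * (8 * Z ^ 5 * ρ / w ^ 5) * 4 := by
      rw [hZ']
      field_simp
      norm_num
    have e3 : (L * Z' * (C₁ * R / K)) ^ 4 =
        L ^ 3 * Z' ^ 4 * (8 * Z ^ 5 * ρ / w ^ 5) * (c * C₁ ^ 4 * ρ * w ^ 3) := by
      rw [mul_pow, div_pow, mul_pow C₁, h4, mul_pow, show L ^ 4 = L ^ 3 * L by ring]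
      nth_rewrite 2 [h1]
      rw [hB]
      field_simp
    rw [e2, e3]
    gcongr
  have h6 : K * min (L * Z' ^ 2) ((L ^ 3 * Z' ^ 9 * ρ) ^ (1 / 4 : ℝ)) ≤
      L * Z' * (C₁ * min (K * Z) R) := by
    rcases min_choice (K * Z) R with h | h <;> rw [h]
    · calc _ ≤ K * (L * Z' ^ 2) := mul_le_mul_of_nonneg_left (min_le_left _ _) hK.le
        _ = L * Z' * (K * Z') := by ring
        _ ≤ L * Z' * (K * (C₁ * Z)) := by
          gcongr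
          nlinarith
        _ = _ := by ring
    · calc _ ≤ K * (L * Z' * (C₁ * R / K)) :=
          mul_le_mul_of_nonneg_left ((min_le_right _ _).trans h5) hK.le
        _ = _ := by field_simp
  have h7 : min (L * Z') (Z' ^ 2) ≤ (16 * c + 4) * min (B * Z) (Z ^ 2) := by
    rw [mul_min_of_nonneg _ _ (by positivity)]
    refine min_le_min ?_ ?_
    · nlinarith [mul_le_mul h3 h2 hZ0.le (by positivity), mul_pos hB0 hZ]
    · nlinarith [mul_pos hc (pow_pos hZ 2)]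
  have h8 : Cb (2 * K) Z' L ρ ≤ L * Z' * ((2 * C₁ + 16 * c + 4) * Fb K D Z ρ) := by
    have e1 : 0 ≤ min (K * Z) R := by positivity
    have e2 : 0 ≤ min (B * Z) (Z ^ 2) := by positivity
    have e3 : 2 * K + 2 * (C₁ * min (K * Z) R) + L + min (L * Z') (Z' ^ 2) ≤
        (2 * C₁ + 16 * c + 4) * Fb K D Z ρ := by
      rw [Fb, ← hB, ← hR]
      nlinarith [mul_nonneg hc.le e1, mul_pos hc hK, mul_pos hc hB0]
    have e4 := mul_le_mul_of_nonneg_left e3 (mul_pos hL0 hZ0).le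
    unfold Cb
    linarith
  refine (mul_le_mul_of_nonneg_left (mul_le_mul_of_nonneg_left h8 (by positivity))
    (by positivity)).trans (le_of_eq ?_)
  rw [h1, hZ', hB]
  field_simp
  norm_num

/-- from `Fb` to the final bound: powerful part of norm `H`, prefix of norm `H₀` -/
theorem Fb_le {K D Z ρ H H₀ : ℝ} (hD : 0 < D) (hZ : 0 ≤ Z) (hH : 1 ≤ H) (hHK : H ≤ K)
    (hH₀ : 1 ≤ H₀) (hρ : ρ ^ 2 ≤ H * H₀ ^ 2) :
    Fb (K / H) D Z ρ ≤ H₀ ^ 2 * H ^ (-(1 / 2 : ℝ)) *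
      (K + K ^ 2 * Z / D + min (Z ^ 2 * Real.sqrt K) (K * Z ^ 2 / Real.sqrt D) +
        min (K * Z) (Real.sqrt K * Z * D ^ (1 / 4 : ℝ))) := by
  have hH0 : 0 < H := by linarith
  have hK : 0 < K := by linarith
  rw [Real.rpow_neg hH0.le, ← Real.sqrt_eq_rpow, Fb, Real.sqrt_div' _ hH0.le]
  have h1 : 1 ≤ Real.sqrt H := Real.one_le_sqrt.2 hH
  have h2 : Real.sqrt H ≤ Real.sqrt K := Real.sqrt_le_sqrt hHK
  have h3 : Real.sqrt H ^ 2 = H := Real.sq_sqrt hH0.le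
  have h4 : Real.sqrt D ^ 2 = D := Real.sq_sqrt hD.le
  have h5 : 0 < Real.sqrt D := Real.sqrt_pos.2 hD
  have h6 : 0 ≤ D ^ (1 / 4 : ℝ) := by positivity
  generalize Real.sqrt H = h at *
  generalize Real.sqrt K = k at *
  generalize D ^ (1 / 4 : ℝ) = r at *
  generalize Real.sqrt D = d at *
  subst h3 h4
  have hh : 0 < h := by linarith
  have hk : 0 < k := by linarith
  have h7 : h⁻¹ ≤ H₀ ^ 2 * h⁻¹ := le_mul_of_one_le_left (by positivity) (one_le_pow₀ hH₀)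
  have h8 : (h ^ 2)⁻¹ ≤ h⁻¹ := inv_anti₀ hh (by nlinarith)
  have h9 : (K / h ^ 2) ^ 2 * ρ ^ 2 ≤ (K * H₀ / h) ^ 2 :=
    (mul_le_mul_of_nonneg_left hρ (by positivity)).trans (le_of_eq (by field_simp))
  have e1 : K / h ^ 2 ≤ H₀ ^ 2 * h⁻¹ * K := by
    rw [div_eq_inv_mul]
    exact mul_le_mul_of_nonneg_right (h8.trans h7) hK.le
  have e2 : min (K / h ^ 2 * Z) (k / h * Z * r) ≤ H₀ ^ 2 * h⁻¹ * min (K * Z) (k * Z * r) := by
    rw [mul_min_of_nonneg _ _ (by positivity)]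
    refine min_le_min ?_ ?_
    · rw [← mul_assoc]
      exact mul_le_mul_of_nonneg_right e1 hZ
    · rw [div_eq_inv_mul, mul_assoc, mul_assoc, ← mul_assoc k]
      exact mul_le_mul_of_nonneg_right h7 (by positivity)
  have e3 : (K / h ^ 2) ^ 2 * ρ ^ 2 * Z / d ^ 2 ≤ H₀ ^ 2 * h⁻¹ * (K ^ 2 * Z / d ^ 2) := by
    calc _ ≤ (K * H₀ / h) ^ 2 * Z / d ^ 2 := by gcongr
      _ = H₀ ^ 2 * (h ^ 2)⁻¹ * (K ^ 2 * Z / d ^ 2) := by field_simp
      _ ≤ _ := by gcongr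
  have e4 : min ((K / h ^ 2) ^ 2 * ρ ^ 2 * Z / d ^ 2 * Z) (Z ^ 2) ≤
      H₀ ^ 2 * h⁻¹ * min (Z ^ 2 * k) (K * Z ^ 2 / d) := by
    rw [mul_min_of_nonneg _ _ (by positivity)]
    refine le_min ((min_le_right _ _).trans ?_) ?_
    · calc Z ^ 2 = h⁻¹ * (Z ^ 2 * h) := by field_simp
        _ ≤ _ := by gcongr
    · set q := K * H₀ / h / d with hq
      have hq0 : 0 ≤ q := by positivity
      have a1 : (K / h ^ 2) ^ 2 * ρ ^ 2 * Z / d ^ 2 * Z ≤ q * (q * Z ^ 2) := by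
        calc _ ≤ (K * H₀ / h) ^ 2 * Z / d ^ 2 * Z := by gcongr
          _ = _ := by rw [hq]; field_simp
      have a2 : q * Z ^ 2 ≤ H₀ ^ 2 * h⁻¹ * (K * Z ^ 2 / d) := by
        calc _ = H₀ ^ 1 * h⁻¹ * (K * Z ^ 2 / d) := by rw [hq]; field_simp
          _ ≤ _ := by gcongr; norm_num
      refine le_trans ?_ a2
      rcases le_total q 1 with a3 | a3
      · exact (min_le_left _ _).trans (a1.trans (mul_le_of_le_one_left (by positivity) a3))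
      · exact (min_le_right _ _).trans (le_mul_of_one_le_left (sq_nonneg Z) a3)
  linarith

end Crest.Agent.R17.En
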