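import Crest.Agent.R17.Refl
import Crest.Agent.R17.LS2
import Crest.Agent.R17.EnR

/-!
# Row 17, module M8 (reflected energy), part A: toolkit
-/

set_option autoImplicit false

noncomputable section

namespace Crest.Agent.R17.En

open scoped ComplexConjugate
open MeasureTheory Finset

/-! ### Cauchy–Schwarz -/

theorem sq_sum_le_card {α : Type*} (I : Finset α) (a : α → ℂ) :
    ‖∑ i ∈ I, a i‖ ^ 2 ≤ I.card * ∑ i ∈ I, ‖a i‖ ^ 2 := by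
  exact (pow_le_pow_left₀ (norm_nonneg _) (norm_sum_le _ _) 2).trans sq_sum_le_card_mul_sum_sq

theorem sq_sum_le_weight {α : Type*} (I : Finset α) (a : α → ℂ) {w : α → ℝ}
    (hw : ∀ i ∈ I, 0 < w i) :
    ‖∑ i ∈ I, a i‖ ^ 2 ≤ (∑ i ∈ I, (w i)⁻¹) * ∑ i ∈ I, w i * ‖a i‖ ^ 2 := by
  refine (pow_le_pow_left₀ (norm_nonneg _) (norm_sum_le _ _) 2).trans ?_
  refine sum_sq_le_sum_mul_sum_of_sq_le_mul I (fun i hi => (inv_pos.2 (hw i hi)).le)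
    (fun i hi => mul_nonneg (hw i hi).le (sq_nonneg _)) fun i hi => ?_
  rw [inv_mul_cancel_left₀ (hw i hi).ne']

theorem l2_sum_le {α κ : Type*} (S : Finset κ) (I : Finset α) (f : α → κ → ℂ) {E : ℝ}
    (h : ∀ i ∈ I, ∑ k ∈ S, ‖f i k‖ ^ 2 ≤ E) :
    ∑ k ∈ S, ‖∑ i ∈ I, f i k‖ ^ 2 ≤ (I.card : ℝ) ^ 2 * E := by
  calc _ ≤ ∑ k ∈ S, (I.card : ℝ) * ∑ i ∈ I, ‖f i k‖ ^ 2 :=
        sum_le_sum fun k _ => sq_sum_le_card I _
    _ = I.card * ∑ i ∈ I, ∑ k ∈ S, ‖f i k‖ ^ 2 := by rw [← mul_sum, sum_comm]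
    _ ≤ I.card * ∑ _i ∈ I, E := mul_le_mul_of_nonneg_left (sum_le_sum h) (Nat.cast_nonneg _)
    _ = _ := by rw [sum_const, nsmul_eq_mul]; ring

/-- weighted version: the pieces have energy `≤ E / w²` -/
theorem l2_sum_le_weight {α κ : Type*} (S : Finset κ) (I : Finset α) (f : α → κ → ℂ) {w : α → ℝ}
    (hw : ∀ i ∈ I, 0 < w i) {E : ℝ} (h : ∀ i ∈ I, w i ^ 2 * ∑ k ∈ S, ‖f i k‖ ^ 2 ≤ E) :
    ∑ k ∈ S, ‖∑ i ∈ I, f i k‖ ^ 2 ≤ (∑ i ∈ I, (w i)⁻¹) ^ 2 * E := by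
  have h0 : 0 ≤ ∑ i ∈ I, (w i)⁻¹ := sum_nonneg fun i hi => (inv_pos.2 (hw i hi)).le
  calc _ ≤ ∑ k ∈ S, (∑ i ∈ I, (w i)⁻¹) * ∑ i ∈ I, w i * ‖f i k‖ ^ 2 :=
        sum_le_sum fun k _ => sq_sum_le_weight I _ hw
    _ = (∑ i ∈ I, (w i)⁻¹) * ∑ i ∈ I, w i * ∑ k ∈ S, ‖f i k‖ ^ 2 := by
        rw [← mul_sum, sum_comm]
        simp only [mul_sum]
    _ ≤ (∑ i ∈ I, (w i)⁻¹) * ∑ i ∈ I, (w i)⁻¹ * E := by
        refine mul_le_mul_of_nonneg_left (sum_le_sum fun i hi => ?_) h0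
        rw [le_inv_mul_iff₀ (hw i hi), ← mul_assoc, ← sq]
        exact h i hi
    _ = _ := by rw [← sum_mul]; ring

theorem l2_add_le {κ : Type*} (S : Finset κ) (f g : κ → ℂ) :
    ∑ k ∈ S, ‖f k + g k‖ ^ 2 ≤ 2 * ∑ k ∈ S, ‖f k‖ ^ 2 + 2 * ∑ k ∈ S, ‖g k‖ ^ 2 := by
  rw [mul_sum, mul_sum, ← sum_add_distrib]
  refine sum_le_sum fun k _ => ?_
  have h := pow_le_pow_left₀ (norm_nonneg _) (norm_add_le (f k) (g k)) 2
  nlinarith [sq_nonneg (‖f k‖ - ‖g k‖)]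

theorem l2_integral {κ : Type*} (S : Finset κ) {Kr : ℝ → ℂ} {G : ℝ → κ → ℂ} {E : ℝ}
    (hK : Integrable Kr) (hG : ∀ k ∈ S, Integrable fun u => Kr u * G u k)
    (h : ∀ u, ∑ k ∈ S, ‖G u k‖ ^ 2 ≤ E) :
    ∑ k ∈ S, ‖∫ u, Kr u * G u k‖ ^ 2 ≤ (∫ u, ‖Kr u‖) ^ 2 * E := by
  set a : κ → ℂ := fun k => ∫ u, Kr u * G u k with ha
  set T : ℝ := ∑ k ∈ S, ‖a k‖ ^ 2 with hT
  have hT0 : 0 ≤ T := sum_nonneg fun _ _ => sq_nonneg _
  have hE : 0 ≤ E := (sum_nonneg fun _ _ => sq_nonneg _).trans (h 0)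
  have hI : 0 ≤ ∫ u, ‖Kr u‖ := integral_nonneg fun _ => norm_nonneg _
  have h1 : (T : ℂ) = ∫ u, ∑ k ∈ S, conj (a k) * (Kr u * G u k) := by
    rw [integral_finsetSum _ fun k hk => (hG k hk).const_mul _, hT]
    push_cast
    refine sum_congr rfl fun k _ => ?_
    rw [integral_const_mul, Complex.conj_mul']
  have h2 : ∀ u, ‖∑ k ∈ S, conj (a k) * (Kr u * G u k)‖ ≤ ‖Kr u‖ * (√T * √E) := by
    intro u
    have h3 : ∑ k ∈ S, ‖a k‖ * ‖G u k‖ ≤ √T * √E := by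
      refine (Real.sum_mul_le_sqrt_mul_sqrt S _ _).trans ?_
      exact mul_le_mul_of_nonneg_left (Real.sqrt_le_sqrt (h u)) (Real.sqrt_nonneg _)
    refine (norm_sum_le _ _).trans (le_trans (le_of_eq ?_)
      (mul_le_mul_of_nonneg_left h3 (norm_nonneg _)))
    rw [mul_sum]
    refine sum_congr rfl fun k _ => ?_
    rw [norm_mul, norm_mul, Complex.norm_conj]
    ring
  have h4 : T ≤ (∫ u, ‖Kr u‖) * (√T * √E) := by
    calc T = ‖(T : ℂ)‖ := by rw [Complex.norm_real, Real.norm_of_nonneg hT0]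
      _ ≤ ∫ u, ‖Kr u‖ * (√T * √E) := by
        rw [h1]
        exact norm_integral_le_of_norm_le (hK.norm.mul_const _) (Filter.Eventually.of_forall h2)
      _ = _ := integral_mul_const _ _
  have h5 := Real.sq_sqrt hT0
  have h6 := Real.sq_sqrt hE
  nlinarith [sq_nonneg (√T - (∫ u, ‖Kr u‖) * √E)]

/-! ### Counting -/

theorem mem_ball_floor {X : ℝ} (hX : 0 ≤ X) {n : O} : n ∈ ball ⌊X⌋₊ ↔ nr n ≤ X := by
  rw [mem_ball, Nat.le_floor_iff hX]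

theorem mem_sp {M n : O} {X : ℝ} (hX : 0 ≤ X) : n ∈ sp M X ↔ SP M n ∧ nr n ≤ X := by
  classical
  rw [sp, mem_filter, mem_ball_floor hX, and_comm]

theorem SP.po {n : O} (h : SP 6 n) : PO n := by
  exact ⟨h.1, h.2.2.of_isCoprime_of_dvd_right ⟨3, by norm_num⟩⟩

theorem SP.of_dvd {M n d : O} (h : SP M n) (hd : Primary d) (hdn : d ∣ n) : SP M d := by
  exact ⟨hd, h.2.1.squarefree_of_dvd hdn, h.2.2.of_isCoprime_of_dvd_left hdn⟩

theorem SP.six {M h n : O} (hM : Adm M) (hn : SP (M * h) n) : SP 6 n := by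
  exact ⟨hn.1, hn.2.1, hn.2.2.of_isCoprime_of_dvd_right
    ((Dvd.intro 12 (by norm_num) : (6 : O) ∣ 72).trans (hM.2.mul_right h))⟩

theorem card_le {S : Finset O} {X : ℝ} (hX : 0 ≤ X) (h : ∀ n ∈ S, n ≠ 0 ∧ nr n ≤ X) :
    (S.card : ℝ) ≤ 7 * X := by
  classical
  have h1 : S ⊆ (ball ⌊X⌋₊).erase 0 := fun n hn =>
    mem_erase.2 ⟨(h n hn).1, (mem_ball_floor hX).2 (h n hn).2⟩
  have h2 := card_le_card h1
  rw [card_erase_of_mem (mem_ball.2 (by simp))] at h2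
  have h3 := card_ball_le ⌊X⌋₊
  have h4 : (S.card : ℝ) ≤ 7 * (⌊X⌋₊ : ℕ) := by exact_mod_cast (by omega : S.card ≤ 7 * ⌊X⌋₊)
  linarith [Nat.floor_le hX]

/-- non-zero multiples of `q` -/
theorem card_mult {q : O} (hq : q ≠ 0) {S : Finset O} {X : ℝ} (hX : 0 ≤ X)
    (h : ∀ n ∈ S, n ≠ 0 ∧ q ∣ n ∧ nr n ≤ X) : (S.card : ℝ) ≤ 7 * (X / nr q) := by
  classical
  choose! t ht using fun n (hn : n ∈ S) => (h n hn).2.1
  have hq0 := nr_pos hq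
  rw [← card_image_of_injOn (f := t) fun a ha b hb hab => by
    rw [ht a ha, ht b hb, hab]]
  refine card_le (by positivity) fun x hx => ?_
  obtain ⟨n, hn, rfl⟩ := mem_image.1 hx
  refine ⟨fun h0 => (h n hn).1 (by rw [ht n hn, h0, mul_zero]), ?_⟩
  rw [le_div_iff₀ hq0, mul_comm, ← nr_mul, ← ht n hn]
  exact (h n hn).2.2

theorem card_sp (M : O) {X : ℝ} (hX : 0 ≤ X) : ((sp M X).card : ℝ) ≤ 7 * X := by
  exact card_le hX fun n hn => ⟨((mem_sp hX).1 hn).1.1.ne_zero, ((mem_sp hX).1 hn).2⟩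

theorem sum_inv_le {ε : ℝ} (hε : 0 < ε) : ∃ C : ℝ, 0 < C ∧ ∀ (Q : ℝ) (S : Finset O), 1 ≤ Q →
    (∀ n ∈ S, n ≠ 0 ∧ nr n ≤ Q) → ∑ n ∈ S, (nr n)⁻¹ ≤ C * Q ^ ε := by
  classical
  obtain ⟨C, hC, h⟩ := sum_inv_nr_le
  refine ⟨C * (2 + ε⁻¹), by positivity, fun Q S hQ hS => ?_⟩
  have hQ0 : 0 < Q := by linarith
  have h1 : S ⊆ (ball ⌊Q⌋₊).erase 0 := fun n hn =>
    mem_erase.2 ⟨(hS n hn).1, (mem_ball_floor hQ0.le).2 (hS n hn).2⟩
  refine (sum_le_sum_of_subset_of_nonneg h1 fun _ _ _ => by positivity).trans ((h _).trans ?_)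
  rw [mul_assoc]
  refine mul_le_mul_of_nonneg_left ?_ hC.le
  have h2 : Real.log (⌊Q⌋₊ + 1) ≤ Real.log 2 + Real.log Q := by
    rw [← Real.log_mul two_ne_zero hQ0.ne']
    exact Real.log_le_log (by positivity) (by linarith [Nat.floor_le hQ0.le])
  have h3 : Real.log Q ≤ Q ^ ε / ε := Real.log_le_rpow_div hQ0.le hε
  have h4 : 1 ≤ Q ^ ε := Real.one_le_rpow hQ hε.le
  have h5 := Real.log_two_lt_d9
  rw [div_eq_inv_mul] at h3
  nlinarith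

theorem log_le {ε : ℝ} (hε : 0 < ε) : ∃ C : ℝ, 0 < C ∧ ∀ (Q : ℝ) (n : ℕ),
    (2 : ℝ) ^ n ≤ Q → (n : ℝ) + 1 ≤ C * Q ^ ε := by
  refine ⟨1 + 2 * ε⁻¹, by positivity, fun Q n hQ => ?_⟩
  have hQ1 : 1 ≤ Q := (one_le_pow₀ one_le_two).trans hQ
  have h2 : n * Real.log 2 ≤ Real.log Q := by
    rw [← Real.log_pow]
    exact Real.log_le_log (by positivity) hQ
  have h3 : Real.log Q ≤ Q ^ ε / ε := Real.log_le_rpow_div (by linarith) hε
  have h4 : 1 ≤ Q ^ ε := Real.one_le_rpow hQ1 hε.le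
  have h5 := Real.log_two_gt_d9
  have h6 : (0 : ℝ) ≤ n := Nat.cast_nonneg _
  rw [div_eq_inv_mul] at h3
  nlinarith

/-- divisor bound with a uniform majorant -/
theorem card_pdiv_le' {ε : ℝ} (hε : 0 < ε) : ∃ C : ℝ, 0 < C ∧ ∀ (Q : ℝ) (n : O), n ≠ 0 →
    nr n ≤ Q → ((pdiv n).card : ℝ) ≤ C * Q ^ ε := by
  obtain ⟨C, hC, h⟩ := card_pdiv_le hε
  exact ⟨C, hC, fun Q n hn hQ => (h n hn).trans (mul_le_mul_of_nonneg_left
    (Real.rpow_le_rpow (Nat.cast_nonneg _) hQ hε.le) hC.le)⟩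

/-- dyadic decomposition -/
theorem dyadic {ε : ℝ} (hε : 0 < ε) : ∃ C : ℝ, 0 < C ∧ ∀ (Q K E : ℝ) (S : Finset O) (f : O → ℝ),
    1 ≤ K → K ≤ Q → (∀ k ∈ S, k ≠ 0 ∧ nr k ≤ K) → (∀ k, 0 ≤ f k) →
    (∀ K₁ : ℝ, 1 ≤ K₁ → K₁ ≤ K →
      ∑ k ∈ S.filter (fun k => K₁ ≤ nr k ∧ nr k ≤ 2 * K₁), f k ≤ E) →
    ∑ k ∈ S, f k ≤ C * Q ^ ε * E := by
  classical
  obtain ⟨C, hC, h⟩ := log_le hε
  refine ⟨C, hC, fun Q K E S f hK hKQ hS hf hE => ?_⟩
  have hE0 : 0 ≤ E := (sum_nonneg fun _ _ => hf _).trans (hE 1 le_rfl hK)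
  have hK0 : ⌊K⌋₊ ≠ 0 := by
    have := (Nat.one_le_floor_iff K).2 hK
    omega
  have hm : (2 : ℝ) ^ Nat.log 2 ⌊K⌋₊ ≤ K :=
    le_trans (by exact_mod_cast Nat.pow_log_le_self 2 hK0) (Nat.floor_le (by linarith))
  rw [← sum_fiberwise_of_maps_to (t := range (Nat.log 2 ⌊K⌋₊ + 1)) (g := fun k => Nat.log 2 (nm k))
    fun k hk => mem_range.2 (Nat.lt_succ_of_le (Nat.log_mono_right
      ((Nat.le_floor_iff (by linarith)).2 (hS k hk).2)))]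
  calc _ ≤ ∑ _e ∈ range (Nat.log 2 ⌊K⌋₊ + 1), E := by
        refine sum_le_sum fun e he => le_trans ?_ (hE (2 ^ e) (one_le_pow₀ one_le_two)
          ((pow_le_pow_right₀ one_le_two (Nat.lt_succ_iff.1 (mem_range.1 he))).trans hm))
        refine sum_le_sum_of_subset_of_nonneg (fun k hk => ?_) fun _ _ _ => hf _
        obtain ⟨hk', rfl⟩ := mem_filter.1 hk
        have h0 : nm k ≠ 0 := fun h0 => (hS k hk').1 (nm_eq_zero.1 h0)
        refine mem_filter.2 ⟨hk', by exact_mod_cast Nat.pow_log_le_self 2 h0, ?_⟩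
        have := (Nat.lt_pow_succ_log_self one_lt_two (nm k)).le
        rw [pow_succ'] at this
        exact_mod_cast this
    _ ≤ _ := by
        rw [sum_const, card_range, nsmul_eq_mul]
        refine mul_le_mul_of_nonneg_right ?_ hE0
        exact_mod_cast h Q _ (hm.trans hKQ)

open Classical in
/-- multiples of `t` among the squarefree elements -/
theorem sum_sp_dvd {β : Type*} [AddCommMonoid β] {t : O} (ht : Primary t) {X : ℝ} (hX : 0 ≤ X)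
    (f : O → β) : ∑ z ∈ (sp 6 X).filter (t ∣ ·), f z =
      ∑ z ∈ sp 6 (X / nr t), if t * z ∈ sp 6 X then f (t * z) else 0 := by
  have ht0 := nr_pos ht.ne_zero
  rw [← sum_filter]
  symm
  refine sum_bij (fun z _ => t * z) (fun z hz => ?_) (fun a _ b _ hab => ?_) (fun z hz => ?_)
    fun _ _ => rfl
  · exact mem_filter.2 ⟨(mem_filter.1 hz).2, dvd_mul_right _ _⟩
  · exact mul_left_cancel₀ ht.ne_zero hab
  · obtain ⟨hz, z', rfl⟩ := mem_filter.1 hz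
    have h1 := (mem_sp hX).1 hz
    refine ⟨z', mem_filter.2 ⟨(mem_sp (by positivity)).2
      ⟨SP.of_dvd h1.1 (ht.of_mul h1.1.1) (dvd_mul_left _ _), ?_⟩, hz⟩, rfl⟩
    rw [le_div_iff₀ ht0, mul_comm, ← nr_mul]
    exact h1.2

open Classical in
/-- summation over the factorisations `z = zi * za` -/
theorem sum_pdiv_sp {β : Type*} [AddCommMonoid β] {X : ℝ} (hX : 0 ≤ X) {Zs : Finset O}
    (h : Zs ⊆ sp 6 X) (g : O → O → β) : ∑ z ∈ Zs, ∑ za ∈ pdiv z, g z za =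
      ∑ zi ∈ sp 6 X, ∑ za ∈ sp 6 (X / nr zi), if zi * za ∈ Zs then g (zi * za) za else 0 := by
  simp only [← sum_filter]
  rw [sum_sigma', sum_sigma']
  symm
  refine sum_bij (fun x _ => ⟨x.1 * x.2, x.2⟩) (fun x hx => ?_) (fun a ha b hb hab => ?_)
    (fun y hy => ?_) fun _ _ => rfl
  · simp only [mem_sigma, mem_filter] at hx ⊢
    have h1 := (mem_sp hX).1 (h hx.2.2)
    have h2 := (mem_sp (div_nonneg hX (Nat.cast_nonneg _))).1 hx.2.1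
    exact ⟨hx.2.2, (mem_pdiv h1.1.1.ne_zero).2 ⟨h2.1.1, dvd_mul_left _ _⟩⟩
  · simp only [mem_sigma, mem_filter] at hb
    have h2 := (mem_sp (div_nonneg hX (Nat.cast_nonneg _))).1 hb.2.1
    obtain ⟨a1, a2⟩ := a
    obtain ⟨b1, b2⟩ := b
    simp only [Sigma.mk.injEq, heq_eq_eq] at hab ⊢
    obtain ⟨h3, rfl⟩ := hab
    exact ⟨mul_right_cancel₀ h2.1.1.ne_zero h3, rfl⟩
  · obtain ⟨z, za⟩ := y
    simp only [mem_sigma] at hy
    have h1 := (mem_sp hX).1 (h hy.1)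
    obtain ⟨h2, zi, rfl⟩ := (mem_pdiv h1.1.1.ne_zero).1 hy.2
    have h3 : Primary zi := h2.of_mul h1.1.1
    have h4 := h1.2
    rw [nr_mul] at h4
    have h5 := one_le_nr h2.ne_zero
    have h6 := nr_pos h3.ne_zero
    refine ⟨⟨zi, za⟩, ?_, by simp [mul_comm]⟩
    simp only [mem_sigma, mem_filter]
    refine ⟨(mem_sp hX).2 ⟨SP.of_dvd h1.1 h3 (dvd_mul_left _ _), by nlinarith⟩,
      (mem_sp (by positivity)).2 ⟨SP.of_dvd h1.1 h2 (dvd_mul_right _ _), ?_⟩, ?_⟩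
    · rwa [le_div_iff₀ h6]
    · rw [mul_comm]
      exact hy.1

/-- every primary element is a squarefree element times a square -/
theorem exists_sqfree_sq {d : O} (hd : Primary d) :
    ∃ d₀ y : O, Primary d₀ ∧ Squarefree d₀ ∧ Primary y ∧ d = d₀ * y ^ 2 := by
  have hs : ∀ q ∈ pf d, Prime q ∧ Primary q := fun q hq => BasicB.pf_sub hq
  have h0 := BasicB.primary_prod_pow hs fun p => vp p d % 2
  refine ⟨_, _, h0, ?_, BasicB.primary_prod_pow hs _, BasicB.eq_mod_mul_div hd 2⟩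
  rw [h0.squarefree_iff]
  intro p hp
  have h1 := BasicB.vp_ne_zero hp
  have h2 := BasicB.pf_sub hp
  rw [vp_prod_pow hs _ h2.1 h2.2] at h1 ⊢
  split_ifs at h1 ⊢ <;> omega

/-! ### Dual coefficients -/

theorem dualB_of_le {C : ℝ} {h r : O} {b b' : O → ℂ} (hb : DualB C h r b)
    (hle : ∀ ν, ‖b' ν‖ ≤ ‖b ν‖) : DualB C h r b' := by
  intro ν hν
  obtain ⟨u, j, n, d, h1, h2, h3, h4, h5, h6⟩ := hb ν fun h0 =>
    hν (norm_le_zero_iff.1 ((hle ν).trans_eq (by rw [h0, norm_zero])))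
  exact ⟨u, j, n, d, h1, h2, h3, h4, h5, (hle ν).trans h6⟩

theorem dualB_mono {C C' : ℝ} {h r : O} {b : O → ℂ} (hb : DualB C h r b) (hC : C ≤ C') :
    DualB C' h r b := by
  intro ν hν
  obtain ⟨u, j, n, d, h1, h2, h3, h4, h5, h6⟩ := hb ν hν
  refine ⟨u, j, n, d, h1, h2, h3, h4, h5, h6.trans ?_⟩
  gcongr

theorem dualB_zero {C : ℝ} {h r : O} {b : O → ℂ} (hb : DualB C h r b) : b 0 = 0 := by
  by_contra h0
  obtain ⟨u, j, n, d, h1, h2, -, h4, h5, -⟩ := hb 0 h0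
  exact mul_ne_zero (mul_ne_zero h1.ne_zero (pow_ne_zero _ prime_lam.ne_zero))
    (mul_ne_zero h2.ne_zero (pow_ne_zero _ h4.ne_zero)) h5.symm

theorem four_le_nr {p : O} (hp : Prime p) (h : Primary p) : 4 ≤ nr p := by
  have h1 := nm_prime_mod hp h
  have h2 : nm p ≠ 1 := fun h1 => hp.not_isUnit (isUnit_iff_nm.2 h1)
  exact_mod_cast (by omega : 4 ≤ nm p)

theorem nr_le_of_dvd {z w : O} (h : z ∣ w) (hw : w ≠ 0) : nr z ≤ nr w :=
  Nat.cast_le.2 (nm_le_of_dvd h hw)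

theorem nr_prod {α : Type*} (s : Finset α) (f : α → O) :
    nr (∏ i ∈ s, f i) = ∏ i ∈ s, nr (f i) := by
  simp only [nr, nm_prod, Nat.cast_prod]

theorem nr_unit_lam {u : O} (hu : IsUnit u) (j : ℕ) : nr (u * lam ^ j) = 3 ^ j := by
  rw [nr_mul, nr_pow, nr, nr, isUnit_iff_nm.1 hu, nm_lam]
  simp

/-- trivial bound -/
theorem dualB_norm_le {C : ℝ} (hC : 0 < C) {h r : O} (hr : r ≠ 0) {b : O → ℂ}
    (hb : DualB C h r b) (ν : O) : ‖b ν‖ ≤ C * nr r * nr ν := by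
  classical
  by_cases h0 : b ν = 0
  · rw [h0, norm_zero]
    positivity
  obtain ⟨u, j, n, d, h1, h2, -, h4, h5, h6⟩ := hb ν h0
  have hn := one_le_nr h2.ne_zero
  have hd := one_le_nr h4.ne_zero
  have h7 : (3 : ℝ) ^ ((j : ℝ) / 6) * √(nr d) ≤ nr ν := by
    rw [h5, nr_mul, nr_unit_lam h1, nr_mul, nr_pow]
    refine mul_le_mul ?_ ?_ (Real.sqrt_nonneg _) (by positivity)
    · rw [← Real.rpow_natCast]
      exact Real.rpow_le_rpow_of_exponent_le (by norm_num)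
        (div_le_self (Nat.cast_nonneg _) (by norm_num))
    · refine (Real.sqrt_le_iff.2 ⟨by linarith, by nlinarith⟩ : √(nr d) ≤ nr d).trans ?_
      exact (le_self_pow₀ hd three_ne_zero).trans (le_mul_of_one_le_left (by positivity) hn)
  have h8 : ∏ p ∈ (pf r).filter (fun p => vp p h % 6 = 4),
      ((√(nr p))⁻¹ + if p ∣ ν then √(nr p) else 0) ≤ nr r := by
    refine le_trans ?_ (nr_le_of_dvd (BasicB.prod_dvd_of_subset hr
      (filter_subset (fun p => vp p h % 6 = 4) _)) hr)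
    rw [nr_prod]
    refine prod_le_prod (fun p _ => by positivity) fun p hp => ?_
    have hp' := BasicB.pf_sub (mem_filter.1 hp).1
    have h9 := four_le_nr hp'.1 hp'.2
    have h10 : 2 ≤ √(nr p) := Real.le_sqrt_of_sq_le (by linarith)
    have h11 : (√(nr p))⁻¹ ≤ 1 := inv_le_one_of_one_le₀ (by linarith)
    have h12 := Real.mul_self_sqrt (show 0 ≤ nr p by linarith)
    split_ifs <;> nlinarith
  rw [mul_assoc C] at h6
  refine h6.trans ((mul_le_mul (mul_le_mul_of_nonneg_left h7 hC.le) h8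
    (prod_nonneg fun p _ => by positivity) (by positivity)).trans_eq ?_)
  ring

end Crest.Agent.R17.En
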