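import Crest.Agent.R17.EnA

/-!
# Row 17, module M8 (reflected energy), part B: the large sieves in the form used below
-/

set_option autoImplicit false

noncomputable section

namespace Crest.Agent.R17.En

open scoped ComplexConjugate
open MeasureTheory Finset

theorem EnB.rpow_half {ε Q x y : ℝ} (hε : 0 < ε) (hx : 0 ≤ x) (hy : 0 ≤ y) (hxQ : x ≤ Q)
    (hyQ : y ≤ Q) : (x * y) ^ (ε / 2) ≤ Q ^ ε := by
  have hQ : 0 ≤ Q := hx.trans hxQ
  calc (x * y) ^ (ε / 2) ≤ (Q * Q) ^ (ε / 2) :=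
        Real.rpow_le_rpow (mul_nonneg hx hy) (mul_le_mul hxQ hyQ hy hQ) (by positivity)
    _ = Q ^ ε := by
        rw [Real.mul_rpow hQ hQ, ← Real.rpow_add' hQ (by positivity), add_halves]

theorem EnB.nr_le_of_dvd {z w : O} (h : z ∣ w) (hw : w ≠ 0) : nr z ≤ nr w := by
  exact_mod_cast nm_le_of_dvd h hw

open Classical in
/-- `quad2` for odd columns -/
theorem EnB.quad1 {ε : ℝ} (hε : 0 < ε) : ∃ C : ℝ, 0 < C ∧
    ∀ (Q K N τ : ℝ) (A : Finset O) (m : O → O) (β : O → ℂ), 1 ≤ K → K ≤ Q → 1 ≤ N → N ≤ Q →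
      0 ≤ τ → (∀ a ∈ A, SP 6 (m a) ∧ nr (m a) ≤ N) →
      (∀ x, ((A.filter fun a => m a = x).card : ℝ) ≤ τ) →
      ∑ k ∈ sp 6 K, ‖∑ a ∈ A, β a * quad k (m a)‖ ^ 2 ≤
        C * Q ^ ε * τ * (K + N) * ∑ a ∈ A, ‖β a‖ ^ 2 := by
  obtain ⟨C, hC, h⟩ := quad_large_sieve (half_pos hε)
  refine ⟨C, hC, fun Q K N τ A m β hK hKQ hN hNQ hτ hA hcard => ?_⟩
  have hmap : ∀ a ∈ A, m a ∈ sp 6 N := fun a ha => (mem_sp (by linarith)).2 (hA a ha)
  have e : ∀ k, ∑ a ∈ A, β a * quad k (m a) =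
      ∑ x ∈ sp 6 N, (∑ a ∈ A.filter (fun a => m a = x), β a) * quad k x := fun k => by
    rw [← sum_fiberwise_of_maps_to hmap]
    refine sum_congr rfl fun x _ => ?_
    rw [sum_mul]
    exact sum_congr rfl fun a ha => by rw [(mem_filter.1 ha).2]
  simp only [e]
  refine (h K N _ hK hN).trans ?_
  have h1 : ∑ x ∈ sp 6 N, ‖∑ a ∈ A.filter (fun a => m a = x), β a‖ ^ 2 ≤
      τ * ∑ a ∈ A, ‖β a‖ ^ 2 := by
    rw [← sum_fiberwise_of_maps_to hmap, mul_sum]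
    refine sum_le_sum fun x _ => (sq_sum_le_card _ _).trans ?_
    exact mul_le_mul_of_nonneg_right (hcard x) (by positivity)
  have h2 := EnB.rpow_half hε (by linarith : 0 ≤ K) (by linarith : 0 ≤ N) hKQ hNQ
  have hQ : 0 ≤ Q := by linarith
  calc _ ≤ C * Q ^ ε * (K + N) * (τ * ∑ a ∈ A, ‖β a‖ ^ 2) := by gcongr
    _ = _ := by ring

/-- trivial bound and cubic large sieve on the multiples of `q` -/
theorem cubic2 {ε : ℝ} (hε : 0 < ε) : ∃ C : ℝ, 0 < C ∧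
    ∀ (Q N Z : ℝ) (q : O) (c : O → ℂ) (S : Finset O), 1 ≤ Z → Z ≤ Q → 0 ≤ N → N ≤ Q → q ≠ 0 →
      (∀ z, ‖c z‖ ≤ 1) → (∀ n ∈ S, n ≠ 0 ∧ q ∣ n ∧ nr n ≤ N) →
      ∑ n ∈ S, ‖∑ z ∈ sp 6 Z, c z * sym z n ^ 4‖ ^ 2 ≤
        C * Q ^ ε * min (N / nr q * Z ^ 2) ((N / nr q + Z ^ 2) * Z) := by
  classical
  obtain ⟨C, hC, h⟩ := cubic_trivial_sieve (half_pos hε)
  refine ⟨343 + 7 * C, by positivity, fun Q N Z q c S hZ hZQ hN hNQ hq hc hS => ?_⟩
  have hq1 := one_le_nr hq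
  have hQ : 1 ≤ Q := hZ.trans hZQ
  have hQε : 1 ≤ Q ^ ε := Real.one_le_rpow hQ hε.le
  have hN' : 0 ≤ N / nr q := by positivity
  have hZ0 : 0 ≤ Z := by linarith
  rcases S.eq_empty_or_nonempty with rfl | ⟨n₀, hn₀⟩
  · rw [sum_empty]
    exact mul_nonneg (by positivity) (le_min (by positivity) (by positivity))
  have hN1 : 1 ≤ N / nr q := by
    rw [le_div_iff₀ (by positivity), one_mul]
    exact (EnB.nr_le_of_dvd (hS n₀ hn₀).2.1 (hS n₀ hn₀).1).trans (hS n₀ hn₀).2.2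
  have hcs := card_sp 6 hZ0
  rw [mul_min_of_nonneg _ _ (by positivity)]
  refine le_min ?_ ?_
  · have h1 : ∀ n ∈ S, ‖∑ z ∈ sp 6 Z, c z * sym z n ^ 4‖ ^ 2 ≤ (7 * Z) ^ 2 := fun n _ => by
      refine pow_le_pow_left₀ (norm_nonneg _) (le_trans ?_ hcs) 2
      refine (norm_sum_le _ _).trans ?_
      rw [card_eq_sum_ones]
      push_cast
      refine sum_le_sum fun z _ => ?_
      rw [norm_mul, norm_pow]
      exact mul_le_one₀ (hc z) (by positivity) (pow_le_one₀ (norm_nonneg _) (norm_sym_le z n))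
    have h2 := card_mult hq hN hS
    calc _ ≤ S.card • (7 * Z) ^ 2 := sum_le_card_nsmul _ _ _ h1
      _ = S.card * (7 * Z) ^ 2 := nsmul_eq_mul _ _
      _ ≤ 7 * (N / nr q) * (7 * Z) ^ 2 := by gcongr
      _ = 343 * 1 * (N / nr q * Z ^ 2) := by ring
      _ ≤ _ := by gcongr; linarith
  · have hsub : S ⊆ (ball ⌊N / nr q⌋₊).image (q * ·) := fun n hn => by
      obtain ⟨h1, ⟨n', rfl⟩, h3⟩ := hS n hn
      refine mem_image.2 ⟨n', (mem_ball_floor hN').2 ?_, rfl⟩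
      rw [le_div_iff₀ (by positivity), mul_comm, ← nr_mul]
      exact h3
    have h1 := h (N / nr q) Z (fun z => c z * sym z q ^ 4) hN1 hZ
    have h2 : ∑ z ∈ sp 6 Z, ‖c z * sym z q ^ 4‖ ^ 2 ≤ 7 * Z := by
      refine le_trans ?_ hcs
      rw [card_eq_sum_ones]
      push_cast
      refine sum_le_sum fun z _ => pow_le_one₀ (norm_nonneg _) ?_
      rw [norm_mul, norm_pow]
      exact mul_le_one₀ (hc z) (by positivity) (pow_le_one₀ (norm_nonneg _) (norm_sym_le z q))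
    have h3 := EnB.rpow_half hε hN' hZ0 ((div_le_self hN hq1).trans hNQ) hZQ
    calc _ ≤ ∑ n ∈ (ball ⌊N / nr q⌋₊).image (q * ·), ‖∑ z ∈ sp 6 Z, c z * sym z n ^ 4‖ ^ 2 :=
          sum_le_sum_of_subset_of_nonneg hsub fun _ _ _ => by positivity
      _ = ∑ n ∈ ball ⌊N / nr q⌋₊, ‖∑ z ∈ sp 6 Z, c z * sym z q ^ 4 * sym z n ^ 4‖ ^ 2 := by
          rw [sum_image fun _ _ _ _ hh => mul_left_cancel₀ hq hh]
          refine sum_congr rfl fun n _ => ?_
          congr 2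
          refine sum_congr rfl fun z hz => ?_
          rw [sym_mul_right (SP.po ((mem_sp hZ0).1 hz).1), mul_pow, mul_assoc]
      _ ≤ C * Q ^ ε * (N / nr q + Z ^ 2) * (7 * Z) := h1.trans (by gcongr)
      _ = 7 * C * Q ^ ε * ((N / nr q + Z ^ 2) * Z) := by ring
      _ ≤ _ := by gcongr; linarith

open Classical in
/-- quadratic large sieve with repeated (and possibly even) columns -/
theorem quad2 {ε : ℝ} (hε : 0 < ε) : ∃ C : ℝ, 0 < C ∧
    ∀ (Q K N τ : ℝ) (A : Finset O) (m : O → O) (β : O → ℂ), 1 ≤ K → K ≤ Q → 0 ≤ N → N ≤ Q →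
      0 ≤ τ → (∀ a ∈ A, Primary (m a) ∧ Squarefree (m a) ∧ nr (m a) ≤ N) →
      (∀ x, ((A.filter fun a => m a = x).card : ℝ) ≤ τ) →
      ∑ k ∈ sp 6 K, ‖∑ a ∈ A, β a * quad k (m a)‖ ^ 2 ≤
        C * Q ^ ε * τ * (K + N) * ∑ a ∈ A, ‖β a‖ ^ 2 := by
  obtain ⟨C, hC, h⟩ := EnB.quad1 hε
  refine ⟨2 * C, by positivity, fun Q K N τ A m β hK hKQ hN hNQ hτ hA hcard => ?_⟩
  have hQ : 0 ≤ Q := by linarith
  rcases A.eq_empty_or_nonempty with rfl | ⟨a₀, ha₀⟩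
  · simp
  have hN1 : 1 ≤ N := (one_le_nr (hA a₀ ha₀).1.ne_zero).trans (hA a₀ ha₀).2.2
  have six : ∀ n : O, Primary n → Squarefree n → ¬ (-2 : O) ∣ n → SP 6 n := fun n h1 h2 h3 => by
    refine ⟨h1, h2, ?_⟩
    have h4 : IsCoprime (-2 : O) n := (prime_neg_two.irreducible.coprime_iff_not_dvd).2 h3
    have h5 : IsCoprime n (2 : O) := by simpa using h4.symm.neg_right
    rw [show (6 : O) = 2 * 3 by norm_num]
    exact h5.mul_right h1.isCoprime_three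
  have p2 : Primary (-2 : O) := ⟨-1, by norm_num⟩
  have n2 : (-2 : O) ≠ 0 := prime_neg_two.ne_zero
  have hdiv : ∀ a ∈ A.filter (fun a => (-2 : O) ∣ m a), m a = -2 * (m a / (-2)) := fun a ha =>
    (EuclideanDomain.mul_div_cancel' n2 (mem_filter.1 ha).2).symm
  have h0 := h Q K N τ (A.filter fun a => ¬ (-2 : O) ∣ m a) m β hK hKQ hN1 hNQ hτ
    (fun a ha => by
      obtain ⟨ha, h2⟩ := mem_filter.1 ha
      exact ⟨six _ (hA a ha).1 (hA a ha).2.1 h2, (hA a ha).2.2⟩)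
    (fun x => le_trans (by
      exact_mod_cast card_le_card (filter_subset_filter _ (filter_subset _ _))) (hcard x))
  have h1 := h Q K N τ (A.filter fun a => (-2 : O) ∣ m a) (fun a => m a / (-2)) β hK hKQ hN1 hNQ hτ
    (fun a ha => by
      have e := hdiv a ha
      obtain ⟨h1, h2, h3⟩ := hA a (mem_filter.1 ha).1
      have hd : m a / (-2) ∣ m a := ⟨-2, by rw [mul_comm]; exact e⟩
      refine ⟨six _ (p2.of_mul (e ▸ h1)) (h2.squarefree_of_dvd hd) fun h4 => ?_,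
        (EnB.nr_le_of_dvd hd h1.ne_zero).trans h3⟩
      exact prime_neg_two.not_isUnit (h2 (-2) (by rw [e]; exact mul_dvd_mul_left _ h4)))
    (fun x => le_trans (by
      refine Nat.cast_le.2 (card_le_card fun a ha => ?_)
      obtain ⟨ha, hx⟩ := mem_filter.1 ha
      exact mem_filter.2 ⟨(mem_filter.1 ha).1, by rw [hdiv a ha, hx]⟩) (hcard (-2 * x)))
  have h2 : ∑ k ∈ sp 6 K, ‖∑ a ∈ A.filter (fun a => (-2 : O) ∣ m a), β a * quad k (m a)‖ ^ 2 ≤
      ∑ k ∈ sp 6 K, ‖∑ a ∈ A.filter (fun a => (-2 : O) ∣ m a), β a * quad k (m a / (-2))‖ ^ 2 := by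
    refine sum_le_sum fun k hk => pow_le_pow_left₀ (norm_nonneg _) ?_ 2
    have hk' := SP.po ((mem_sp (by linarith)).1 hk).1
    have : ∑ a ∈ A.filter (fun a => (-2 : O) ∣ m a), β a * quad k (m a) =
        quad k (-2) * ∑ a ∈ A.filter (fun a => (-2 : O) ∣ m a), β a * quad k (m a / (-2)) := by
      rw [mul_sum]
      refine sum_congr rfl fun a ha => ?_
      conv_lhs => rw [hdiv a ha, quad_mul_right hk']
      ring
    rw [this, norm_mul]
    exact mul_le_of_le_one_left (norm_nonneg _) (norm_quad_le _ _)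
  simp only [← sum_filter_add_sum_filter_not A (fun a => (-2 : O) ∣ m a)]
  refine (l2_add_le _ _ _).trans ?_
  linarith

/-- average size of the square part on the multiples of `f` -/
theorem sumY {ε : ℝ} (hε : 0 < ε) : ∃ C : ℝ, 0 < C ∧
    ∀ (Q E : ℝ) (f : O) (S : Finset O) (y : O → O), 1 ≤ Q → 0 ≤ E → E ≤ Q → Primary f →
      Squarefree f → (∀ d ∈ S, d ≠ 0 ∧ nr d ≤ E ∧ f ∣ d ∧ Primary (y d) ∧ y d ^ 2 ∣ d) →
      ∑ d ∈ S, nr (y d) ≤ C * Q ^ ε * (E / nr f) := by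
  classical
  obtain ⟨C₁, hC₁, h₁⟩ := sum_inv_le (half_pos hε)
  obtain ⟨C₂, hC₂, h₂⟩ := card_pdiv_le' (half_pos hε)
  refine ⟨7 * C₁ * C₂, by positivity, fun Q E f S y hQ hE hEQ hf hsf hS => ?_⟩
  have hf0 := hf.ne_zero
  have hf1 := nr_pos hf0
  have hQ0 : 0 ≤ Q := by linarith
  rcases S.eq_empty_or_nonempty with rfl | ⟨d₀, hd₀⟩
  · rw [sum_empty]; positivity
  have hfQ : nr f ≤ Q :=
    ((EnB.nr_le_of_dvd (hS d₀ hd₀).2.2.1 (hS d₀ hd₀).1).trans (hS d₀ hd₀).2.1).trans hEQ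
  set T := (ball ⌊Q⌋₊).filter (· ≠ 0) with hT
  have key : ∀ d ∈ S, pgcd f (y d) ∈ pdiv f ∧ y d = pgcd f (y d) * (y d / pgcd f (y d)) ∧
      f * pgcd f (y d) * (y d / pgcd f (y d)) ^ 2 ∣ d := fun d hd => by
    obtain ⟨h1, h2, h3, h4, h5⟩ := hS d hd
    have he := primary_pgcd f (y d)
    obtain ⟨⟨f', hf'⟩, h7⟩ := (dvd_pgcd_iff hf0 h4.ne_zero he).1 dvd_rfl
    have h8 := (EuclideanDomain.mul_div_cancel' he.ne_zero h7).symm
    refine ⟨(mem_pdiv hf0).2 ⟨he, f', hf'⟩, h8, ?_⟩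
    set e := pgcd f (y d) with hedef
    set y' := y d / e
    have hf'p : Primary f' := he.of_mul (hf' ▸ hf)
    have hy'p : Primary y' := he.of_mul (h8 ▸ h4)
    have c1 : IsCoprime f' y' := by
      rw [← pgcd_eq_one_iff hf'p hy'p.ne_zero]
      have := pgcd_mul_left he hf'p.ne_zero hy'p.ne_zero
      rw [← hf', ← h8, ← hedef] at this
      exact (mul_left_cancel₀ he.ne_zero (by rw [mul_one]; exact this)).symm
    have c2 : IsCoprime f' e := (IsRelPrime.of_squarefree_mul (hf' ▸ hsf)).isCoprime.symm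
    have c3 : IsCoprime f' (y d ^ 2) := by
      rw [h8]; exact (c2.mul_right c1).pow_right
    have := c3.mul_dvd ((Dvd.intro_left e hf'.symm).trans h3) h5
    convert this using 1
    rw [h8, hf']
    ring
  have hmap : ∀ d ∈ S, (pgcd f (y d), y d / pgcd f (y d)) ∈ pdiv f ×ˢ T := fun d hd => by
    obtain ⟨k1, k2, k3⟩ := key d hd
    obtain ⟨h1, h2, h3, h4, h5⟩ := hS d hd
    refine mem_product.2 ⟨k1, mem_filter.2 ⟨(mem_ball_floor hQ0).2 ?_, fun h0 => ?_⟩⟩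
    · refine ((EnB.nr_le_of_dvd ?_ h1).trans h2).trans hEQ
      exact ((dvd_pow_self _ two_ne_zero).mul_left _).trans k3
    · exact h4.ne_zero (by rw [k2, show y d / pgcd f (y d) = 0 from h0, mul_zero])
  rw [← sum_fiberwise_of_maps_to hmap]
  have hfib : ∀ p ∈ pdiv f ×ˢ T, ∑ d ∈ S.filter
      (fun d => (pgcd f (y d), y d / pgcd f (y d)) = p), nr (y d) ≤
        7 * (E / nr f) * (nr p.2)⁻¹ := by
    rintro ⟨e, y'⟩ hp
    obtain ⟨he, hy'⟩ := mem_product.1 hp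
    have he0 : e ≠ 0 := ((mem_pdiv hf0).1 he).1.ne_zero
    have hy0 : y' ≠ 0 := (mem_filter.1 hy').2
    have hc := card_mult (q := f * e * y' ^ 2) (by positivity) hE
      (S := S.filter (fun d => (pgcd f (y d), y d / pgcd f (y d)) = (e, y'))) fun d hd => by
        obtain ⟨hd, h⟩ := mem_filter.1 hd
        obtain ⟨h1, h2⟩ := Prod.mk.inj h
        have k3 := (key d hd).2.2
        rw [h2, h1] at k3
        exact ⟨(hS d hd).1, k3, (hS d hd).2.1⟩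
    rw [sum_congr rfl (g := fun _ => nr e * nr y') fun d hd => by
      obtain ⟨hd, h⟩ := mem_filter.1 hd
      obtain ⟨h1, h2⟩ := Prod.mk.inj h
      have k2 := (key d hd).2.1
      rw [h2, h1] at k2
      rw [k2, nr_mul], sum_const, nsmul_eq_mul]
    have p1 := nr_pos he0
    have p2 := nr_pos hy0
    refine (mul_le_mul_of_nonneg_right hc (by positivity)).trans (le_of_eq ?_)
    rw [nr_mul, nr_mul, nr_pow]
    field_simp
  refine (sum_le_sum hfib).trans ?_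
  rw [sum_product]
  simp only [sum_const, nsmul_eq_mul, ← mul_sum]
  have a1 := h₁ Q T hQ fun n hn =>
    ⟨(mem_filter.1 hn).2, (mem_ball_floor hQ0).1 (mem_filter.1 hn).1⟩
  have a2 := h₂ Q f hf0 hfQ
  have a3 : Q ^ (ε / 2) * Q ^ (ε / 2) = Q ^ ε := by
    rw [← Real.rpow_add (by linarith), add_halves]
  calc _ ≤ C₂ * Q ^ (ε / 2) * (7 * (E / nr f) * (C₁ * Q ^ (ε / 2))) := by gcongr
    _ = _ := by rw [← a3]; ring

end Crest.Agent.R17.En
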