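import Crest.Agent.R17.EnB

/-!
# Row 17, module M8 (reflected energy), part C: one block
-/

set_option autoImplicit false

noncomputable section

namespace Crest.Agent.R17.En

open scoped ComplexConjugate
open MeasureTheory Finset

theorem block_decomp {n d₀ y f : O} (hn : Primary n) (hs : Squarefree n) (hd : Primary d₀)
    (hds : Squarefree d₀) (hf : Primary f) (hfn : f ∣ n) (hfd : IsCoprime f (d₀ * y ^ 2)) :
    ∃ g m : O, Primary g ∧ Primary m ∧ Squarefree m ∧ g ∣ d₀ * y ^ 2 ∧ g * f ∣ n ∧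
      n * (d₀ * y ^ 2) = f * m * (g * y) ^ 2 := by
  have hg := primary_pgcd n d₀
  obtain ⟨h1, d', h2⟩ := (dvd_pgcd_iff hn.ne_zero hd.ne_zero hg).1 dvd_rfl
  have h3 : pgcd n d₀ ∣ d₀ * y ^ 2 := Dvd.dvd.mul_right ⟨d', h2⟩ _
  obtain ⟨n', h4⟩ := (hfd.symm.of_isCoprime_of_dvd_left h3).mul_dvd h1 hfn
  have hn' : Primary n' := (hg.mul hf).of_mul (h4 ▸ hn)
  have hd' : Primary d' := hg.of_mul (h2 ▸ hd)
  have h5 : pgcd n d₀ * pgcd (f * n') d' = pgcd n d₀ * 1 := by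
    rw [← pgcd_mul_left hg (hf.mul hn').ne_zero hd'.ne_zero, ← mul_assoc, ← h4, ← h2, mul_one]
  have h6 : IsCoprime (f * n') d' :=
    (pgcd_eq_one_iff (hf.mul hn') hd'.ne_zero).1 (mul_left_cancel₀ hg.ne_zero h5)
  refine ⟨pgcd n d₀, n' * d', hg, hn'.mul hd', ?_, h3, ⟨n', h4⟩, ?_⟩
  · exact squarefree_mul_iff.2 ⟨h6.of_mul_left_right.isRelPrime,
      hs.squarefree_of_dvd ⟨_, h4.trans (mul_comm _ _)⟩,
      hds.squarefree_of_dvd ⟨_, h2.trans (mul_comm _ _)⟩⟩
  · generalize pgcd n d₀ = g at h2 h4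
    rw [h4, h2]
    ring

theorem block_real {K Z N E f g y : ℝ} (hK : 0 ≤ K) (hZ : 0 ≤ Z) (hN : 0 ≤ N) (hf : 1 ≤ f)
    (hg : 1 ≤ g) (hy : 1 ≤ y) (hE : g ≤ E) :
    g * y * (K + N * E / (f * (g * y) ^ 2)) *
        min (N / (g * f) * Z ^ 2) ((N / (g * f) + Z ^ 2) * Z) ≤
      y / f * (K * min (N * Z ^ 2) ((N + E * f * Z ^ 2) * Z) +
        N * E * min (N * Z ^ 2) ((N + Z ^ 2) * Z)) := by
  have hgf : 1 ≤ g * f := one_le_mul_of_one_le_of_one_le hg hf
  have hE0 : 0 ≤ E := by linarith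
  have h1 : N / (g * f) ≤ N := div_le_self hN hgf
  set μ := min (N / (g * f) * Z ^ 2) ((N / (g * f) + Z ^ 2) * Z) with hμ
  have hμ0 : 0 ≤ μ := le_min (by positivity) (by positivity)
  have h2 : μ ≤ min (N * Z ^ 2) ((N + Z ^ 2) * Z) := min_le_min (by gcongr) (by gcongr)
  have h3 : g * f * μ ≤ min (N * Z ^ 2) ((N + E * f * Z ^ 2) * Z) := by
    rw [hμ, mul_min_of_nonneg _ _ (by positivity)]
    refine min_le_min (le_of_eq (by field_simp)) ?_
    calc _ = (N + g * f * Z ^ 2) * Z := by field_simp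
      _ ≤ _ := by gcongr
  have h4 : 1 / (g * y ^ 2) ≤ 1 := by
    rw [div_le_one (by positivity)]
    exact one_le_mul_of_one_le_of_one_le hg (one_le_pow₀ hy)
  calc _ = y / f * (K * (g * f * μ) + N * E * (1 / (g * y ^ 2) * μ)) := by field_simp
    _ ≤ y / f * (K * min (N * Z ^ 2) ((N + E * f * Z ^ 2) * Z) + N * E * (1 * μ)) := by gcongr
    _ ≤ _ := by rw [one_mul]; gcongr

/-- the estimate for one block of indices `n d³` -/
theorem block {ε : ℝ} (hε : 0 < ε) : ∃ C : ℝ, 0 < C ∧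
    ∀ (Q K Z N E : ℝ) (f₁ f₂ : O) (A : Finset O) (n d : O → O) (β c : O → ℂ),
      1 ≤ K → K ≤ Q → 1 ≤ Z → Z ≤ Q → 0 ≤ N → N ≤ Q → 0 ≤ E → E ≤ Q →
      Primary f₁ → Primary f₂ → Squarefree f₂ →
      (∀ a ∈ A, Primary (n a) ∧ Squarefree (n a) ∧ Primary (d a) ∧ nr (n a) ≤ N ∧ nr (d a) ≤ E ∧
        f₁ ∣ n a ∧ IsCoprime f₁ (d a) ∧ f₂ ∣ d a) →
      Set.InjOn (fun a => (n a, d a)) A → (∀ a, ‖β a‖ ≤ 1) → (∀ z, ‖c z‖ ≤ 1) →
      ∑ k ∈ sp 6 K, ‖∑ a ∈ A, β a * quad k (n a * d a) *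
          ∑ z ∈ sp 6 Z, c z * sym z (d a) ^ 12 * sym z (n a) ^ 4‖ ^ 2 ≤
        C * Q ^ ε * (E / (nr f₁ * nr f₂)) *
          (K * min (N * Z ^ 2) ((N + E * nr f₁ * Z ^ 2) * Z) +
            N * E * min (N * Z ^ 2) ((N + Z ^ 2) * Z)) := by
  classical
  have hε' : 0 < ε / 12 := by positivity
  obtain ⟨C₁, hC₁, h₁⟩ := sum_inv_le hε'
  obtain ⟨C₂, hC₂, h₂⟩ := quad2 hε'
  obtain ⟨C₃, hC₃, h₃⟩ := card_pdiv_le' hε'
  obtain ⟨C₄, hC₄, h₄⟩ := cubic2 hε'
  obtain ⟨C₅, hC₅, h₅⟩ := sumY hε'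
  refine ⟨C₁ * C₂ * C₃ * C₄ * C₃ * C₅, by positivity, fun Q K Z N E f₁ f₂ A n d β c hK hKQ hZ hZQ hN
    hNQ hE hEQ hf₁ hf₂ hf₂' hA hinj hβ hc => ?_⟩
  have hQ : 1 ≤ Q := hK.trans hKQ
  have hQ2 : Q ≤ Q ^ 2 := le_self_pow₀ hQ two_ne_zero
  have hNE : N * E ≤ Q ^ 2 := by rw [sq]; gcongr
  set P : ℝ := (Q ^ 2) ^ (ε / 12) with hP
  have hP0 : 0 ≤ P := by positivity
  have hP6 : P ^ 6 = Q ^ ε := by
    rw [hP, ← Real.rpow_natCast Q 2, ← Real.rpow_mul (by linarith), ← Real.rpow_natCast _ 6,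
      ← Real.rpow_mul (by linarith)]
    congr 1
    push_cast
    ring
  have hf1 := one_le_nr hf₁.ne_zero
  have hf2 := one_le_nr hf₂.ne_zero
  choose! d₀ y hd₀ hd₀' hy hdy using fun x (hx : Primary x) => exists_sqfree_sq hx
  have hdec : ∀ a ∈ A, ∃ g m : O, Primary g ∧ Primary m ∧ Squarefree m ∧ g ∣ d a ∧ g * f₁ ∣ n a ∧
      n a * d a = f₁ * m * (g * y (d a)) ^ 2 := by
    intro a ha
    obtain ⟨a1, a2, a3, -, -, a6, a7, -⟩ := hA a ha
    have := block_decomp a1 a2 (hd₀ _ a3) (hd₀' _ a3) hf₁ a6 (hdy _ a3 ▸ a7)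
    rwa [← hdy _ a3] at this
  choose! g m hg hm hm' hgd hgn hnd using hdec
  set Cf : O → O → ℂ := fun x t => ∑ z ∈ sp 6 Z, c z * sym z x ^ 12 * sym z t ^ 4 with hCf
  set w : O → O := fun a => g a * y (d a) with hw
  have hwp : ∀ a ∈ A, Primary (w a) := fun a ha => (hg a ha).mul (hy _ (hA a ha).2.2.1)
  have hnd' : ∀ a ∈ A, nr f₁ * nr (m a) * nr (w a) ^ 2 ≤ N * E := by
    intro a ha
    rw [← nr_pow, ← nr_mul, ← nr_mul, ← hnd a ha, nr_mul]
    exact mul_le_mul (hA a ha).2.2.2.1 (hA a ha).2.2.2.2.1 (Nat.cast_nonneg _) hN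
  set ψ : ℝ → ℝ := fun t => t * (K + N * E / (nr f₁ * t ^ 2)) with hψ
  set T : ℝ := K * min (N * Z ^ 2) ((N + E * nr f₁ * Z ^ 2) * Z) +
    N * E * min (N * Z ^ 2) ((N + Z ^ 2) * Z) with hT
  have hT0 : 0 ≤ T := by positivity
  -- the large sieve for a fixed square part
  have s1 : ∀ x ∈ A.image w, nr x * ∑ k ∈ sp 6 K,
      ‖∑ a ∈ A.filter (fun a => w a = x), β a * quad k (n a * d a) * Cf (d a) (n a)‖ ^ 2 ≤
      C₂ * P * (C₃ * P) * ∑ a ∈ A.filter (fun a => w a = x), ψ (nr (w a)) * ‖Cf (d a) (n a)‖ ^ 2 := by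
    intro x hx
    obtain ⟨a₀, ha₀, rfl⟩ := mem_image.1 hx
    have hx1 := one_le_nr (hwp a₀ ha₀).ne_zero
    have hden : 1 ≤ nr f₁ * nr (w a₀) ^ 2 := one_le_mul_of_one_le_of_one_le hf1 (one_le_pow₀ hx1)
    have := h₂ (Q ^ 2) K (N * E / (nr f₁ * nr (w a₀) ^ 2)) (C₃ * P)
      (A.filter fun a => w a = w a₀) m (fun a => β a * Cf (d a) (n a)) hK (hKQ.trans hQ2)
      (by positivity) ((div_le_self (by positivity) hden).trans hNE) (by positivity)
      (fun a ha => ?_) fun x => ?_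
    · calc _ ≤ nr (w a₀) * ∑ k ∈ sp 6 K,
            ‖∑ a ∈ A.filter (fun a => w a = w a₀), β a * Cf (d a) (n a) * quad k (m a)‖ ^ 2 := by
            refine mul_le_mul_of_nonneg_left (sum_le_sum fun k hk => ?_) (by positivity)
            have hk' := SP.po ((mem_sp (by linarith)).1 hk).1
            have e : ∑ a ∈ A.filter (fun a => w a = w a₀), β a * quad k (n a * d a) * Cf (d a) (n a)
                = quad k (f₁ * w a₀ ^ 2) * ∑ a ∈ A.filter (fun a => w a = w a₀),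
                  β a * Cf (d a) (n a) * quad k (m a) := by
              rw [mul_sum]
              refine sum_congr rfl fun a ha => ?_
              obtain ⟨ha, ha'⟩ := mem_filter.1 ha
              rw [hnd a ha, ← ha', mul_right_comm f₁, quad_mul_right hk']
              ring
            rw [e, norm_mul]
            exact pow_le_pow_left₀ (by positivity)
              (mul_le_of_le_one_left (norm_nonneg _) (norm_quad_le _ _)) 2
        _ ≤ nr (w a₀) * (C₂ * P * (C₃ * P) * (K + N * E / (nr f₁ * nr (w a₀) ^ 2)) *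
            ∑ a ∈ A.filter (fun a => w a = w a₀), ‖Cf (d a) (n a)‖ ^ 2) := by
            refine mul_le_mul_of_nonneg_left (this.trans ?_) (by positivity)
            refine mul_le_mul_of_nonneg_left (sum_le_sum fun a _ => ?_) (by positivity)
            rw [norm_mul]
            exact pow_le_pow_left₀ (by positivity) (mul_le_of_le_one_left (norm_nonneg _) (hβ a)) 2
        _ = _ := by
            rw [sum_congr (f := fun a => ψ (nr (w a)) * ‖Cf (d a) (n a)‖ ^ 2) rfl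
              (g := fun a => ψ (nr (w a₀)) * ‖Cf (d a) (n a)‖ ^ 2) fun a ha => by
              rw [(mem_filter.1 ha).2], ← mul_sum]
            simp only [hψ]
            ring
    · obtain ⟨ha, ha'⟩ := mem_filter.1 ha
      refine ⟨hm a ha, hm' a ha, ?_⟩
      rw [le_div_iff₀ (by positivity), ← ha']
      linarith [hnd' a ha]
    · rcases ((A.filter fun a => w a = w a₀).filter fun a => m a = x).eq_empty_or_nonempty with
        h0 | ⟨a₁, ha₁⟩
      · rw [h0, card_empty, Nat.cast_zero]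
        positivity
      simp only [mem_filter] at ha₁
      have hp : Primary (n a₁ * d a₁) := (hA a₁ ha₁.1.1).1.mul (hA a₁ ha₁.1.1).2.2.1
      have he : ∀ a ∈ (A.filter fun a => w a = w a₀).filter fun a => m a = x,
          n a * d a = n a₁ * d a₁ := by
        intro a ha
        simp only [mem_filter] at ha
        have e1 : g a * y (d a) = g a₁ * y (d a₁) := ha.1.2.trans ha₁.1.2.symm
        rw [hnd a ha.1.1, hnd a₁ ha₁.1.1, e1, ha.2, ha₁.2]
      refine le_trans (Nat.cast_le.2 (card_le_card_of_injOn n (fun a ha => ?_)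
        fun a ha b hb hab => ?_)) (h₃ (Q ^ 2) _ hp.ne_zero ?_)
      · have ha' := (mem_filter.1 (mem_filter.1 ha).1).1
        exact (mem_pdiv hp.ne_zero).2 ⟨(hA a ha').1, he a ha ▸ dvd_mul_right _ _⟩
      · have ha' := (mem_filter.1 (mem_filter.1 ha).1).1
        have hb' := (mem_filter.1 (mem_filter.1 hb).1).1
        refine hinj ha' hb' (Prod.ext hab (mul_left_cancel₀ (hA a ha').1.ne_zero ?_))
        rw [he a ha, ← he b hb, hab]
      · rw [nr_mul]
        exact (mul_le_mul (hA a₁ ha₁.1.1).2.2.2.1 (hA a₁ ha₁.1.1).2.2.2.2.1 (Nat.cast_nonneg _)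
          hN).trans hNE
  -- the cubic sieve for fixed `d` and `g`
  have s2 : ∀ x ∈ A.image d, ∑ a ∈ A.filter (fun a => d a = x), ψ (nr (w a)) * ‖Cf (d a) (n a)‖ ^ 2
      ≤ C₄ * P * (C₃ * P) * (T / nr f₁) * nr (y x) := by
    intro x hx
    obtain ⟨a₀, ha₀, rfl⟩ := mem_image.1 hx
    have hx := (hA a₀ ha₀).2.2.1
    have hxE := (hA a₀ ha₀).2.2.2.2.1
    have hy1 := one_le_nr (hy _ hx).ne_zero
    have hmap : ∀ a ∈ A.filter (fun a => d a = d a₀), g a ∈ pdiv (d a₀) := fun a ha =>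
      (mem_pdiv hx.ne_zero).2 ⟨hg a (mem_filter.1 ha).1,
        (mem_filter.1 ha).2 ▸ hgd a (mem_filter.1 ha).1⟩
    rw [← sum_fiberwise_of_maps_to hmap]
    calc _ ≤ ∑ _γ ∈ pdiv (d a₀), C₄ * P * (T / nr f₁) * nr (y (d a₀)) := by
          refine sum_le_sum fun γ hγ => ?_
          obtain ⟨hγ1, hγ2⟩ := (mem_pdiv hx.ne_zero).1 hγ
          have hγ3 := one_le_nr hγ1.ne_zero
          have h6 := h₄ (Q ^ 2) N Z (γ * f₁) (fun z => c z * sym z (d a₀) ^ 12)
            (((A.filter fun a => d a = d a₀).filter fun a => g a = γ).image n) hZ (hZQ.trans hQ2)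
            hN (hNQ.trans hQ2) (hγ1.mul hf₁).ne_zero (fun z => ?_) fun t ht => ?_
          · rw [sum_image fun a ha b hb hab => by
              simp only [coe_filter, mem_filter, Set.mem_ofPred_eq] at ha hb
              exact hinj ha.1.1 hb.1.1 (Prod.ext hab (ha.1.2.trans hb.1.2.symm)), nr_mul] at h6
            rw [sum_congr rfl (g := fun a => ψ (nr γ * nr (y (d a₀))) * ‖Cf (d a₀) (n a)‖ ^ 2)
              fun a ha => by
                simp only [mem_filter] at ha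
                simp only [hw, nr_mul, ha.1.2, ha.2], ← mul_sum]
            refine (mul_le_mul_of_nonneg_left h6 (by positivity)).trans ?_
            have h7 := block_real (K := K) (Z := Z) (by linarith) (by linarith) hN hf1 hγ3 hy1
              ((nr_le_of_dvd hγ2 hx.ne_zero).trans hxE)
            calc _ = C₄ * P * (ψ (nr γ * nr (y (d a₀))) * min (N / (nr γ * nr f₁) * Z ^ 2)
                  ((N / (nr γ * nr f₁) + Z ^ 2) * Z)) := by ring
              _ ≤ C₄ * P * (nr (y (d a₀)) / nr f₁ * T) :=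
                  mul_le_mul_of_nonneg_left h7 (by positivity)
              _ = _ := by ring
          · rw [norm_mul, norm_pow]
            exact mul_le_one₀ (hc z) (by positivity) (pow_le_one₀ (norm_nonneg _) (norm_sym_le _ _))
          · obtain ⟨a, ha, rfl⟩ := mem_image.1 ht
            simp only [mem_filter] at ha
            exact ⟨(hA a ha.1.1).1.ne_zero, ha.2 ▸ hgn a ha.1.1, (hA a ha.1.1).2.2.2.1⟩
      _ ≤ _ := by
          rw [sum_const, nsmul_eq_mul]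
          refine (mul_le_mul_of_nonneg_right (h₃ (Q ^ 2) _ hx.ne_zero (hxE.trans (hEQ.trans hQ2)))
            (by positivity)).trans_eq ?_
          ring
  have s3 : ∑ x ∈ A.image d, nr (y x) ≤ C₅ * P * (E / nr f₂) := by
    refine h₅ (Q ^ 2) E f₂ _ y (hQ.trans hQ2) hE (hEQ.trans hQ2) hf₂ hf₂' fun x hx => ?_
    obtain ⟨a, ha, rfl⟩ := mem_image.1 hx
    obtain ⟨-, -, a3, -, a5, -, -, a8⟩ := hA a ha
    exact ⟨a3.ne_zero, a5, a8, hy _ a3, Dvd.intro_left _ (hdy _ a3).symm⟩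
  have s4 : ∑ x ∈ A.image w, (nr x)⁻¹ ≤ C₁ * P := by
    refine h₁ (Q ^ 2) _ (hQ.trans hQ2) fun x hx => ?_
    obtain ⟨a, ha, rfl⟩ := mem_image.1 hx
    refine ⟨(hwp a ha).ne_zero, le_trans ?_ ((hnd' a ha).trans hNE)⟩
    have := one_le_nr (hwp a ha).ne_zero
    exact (le_self_pow₀ this two_ne_zero).trans (le_mul_of_one_le_left (by positivity)
      (one_le_mul_of_one_le_of_one_le hf1 (one_le_nr (hm a ha).ne_zero)))
  have s5 : ∑ a ∈ A, ψ (nr (w a)) * ‖Cf (d a) (n a)‖ ^ 2 ≤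
      C₄ * P * (C₃ * P) * (T / nr f₁) * (C₅ * P * (E / nr f₂)) := by
    rw [← sum_fiberwise_of_maps_to (t := A.image d) (g := d) fun a ha => mem_image_of_mem d ha]
    refine (sum_le_sum s2).trans ?_
    rw [← mul_sum]
    exact mul_le_mul_of_nonneg_left s3 (by positivity)
  calc _ = ∑ k ∈ sp 6 K, ‖∑ x ∈ A.image w, ∑ a ∈ A.filter (fun a => w a = x),
        β a * quad k (n a * d a) * Cf (d a) (n a)‖ ^ 2 := by
        refine sum_congr rfl fun k _ => ?_
        rw [sum_fiberwise_of_maps_to fun a ha => mem_image_of_mem w ha]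
    _ ≤ ∑ k ∈ sp 6 K, (∑ x ∈ A.image w, (nr x)⁻¹) * ∑ x ∈ A.image w, nr x *
        ‖∑ a ∈ A.filter (fun a => w a = x), β a * quad k (n a * d a) * Cf (d a) (n a)‖ ^ 2 := by
        refine sum_le_sum fun k _ => sq_sum_le_weight _ _ fun x hx => ?_
        obtain ⟨a, ha, rfl⟩ := mem_image.1 hx
        exact nr_pos (hwp a ha).ne_zero
    _ = (∑ x ∈ A.image w, (nr x)⁻¹) * ∑ x ∈ A.image w, nr x * ∑ k ∈ sp 6 K,
        ‖∑ a ∈ A.filter (fun a => w a = x), β a * quad k (n a * d a) * Cf (d a) (n a)‖ ^ 2 := by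
        rw [← mul_sum, sum_comm]
        simp only [mul_sum]
    _ ≤ C₁ * P * (C₂ * P * (C₃ * P) * (C₄ * P * (C₃ * P) * (T / nr f₁) * (C₅ * P * (E / nr f₂)))) := by
        refine mul_le_mul s4 ((sum_le_sum s1).trans ?_) (by positivity) (by positivity)
        rw [← mul_sum, sum_fiberwise_of_maps_to fun a ha => mem_image_of_mem w ha]
        exact mul_le_mul_of_nonneg_left s5 (by positivity)
    _ = _ := by
        rw [← hP6]
        field_simp

end Crest.Agent.R17.En
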