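import Crest.Agent.R17.EnC

/-!
# Row 17, module M8 (reflected energy), part D: the bilinear estimate
-/

set_option autoImplicit false

noncomputable section

namespace Crest.Agent.R17.En

open scoped ComplexConjugate
open MeasureTheory Finset

theorem EnD_sqrt_prod (s : Finset O) :
    ∏ p ∈ s, Real.sqrt (nr p) = Real.sqrt (nr (∏ p ∈ s, p)) := by
  rw [nr, nm_prod, Nat.cast_prod, Real.sqrt_prod _ fun p _ => Nat.cast_nonneg _]

open Classical in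
theorem EnD_prod_le (P : Finset O) (hP : ∀ p ∈ P, p ≠ 0) (ν : O) :
    ∏ p ∈ P, ((Real.sqrt (nr p))⁻¹ + if p ∣ ν then Real.sqrt (nr p) else 0) ≤
      2 ^ P.card * ∏ p ∈ P.filter (· ∣ ν), Real.sqrt (nr p) := by
  rw [Finset.prod_filter, ← Finset.prod_const, ← Finset.prod_mul_distrib]
  refine Finset.prod_le_prod (fun p _ => ?_) fun p hp => ?_
  · split_ifs <;> positivity
  · have h1 : 1 ≤ Real.sqrt (nr p) := Real.one_le_sqrt.2 (one_le_nr (hP p hp))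
    have h2 : (Real.sqrt (nr p))⁻¹ ≤ 1 := inv_le_one_of_one_le₀ h1
    split_ifs <;> linarith

/-- parametrisation of the support of the dual coefficients -/
theorem EnD_param {C₀ : ℝ} {h r : O} {b : O → ℂ} (hr : r ≠ 0) (hC : 0 < C₀)
    (hb : DualB C₀ h r b) (ν : O) (hν : b ν ≠ 0) :
    ∃ (u : O) (j : ℕ) (n d f₁ f₂ : O), IsUnit u ∧ Primary n ∧ Squarefree n ∧ Primary d ∧
      ν = u * lam ^ j * (n * d ^ 3) ∧ f₁ ∈ pdiv r ∧ f₂ ∈ pdiv r ∧ Squarefree f₂ ∧ f₁ ∣ n ∧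
      IsCoprime f₁ d ∧ f₂ ∣ d ∧ ‖b ν‖ ≤ C₀ * (3 : ℝ) ^ ((j : ℝ) / 6) * Real.sqrt (nr d) *
        (2 ^ (pf r).card * Real.sqrt (nr f₁ * nr f₂)) := by
  classical
  obtain ⟨u, j, n, d, hu, hn, hn', hd, rfl, hle⟩ := hb ν hν
  set ν := u * lam ^ j * (n * d ^ 3) with hνdef
  set P := (pf r).filter (fun p => vp p h % 6 = 4) with hPdef
  set s := P.filter (· ∣ ν) with hsdef
  have hlam : lam ^ j ≠ 0 := pow_ne_zero _ prime_lam.ne_zero
  have hnd : n * d ^ 3 ≠ 0 := mul_ne_zero hn.ne_zero (pow_ne_zero _ hd.ne_zero)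
  have hν0 : ν ≠ 0 := mul_ne_zero (mul_ne_zero hu.ne_zero hlam) hnd
  have hpf : pf ν = pf n ∪ pf d := by
    rw [hνdef, mul_assoc, pf_unit_mul hu, pf_mul hlam hnd, BasicB.pf_lam_pow,
      pf_mul hn.ne_zero (pow_ne_zero _ hd.ne_zero), pf_pow (by norm_num), Finset.empty_union]
  have hs : s ⊆ pf r := (Finset.filter_subset _ _).trans (Finset.filter_subset _ _)
  have hs₁ : s.filter (fun p => ¬ p ∣ d) ⊆ pf r := (Finset.filter_subset _ _).trans hs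
  have hs₂ : s.filter (fun p => p ∣ d) ⊆ pf r := (Finset.filter_subset _ _).trans hs
  obtain ⟨-, a2, a3⟩ := squarefree_prod_primes fun q hq => BasicB.pf_sub (hs₁ hq)
  obtain ⟨b1, b2, -⟩ := squarefree_prod_primes fun q hq => BasicB.pf_sub (hs₂ hq)
  refine ⟨u, j, n, d, ∏ p ∈ s.filter (fun p => ¬ p ∣ d), p, ∏ p ∈ s.filter (fun p => p ∣ d), p,
    hu, hn, hn', hd, rfl, (mem_pdiv hr).2 ⟨a2, BasicB.prod_dvd_of_subset hr hs₁⟩,
    (mem_pdiv hr).2 ⟨b2, BasicB.prod_dvd_of_subset hr hs₂⟩, b1,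
    BasicB.prod_dvd_of_subset hn.ne_zero fun p hp => ?_,
    isCoprime_of_disjoint_pf a2 hd.ne_zero ?_,
    BasicB.prod_dvd_of_subset hd.ne_zero fun p hp => ?_, hle.trans ?_⟩
  · obtain ⟨h1, h2⟩ := Finset.mem_filter.1 hp
    obtain ⟨h3, h4⟩ := BasicB.pf_sub (hs h1)
    have h5 : p ∈ pf ν := (mem_pf hν0).2 ⟨h3, h4, (Finset.mem_filter.1 h1).2⟩
    rw [hpf, Finset.mem_union] at h5
    exact h5.resolve_right fun h6 => h2 (BasicB.of_mem_pf h6).2.2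
  · rw [a3, Finset.disjoint_left]
    intro p hp h6
    exact (Finset.mem_filter.1 hp).2 (BasicB.of_mem_pf h6).2.2
  · obtain ⟨h1, h2⟩ := Finset.mem_filter.1 hp
    obtain ⟨h3, h4⟩ := BasicB.pf_sub (hs h1)
    exact (mem_pf hd.ne_zero).2 ⟨h3, h4, h2⟩
  · refine mul_le_mul_of_nonneg_left ?_ (by positivity)
    refine (EnD_prod_le P (fun p hp =>
      (BasicB.pf_sub (Finset.filter_subset _ _ hp)).1.ne_zero) ν).trans ?_
    rw [EnD_sqrt_prod, ← nr_mul, mul_comm (∏ p ∈ s.filter (fun p => ¬ p ∣ d), p),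
      Finset.prod_filter_mul_prod_filter_not]
    exact mul_le_mul_of_nonneg_right (pow_le_pow_right₀ one_le_two
      (Finset.card_le_card (Finset.filter_subset _ _))) (Real.sqrt_nonneg _)

theorem EnD_quad {k : O} (hk : PO k) (w n d : O) :
    quad k (w * (n * d ^ 3)) = quad k w * quad k (n * d) := by
  have h1 : quad k (d ^ 3) = quad k d := by
    rw [← sym_pow_three hk.1, sym_pow_right hk, ← pow_mul, ← sym_pow_three hk.1]
    exact sym_pow_add_six hk.1 d (j := 3) (by norm_num)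
  rw [quad_mul_right hk, quad_mul_right hk, quad_mul_right hk, h1]

theorem EnD_sym {z : O} (hz : PO z) (w n d : O) :
    sym z (w * (n * d ^ 3)) ^ 4 = sym z w ^ 4 * sym z d ^ 12 * sym z n ^ 4 := by
  rw [sym_mul_right hz, sym_mul_right hz, sym_pow_right hz]
  ring

/-- the estimate for one class -/
theorem EnD_class {ε : ℝ} (hε : 0 < ε) : ∃ C : ℝ, 0 < C ∧
    ∀ (Q K Z L C₁ ρ : ℝ) (u f₁ f₂ : O) (j e : ℕ) (A : Finset O) (n d : O → O) (b c : O → ℂ),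
      1 ≤ K → K ≤ Q → 1 ≤ Z → Z ≤ Q → 0 ≤ L → L ≤ Q → 0 < C₁ → IsUnit u → Primary f₁ →
      Primary f₂ → nr f₁ ≤ ρ → (∀ z, ‖c z‖ ≤ 1) →
      (∀ a ∈ A, nr a ≤ L ∧ Primary (n a) ∧ Squarefree (n a) ∧ Primary (d a) ∧
        a = u * lam ^ j * (n a * d a ^ 3) ∧ Nat.log 2 (nm (d a)) = e ∧ Squarefree f₂ ∧ f₁ ∣ n a ∧
        IsCoprime f₁ (d a) ∧ f₂ ∣ d a ∧ ‖b a‖ ≤ C₁ * (3 : ℝ) ^ ((j : ℝ) / 6) *
          Real.sqrt (nr (d a)) * Real.sqrt (nr f₁ * nr f₂)) →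
      ∑ k ∈ sp 6 K, ‖∑ a ∈ A, b a * quad k a * ∑ z ∈ sp 6 Z, c z * sym z a ^ 4‖ ^ 2 ≤
        C * C₁ ^ 2 * Q ^ ε * Cb K Z L ρ := by
  classical
  obtain ⟨C, hC, hblock⟩ := block hε
  refine ⟨8 * C * 2 ^ ε, by positivity, ?_⟩
  intro Q K Z L C₁ ρ u f₁ f₂ j e A n d b c hK hKQ hZ hZQ hL hLQ hC₁ hu hf₁ hf₂ hρ hc hA
  have hN₁ : 0 < nr f₁ := nr_pos hf₁.ne_zero
  have hN₂ : 0 < nr f₂ := nr_pos hf₂.ne_zero
  have hCb : 0 ≤ Cb K Z L ρ := Cb_nonneg (by linarith) (by linarith) hL (by linarith)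
  have hQ : 0 < Q := by linarith
  rcases A.eq_empty_or_nonempty with rfl | ⟨a₀, ha₀⟩
  · simp only [Finset.sum_empty, norm_zero, ne_eq, OfNat.ofNat_ne_zero, not_false_eq_true,
      zero_pow, Finset.sum_const_zero]
    positivity
  set E : ℝ := 2 ^ e with hE
  set t : ℝ := (3 : ℝ) ^ ((j : ℝ) / 6) with ht
  have hE1 : 1 ≤ E := one_le_pow₀ one_le_two
  have ht1 : 1 ≤ t := Real.one_le_rpow (by norm_num) (by positivity)
  have ht6 : (t ^ 2) ^ 3 = 3 ^ j := by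
    rw [← pow_mul, ht, ← Real.rpow_natCast, ← Real.rpow_mul (by norm_num), ← Real.rpow_natCast]
    congr 1
    push_cast
    ring
  have h3j : (1 : ℝ) ≤ 3 ^ j := one_le_pow₀ (by norm_num)
  have hnr : ∀ a ∈ A, nr a = 3 ^ j * (nr (n a) * nr (d a) ^ 3) := fun a ha => by
    obtain ⟨-, -, -, -, h5, -⟩ := hA a ha
    conv_lhs => rw [h5]
    rw [nr_mul, nr_mul, nr_mul, nr_pow, nr_pow, nr, isUnit_iff_nm.1 hu, nr, nm_lam]
    push_cast
    ring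
  have hdE : ∀ a ∈ A, E ≤ nr (d a) ∧ nr (d a) ≤ 2 * E := fun a ha => by
    obtain ⟨-, -, -, h4, -, h6, -⟩ := hA a ha
    have h0 : nm (d a) ≠ 0 := fun h => h4.ne_zero (nm_eq_zero.1 h)
    have h1 := Nat.pow_log_le_self 2 h0
    have h2 := Nat.lt_pow_succ_log_self (b := 2) (by norm_num) (nm (d a))
    rw [h6] at h1 h2
    constructor
    · rw [hE, nr]
      exact_mod_cast h1
    · rw [hE, nr, ← pow_succ']
      exact_mod_cast h2.le
  have hden : 0 < 3 ^ j * E ^ 3 := by positivity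
  set N : ℝ := L / (3 ^ j * E ^ 3) with hN
  have hN0 : 0 ≤ N := by positivity
  have hNL : N ≤ L := div_le_self hL (one_le_mul_of_one_le_of_one_le h3j (one_le_pow₀ hE1))
  have hnN : ∀ a ∈ A, nr (n a) ≤ N := fun a ha => by
    rw [hN, le_div_iff₀ hden]
    refine le_trans ?_ (hA a ha).1
    rw [hnr a ha]
    have h1 : E ^ 3 ≤ nr (d a) ^ 3 := pow_le_pow_left₀ (by linarith) (hdE a ha).1 3
    have h2 : 0 ≤ nr (n a) := Nat.cast_nonneg _
    calc nr (n a) * (3 ^ j * E ^ 3) = 3 ^ j * (nr (n a) * E ^ 3) := by ring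
      _ ≤ _ := by gcongr
  have hEQ : E ≤ Q := by
    have h1 := hnr a₀ ha₀
    obtain ⟨h2, h3, -, h4, -⟩ := hA a₀ ha₀
    have h5 := one_le_nr h3.ne_zero
    have h6 := one_le_nr h4.ne_zero
    have h7 : nr (d a₀) ≤ nr (d a₀) ^ 3 := le_self_pow₀ h6 (by norm_num)
    have h8 : nr (d a₀) ^ 3 ≤ nr (n a₀) * nr (d a₀) ^ 3 := le_mul_of_one_le_left (by positivity) h5
    have h9 : nr (n a₀) * nr (d a₀) ^ 3 ≤ 3 ^ j * (nr (n a₀) * nr (d a₀) ^ 3) :=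
      le_mul_of_one_le_left (by positivity) h3j
    linarith [(hdE a₀ ha₀).1]
  set B : ℝ := C₁ * t * Real.sqrt (2 * E) * Real.sqrt (nr f₁ * nr f₂) with hB
  have hB0 : 0 < B := by positivity
  have hB2 : B ^ 2 = C₁ ^ 2 * t ^ 2 * (2 * E) * (nr f₁ * nr f₂) := by
    rw [hB, mul_pow, mul_pow, mul_pow, Real.sq_sqrt (by positivity), Real.sq_sqrt (by positivity)]
  let β : O → ℂ := fun a => if a ∈ A then b a / B else 0
  have hβ : ∀ a, ‖β a‖ ≤ 1 := fun a => by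
    by_cases ha : a ∈ A
    · simp only [β, if_pos ha, norm_div, Complex.norm_real, Real.norm_of_nonneg hB0.le]
      rw [div_le_one hB0]
      refine (hA a ha).2.2.2.2.2.2.2.2.2.2.trans ?_
      rw [hB]
      gcongr
      exact (hdE a ha).2
    · simp [β, ha]
  have hc' : ∀ z, ‖c z * sym z (u * lam ^ j) ^ 4‖ ≤ 1 := fun z => by
    rw [norm_mul, norm_pow]
    exact mul_le_one₀ (hc z) (by positivity) (pow_le_one₀ (norm_nonneg _) (norm_sym_le _ _))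
  have hinj : Set.InjOn (fun a => (n a, d a)) A := fun a ha a' ha' h => by
    obtain ⟨h1, h2⟩ := Prod.ext_iff.1 h
    rw [(hA a ha).2.2.2.2.1, (hA a' ha').2.2.2.2.1]
    exact congrArg₂ (fun x y => u * lam ^ j * (x * y ^ 3)) h1 h2
  have h1 := hblock (2 * Q) K Z N (2 * E) f₁ f₂ A n d β (fun z => c z * sym z (u * lam ^ j) ^ 4)
    hK (by linarith) hZ (by linarith) hN0 (by linarith) (by linarith) (by linarith) hf₁ hf₂
    (hA a₀ ha₀).2.2.2.2.2.2.1 (fun a ha => by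
      obtain ⟨-, h2, h3, h4, -, -, -, h8, h9, h10, -⟩ := hA a ha
      exact ⟨h2, h3, h4, hnN a ha, (hdE a ha).2, h8, h9, h10⟩) hinj hβ hc'
  have h2 := block_le_Cb (K := K) (Z := Z) (L := L) (ρ := ρ) (a := t ^ 2) (E := E) (N := N)
    (f := nr f₁) (by linarith) (by linarith) (one_le_pow₀ ht1) hE1 hN0
    (by rw [ht6, hN]; field_simp) hN₁.le hρ
  have h3 : ∀ k ∈ sp 6 K, ‖∑ a ∈ A, b a * quad k a * ∑ z ∈ sp 6 Z, c z * sym z a ^ 4‖ ^ 2 ≤
      B ^ 2 * ‖∑ a ∈ A, β a * quad k (n a * d a) * ∑ z ∈ sp 6 Z,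
        c z * sym z (u * lam ^ j) ^ 4 * sym z (d a) ^ 12 * sym z (n a) ^ 4‖ ^ 2 := fun k hk => by
    have hk' : PO k := SP.po ((mem_sp (by linarith)).1 hk).1
    have h4 : ∑ a ∈ A, b a * quad k a * ∑ z ∈ sp 6 Z, c z * sym z a ^ 4 =
        quad k (u * lam ^ j) * B * ∑ a ∈ A, β a * quad k (n a * d a) * ∑ z ∈ sp 6 Z,
          c z * sym z (u * lam ^ j) ^ 4 * sym z (d a) ^ 12 * sym z (n a) ^ 4 := by
      rw [Finset.mul_sum]
      refine Finset.sum_congr rfl fun a ha => ?_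
      have h5 := (hA a ha).2.2.2.2.1
      have h6 : quad k a = quad k (u * lam ^ j) * quad k (n a * d a) := by
        conv_lhs => rw [h5]
        exact EnD_quad hk' _ _ _
      have h7 : ∑ z ∈ sp 6 Z, c z * sym z a ^ 4 = ∑ z ∈ sp 6 Z,
          c z * sym z (u * lam ^ j) ^ 4 * sym z (d a) ^ 12 * sym z (n a) ^ 4 := by
        refine Finset.sum_congr rfl fun z hz => ?_
        have hz' : PO z := SP.po ((mem_sp (by linarith)).1 hz).1
        conv_lhs => rw [h5]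
        rw [EnD_sym hz']
        ring
      have h8 : (B : ℂ) ≠ 0 := by exact_mod_cast hB0.ne'
      rw [h6, h7]
      simp only [β, if_pos ha]
      field_simp
    rw [h4, norm_mul, norm_mul, mul_pow, mul_pow, Complex.norm_real, Real.norm_of_nonneg hB0.le]
    have h5 : ‖quad k (u * lam ^ j)‖ ^ 2 ≤ 1 := pow_le_one₀ (norm_nonneg _) (norm_quad_le _ _)
    exact mul_le_mul_of_nonneg_right (mul_le_of_le_one_left (by positivity) h5) (by positivity)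
  refine (Finset.sum_le_sum h3).trans ?_
  rw [← Finset.mul_sum]
  refine (mul_le_mul_of_nonneg_left h1 (by positivity)).trans ?_
  rw [hB2, Real.mul_rpow (by norm_num) hQ.le]
  set X := K * min (N * Z ^ 2) ((N + 2 * E * nr f₁ * Z ^ 2) * Z) +
    N * (2 * E) * min (N * Z ^ 2) ((N + Z ^ 2) * Z) with hX
  calc C₁ ^ 2 * t ^ 2 * (2 * E) * (nr f₁ * nr f₂) *
        (C * (2 ^ ε * Q ^ ε) * (2 * E / (nr f₁ * nr f₂)) * X)
      = C * 2 ^ ε * C₁ ^ 2 * Q ^ ε * (t ^ 2 * (2 * E) ^ 2 * X) := by field_simp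
    _ ≤ C * 2 ^ ε * C₁ ^ 2 * Q ^ ε * (8 * Cb K Z L ρ) :=
        mul_le_mul_of_nonneg_left h2 (by positivity)
    _ = _ := by ring

/-- the bilinear estimate -/
theorem core {ε : ℝ} (hε : 0 < ε) : ∃ C : ℝ, 0 < C ∧
    ∀ (Q K Z L C₀ : ℝ) (h r : O) (b c : O → ℂ), 1 ≤ K → K ≤ Q → 1 ≤ Z → Z ≤ Q → 0 ≤ L → L ≤ Q →
      r ≠ 0 → nr r ≤ Q → 0 < C₀ → DualB C₀ h r b → (∀ z, ‖c z‖ ≤ 1) →
      ∑ k ∈ sp 6 K, ‖∑ z ∈ sp 6 Z, c z * ∑ ν ∈ ball ⌊L⌋₊, b ν * quad k ν * sym z ν ^ 4‖ ^ 2 ≤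
        C * C₀ ^ 2 * Q ^ ε * Cb K Z L (nr r) := by
  classical
  have hε' : 0 < ε / 10 := by positivity
  obtain ⟨C₁, hC₁, h₁⟩ := EnD_class hε'
  obtain ⟨C₂, hC₂, h₂⟩ := log_le hε'
  obtain ⟨C₃, hC₃, h₃⟩ := card_pdiv_le' hε'
  obtain ⟨C₄, hC₄, h₄⟩ := pow_card_pf_le hε' 4
  refine ⟨(6 * C₂ ^ 2 * C₃ ^ 2) ^ 2 * (C₁ * C₄), by positivity, ?_⟩
  intro Q K Z L C₀ h r b c hK hKQ hZ hZQ hL hLQ hr hrQ hC₀ hb hc
  have hQ : 1 ≤ Q := hK.trans hKQ
  choose! u j n d f₁ f₂ hp using EnD_param hr hC₀ hb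
  set A := (ball ⌊L⌋₊).filter (fun ν => b ν ≠ 0) with hAdef
  set J := Nat.log 2 ⌊Q⌋₊ with hJ
  set I : Finset (O × ℕ × ℕ × O × O) := ((range 6).image fun k => (-om) ^ k) ×ˢ range (J + 1) ×ˢ
    range (J + 1) ×ˢ pdiv r ×ˢ pdiv r with hI
  let cl : O → O × ℕ × ℕ × O × O := fun ν => (u ν, j ν, Nat.log 2 (nm (d ν)), f₁ ν, f₂ ν)
  have hA : ∀ ν ∈ A, nr ν ≤ L ∧ b ν ≠ 0 := fun ν hν =>
    ⟨(mem_ball_floor hL).1 (Finset.mem_filter.1 hν).1, (Finset.mem_filter.1 hν).2⟩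
  have hcl : ∀ ν ∈ A, cl ν ∈ I := fun ν hν => by
    obtain ⟨h1, h2⟩ := hA ν hν
    obtain ⟨p1, p2, -, p4, p5, p6, p7, -⟩ := hp ν h2
    have h3 : nm ν ≤ ⌊Q⌋₊ := Nat.le_floor (h1.trans hLQ)
    have h4 : nm ν = 3 ^ j ν * (nm (n ν) * nm (d ν) ^ 3) := by
      conv_lhs => rw [p5]
      rw [nm_mul, nm_mul, nm_mul, nm_pow, nm_pow, isUnit_iff_nm.1 p1, nm_lam, one_mul]
    have h5 : 0 < nm (n ν) := Nat.pos_of_ne_zero fun h => p2.ne_zero (nm_eq_zero.1 h)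
    have h6 : 0 < nm (d ν) := Nat.pos_of_ne_zero fun h => p4.ne_zero (nm_eq_zero.1 h)
    have h7 : 2 ^ j ν ≤ ⌊Q⌋₊ := by
      refine le_trans ?_ h3
      rw [h4]
      exact (Nat.pow_le_pow_left (by norm_num) _).trans (Nat.le_mul_of_pos_right _ (by positivity))
    have h8 : nm (d ν) ≤ ⌊Q⌋₊ := by
      refine le_trans ?_ h3
      rw [h4]
      exact (Nat.le_self_pow (by norm_num) _).trans ((Nat.le_mul_of_pos_left _ h5).trans
        (Nat.le_mul_of_pos_left _ (by positivity)))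
    obtain ⟨k, hk, hk'⟩ := isUnit_iff_pow.1 p1
    simp only [hI, cl, Finset.mem_product, Finset.mem_image, Finset.mem_range]
    exact ⟨⟨k, hk, hk'.symm⟩, Nat.lt_succ_of_le (Nat.le_log_of_pow_le (by norm_num) h7),
      Nat.lt_succ_of_le (Nat.log_mono_right h8), p6, p7⟩
  have hsum : ∀ k, ∑ z ∈ sp 6 Z, c z * ∑ ν ∈ ball ⌊L⌋₊, b ν * quad k ν * sym z ν ^ 4 =
      ∑ i ∈ I, ∑ ν ∈ A.filter (fun ν => cl ν = i),
        b ν * quad k ν * ∑ z ∈ sp 6 Z, c z * sym z ν ^ 4 := fun k => by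
    rw [Finset.sum_fiberwise_of_maps_to hcl, hAdef,
      Finset.sum_filter_of_ne (p := fun ν => b ν ≠ 0) fun ν _ h0 h1 =>
        h0 (by rw [h1, zero_mul, zero_mul])]
    simp only [Finset.mul_sum]
    rw [Finset.sum_comm]
    exact Finset.sum_congr rfl fun ν _ => Finset.sum_congr rfl fun z _ => by ring
  simp only [hsum]
  set q : ℝ := Q ^ (ε / 10) with hq
  have hq0 : 0 < q := by positivity
  have hq10 : Q ^ ε = q ^ 10 := by
    rw [hq, ← Real.rpow_natCast, ← Real.rpow_mul (by linarith)]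
    congr 1
    push_cast
    ring
  have hCb : 0 ≤ Cb K Z L (nr r) := Cb_nonneg (by linarith) (by linarith) hL (Nat.cast_nonneg _)
  have hE := l2_sum_le (sp 6 K) I (fun i k => ∑ ν ∈ A.filter (fun ν => cl ν = i),
    b ν * quad k ν * ∑ z ∈ sp 6 Z, c z * sym z ν ^ 4)
    (E := C₁ * (C₀ * 2 ^ (pf r).card) ^ 2 * q * Cb K Z L (nr r)) (by
      rintro ⟨u₀, j₀, e₀, g₁, g₂⟩ hi
      simp only [hI, Finset.mem_product, Finset.mem_image, Finset.mem_range] at hi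
      obtain ⟨⟨k, hk, hk'⟩, -, -, hg₁, hg₂⟩ := hi
      obtain ⟨hg₁, hg₁'⟩ := (mem_pdiv hr).1 hg₁
      refine h₁ Q K Z L (C₀ * 2 ^ (pf r).card) (nr r) u₀ g₁ g₂ j₀ e₀ _ n d b c hK hKQ hZ hZQ hL hLQ
        (by positivity) (isUnit_iff_pow.2 ⟨k, hk, hk'.symm⟩) hg₁ ((mem_pdiv hr).1 hg₂).1
        (by exact_mod_cast nm_le_of_dvd hg₁' hr) hc fun a ha => ?_
      obtain ⟨ha, hi⟩ := Finset.mem_filter.1 ha
      obtain ⟨h1, h2⟩ := hA a ha
      obtain ⟨-, p2, p3, p4, p5, -, -, p8, p9, p10, p11, p12⟩ := hp a h2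
      simp only [cl, Prod.mk.injEq] at hi
      obtain ⟨rfl, rfl, rfl, rfl, rfl⟩ := hi
      exact ⟨h1, p2, p3, p4, p5, rfl, p8, p9, p10, p11, p12.trans (le_of_eq (by ring))⟩)
  refine hE.trans ?_
  have hcard : (I.card : ℝ) ≤ 6 * C₂ ^ 2 * C₃ ^ 2 * q ^ 4 := by
    have h1 : (((range 6).image fun k => (-om) ^ k).card : ℝ) ≤ 6 := by
      exact_mod_cast Finset.card_image_le.trans (by simp)
    have h2 : ((J + 1 : ℕ) : ℝ) ≤ C₂ * q := by
      push_cast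
      refine h₂ Q J (le_trans ?_ (Nat.floor_le (by linarith)))
      exact_mod_cast Nat.pow_log_le_self 2 (Nat.floor_pos.2 hQ).ne'
    have h3 := h₃ Q r hr hrQ
    rw [hI, Finset.card_product, Finset.card_product, Finset.card_product, Finset.card_product,
      Finset.card_range, Nat.cast_mul, Nat.cast_mul, Nat.cast_mul, Nat.cast_mul]
    calc _ ≤ 6 * ((C₂ * q) * ((C₂ * q) * ((C₃ * q) * (C₃ * q)))) := by gcongr
      _ = _ := by ring
  have hw : ((2 : ℝ) ^ (pf r).card) ^ 2 ≤ C₄ * q := by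
    rw [← pow_mul, mul_comm, pow_mul]
    refine le_trans (by norm_num) ((h₄ r hr).trans ?_)
    rw [hq]
    gcongr
  rw [hq10, mul_pow C₀]
  calc (I.card : ℝ) ^ 2 * (C₁ * (C₀ ^ 2 * (2 ^ (pf r).card) ^ 2) * q * Cb K Z L (nr r))
      ≤ (6 * C₂ ^ 2 * C₃ ^ 2 * q ^ 4) ^ 2 * (C₁ * (C₀ ^ 2 * (C₄ * q)) * q * Cb K Z L (nr r)) := by
        gcongr
    _ = _ := by ring

end Crest.Agent.R17.En
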