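import Crest.Agent.R17.EnD

/-!
# Row 17, module M8 (reflected energy), part E: coprimality of rows and marks
-/

set_option autoImplicit false

noncomputable section

namespace Crest.Agent.R17.En

open scoped ComplexConjugate
open MeasureTheory Finset

open Classical in
/-- the part of the bilinear form in which the marks are multiples of `t` -/
def EnE.G (Z L : ℝ) (b c : O → ℂ) (t k : O) : ℂ :=
  ∑ z ∈ (sp 6 Z).filter (t ∣ ·), c z * ∑ ν ∈ ball ⌊L⌋₊, b ν * quad k ν * sym z ν ^ 4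

open Classical in
theorem EnE.mobius {Z : ℝ} (hZ : 0 ≤ Z) (L : ℝ) (b c : O → ℂ) {k : O} (hk : Primary k) :
    ∑ z ∈ sp 6 Z, (if IsCoprime z k then c z else 0) *
        ∑ ν ∈ ball ⌊L⌋₊, b ν * quad k ν * sym z ν ^ 4 =
      ∑ t ∈ pdiv k, mu t * EnE.G Z L b c t k := by
  unfold EnE.G
  simp_rw [Finset.sum_filter, Finset.mul_sum (s := sp 6 Z)]
  rw [Finset.sum_comm]
  refine Finset.sum_congr rfl fun z hz => ?_
  have hz0 : z ≠ 0 := ((mem_sp hZ).1 hz).1.1.ne_zero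
  have h1 := sum_mu_coprime hk hz0
  rw [Finset.sum_filter] at h1
  have h2 : ∀ t ∈ pdiv k, mu t * (if t ∣ z then
      c z * ∑ ν ∈ ball ⌊L⌋₊, b ν * quad k ν * sym z ν ^ 4 else 0) =
      (if t ∣ z then mu t else 0) * (c z * ∑ ν ∈ ball ⌊L⌋₊, b ν * quad k ν * sym z ν ^ 4) := by
    intro t _
    split_ifs <;> simp
  rw [Finset.sum_congr rfl h2, ← Finset.sum_mul, h1]
  by_cases h : IsCoprime z k
  · rw [if_pos h, if_pos h.symm, one_mul]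
  · rw [if_neg h, if_neg (fun h' => h h'.symm), zero_mul, zero_mul]

open Classical in
theorem EnE.G_mul {Z : ℝ} (hZ : 0 ≤ Z) (L : ℝ) (b c : O → ℂ) {t k : O} (ht : Primary t)
    (hk : k ≠ 0) :
    EnE.G Z L b c t (t * k) = ∑ z ∈ sp 6 (Z / nr t), (if t * z ∈ sp 6 Z then c (t * z) else 0) *
      ∑ ν ∈ ball ⌊L⌋₊, (b ν * quad t ν * sym t ν ^ 4) * quad k ν * sym z ν ^ 4 := by
  unfold EnE.G
  rw [sum_sp_dvd ht hZ]
  refine Finset.sum_congr rfl fun z hz => ?_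
  have hz0 : z ≠ 0 :=
    ((mem_sp (div_nonneg hZ (Nat.cast_nonneg _))).1 hz).1.1.ne_zero
  split_ifs with h
  · congr 1
    refine Finset.sum_congr rfl fun ν _ => ?_
    rw [quad_mul_left ht.ne_zero hk, sym_mul_left ht.ne_zero hz0]
    ring
  · rw [zero_mul]

open Classical in
theorem EnE.fixed {ε : ℝ} (hε : 0 < ε) : ∃ C : ℝ, 0 < C ∧
    ∀ (Q K Z L C₀ : ℝ) (h r : O) (b c : O → ℂ), 1 ≤ K → K ≤ Q → 1 ≤ Z → Z ≤ Q → 0 ≤ L → L ≤ Q →
      r ≠ 0 → nr r ≤ Q → 0 < C₀ → DualB C₀ h r b → (∀ z, ‖c z‖ ≤ 1) → ∀ t ∈ sp 6 K,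
      ∑ k ∈ (sp 6 K).filter (t ∣ ·), ‖EnE.G Z L b c t k‖ ^ 2 ≤
        (nr t)⁻¹ * (C * C₀ ^ 2 * Q ^ ε * Cb K Z L (nr r)) := by
  obtain ⟨C, hC, hcore⟩ := core hε
  refine ⟨C, hC, fun Q K Z L C₀ h r b c hK hKQ hZ hZQ hL hLQ hr hrQ hC₀ hb hc t ht => ?_⟩
  have hK0 : 0 ≤ K := by linarith
  have hZ0 : 0 ≤ Z := by linarith
  have hQ0 : 0 ≤ Q := by linarith
  obtain ⟨htS, htK⟩ := (mem_sp hK0).1 ht
  have htP : Primary t := htS.1
  have ht1 : 1 ≤ nr t := one_le_nr htP.ne_zero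
  have ht0 : 0 < nr t := by linarith
  have hCb : 0 ≤ Cb K Z L (nr r) := Cb_nonneg hK0 hZ0 hL (Nat.cast_nonneg _)
  by_cases htZ : nr t ≤ Z
  · rw [sum_sp_dvd htP hK0 (fun k => ‖EnE.G Z L b c t k‖ ^ 2)]
    have hK' : 1 ≤ K / nr t := (one_le_div ht0).2 htK
    have hZ' : 1 ≤ Z / nr t := (one_le_div ht0).2 htZ
    have hb' : DualB C₀ h r fun ν => b ν * quad t ν * sym t ν ^ 4 := by
      refine dualB_of_le hb fun ν => ?_
      rw [norm_mul, norm_mul, norm_pow, mul_assoc]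
      refine mul_le_of_le_one_right (norm_nonneg _) ?_
      exact mul_le_one₀ (norm_quad_le _ _) (by positivity)
        (pow_le_one₀ (norm_nonneg _) (norm_sym_le _ _))
    have hc' : ∀ z, ‖(if t * z ∈ sp 6 Z then c (t * z) else 0)‖ ≤ 1 := by
      intro z
      split_ifs
      · exact hc _
      · simp
    have h1 := hcore Q (K / nr t) (Z / nr t) L C₀ h r _ _ hK'
      ((div_le_self hK0 ht1).trans hKQ) hZ' ((div_le_self hZ0 ht1).trans hZQ) hL hLQ hr hrQ hC₀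
      hb' hc'
    have h2 := Cb_div (ρ := nr r) hK0 hZ0 hL (Nat.cast_nonneg _) ht1
    calc _ ≤ ∑ k ∈ sp 6 (K / nr t), ‖∑ z ∈ sp 6 (Z / nr t),
            (if t * z ∈ sp 6 Z then c (t * z) else 0) * ∑ ν ∈ ball ⌊L⌋₊,
              (b ν * quad t ν * sym t ν ^ 4) * quad k ν * sym z ν ^ 4‖ ^ 2 := by
          refine Finset.sum_le_sum fun k hk => ?_
          have hk0 : k ≠ 0 := ((mem_sp (by linarith)).1 hk).1.1.ne_zero
          split_ifs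
          · rw [EnE.G_mul hZ0 L b c htP hk0]
          · positivity
      _ ≤ C * C₀ ^ 2 * Q ^ ε * Cb (K / nr t) (Z / nr t) L (nr r) := h1
      _ ≤ C * C₀ ^ 2 * Q ^ ε * ((nr t)⁻¹ * Cb K Z L (nr r)) :=
          mul_le_mul_of_nonneg_left h2 (by positivity)
      _ = _ := by ring
  · have hG : ∀ k, EnE.G Z L b c t k = 0 := by
      intro k
      refine Finset.sum_eq_zero fun z hz => ?_
      obtain ⟨hz1, hz2⟩ := Finset.mem_filter.1 hz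
      obtain ⟨hzS, hzZ⟩ := (mem_sp hZ0).1 hz1
      have : nr t ≤ nr z := Nat.cast_le.2 (nm_le_of_dvd hz2 hzS.1.ne_zero)
      exact absurd (this.trans hzZ) htZ
    simp only [hG, norm_zero, ne_eq, OfNat.ofNat_ne_zero, not_false_eq_true, zero_pow,
      Finset.sum_const_zero]
    positivity

open Classical in
/-- the bilinear estimate with the condition that row and mark are coprime -/
theorem core_cop {ε : ℝ} (hε : 0 < ε) : ∃ C : ℝ, 0 < C ∧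
    ∀ (Q K Z L C₀ : ℝ) (h r : O) (b c : O → ℂ), 1 ≤ K → K ≤ Q → 1 ≤ Z → Z ≤ Q → 0 ≤ L → L ≤ Q →
      r ≠ 0 → nr r ≤ Q → 0 < C₀ → DualB C₀ h r b → (∀ z, ‖c z‖ ≤ 1) →
      ∑ k ∈ sp 6 K, ‖∑ z ∈ sp 6 Z, (if IsCoprime z k then c z else 0) *
          ∑ ν ∈ ball ⌊L⌋₊, b ν * quad k ν * sym z ν ^ 4‖ ^ 2 ≤
        C * C₀ ^ 2 * Q ^ ε * Cb K Z L (nr r) := by
  have hε3 : 0 < ε / 3 := by positivity
  obtain ⟨C₁, hC₁, h₁⟩ := EnE.fixed hε3
  obtain ⟨C₂, hC₂, h₂⟩ := card_pdiv_le' hε3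
  obtain ⟨C₃, hC₃, h₃⟩ := sum_inv_le hε3
  refine ⟨C₂ * C₃ * C₁, by positivity,
    fun Q K Z L C₀ h r b c hK hKQ hZ hZQ hL hLQ hr hrQ hC₀ hb hc => ?_⟩
  have hK0 : 0 ≤ K := by linarith
  have hZ0 : 0 ≤ Z := by linarith
  have hQ1 : 1 ≤ Q := by linarith
  have hQ0 : 0 < Q := by linarith
  have hCb : 0 ≤ Cb K Z L (nr r) := Cb_nonneg hK0 hZ0 hL (Nat.cast_nonneg _)
  have hswap : ∑ k ∈ sp 6 K, ∑ t ∈ pdiv k, ‖EnE.G Z L b c t k‖ ^ 2 =
      ∑ t ∈ sp 6 K, ∑ k ∈ (sp 6 K).filter (t ∣ ·), ‖EnE.G Z L b c t k‖ ^ 2 := by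
    refine Finset.sum_comm' fun k t => ?_
    rw [Finset.mem_filter]
    constructor
    · rintro ⟨hk, ht⟩
      obtain ⟨hkS, hkK⟩ := (mem_sp hK0).1 hk
      obtain ⟨htP, htk⟩ := (mem_pdiv hkS.1.ne_zero).1 ht
      refine ⟨⟨hk, htk⟩, (mem_sp hK0).2 ⟨SP.of_dvd hkS htP htk, le_trans ?_ hkK⟩⟩
      exact Nat.cast_le.2 (nm_le_of_dvd htk hkS.1.ne_zero)
    · rintro ⟨⟨hk, htk⟩, ht⟩
      exact ⟨hk, (mem_pdiv ((mem_sp hK0).1 hk).1.1.ne_zero).2 ⟨((mem_sp hK0).1 ht).1.1, htk⟩⟩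
  have hQ3 : Q ^ ε = Q ^ (ε / 3) * Q ^ (ε / 3) * Q ^ (ε / 3) := by
    rw [← Real.rpow_add hQ0, ← Real.rpow_add hQ0]; congr 1; ring
  calc _ ≤ ∑ k ∈ sp 6 K, C₂ * Q ^ (ε / 3) * ∑ t ∈ pdiv k, ‖EnE.G Z L b c t k‖ ^ 2 := by
        refine Finset.sum_le_sum fun k hk => ?_
        obtain ⟨hkS, hkK⟩ := (mem_sp hK0).1 hk
        rw [EnE.mobius hZ0 L b c hkS.1]
        refine (sq_sum_le_card _ _).trans ?_
        refine mul_le_mul (h₂ Q k hkS.1.ne_zero (hkK.trans hKQ))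
          (Finset.sum_le_sum fun t _ => ?_) (by positivity) (by positivity)
        rw [norm_mul]
        exact pow_le_pow_left₀ (by positivity)
          (mul_le_of_le_one_left (norm_nonneg _) (norm_mu_le t)) 2
    _ = C₂ * Q ^ (ε / 3) *
          ∑ t ∈ sp 6 K, ∑ k ∈ (sp 6 K).filter (t ∣ ·), ‖EnE.G Z L b c t k‖ ^ 2 := by
        rw [← Finset.mul_sum, hswap]
    _ ≤ C₂ * Q ^ (ε / 3) * ∑ t ∈ sp 6 K,
          (nr t)⁻¹ * (C₁ * C₀ ^ 2 * Q ^ (ε / 3) * Cb K Z L (nr r)) := by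
        refine mul_le_mul_of_nonneg_left (Finset.sum_le_sum fun t ht => ?_) (by positivity)
        exact h₁ Q K Z L C₀ h r b c hK hKQ hZ hZQ hL hLQ hr hrQ hC₀ hb hc t ht
    _ ≤ C₂ * Q ^ (ε / 3) *
          (C₃ * Q ^ (ε / 3) * (C₁ * C₀ ^ 2 * Q ^ (ε / 3) * Cb K Z L (nr r))) := by
        rw [← Finset.sum_mul]
        refine mul_le_mul_of_nonneg_left
          (mul_le_mul_of_nonneg_right (h₃ Q _ hQ1 fun n hn => ?_) (by positivity)) (by positivity)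
        obtain ⟨hnS, hnK⟩ := (mem_sp hK0).1 hn
        exact ⟨hnS.1.ne_zero, hnK.trans hKQ⟩
    _ = _ := by rw [hQ3]; ring

end Crest.Agent.R17.En
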