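import Crest.Agent.R17.EnE

/-!
# Row 17, module M8 (reflected energy), part F: separation of variables and truncation
-/

set_option autoImplicit false

noncomputable section

namespace Crest.Agent.R17.En

open scoped ComplexConjugate
open MeasureTheory Finset

/-- the unimodular Mellin factor -/
def EnF_e (x u : ℝ) : ℂ := (x : ℂ) ^ (-((((0 : ℕ) : ℂ)) + u * Complex.I))

theorem EnF_e_norm {x : ℝ} (hx : 0 < x) (u : ℝ) : ‖EnF_e x u‖ = 1 := by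
  rw [EnF_e, Complex.norm_cpow_eq_rpow_re_of_pos hx]
  simp

theorem EnF_e_mul {x y : ℝ} (hx : 0 ≤ x) (hy : 0 ≤ y) (u : ℝ) :
    EnF_e (x * y) u = EnF_e x u * EnF_e y u := by
  rw [EnF_e, Complex.ofReal_mul, Complex.mul_cpow_ofReal_nonneg hx hy]
  rfl

theorem EnF_e_cont {x : ℝ} (hx : 0 < x) : Continuous (EnF_e x) :=
  Continuous.const_cpow (by fun_prop) (Or.inl (Complex.ofReal_ne_zero.2 hx.ne'))

theorem EnF_sum_int {α : Type*} {Kr : ℝ → ℂ} (hK : Integrable Kr) (S : Finset α) (w : α → ℂ)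
    (x : α → ℝ) (hx : ∀ i ∈ S, w i ≠ 0 → 0 < x i) (V : ℝ → ℂ)
    (hV : ∀ y, 0 < y → V y = ∫ u, Kr u * EnF_e y u) :
    Integrable (fun u => Kr u * ∑ i ∈ S, w i * EnF_e (x i) u) ∧
      ∑ i ∈ S, w i * V (x i) = ∫ u, Kr u * ∑ i ∈ S, w i * EnF_e (x i) u := by
  have h1 : ∀ i ∈ S, Integrable (fun u => Kr u * (w i * EnF_e (x i) u)) ∧
      w i * V (x i) = ∫ u, Kr u * (w i * EnF_e (x i) u) := by
    intro i hi
    by_cases h : w i = 0
    · simp [h]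
    have hp := hx i hi h
    simp only [mul_left_comm (Kr _) (w i)]
    refine ⟨(hK.mul_bdd (c := 1) (EnF_e_cont hp).aestronglyMeasurable
      (Filter.Eventually.of_forall fun u => (EnF_e_norm hp u).le)).const_mul _, ?_⟩
    rw [integral_const_mul, hV _ hp]
  simp only [Finset.mul_sum]
  refine ⟨integrable_finsetSum _ fun i hi => (h1 i hi).1, ?_⟩
  rw [integral_finsetSum _ fun i hi => (h1 i hi).1]
  exact Finset.sum_congr rfl fun i hi => (h1 i hi).2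

theorem EnF_V_le {Kr : ℝ → ℂ} (σ : ℕ) {x : ℝ} (hx : 0 < x) :
    ‖∫ u : ℝ, Kr u * (x : ℂ) ^ (-((σ : ℂ) + u * Complex.I))‖ ≤ (∫ u, ‖Kr u‖) * x ^ (-(σ : ℝ)) := by
  refine (norm_integral_le_integral_norm _).trans_eq ?_
  rw [← integral_mul_const]
  refine integral_congr_ae (Filter.Eventually.of_forall fun u => ?_)
  simp only [norm_mul, Complex.norm_cpow_eq_rpow_re_of_pos hx]
  simp

theorem EnF_tail {τ : ℝ} (hτ : 1 < τ) : ∃ C : ℝ, 0 < C ∧ ∀ (f : O → ℂ) (D L : ℝ), 0 ≤ D → 0 < L →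
    (∀ ν, ‖f ν‖ ≤ D * nr ν ^ (-τ)) →
    ‖∑' ν, f ν - ∑ ν ∈ ball ⌊L⌋₊, f ν‖ ≤ D * (C * L ^ (1 - τ)) := by
  obtain ⟨C, hC, h⟩ := sum_nr_rpow_tail hτ
  refine ⟨C, hC, fun f D L hD hL hf => ?_⟩
  have hs : Summable fun ν => ‖f ν‖ :=
    Summable.of_nonneg_of_le (fun _ => norm_nonneg _) hf ((summable_nr_rpow hτ).mul_left D)
  rw [← hs.of_norm.sum_add_tsum_compl (s := ball ⌊L⌋₊), add_sub_cancel_left]
  refine (norm_tsum_le_tsum_norm (hs.subtype _)).trans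
    (Real.tsum_le_of_sum_le (fun _ => norm_nonneg _) fun T => ?_)
  refine (Finset.sum_le_sum fun i _ => hf i.1).trans ?_
  rw [← Finset.mul_sum]
  refine mul_le_mul_of_nonneg_left ?_ hD
  have h1 := h (max 1 L) (T.map (Function.Embedding.subtype _)) (le_max_left _ _) fun n hn => by
    obtain ⟨i, -, rfl⟩ := Finset.mem_map.1 hn
    have hi : ¬ nr i.1 ≤ L := fun h' => i.2 ((mem_ball_floor hL.le).2 h')
    refine max_le (one_le_nr fun h0 => hi ?_) (not_le.1 hi).le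
    rw [show i.1 = 0 from h0, nr, nm_eq_zero.2 rfl, Nat.cast_zero]
    exact hL.le
  rw [Finset.sum_map] at h1
  exact h1.trans (mul_le_mul_of_nonneg_left
    (Real.rpow_le_rpow_of_nonpos hL (le_max_right _ _) (by linarith)) hC.le)

theorem EnF_sp {k : O} {K : ℝ} (hK : 1 ≤ K) (hk : k ∈ sp 6 K) : 0 < nr k ∧ nr k ≤ K := by
  obtain ⟨h1, h2⟩ := (mem_sp (by linarith)).1 hk
  exact ⟨nr_pos h1.2.1.ne_zero, h2⟩

/-- size of one term of the dual sum -/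
theorem EnF_term {V : ℝ → ℂ} {I : ℝ} (hI : 0 ≤ I) {σ : ℝ} (hσ : 0 ≤ σ)
    (hV : ∀ x, 0 < x → ‖V x‖ ≤ I * x ^ (-σ)) {K Z A C₀ : ℝ} {h r : O} {b : O → ℂ} (hK : 1 ≤ K)
    (hZ : 1 ≤ Z) (hA : 0 < A) (hr : r ≠ 0) (hC : 0 < C₀) (hb : DualB C₀ h r b) {k z : O}
    (hk : k ∈ sp 6 K) (hz : z ∈ sp 6 Z) (ν : O) :
    ‖b ν * quad k ν * sym z ν ^ 4 * V (nr ν * A / (nr k ^ 2 * nr z))‖ ≤
      (C₀ * nr r * I * (K ^ 2 * Z / A) ^ σ) * nr ν ^ (-(σ - 1)) := by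
  obtain ⟨k0, k1⟩ := EnF_sp hK hk
  obtain ⟨z0, z1⟩ := EnF_sp hZ hz
  have hB : 0 < K ^ 2 * Z / A := by positivity
  have r0 := nr_pos hr
  by_cases hν : ν = 0
  · rw [hν, dualB_zero hb]
    simp only [zero_mul, norm_zero]
    positivity
  have n0 := nr_pos hν
  have hx : nr ν / (K ^ 2 * Z / A) ≤ nr ν * A / (nr k ^ 2 * nr z) := by
    rw [div_div_eq_mul_div]
    gcongr
  have h1 : ‖V (nr ν * A / (nr k ^ 2 * nr z))‖ ≤ I * (nr ν / (K ^ 2 * Z / A)) ^ (-σ) :=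
    (hV _ (by positivity)).trans (mul_le_mul_of_nonneg_left
      (Real.rpow_le_rpow_of_nonpos (by positivity) hx (by linarith)) hI)
  have h2 : ‖sym z ν ^ 4‖ ≤ 1 := by
    rw [norm_pow]
    exact pow_le_one₀ (norm_nonneg _) (norm_sym_le _ _)
  rw [norm_mul, norm_mul, norm_mul]
  calc ‖b ν‖ * ‖quad k ν‖ * ‖sym z ν ^ 4‖ * ‖V (nr ν * A / (nr k ^ 2 * nr z))‖
      ≤ (C₀ * nr r * nr ν) * 1 * 1 * (I * (nr ν / (K ^ 2 * Z / A)) ^ (-σ)) := by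
        gcongr
        · exact dualB_norm_le hC hr hb ν
        · exact norm_quad_le _ _
    _ = _ := by
        rw [Real.div_rpow n0.le hB.le, Real.rpow_neg hB.le, neg_sub, Real.rpow_sub n0,
          Real.rpow_one, Real.rpow_neg n0.le]
        field_simp

open Classical in
/-- the truncated sum after separation of variables -/
theorem EnF_sep {K Z A : ℝ} (hK : 1 ≤ K) (hZ : 1 ≤ Z) (hA : 0 < A) (b c : O → ℂ) (T : Finset O)
    {k : O} (hk : k ∈ sp 6 K) (u : ℝ) :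
    ‖∑ i ∈ sp 6 Z ×ˢ T, ((if IsCoprime i.1 k then c i.1 else 0) *
        (b i.2 * quad k i.2 * sym i.1 i.2 ^ 4)) * EnF_e (nr i.2 * A / (nr k ^ 2 * nr i.1)) u‖ =
      ‖∑ z ∈ sp 6 Z, (if IsCoprime z k then c z * EnF_e (nr z)⁻¹ u else 0) *
        ∑ ν ∈ T, (b ν * EnF_e (nr ν) u) * quad k ν * sym z ν ^ 4‖ := by
  obtain ⟨k0, -⟩ := EnF_sp hK hk
  have hp : 0 < A / nr k ^ 2 := by positivity
  rw [← one_mul ‖∑ z ∈ sp 6 Z, _‖, ← EnF_e_norm hp u, ← norm_mul, Finset.sum_product,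
    Finset.mul_sum]
  congr 1
  refine Finset.sum_congr rfl fun z hz => ?_
  obtain ⟨z0, -⟩ := EnF_sp hZ hz
  rw [Finset.mul_sum, Finset.mul_sum]
  refine Finset.sum_congr rfl fun ν _ => ?_
  have e : nr ν * A / (nr k ^ 2 * nr z) = nr ν * (A / nr k ^ 2 * (nr z)⁻¹) := by
    field_simp
  dsimp only
  rw [e, EnF_e_mul (Nat.cast_nonneg _) (by positivity), EnF_e_mul hp.le (by positivity)]
  split_ifs
  · ring
  · simp

open Classical in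
/-- the bilinear estimate with the reflected kernel -/
theorem mellin_core {Kr : ℂ → ℂ → ℂ} {V : ℝ → ℂ → ℂ} (hV : KernelOK Kr V) {ε : ℝ} (hε : 0 < ε) :
    ∃ (C : ℝ) (J : ℕ), 0 < C ∧
    ∀ (Q K Z A C₀ : ℝ) (h r : O) (b c : O → ℂ) (s : ℂ), 1 ≤ K → K ≤ Q → 1 ≤ Z → Z ≤ Q → 0 < A →
      K ^ 2 * Z / A ≤ Q → r ≠ 0 → nr r ≤ Q → 0 < C₀ → DualB C₀ h r b → (∀ z, ‖c z‖ ≤ 1) →
      |s.re| ≤ 3 →
      ∑ k ∈ sp 6 K, ‖∑ z ∈ sp 6 Z, (if IsCoprime z k then c z else 0) *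
          ∑' ν : O, b ν * quad k ν * sym z ν ^ 4 * V (nr ν * A / (nr k ^ 2 * nr z)) s‖ ^ 2 ≤
        C * C₀ ^ 2 * Q ^ ε * (1 + |s.im|) ^ J * Cb K Z (K ^ 2 * Z / A) (nr r) := by
  obtain ⟨δ, hδ, hδ1, hδε⟩ : ∃ δ : ℝ, 0 < δ ∧ δ ≤ 1 ∧ δ ≤ ε / 4 :=
    ⟨min 1 (ε / 4), lt_min one_pos (by positivity), min_le_left _ _, min_le_right _ _⟩
  obtain ⟨σ, hσ⟩ : ∃ σ : ℕ, 3 / δ + 2 ≤ σ := exists_nat_ge _
  have hδ3 : 3 ≤ 3 / δ := (le_div_iff₀ hδ).2 (by linarith)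
  have hσδ : δ * (1 - ((σ : ℝ) - 1)) ≤ -3 := by
    have := (div_le_iff₀ hδ).1 (show 3 / δ ≤ σ - 2 by linarith)
    linarith
  obtain ⟨C1, J1, h1⟩ := hV σ 3
  obtain ⟨C4, J4, h4⟩ := hV 0 3
  obtain ⟨C2, hC2, h2⟩ := EnF_tail (τ := (σ : ℝ) - 1) (by linarith)
  obtain ⟨C3, hC3, h3⟩ := core_cop (ε := ε / 4) (by positivity)
  refine ⟨2 * (C4 ^ 2 * C3) + 2 * (343 * (C1 * C2) ^ 2) + 1, 2 * J1 + 2 * J4, by positivity,
    fun Q K Z A C₀ h r b c s hK hKQ hZ hZQ hA hBQ hr hrQ hC hb hc hs => ?_⟩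
  obtain ⟨-, i1, v1⟩ := h1 s hs
  obtain ⟨k4, i4, v4⟩ := h4 s hs
  set T : ℝ := 1 + |s.im| with hT
  have hT1 : 1 ≤ T := le_add_of_nonneg_right (abs_nonneg _)
  set B : ℝ := K ^ 2 * Z / A with hBdef
  have hB : 0 < B := by positivity
  have hQ : 1 ≤ Q := hK.trans hKQ
  have hQ0 : 0 < Q := by linarith
  have r0 := nr_pos hr
  have hQδ : 1 ≤ Q ^ δ := Real.one_le_rpow hQ hδ.le
  have hQδ' : Q ^ δ ≤ Q := by
    simpa using Real.rpow_le_rpow_of_exponent_le hQ hδ1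
  set L : ℝ := Q ^ δ * B with hLdef
  have hL : 0 < L := by positivity
  have hI : 0 ≤ C1 * T ^ J1 := (integral_nonneg fun _ => norm_nonneg _).trans i1
  have hCb := le_Cb (ρ := nr r) (by linarith : 0 ≤ K) (by linarith : 0 ≤ Z) hB.le r0.le
  have hCb0 : 0 ≤ Cb K Z B (nr r) := le_trans (by positivity) hCb
  -- the terms
  set t : O → O → O → ℂ := fun k z ν =>
    b ν * quad k ν * sym z ν ^ 4 * V (nr ν * A / (nr k ^ 2 * nr z)) s with ht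
  set a : O → O → ℂ := fun k z => if IsCoprime z k then c z else 0 with ha
  have ha1 : ∀ k z, ‖a k z‖ ≤ 1 := fun k z => by
    simp only [ha]
    split_ifs
    · exact hc z
    · simp
  -- the tail
  have htail : ∀ k ∈ sp 6 K, ∀ z ∈ sp 6 Z,
      ‖a k z * (∑' ν, t k z ν - ∑ ν ∈ ball ⌊L⌋₊, t k z ν)‖ ≤
        C₀ * (C1 * T ^ J1) * C2 * (B ^ 2 / Q ^ 2) := by
    intro k hk z hz
    have h5 := h2 (t k z) (C₀ * nr r * (C1 * T ^ J1) * B ^ (σ : ℝ)) L (by positivity) hL fun ν =>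
      EnF_term (V := fun x => V x s) hI (Nat.cast_nonneg σ) (fun x hx => by
        rw [v1 x hx]
        exact (EnF_V_le σ hx).trans (mul_le_mul_of_nonneg_right i1 (by positivity)))
        hK hZ hA hr hC hb hk hz ν
    have h6 : nr r * (B ^ (σ : ℝ) * L ^ (1 - ((σ : ℝ) - 1))) ≤ B ^ 2 / Q ^ 2 := by
      rw [hLdef, Real.mul_rpow (by positivity) hB.le, mul_left_comm (B ^ (σ : ℝ)),
        ← Real.rpow_add hB, ← Real.rpow_mul hQ0.le,
        show (σ : ℝ) + (1 - ((σ : ℝ) - 1)) = ((2 : ℕ) : ℝ) by push_cast; ring, Real.rpow_natCast]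
      have h7 : Q ^ (δ * (1 - ((σ : ℝ) - 1))) ≤ (Q ^ 3)⁻¹ := by
        refine (Real.rpow_le_rpow_of_exponent_le hQ hσδ).trans_eq ?_
        rw [Real.rpow_neg hQ0.le, ← Real.rpow_natCast]
        norm_num
      calc nr r * (Q ^ (δ * (1 - ((σ : ℝ) - 1))) * B ^ 2) ≤ Q * ((Q ^ 3)⁻¹ * B ^ 2) := by gcongr
        _ = B ^ 2 / Q ^ 2 := by field_simp
    rw [norm_mul]
    calc _ ≤ 1 * (C₀ * nr r * (C1 * T ^ J1) * B ^ (σ : ℝ) * (C2 * L ^ (1 - ((σ : ℝ) - 1)))) := by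
          gcongr
          exact ha1 k z
      _ = C₀ * (C1 * T ^ J1) * C2 * (nr r * (B ^ (σ : ℝ) * L ^ (1 - ((σ : ℝ) - 1)))) := by ring
      _ ≤ _ := by gcongr
  have htail2 : ∑ k ∈ sp 6 K,
      ‖∑ z ∈ sp 6 Z, a k z * (∑' ν, t k z ν - ∑ ν ∈ ball ⌊L⌋₊, t k z ν)‖ ^ 2 ≤
      343 * (C1 * C2) ^ 2 * (C₀ ^ 2 * T ^ (2 * J1) * Cb K Z B (nr r)) := by
    have cK := card_sp 6 (by linarith : 0 ≤ K)
    have cZ := card_sp 6 (by linarith : 0 ≤ Z)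
    have h5 : ∀ k ∈ sp 6 K,
        ‖∑ z ∈ sp 6 Z, a k z * (∑' ν, t k z ν - ∑ ν ∈ ball ⌊L⌋₊, t k z ν)‖ ^ 2 ≤
        (7 * Z * (C₀ * (C1 * T ^ J1) * C2 * (B ^ 2 / Q ^ 2))) ^ 2 := by
      intro k hk
      refine pow_le_pow_left₀ (norm_nonneg _) ((norm_sum_le _ _).trans
        ((Finset.sum_le_card_nsmul _ _ _ (htail k hk)).trans ?_)) 2
      rw [nsmul_eq_mul]
      gcongr
    refine (Finset.sum_le_card_nsmul _ _ _ h5).trans ?_
    rw [nsmul_eq_mul]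
    have h6 : Z * B ^ 3 / Q ^ 4 ≤ 1 := by
      rw [div_le_one (by positivity)]
      calc Z * B ^ 3 ≤ Q * Q ^ 3 := by gcongr
        _ = Q ^ 4 := by ring
    calc _ ≤ 7 * K * (7 * Z * (C₀ * (C1 * T ^ J1) * C2 * (B ^ 2 / Q ^ 2))) ^ 2 := by gcongr
      _ = 343 * (C1 * C2) ^ 2 * (C₀ ^ 2 * T ^ (2 * J1) * (K * B * Z * (Z * B ^ 3 / Q ^ 4))) := by
          field_simp
          ring
      _ ≤ _ := by
          gcongr
          exact (mul_le_of_le_one_right (by positivity) h6).trans hCb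
  -- the main part
  have hmain : ∑ k ∈ sp 6 K, ‖∑ z ∈ sp 6 Z, a k z * ∑ ν ∈ ball ⌊L⌋₊, t k z ν‖ ^ 2 ≤
      C4 ^ 2 * C3 * (C₀ ^ 2 * Q ^ ε * T ^ (2 * J4) * Cb K Z B (nr r)) := by
    have h5 := fun k (hk : k ∈ sp 6 K) => EnF_sum_int k4 (sp 6 Z ×ˢ ball ⌊L⌋₊)
      (fun i => a k i.1 * (b i.2 * quad k i.2 * sym i.1 i.2 ^ 4))
      (fun i => nr i.2 * A / (nr k ^ 2 * nr i.1)) (fun i hi hw => by
        have k0 := (EnF_sp hK hk).1
        have z0 := (EnF_sp hZ (Finset.mem_product.1 hi).1).1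
        have n0 : 0 < nr i.2 := nr_pos fun h0 => hw (by rw [h0, dualB_zero hb]; simp)
        positivity) (fun x => V x s) v4
    have hQ2 : Q ≤ Q ^ 2 := by nlinarith
    have h6 := l2_integral (sp 6 K) k4 (fun k hk => (h5 k hk).1)
      (E := C3 * C₀ ^ 2 * (Q ^ 2) ^ (ε / 4) * Cb K Z L (nr r)) fun u => by
        rw [Finset.sum_congr rfl fun k hk => by
          rw [EnF_sep hK hZ hA b c (ball ⌊L⌋₊) hk u]]
        refine h3 (Q ^ 2) K Z L C₀ h r (fun ν => b ν * EnF_e (nr ν) u)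
          (fun z => if z = 0 then 0 else c z * EnF_e (nr z)⁻¹ u) hK (hKQ.trans hQ2) hZ
          (hZQ.trans hQ2) hL.le (by rw [hLdef, sq]; gcongr) hr (hrQ.trans hQ2) hC
          (dualB_of_le hb fun ν => ?_) (fun z => ?_) |>.trans_eq' ?_
        · by_cases h0 : ν = 0
          · rw [h0, dualB_zero hb]
            simp
          · rw [norm_mul, EnF_e_norm (nr_pos h0), mul_one]
        · split_ifs with h0
          · simp
          · rw [norm_mul, EnF_e_norm (inv_pos.2 (nr_pos h0)), mul_one]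
            exact hc z
        · refine Finset.sum_congr rfl fun k _ => ?_
          congr 2
          refine Finset.sum_congr rfl fun z hz => ?_
          rw [if_neg (c := z = 0) ((mem_sp (by linarith)).1 hz).1.2.1.ne_zero]
    have h7 : (Q ^ 2) ^ (ε / 4) * (Q ^ δ) ^ 2 ≤ Q ^ ε := by
      rw [← Real.rpow_natCast, ← Real.rpow_natCast, ← Real.rpow_mul hQ0.le,
        ← Real.rpow_mul hQ0.le, ← Real.rpow_add hQ0]
      exact Real.rpow_le_rpow_of_exponent_le hQ (by push_cast; linarith)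
    have h8 := Cb_mul (ρ := nr r) (by linarith : 0 ≤ K) (by linarith : 0 ≤ Z) hB.le r0.le hQδ
    have h9 : 0 ≤ ∫ u : ℝ, ‖Kr (((0 : ℕ) : ℂ) + u * Complex.I) s‖ :=
      integral_nonneg fun _ => norm_nonneg _
    calc _ = _ := Finset.sum_congr rfl fun k hk => by
          rw [← (h5 k hk).2, Finset.sum_product]
          congr 2
          refine Finset.sum_congr rfl fun z _ => ?_
          rw [Finset.mul_sum]
          exact Finset.sum_congr rfl fun ν _ => (mul_assoc _ _ _).symm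
      _ ≤ _ := h6
      _ ≤ (C4 * T ^ J4) ^ 2 *
          (C3 * C₀ ^ 2 * (Q ^ 2) ^ (ε / 4) * ((Q ^ δ) ^ 2 * Cb K Z B (nr r))) := by
          have := Cb_nonneg (ρ := nr r) (by linarith : 0 ≤ K) (by linarith : 0 ≤ Z) hL.le r0.le
          gcongr
      _ = C4 ^ 2 * C3 * (C₀ ^ 2 * ((Q ^ 2) ^ (ε / 4) * (Q ^ δ) ^ 2) * T ^ (2 * J4) *
          Cb K Z B (nr r)) := by ring
      _ ≤ _ := by gcongr
  have hadd := l2_add_le (sp 6 K) (fun k => ∑ z ∈ sp 6 Z, a k z * ∑ ν ∈ ball ⌊L⌋₊, t k z ν)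
    fun k => ∑ z ∈ sp 6 Z, a k z * (∑' ν, t k z ν - ∑ ν ∈ ball ⌊L⌋₊, t k z ν)
  simp only [← Finset.sum_add_distrib, ← mul_add, add_sub_cancel] at hadd
  have hQε : 1 ≤ Q ^ ε := Real.one_le_rpow hQ hε.le
  have e1 : C₀ ^ 2 * T ^ (2 * J1) * Cb K Z B (nr r) ≤
      C₀ ^ 2 * Q ^ ε * T ^ (2 * J1 + 2 * J4) * Cb K Z B (nr r) := by
    gcongr
    · exact le_mul_of_one_le_right (by positivity) hQε
    · omega
  have e2 : C₀ ^ 2 * Q ^ ε * T ^ (2 * J4) * Cb K Z B (nr r) ≤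
      C₀ ^ 2 * Q ^ ε * T ^ (2 * J1 + 2 * J4) * Cb K Z B (nr r) := by
    gcongr
    omega
  have e3 : 0 ≤ C₀ ^ 2 * Q ^ ε * T ^ (2 * J1 + 2 * J4) * Cb K Z B (nr r) := by positivity
  have e4 := mul_le_mul_of_nonneg_left e1 (by positivity : 0 ≤ 343 * (C1 * C2) ^ 2)
  have e5 := mul_le_mul_of_nonneg_left e2 (by positivity : 0 ≤ C4 ^ 2 * C3)
  refine hadd.trans ?_
  rw [Finset.sum_add_distrib]
  linarith

end Crest.Agent.R17.En
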