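import Crest.Agent.R17.EnF

/-!
# Row 17, module M8 (reflected energy), part G: one term of the reflection formula
-/

set_option autoImplicit false

noncomputable section

namespace Crest.Agent.R17.En

open scoped ComplexConjugate
open MeasureTheory Finset

namespace GAux

theorem sqrt_mul_sqrt_inv {w Z : ℝ} (hw : 0 < w) (hZ : 0 < Z) :
    Real.sqrt (w / Z) * Real.sqrt (Z / w) = 1 := by
  rw [← Real.sqrt_mul (by positivity), show w / Z * (Z / w) = 1 by field_simp, Real.sqrt_one]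

theorem real_factor {w Na Nk Nr D Z : ℝ} (hw : 0 < w) (hZ : 0 < Z) (ha : 0 < Na) (hk : 0 < Nk)
    (hr : 0 < Nr) :
    (w * Na / Na)⁻¹ * (D * (w * Na) / (Nk * Nr * Na)) * (Real.sqrt Na)⁻¹
      = D / (Nk * Nr) * Real.sqrt (w / Z) * (Real.sqrt (Z / w) / Real.sqrt Na) := by
  have h := sqrt_mul_sqrt_inv hw hZ
  have h1 : D / (Nk * Nr) * Real.sqrt (w / Z) * (Real.sqrt (Z / w) / Real.sqrt Na)
      = D / (Nk * Nr) * (Real.sqrt (w / Z) * Real.sqrt (Z / w)) * (Real.sqrt Na)⁻¹ := by ring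
  rw [h1, h]
  congr 1
  field_simp

theorem arg_eq {w Na Nk Nr D cI n : ℝ} (ha : 0 < Na) (hk : 0 < Nk) (hr : 0 < Nr) (hc : 0 < cI) :
    n * (D * (w * Na)) / (cI * (Nk * Nr * Na) ^ 2)
      = n * (D * w / (cI * Nr ^ 2)) / (Nk ^ 2 * Na) := by
  field_simp

open Classical in
/-- the contribution of a fixed inactive part `zi` -/
theorem fixed_zi {V : ℝ → ℂ → ℂ} {cI : ℝ} (hc : 0 < cI) {K₁ D Z E : ℝ} {r zi : O}
    {b ρ ρ' c : O → ℂ} {Zs S : Finset O} {s : ℂ} (hK₁ : 1 ≤ K₁) (hZ : 1 ≤ Z) (hD : 0 < D)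
    (hr : r ≠ 0) (hzi : zi ≠ 0) (hρ : ∀ x, ‖ρ x‖ ≤ 1) (hρ' : ∀ x, ‖ρ' x‖ ≤ 1)
    (hcc : ∀ z, ‖c z‖ ≤ 1) (hZs : ∀ z ∈ Zs, Z ≤ nr z)
    (hS : ∀ k ∈ S, SP 6 k ∧ K₁ ≤ nr k ∧ nr k ≤ 2 * K₁)
    (hE : ∀ c' : O → ℂ, (∀ z, ‖c' z‖ ≤ 1) →
      ∑ k ∈ sp 6 (2 * K₁), ‖∑ z ∈ sp 6 (2 * Z / nr zi), (if IsCoprime z k then c' z else 0) *
        ∑' ν : O, b ν * quad k ν * sym z ν ^ 4 *
          V (nr ν * (D * nr zi / (cI * nr r ^ 2)) / (nr k ^ 2 * nr z)) s‖ ^ 2 ≤ E) :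
    ∑ k ∈ S, ‖∑ za ∈ sp 6 (2 * Z / nr zi), if zi * za ∈ Zs then
        (if IsCoprime (zi * za) k then c (zi * za) else 0) * (ρ k * ρ' za *
          ((nr (zi * za) / nr za)⁻¹ * (D * nr (zi * za) / (nr k * nr r * nr za)) *
            (Real.sqrt (nr za))⁻¹ : ℝ) *
          ∑' ν : O, b ν * quad k ν * sym za ν ^ 4 *
            V (nr ν * (D * nr (zi * za)) / (cI * (nr k * nr r * nr za) ^ 2)) s) else 0‖ ^ 2 ≤
      (D / (K₁ * nr r)) ^ 2 * (nr zi / Z) * E := by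
  have hw := nr_pos hzi
  have hNr := nr_pos hr
  have hZ0 : 0 < Z := by linarith
  let c' : O → ℂ := fun za => if zi * za ∈ Zs then
    c (zi * za) * ρ' za * (Real.sqrt (Z / nr zi) / Real.sqrt (nr za) : ℝ) else 0
  have hc' : ∀ z, ‖c' z‖ ≤ 1 := by
    intro z
    simp only [c']
    split_ifs with h
    · have h1 : Z / nr zi ≤ nr z := by
        rw [div_le_iff₀ hw, mul_comm, ← nr_mul]
        exact hZs _ h
      have h2 : Real.sqrt (Z / nr zi) / Real.sqrt (nr z) ≤ 1 :=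
        div_le_one_of_le₀ (Real.sqrt_le_sqrt h1) (Real.sqrt_nonneg _)
      rw [norm_mul, norm_mul, Complex.norm_real, Real.norm_of_nonneg (by positivity)]
      exact mul_le_one₀ (mul_le_one₀ (hcc _) (norm_nonneg _) (hρ' _)) (by positivity) h2
    · simp
  have hsub : S ⊆ sp 6 (2 * K₁) := fun k hk =>
    (mem_sp (by linarith)).2 ⟨(hS k hk).1, (hS k hk).2.2⟩
  refine le_trans ?_ (mul_le_mul_of_nonneg_left (hE c' hc') (by positivity))
  refine le_trans ?_ (mul_le_mul_of_nonneg_left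
    (sum_le_sum_of_subset_of_nonneg hsub fun _ _ _ => by positivity) (by positivity))
  rw [mul_sum]
  refine sum_le_sum fun k hk => ?_
  have hNk : 0 < nr k := by linarith [(hS k hk).2.1]
  have e : ∑ za ∈ sp 6 (2 * Z / nr zi), (if zi * za ∈ Zs then
        (if IsCoprime (zi * za) k then c (zi * za) else 0) * (ρ k * ρ' za *
          ((nr (zi * za) / nr za)⁻¹ * (D * nr (zi * za) / (nr k * nr r * nr za)) *
            (Real.sqrt (nr za))⁻¹ : ℝ) *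
          ∑' ν : O, b ν * quad k ν * sym za ν ^ 4 *
            V (nr ν * (D * nr (zi * za)) / (cI * (nr k * nr r * nr za) ^ 2)) s) else 0)
      = ((if IsCoprime zi k then ρ k else 0) * (D / (nr k * nr r) * Real.sqrt (nr zi / Z) : ℝ)) *
        ∑ z ∈ sp 6 (2 * Z / nr zi), (if IsCoprime z k then c' z else 0) *
          ∑' ν : O, b ν * quad k ν * sym z ν ^ 4 *
            V (nr ν * (D * nr zi / (cI * nr r ^ 2)) / (nr k ^ 2 * nr z)) s := by
    rw [mul_sum]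
    refine sum_congr rfl fun za hza => ?_
    have hNa : 0 < nr za := nr_pos ((mem_sp (by positivity)).1 hza).1.1.ne_zero
    simp only [c', nr_mul, real_factor hw hZ0 hNa hNk hNr, arg_eq hNa hNk hNr hc,
      IsCoprime.mul_left_iff]
    by_cases h1 : zi * za ∈ Zs <;> by_cases h2 : IsCoprime zi k <;>
      by_cases h3 : IsCoprime za k <;> simp only [h1, h2, h3, if_true, if_false, and_self,
        and_true, and_false, zero_mul, mul_zero]
    push_cast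
    ring
  rw [e, norm_mul, mul_pow]
  refine mul_le_mul_of_nonneg_right ?_ (by positivity)
  have h1 : ‖if IsCoprime zi k then ρ k else 0‖ ≤ 1 := by
    split_ifs
    · exact hρ k
    · simp
  have h2 : D / (nr k * nr r) ≤ D / (K₁ * nr r) := by
    gcongr
    exact (hS k hk).2.1
  rw [norm_mul, Complex.norm_real, Real.norm_of_nonneg (by positivity)]
  calc (‖if IsCoprime zi k then ρ k else 0‖ * (D / (nr k * nr r) * Real.sqrt (nr zi / Z))) ^ 2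
      ≤ (1 * (D / (K₁ * nr r) * Real.sqrt (nr zi / Z))) ^ 2 := by gcongr
    _ = (D / (K₁ * nr r)) ^ 2 * (nr zi / Z) := by
      rw [one_mul, mul_pow, Real.sq_sqrt (by positivity)]

end GAux

open Classical in
/-- one term `(i, r)` of the reflection formula, summed over the marks -/
theorem piece {Kr : ℂ → ℂ → ℂ} {V : ℝ → ℂ → ℂ} (hV : KernelOK Kr V) {cI : ℝ} (hc : 0 < cI)
    {ε : ℝ} (hε : 0 < ε) : ∃ (C : ℝ) (J : ℕ), 0 < C ∧
    ∀ (Q K D Z C₀ : ℝ) (h r : O) (b ρ ρ' c : O → ℂ) (Zs S : Finset O) (s : ℂ),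
      1 ≤ K → K ≤ Q → 1 ≤ Z → Z ≤ Q → 0 < D → D⁻¹ ≤ Q → r ≠ 0 → nr r ≤ Q → 0 < C₀ →
      DualB C₀ h r b → (∀ x, ‖ρ x‖ ≤ 1) → (∀ x, ‖ρ' x‖ ≤ 1) → (∀ z, ‖c z‖ ≤ 1) →
      (∀ z ∈ Zs, SP 6 z ∧ Z ≤ nr z ∧ nr z ≤ 2 * Z) → (∀ k ∈ S, SP 6 k ∧ nr k ≤ K) → |s.re| ≤ 3 →
      ∑ k ∈ S, ‖∑ z ∈ Zs, (if IsCoprime z k then c z else 0) * ∑ za ∈ pdiv z,
          ρ k * ρ' za *
            ((nr z / nr za)⁻¹ * (D * nr z / (nr k * nr r * nr za)) * (Real.sqrt (nr za))⁻¹ : ℝ) *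
            ∑' ν : O, b ν * quad k ν * sym za ν ^ 4 *
              V (nr ν * (D * nr z) / (cI * (nr k * nr r * nr za) ^ 2)) s‖ ^ 2 ≤
        C * C₀ ^ 2 * Q ^ ε * (1 + |s.im|) ^ J * (D * Z) * Fb K D Z (nr r) := by
  obtain ⟨C1, J, hC1, h1⟩ := mellin_core hV (ε := ε / 8) (by positivity)
  obtain ⟨C2, hC2, h2⟩ := Cb_le_Fb hc
  obtain ⟨C3, hC3, h3⟩ := sum_inv_le (ε := ε / 16) (by positivity)
  obtain ⟨C4, hC4, h4⟩ := dyadic (ε := ε / 8) (by positivity)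
  refine ⟨C4 * (C3 * 2 ^ (ε / 16)) ^ 2 * (C1 * (2 + 8 * cI) ^ (ε / 8) * C2), J, by positivity,
    fun Q K D Z C₀ h r b ρ ρ' c Zs S s hK hKQ hZ hZQ hD hDQ hr hrQ hC₀ hb hρ hρ' hcc hZs hS hs
      => ?_⟩
  have hQ : 1 ≤ Q := hK.trans hKQ
  have hQ0 : 0 < Q := by linarith
  have hNr := one_le_nr hr
  have hQ6 : Q ≤ Q ^ 6 := le_self_pow₀ hQ (by norm_num)
  have hQ' : 2 * Q ≤ (2 + 8 * cI) * Q ^ 6 := by
    have : 0 ≤ 8 * cI * Q ^ 6 := by positivity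
    linarith
  have hF := Fb_nonneg (ρ := nr r) (by linarith : 0 ≤ K) hD (by linarith : 0 ≤ Z)
  set E0 : ℝ := C1 * C₀ ^ 2 * ((2 + 8 * cI) * Q ^ 6) ^ (ε / 8) * (1 + |s.im|) ^ J with hE0
  have hE0n : 0 ≤ E0 := by positivity
  refine (h4 Q K ((C3 * (2 * Q) ^ (ε / 16)) ^ 2 * (E0 * (C2 * (D * Z) * Fb K D Z (nr r)))) S _
    hK hKQ (fun k hk => ⟨(hS k hk).1.1.ne_zero, (hS k hk).2⟩) (fun k => by positivity)
    fun K₁ hK₁ hK₁K => ?_).trans (le_of_eq ?_)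
  · have hsub : Zs ⊆ sp 6 (2 * Z) := fun z hz =>
      (mem_sp (by linarith)).2 ⟨(hZs z hz).1, (hZs z hz).2.2⟩
    simp only [mul_sum]
    simp only [sum_pdiv_sp (by linarith : 0 ≤ 2 * Z) hsub]
    have hsp : ∀ zi ∈ sp 6 (2 * Z), zi ≠ 0 ∧ nr zi ≤ 2 * Z := fun zi hzi =>
      ⟨((mem_sp (by linarith)).1 hzi).1.1.ne_zero, ((mem_sp (by linarith)).1 hzi).2⟩
    refine (l2_sum_le_weight _ _ _ (w := nr) (fun zi hzi => nr_pos (hsp zi hzi).1)
      (E := E0 * (C2 * (D * Z) * Fb K D Z (nr r))) fun zi hzi => ?_).trans ?_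
    · obtain ⟨hzi0, hziZ⟩ := hsp zi hzi
      have hw := one_le_nr hzi0
      have hA : 0 < D * nr zi / (cI * nr r ^ 2) := by positivity
      have hZw : 2 * Z / nr zi ≤ 2 * Z := div_le_self (by linarith) hw
      have hL : (2 * K₁) ^ 2 * (2 * Z / nr zi) / (D * nr zi / (cI * nr r ^ 2))
          ≤ (2 + 8 * cI) * Q ^ 6 := by
        have e1 : (2 * K₁) ^ 2 * (2 * Z / nr zi) / (D * nr zi / (cI * nr r ^ 2))
            = 4 * cI * K₁ ^ 2 * (2 * Z / nr zi) * nr r ^ 2 * D⁻¹ * (nr zi)⁻¹ := by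
          field_simp
          ring
        have e2 : (nr zi)⁻¹ ≤ 1 := inv_le_one_of_one_le₀ hw
        have e3 : K₁ ≤ Q := hK₁K.trans hKQ
        have e4 : 2 * Z / nr zi ≤ 2 * Q := by linarith
        rw [e1]
        calc 4 * cI * K₁ ^ 2 * (2 * Z / nr zi) * nr r ^ 2 * D⁻¹ * (nr zi)⁻¹
            ≤ 4 * cI * Q ^ 2 * (2 * Q) * Q ^ 2 * Q * 1 := by gcongr
          _ = 8 * cI * Q ^ 6 := by ring
          _ ≤ (2 + 8 * cI) * Q ^ 6 := by gcongr; linarith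
      have h5 := GAux.fixed_zi (V := V) hc (b := b) (s := s) (Zs := Zs)
        (S := S.filter fun k => K₁ ≤ nr k ∧ nr k ≤ 2 * K₁) hK₁ hZ hD hr hzi0 hρ hρ' hcc
        (fun z hz => (hZs z hz).2.1)
        (fun k hk => ⟨(hS k (mem_filter.1 hk).1).1, (mem_filter.1 hk).2⟩)
        (fun c' hc' => h1 ((2 + 8 * cI) * Q ^ 6) (2 * K₁) (2 * Z / nr zi) _ C₀ h r b c' s
          (by linarith) (by linarith) ((one_le_div (by linarith)).2 hziZ) (by linarith) hA hL hr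
          (by linarith) hC₀ hb hc' hs)
      refine (mul_le_mul_of_nonneg_left h5 (by positivity)).trans ?_
      have h6 := h2 K₁ D Z (nr r) (nr zi) (by linarith) hD (by linarith) hNr hw
      have h7 := Fb_mono (by linarith : 0 ≤ K₁) hK₁K hD (by linarith : 0 ≤ Z)
        (by linarith : 0 ≤ nr r) le_rfl
      have h8 : C2 * (D * Z) * Fb K₁ D Z (nr r) ≤ C2 * (D * Z) * Fb K D Z (nr r) :=
        mul_le_mul_of_nonneg_left h7 (by positivity)
      refine le_trans (le_of_eq ?_) (mul_le_mul_of_nonneg_left (h6.trans h8) hE0n)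
      rw [hE0]
      ring
    · refine mul_le_mul_of_nonneg_right ?_ (by positivity)
      refine pow_le_pow_left₀ (sum_nonneg fun _ _ => by positivity) ?_ 2
      exact h3 (2 * Q) _ (by linarith) fun n hn => ⟨(hsp n hn).1, by linarith [(hsp n hn).2]⟩
  · have e1 : (2 * Q) ^ (ε / 16) = 2 ^ (ε / 16) * Q ^ (ε / 16) :=
      Real.mul_rpow (by norm_num) hQ0.le
    have e2 : ((2 + 8 * cI) * Q ^ 6) ^ (ε / 8) = (2 + 8 * cI) ^ (ε / 8) * (Q ^ (ε / 16)) ^ 12 := by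
      rw [Real.mul_rpow (by positivity) (by positivity), ← Real.rpow_natCast, ← Real.rpow_natCast,
        ← Real.rpow_mul hQ0.le, ← Real.rpow_mul hQ0.le]
      congr 2
      push_cast
      ring
    have e3 : Q ^ (ε / 8) = (Q ^ (ε / 16)) ^ 2 := by
      rw [← Real.rpow_natCast, ← Real.rpow_mul hQ0.le]
      congr 1
      push_cast
      ring
    have e4 : Q ^ ε = (Q ^ (ε / 16)) ^ 16 := by
      rw [← Real.rpow_natCast, ← Real.rpow_mul hQ0.le]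
      congr 1
      push_cast
      ring
    rw [hE0, e1, e2, e3, e4]
    ring

end Crest.Agent.R17.En
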