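import Crest.Agent.R17.EnG

/-!
# Row 17, module M8 (reflected energy), part H: the rows with a fixed frozen part
-/

set_option autoImplicit false

noncomputable section

namespace Crest.Agent.R17.En

open scoped ComplexConjugate
open MeasureTheory Finset

open Classical in
theorem EnH_vanish (φ : O → ℂ) {z a : O} (hz : ¬ IsCoprime z a) (W : O → ℂ) :
    (∑' n : O, if z ∣ n then th n * φ n * sym n a * W n else 0) = 0 := by
  refine (tsum_congr fun n => ?_).trans tsum_zero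
  split_ifs with hzn
  · by_cases hn : Primary n
    · rw [(sym_eq_zero_iff hn).2 fun h => hz (h.of_isCoprime_of_dvd_left hzn)]
      simp
    · have : th n = 0 := by rw [th, if_neg fun h => hn h.1]
      simp [this]
  · rfl

/-- the energy of the rows `k h` with `k` squarefree and prime to `M h` -/
theorem fixed {M : O} (hM : Adm M) {ε : ℝ} (hε : 0 < ε) : ∃ (C : ℝ) (J : ℕ), 0 < C ∧
    ∀ (Q K D Z : ℝ) (φ : O → ℂ) (h : O) (Zs : Finset O) (c : O → ℂ) (s : ℂ),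
      1 ≤ K → K ≤ Q → 1 ≤ Z → Z ≤ Q → 0 < D → D⁻¹ ≤ Q → nr h ≤ Q →
      PerB M φ → Primary h → IsCoprime h M →
      (∀ z ∈ Zs, SP M z ∧ Z ≤ nr z ∧ nr z ≤ 2 * Z) → (∀ z, ‖c z‖ ≤ 1) → |s.re| ≤ 3 →
      ∑ k ∈ sp (M * h) K, ‖Tc φ Zs c D s (k * h)‖ ^ 2 ≤
        C * Q ^ ε * (1 + |s.im|) ^ J * (D * Z) * Fb K D Z (nr (rad h)) := by
  classical
  obtain ⟨I, _, C, cI, Kr, V, hcI, hV, hR⟩ := reflection hM
  have hε3 : 0 < ε / 3 := by positivity
  choose Cp Jp hCp hp using fun i => piece hV (hcI i) hε3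
  obtain ⟨Cd, hCd, hd⟩ := card_pdiv_le' hε3
  have hC0 : 0 < max C 1 := lt_of_lt_of_le one_pos (le_max_right _ _)
  have hS : 0 < ∑ i, Cp i + 1 := by
    have : 0 ≤ ∑ i, Cp i := sum_nonneg fun i _ => (hCp i).le
    linarith
  refine ⟨((Fintype.card I : ℝ) + 1) ^ 2 * Cd ^ 2 * ((∑ i, Cp i + 1) * max C 1 ^ 2),
    univ.sup Jp, by positivity, ?_⟩
  intro Q K D Z φ h Zs c s hK hKQ hZ hZQ hD hDQ hhQ hφ hh hhM hZs hc hs
  obtain ⟨ρ, ρ', b, hρ, hρ', hb, hrefl⟩ := hR φ hφ h hh hhM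
  have hQ : 0 < Q := by linarith
  have hr0 : rad h ≠ 0 := (primary_rad h).ne_zero
  have hrQ : nr (rad h) ≤ Q :=
    le_trans (Nat.cast_le.2 (nm_le_of_dvd (rad_dvd h) hh.ne_zero)) hhQ
  have hF := Fb_nonneg (K := K) (D := D) (Z := Z) (ρ := nr (rad h)) (by linarith) hD (by linarith)
  set Zs' := Zs.filter fun z => IsCoprime z h with hZs'
  set f : I → O → O → ℂ := fun i r k =>
    ∑ z ∈ Zs', (if IsCoprime z k then c z else 0) * ∑ za ∈ pdiv z,
      ρ i r k * ρ' i r za *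
        ((nr z / nr za)⁻¹ * (D * nr z / (nr k * nr r * nr za)) * (Real.sqrt (nr za))⁻¹ : ℝ) *
        ∑' ν : O, b i r ν * quad k ν * sym za ν ^ 4 *
          V (nr ν * (D * nr z) / (cI i * (nr k * nr r * nr za) ^ 2)) s with hf
  have hT : ∀ k ∈ sp (M * h) K, Tc φ Zs c D s (k * h) = ∑ i, ∑ r ∈ pdiv (rad h), f i r k := by
    intro k hk
    have hk' := ((mem_sp (by linarith)).1 hk).1
    have e1 : Tc φ Zs c D s (k * h) = ∑ z ∈ Zs', (if IsCoprime z k then c z else 0) *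
        ∑ i, ∑ r ∈ pdiv (rad h), ∑ za ∈ pdiv z,
          ρ i r k * ρ' i r za *
            ((nr z / nr za)⁻¹ * (D * nr z / (nr k * nr r * nr za)) * (Real.sqrt (nr za))⁻¹ : ℝ) *
            ∑' ν : O, b i r ν * quad k ν * sym za ν ^ 4 *
              V (nr ν * (D * nr z) / (cI i * (nr k * nr r * nr za) ^ 2)) s := by
      rw [Tc, hZs', sum_filter]
      refine sum_congr rfl fun z hz => ?_
      by_cases h1 : IsCoprime z h
      · rw [if_pos h1]
        by_cases h2 : IsCoprime z k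
        · rw [if_pos h2]
          obtain ⟨⟨a1, a2, a3⟩, a4, -⟩ := hZs z hz
          rw [hrefl k z hk' ⟨a1, a2, (a3.mul_right h1).mul_right h2⟩ (D * nr z)
            (mul_pos hD (by linarith)) s]
        · rw [if_neg h2, zero_mul, EnH_vanish φ (fun h3 => h2 h3.of_mul_right_left), mul_zero]
      · rw [if_neg h1, EnH_vanish φ (fun h3 => h1 h3.of_mul_right_right), mul_zero]
    rw [e1]
    simp only [hf, mul_sum (s := univ), mul_sum (s := pdiv (rad h))]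
    rw [sum_comm]
    exact sum_congr rfl fun i _ => sum_comm
  set E : ℝ := (∑ i, Cp i + 1) * max C 1 ^ 2 * Q ^ (ε / 3) * (1 + |s.im|) ^ univ.sup Jp *
    (D * Z) * Fb K D Z (nr (rad h)) with hE
  have hs0 : 0 ≤ 1 + |s.im| := add_nonneg zero_le_one (abs_nonneg _)
  have hQe : 0 ≤ Q ^ (ε / 3) := Real.rpow_nonneg hQ.le _
  have b5 : 0 ≤ D * Z := mul_nonneg hD.le (by linarith)
  have b6 : 0 ≤ (∑ i, Cp i + 1) * max C 1 ^ 2 * Q ^ (ε / 3) :=
    mul_nonneg (mul_nonneg hS.le (sq_nonneg _)) hQe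
  have b7 := mul_nonneg (mul_nonneg b6 (pow_nonneg hs0 (univ.sup Jp))) b5
  have hE0 : 0 ≤ E := mul_nonneg b7 hF
  have hpiece : ∀ i, ∀ r ∈ pdiv (rad h), ∑ k ∈ sp (M * h) K, ‖f i r k‖ ^ 2 ≤ E := by
    intro i r hr
    obtain ⟨r1, r2⟩ := (mem_pdiv hr0).1 hr
    have r3 : nr r ≤ nr (rad h) := Nat.cast_le.2 (nm_le_of_dvd r2 hr0)
    refine (hp i Q K D Z (max C 1) h r (b i r) (ρ i r) (ρ' i r) c Zs' (sp (M * h) K) s hK hKQ hZ
      hZQ hD hDQ r1.ne_zero (r3.trans hrQ) hC0 (dualB_mono (hb i r) (le_max_left _ _)) (hρ i r)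
      (hρ' i r) hc (fun z hz => ?_) (fun k hk => ?_) hs).trans ?_
    · obtain ⟨a1, a2⟩ := hZs z (mem_filter.1 hz).1
      exact ⟨SP.six (h := 1) hM (by rwa [mul_one]), a2⟩
    · obtain ⟨a1, a2⟩ := (mem_sp (by linarith)).1 hk
      exact ⟨SP.six hM a1, a2⟩
    · have b1 : Cp i ≤ ∑ i, Cp i + 1 :=
        (single_le_sum (fun j _ => (hCp j).le) (mem_univ i)).trans (by linarith)
      have b2 : (1 + |s.im|) ^ Jp i ≤ (1 + |s.im|) ^ univ.sup Jp :=
        pow_le_pow_right₀ (by linarith [abs_nonneg s.im]) (le_sup (mem_univ i))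
      have b3 : Fb K D Z (nr r) ≤ Fb K D Z (nr (rad h)) :=
        Fb_mono (by linarith) le_rfl hD (by linarith) (Nat.cast_nonneg _) r3
      have b4 := Fb_nonneg (K := K) (D := D) (Z := Z) (ρ := nr r) (by linarith) hD (by linarith)
      exact mul_le_mul (mul_le_mul_of_nonneg_right (mul_le_mul (mul_le_mul_of_nonneg_right
        (mul_le_mul_of_nonneg_right b1 (sq_nonneg _)) hQe) b2 (pow_nonneg hs0 _) b6) b5) b3 b4 b7
  have h1 := l2_sum_le (sp (M * h) K) univ (fun i k => ∑ r ∈ pdiv (rad h), f i r k)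
    (E := ((pdiv (rad h)).card : ℝ) ^ 2 * E)
    fun i _ => l2_sum_le (sp (M * h) K) (pdiv (rad h)) (f i) (hpiece i)
  rw [sum_congr rfl fun k hk => by rw [hT k hk]]
  refine h1.trans ?_
  have h2 := hd Q (rad h) hr0 hrQ
  have h3 : ((univ : Finset I).card : ℝ) ≤ Fintype.card I + 1 := by
    rw [card_univ]; linarith
  have h4 : Q ^ ε = (Q ^ (ε / 3)) ^ 3 := by
    rw [← Real.rpow_natCast, ← Real.rpow_mul hQ.le]; congr 1; push_cast; ring
  calc ((univ : Finset I).card : ℝ) ^ 2 * (((pdiv (rad h)).card : ℝ) ^ 2 * E)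
      ≤ ((Fintype.card I : ℝ) + 1) ^ 2 * ((Cd * Q ^ (ε / 3)) ^ 2 * E) :=
        mul_le_mul (pow_le_pow_left₀ (Nat.cast_nonneg _) h3 2)
          (mul_le_mul_of_nonneg_right (pow_le_pow_left₀ (Nat.cast_nonneg _) h2 2) hE0)
          (mul_nonneg (sq_nonneg _) hE0) (sq_nonneg _)
    _ = _ := by rw [hE, h4]; ring

end Crest.Agent.R17.En
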