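import Crest.Agent.R17.LBasic
import Crest.Prelude.Def_HeckeK3

/-!
# Row 17, module M16: Hecke characters of `ℚ(√-3)` in terms of `O`
-/

set_option autoImplicit false

noncomputable section

namespace Crest.Agent.R17.FinB

open Crest.NumberTheoryR.EisensteinField

theorem exists_equiv : Nonempty (O ≃+* O3) := by
  have : IsCyclotomicExtension {3} ℚ K3 := CyclotomicField.isCyclotomicExtension 3 ℚ
  have hζ := IsCyclotomicExtension.zeta_spec 3 ℚ K3
  set η : O3 := hζ.toInteger with hη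
  have h1 : η * η = (-1 : ℤ) • (1 : O3) + (-1 : ℤ) • η := by
    have := hζ.toInteger_isPrimitiveRoot.geom_sum_eq_zero (by norm_num)
    simp only [Finset.sum_range_succ, Finset.sum_range_zero, ← hη] at this
    simp only [neg_smul, one_smul]
    linear_combination this
  let φ : O →ₐ[ℤ] O3 := QuadraticAlgebra.lift ⟨η, h1⟩
  refine ⟨RingEquiv.ofBijective φ ⟨(injective_iff_map_eq_zero φ).2 fun z hz => ?_, fun y => ?_⟩⟩
  · have h2 : φ (z * cj z) = 0 := by rw [map_mul, hz, zero_mul]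
    rw [mul_cj, map_natCast, Nat.cast_eq_zero] at h2
    exact nm_eq_zero.1 h2
  · have h2 : Algebra.adjoin ℤ {η} ≤ φ.range := by
      rw [Algebra.adjoin_le_iff, Set.singleton_subset_iff]
      refine ⟨om, ?_⟩
      change (0 : ℤ) • (1 : O3) + (1 : ℤ) • η = η
      simp
    rw [IsCyclotomicExtension.Rat.adjoin_singleton_eq_top hζ] at h2
    exact h2 Algebra.mem_top

variable (e : O ≃+* O3)

/-- the ideal generated by the image of `x` -/
def sp (x : O) : Ideal O3 := Ideal.span {e x}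

theorem sp_mul (x y : O) : sp e (x * y) = sp e x * sp e y := by
  rw [sp, sp, sp, map_mul, Ideal.span_singleton_mul_span_singleton]

theorem sp_surj (I : Ideal O3) : ∃ x, sp e x = I := by
  obtain ⟨x, hx⟩ := (IsPrincipalIdealRing.principal (I.comap e)).principal
  refine ⟨x, ?_⟩
  rw [← Ideal.map_comap_of_surjective e e.surjective I, hx, Ideal.submodule_span_eq,
    Ideal.map_span, Set.image_singleton, sp]

theorem sp_dvd {x y : O} : sp e x ∣ sp e y ↔ x ∣ y := by
  rw [sp, sp, Ideal.dvd_span_singleton, Ideal.mem_span_singleton, map_dvd_iff]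

theorem sp_eq {x y : O} : sp e x = sp e y ↔ Associated x y := by
  rw [← dvd_dvd_iff_associated, ← sp_dvd e, ← sp_dvd e]
  exact ⟨fun h => h ▸ ⟨dvd_rfl, dvd_rfl⟩, fun h =>
    le_antisymm (Ideal.le_of_dvd h.2) (Ideal.le_of_dvd h.1)⟩

theorem sp_sup {x y : O} : sp e x ⊔ sp e y = ⊤ ↔ IsCoprime x y := by
  rw [← Ideal.isCoprime_iff_sup_eq, sp, sp, Ideal.isCoprime_span_singleton_iff]
  exact ⟨fun h => by simpa using h.map (e.symm : O3 →+* O), fun h => h.map (e : O →+* O3)⟩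

theorem absNorm_sp (x : O) : Ideal.absNorm (sp e x) = nm x := by
  rw [Ideal.absNorm_apply, Submodule.cardQuot_apply, ← card_quot_aux]
  refine (Nat.card_congr (Ideal.quotientEquiv (Ideal.span {x}) (sp e x) e ?_).toEquiv).symm
  rw [Ideal.map_span, Set.image_singleton, sp]
  rfl

variable {g : O} (ψ : RayClassChar (sp e g))

/-- the Hecke character on elements -/
def Ψ (x : O) : ℂ := ψ.toFun (sp e x)

theorem Ψ_mul (x y : O) : Ψ e ψ (x * y) = Ψ e ψ x * Ψ e ψ y := by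
  rw [Ψ, sp_mul, ψ.map_mul, Ψ, Ψ]

theorem Ψ_eq_one {x : O} (h : g ∣ x - 1) : Ψ e ψ x = 1 := by
  refine ψ.map_span_of_sub_one_mem _ (Ideal.mem_span_singleton.2 ?_)
  rw [← map_one e, ← map_sub]
  exact map_dvd e h

theorem Ψ_eq_zero {x : O} (h : ¬ IsCoprime x g) : Ψ e ψ x = 0 :=
  ψ.eq_zero_of_not_coprime _ fun h' => h ((sp_sup e).1 h')

theorem Ψ_congr {x y : O} (hx : IsCoprime x g) (h : g ∣ x - y) : Ψ e ψ x = Ψ e ψ y := by
  obtain ⟨a, b, hab⟩ := hx
  obtain ⟨c, hc⟩ := h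
  have h1 := Ψ_eq_one e ψ (x := a * x) ⟨-b, by linear_combination hab⟩
  have h2 := Ψ_eq_one e ψ (x := a * y) ⟨-b - a * c, by linear_combination hab - a * hc⟩
  rw [Ψ_mul] at h1 h2
  exact mul_left_cancel₀ (left_ne_zero_of_mul_eq_one h1) (h1.trans h2.symm)

theorem exists_ν (k : O) : ∃ ν : Chr (k * g), ∀ n, IsCoprime n (k * g) → ev ν n = Ψ e ψ n :=
  exists_chr _ (Ψ_eq_one e ψ (by simp)) (fun _ _ _ _ => Ψ_mul e ψ _ _) fun _ _ hm h =>
    Ψ_congr e ψ hm.of_mul_right_right ((dvd_mul_left g k).trans h)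

theorem norm_Ψ_le (hg : g ≠ 0) (x : O) : ‖Ψ e ψ x‖ ≤ 1 := by
  by_cases h : IsCoprime x g
  · obtain ⟨ν, hν⟩ := exists_ν e ψ 1
    rw [← hν x (by rwa [one_mul])]
    exact norm_ev_le (by rwa [one_mul]) ν x
  · simp [Ψ_eq_zero e ψ h]

theorem lift_coprime {x q p : O} (hp : Prime p) (h : IsCoprime x q) :
    ∃ y, q ∣ x - y ∧ IsCoprime y (q * p) := by
  by_cases hx : p ∣ x
  · refine ⟨x + q * 1, ⟨-1, by ring⟩, (h.add_mul_left_left 1).mul_right
      (hp.irreducible.coprime_iff_not_dvd.2 fun h' => ?_).symm⟩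
    rw [mul_one, dvd_add_right hx] at h'
    exact hp.not_isUnit (h.isUnit_of_dvd' hx h')
  · exact ⟨x, by simp, h.mul_right (hp.irreducible.coprime_iff_not_dvd.2 hx).symm⟩

theorem coprime_72 {x : O} (h1 : ¬ lam ∣ x) (h2 : ¬ (-2 : O) ∣ x) : IsCoprime x 72 := by
  have e72 : (72 : O) = -((-2) ^ 3 * lam ^ 4) := by
    rw [show lam ^ 4 = (lam ^ 2) ^ 2 by ring, lam_sq]
    norm_num
  rw [e72]
  exact ((prime_neg_two.irreducible.coprime_iff_not_dvd.2 h2).symm.pow_right.mul_right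
    (prime_lam.irreducible.coprime_iff_not_dvd.2 h1).symm.pow_right).neg_right

theorem principal {ν : Chr (72 * g)} (hν : ∀ n, IsCoprime n (72 * g) → ev ν n = Ψ e ψ n)
    (h : Princ ν 1) : IsPrincipalChar ψ := by
  intro I hI
  obtain ⟨x, rfl⟩ := sp_surj e I
  have hx := (sp_sup e).1 hI
  obtain ⟨y, hy, hy'⟩ := lift_coprime prime_lam hx
  have hy0 := hy'.of_mul_right_left
  obtain ⟨z, hz, hz'⟩ := lift_coprime prime_neg_two hy'
  have z1 : ¬ lam ∣ z :=
    prime_lam.irreducible.coprime_iff_not_dvd.1 hz'.of_mul_right_left.of_mul_right_right.symm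
  have z2 : ¬ (-2 : O) ∣ z :=
    prime_neg_two.irreducible.coprime_iff_not_dvd.1 hz'.of_mul_right_right.symm
  obtain ⟨u, hu, hp⟩ := exists_unit_primary z1
  have hc : IsCoprime (u * z) (72 * g) := (isCoprime_mul_unit_left_left hu _ _).2
    ((coprime_72 z1 z2).mul_right hz'.of_mul_right_left.of_mul_right_left)
  have h1 := h _ hp (by rwa [mul_one])
  rw [rc, if_pos hp, sym_one_right, map_one, mul_one, hν _ hc, Ψ,
    (sp_eq e).2 (associated_unit_mul_left z u hu)] at h1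
  change Ψ e ψ x = 1
  rw [Ψ_congr e ψ hx hy, Ψ_congr e ψ hy0 ((dvd_mul_right g lam).trans hz)]
  exact h1

/-- the general term of the Dirichlet series -/
def tm (s : ℂ) (I : Ideal O3) : ℂ := ψ.toFun I * (Ideal.absNorm I : ℂ) ^ (-s)

theorem tm_mul (s : ℂ) (I J : Ideal O3) : tm e ψ s (I * J) = tm e ψ s I * tm e ψ s J := by
  rw [tm, tm, tm, ψ.map_mul, map_mul, Nat.cast_mul, Complex.natCast_mul_natCast_cpow]
  ring

theorem tm_sp (s : ℂ) (x : O) : tm e ψ s (sp e x) = Ψ e ψ x * (nm x : ℂ) ^ (-s) := by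
  rw [tm, absNorm_sp, Ψ]

theorem norm_tm_le (hg : g ≠ 0) {s : ℂ} (hs : 0 < s.re) (x : O) :
    ‖tm e ψ s (sp e x)‖ ≤ nr x ^ (-s.re) := by
  rw [tm_sp, norm_mul, Complex.norm_natCast_cpow_of_re_ne_zero _ (by simpa using hs.ne'),
    Complex.neg_re]
  exact mul_le_of_le_one_left (by positivity) (norm_Ψ_le e ψ hg x)

theorem summable_tm (hg : g ≠ 0) {s : ℂ} (hs : 1 < s.re) : Summable (tm e ψ s) := by
  choose γ hγ using sp_surj e
  have hinj : Function.Injective γ := fun I J h => by rw [← hγ I, ← hγ J, h]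
  refine Summable.of_norm_bounded ((summable_nr_rpow hs).comp_injective hinj) fun I => ?_
  conv_lhs => rw [← hγ I]
  exact norm_tm_le e ψ hg (by linarith) _

theorem LSeries_eq (hg : g ≠ 0) {s : ℂ} (hs : 1 < s.re) :
    LSeries (coeff ψ) s = ∑' I, tm e ψ s I := by
  rw [← ((summable_tm e ψ hg hs).hasSum.tsum_fiberwise Ideal.absNorm).tsum_eq, LSeries]
  refine tsum_congr fun n => ?_
  have hs0 : s ≠ 0 := by
    rintro rfl
    simp at hs
    linarith
  have h1 : LSeries.term (coeff ψ) s n = coeff ψ n * (n : ℂ) ^ (-s) := by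
    rcases eq_or_ne n 0 with rfl | hn
    · simp [hs0]
    · rw [LSeries.term_of_ne_zero hn, Complex.cpow_neg, div_eq_mul_inv]
  rw [h1, coeff, ← tsum_eq_finsum (L := .unconditional _), ← tsum_mul_right, tsum_subtype]
  · refine tsum_congr fun I => ?_
    by_cases h : Ideal.absNorm I = n
    · rw [if_pos h, Set.indicator_of_mem (by exact h), tm, h]
    · rw [if_neg h, Set.indicator_of_notMem (by exact h), zero_mul]
  · refine (Ideal.finite_setOfPred_absNorm_eq n).subset fun I hI => ?_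
    by_contra h
    exact hI (if_neg h)

open Classical in
theorem remove {f : Ideal O3 → ℂ} (hf : Summable f) {P : Ideal O3} (hP : P ≠ 0) {c : ℂ}
    (h : ∀ J, f (P * J) = c * f J) :
    ∑' I, (if P ∣ I then 0 else f I) = (1 - c) * ∑' I, f I := by
  have h1 : ∑' I, (if P ∣ I then f I else 0) = c * ∑' I, f I := by
    rw [← tsum_mul_left, ← (mul_right_injective₀ hP).tsum_eq]
    · simp only [dvd_mul_right, if_true, h]
    · intro I hI
      by_contra h'
      exact hI (if_neg fun ⟨J, hJ⟩ => h' ⟨J, hJ.symm⟩)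
  have s1 : Summable fun I => if P ∣ I then f I else 0 := hf.indicator {I | P ∣ I}
  rw [sub_mul, one_mul, ← h1, ← hf.tsum_sub s1]
  refine tsum_congr fun I => ?_
  split_ifs <;> simp

theorem Lser_eq (hg : g ≠ 0) {ν : Chr (72 * g)}
    (hν : ∀ n, IsCoprime n (72 * g) → ev ν n = Ψ e ψ n) {s : ℂ} (hs : 1 < s.re) :
    Lser ν 1 s = (1 - tm e ψ s (sp e (-2))) * ((1 - tm e ψ s (sp e lam)) * LSeries (coeff ψ) s) := by
  classical
  have hf := summable_tm e ψ hg hs
  have n0 : ∀ {x : O}, x ≠ 0 → sp e x ≠ 0 := fun {x} hx h =>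
    hx (e.map_eq_zero_iff.1 (Ideal.span_singleton_eq_bot.1 h))
  have s1 : Summable fun I => if sp e lam ∣ I then 0 else tm e ψ s I := by
    refine (hf.indicator {I | ¬ sp e lam ∣ I}).congr fun I => ?_
    by_cases h : sp e lam ∣ I <;> simp [h]
  have hl2 : ¬ lam ∣ (-2 : O) := fun h => by
    have := nm_dvd_of_dvd h
    rw [nm_lam, nm_neg, BasicA.nm_two] at this
    omega
  rw [LSeries_eq e ψ hg hs, ← remove hf (n0 prime_lam.ne_zero) (tm_mul e ψ s _),
    ← remove s1 (n0 prime_neg_two.ne_zero) fun J => ?_]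
  swap
  · obtain ⟨x, rfl⟩ := sp_surj e J
    simp only [← sp_mul, sp_dvd, prime_lam.dvd_mul, hl2, false_or]
    split_ifs
    · rw [mul_zero]
    · rw [sp_mul, tm_mul]
  have hinj : Function.Injective fun n : {n : O | Primary n} => sp e n := fun a b h =>
    Subtype.ext (a.2.eq_of_associated b.2 ((sp_eq e).1 h))
  rw [← hinj.tsum_eq, Lser, ← tsum_subtype_eq_of_support_subset (s := {n : O | Primary n})]
  · refine tsum_congr fun ⟨n, hn⟩ => ?_
    have hn' : Primary n := hn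
    simp only [rc, if_pos hn', sym_one_right, map_one, mul_one, sp_dvd, if_neg hn'.not_lam_dvd,
      tm_sp, Complex.ofReal_natCast]
    split_ifs with h2
    · rw [ev_eq_zero, zero_mul]
      exact fun h => prime_neg_two.not_isUnit
        (h.isUnit_of_dvd' h2 (Dvd.dvd.mul_right ⟨-36, by norm_num⟩ g))
    · by_cases h3 : IsCoprime n g
      · rw [hν n ((coprime_72 hn'.not_lam_dvd h2).mul_right h3)]
      · rw [Ψ_eq_zero e ψ h3, ev_eq_zero ν fun h => h3 h.of_mul_right_right]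
  · intro n hn
    by_contra h
    exact hn (by simp only [rc, if_neg (show ¬ Primary n from h), zero_mul])
  · intro I hI
    obtain ⟨x, rfl⟩ := sp_surj e I
    have h1 : ¬ lam ∣ x := fun h => hI (by simp only [sp_dvd, if_pos h, ite_self])
    obtain ⟨u, hu, hp⟩ := exists_unit_primary h1
    exact ⟨⟨_, hp⟩, (sp_eq e).2 (associated_unit_mul_left x u hu)⟩

theorem one_sub_ne (hg : g ≠ 0) {s : ℂ} (hs : 0 < s.re) {x : O} (hx : 1 < nm x) :
    1 - tm e ψ s (sp e x) ≠ 0 := by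
  intro h
  have h1 := norm_tm_le e ψ hg hs x
  rw [← sub_eq_zero.1 h, norm_one] at h1
  exact absurd (Real.rpow_lt_one_of_one_lt_of_neg (by exact_mod_cast hx) (by linarith))
    (not_lt.2 h1)

theorem differentiable_tm {x : O} (hx : x ≠ 0) : Differentiable ℂ fun s => tm e ψ s (sp e x) := by
  simp only [tm_sp]
  exact (differentiable_id.neg.const_cpow
    (Or.inl (Nat.cast_ne_zero.2 fun h => hx (nm_eq_zero.1 h)))).const_mul _

theorem hecke (h : ZeroFree (7 / 8)) (m : Ideal O3) (hm : m ≠ ⊥) (ψ : RayClassChar m) :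
    ∃ G : ℂ → ℂ, (∀ s : ℂ, 1 < s.re → G s = LSeries (coeff ψ) s) ∧
      ∀ s : ℂ, 7 / 8 < s.re → (¬ IsPrincipalChar ψ ∨ s ≠ 1) → DifferentiableAt ℂ G s ∧ G s ≠ 0 := by
  obtain ⟨e⟩ := exists_equiv
  obtain ⟨g, rfl⟩ := sp_surj e m
  have hg : g ≠ 0 := by
    rintro rfl
    exact hm (by simp [sp])
  obtain ⟨ν, hν⟩ := exists_ν e ψ 72
  have h72 : (72 : O) ≠ 0 := fun h => by
    have := nm_natCast 72
    rw [Nat.cast_ofNat, h, nm_zero] at this
    omega
  have hM : Adm (72 * g) := ⟨mul_ne_zero h72 hg, dvd_mul_right _ _⟩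
  obtain ⟨hL1, hL2, hL3⟩ := isL_Lc hM ν one_ne_zero
  have a1 : ∀ s : ℂ, 0 < s.re → 1 - tm e ψ s (sp e lam) ≠ 0 := fun s hs =>
    one_sub_ne e ψ hg hs (by rw [nm_lam]; norm_num)
  have a2 : ∀ s : ℂ, 0 < s.re → 1 - tm e ψ s (sp e (-2)) ≠ 0 := fun s hs =>
    one_sub_ne e ψ hg hs (by rw [nm_neg, BasicA.nm_two]; norm_num)
  refine ⟨fun s => (1 - tm e ψ s (sp e lam))⁻¹ * ((1 - tm e ψ s (sp e (-2)))⁻¹ * Lc ν 1 s),
    fun s hs => ?_, fun s hs hs1 => ?_⟩
  · simp only
    rw [hL2 s hs, Lser_eq e ψ hg hν hs, inv_mul_cancel_left₀ (a2 s (by linarith)),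
      inv_mul_cancel_left₀ (a1 s (by linarith))]
  · have hs2 : s ≠ 1 ∨ ¬ Princ ν 1 := hs1.symm.imp_right fun h1 h2 => h1 (principal e ψ hν h2)
    have b1 := a1 s (by linarith)
    have b2 := a2 s (by linarith)
    have hd : DifferentiableAt ℂ (Lc ν 1) s := hs2.elim
      (fun h1 => hL1.differentiableAt (isOpen_compl_singleton.mem_nhds h1)) fun h1 => hL3 h1 s
    refine ⟨(((differentiable_tm e ψ prime_lam.ne_zero s).const_sub 1).inv b1).mul
      ((((differentiable_tm e ψ prime_neg_two.ne_zero s).const_sub 1).inv b2).mul hd), ?_⟩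
    exact mul_ne_zero (inv_ne_zero b1)
      (mul_ne_zero (inv_ne_zero b2) (h _ hM ν 1 one_ne_zero s hs hs2))

end Crest.Agent.R17.FinB
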