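import Crest.Agent.R17.LBasic
import Crest.Agent.R17.FinalAuxA
import Crest.Prelude.Def_HeckeK3
import Crest.Agent.R17.FinalAuxB

/-!
# Row 17, module M16: from `ZeroFree (7/8)` to the two statements
-/

set_option autoImplicit false

noncomputable section

namespace Crest.Agent.R17

open Crest.NumberTheoryR.EisensteinField

/-- For `Re s ≥ 1` use Mathlib (`DirichletCharacter.LFunction_ne_zero_of_one_le_re`).  For
`Re s < 1`: `M = 72 N`, `ν(n) = χ(N n)`; `Lc ν 1 = L(χ') L(χ' χ₋₃)` on `{1}ᶜ`, `χ'` the lift of `χ`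
to level `6N` (number of primary elements of norm `k` is `∑_{d ∣ k} χ₋₃(d)` for `(k,6)=1`), and
`L(χ') = L(χ) ∏ (1 - χ(p) p^{-s})` (`LFunction_changeLevel`). -/
theorem dirichlet_of_zeroFree (h : ZeroFree (7 / 8)) {N : ℕ} [NeZero N]
    (χ : DirichletCharacter ℂ N) (s : ℂ) (hχs : χ ≠ 1 ∨ s ≠ 1) (hs : 7 / 8 < s.re) :
    χ.LFunction s ≠ 0 := FinalA.dirichlet h χ s hχs hs

/-- Ring isomorphism `O3 ≃ O`; `m = (g)`, `M = 72 g`, `ν(n) = ψ((n))`; every non-zero ideal is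
`(λ^j (-2)^k n)` with a unique primary odd `n`, so
`G(s) = (1 - ψ(λ) 3^{-s})⁻¹ (1 - ψ(2) 4^{-s})⁻¹ Lc ν 1 s`, `|ψ| ≤ 1`. -/
theorem hecke_of_zeroFree (h : ZeroFree (7 / 8)) (m : Ideal O3) (hm : m ≠ ⊥)
    (ψ : RayClassChar m) :
    ∃ G : ℂ → ℂ, (∀ s : ℂ, 1 < s.re → G s = LSeries (coeff ψ) s) ∧
      ∀ s : ℂ, 7 / 8 < s.re → (¬ IsPrincipalChar ψ ∨ s ≠ 1) → DifferentiableAt ℂ G s ∧ G s ≠ 0 :=
  FinB.hecke h m hm ψ

end Crest.Agent.R17
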