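import Crest.Agent.R17.Symbol

/-!
# Row 17, module M3: Gauss sums (no reciprocity law is used in this file)
-/

set_option autoImplicit false
set_option linter.unusedVariables false

noncomputable section

namespace Crest.Agent.R17

open scoped ComplexConjugate

/-- Fourier coefficient of a function modulo `n`. -/
def Gauss_G (f : O → ℂ) (n k : O) : ℂ := ∑ x ∈ res n, f x * eq (k * x) n

theorem Gauss_eq_zero (n : O) : eq 0 n = 1 := by simp [eq]

theorem Gauss_per {f : O → ℂ} {m n : O} (hf : ∀ x y, m ∣ x - y → f x = f y) (h : m ∣ n) (k x y : O)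
    (hxy : n ∣ x - y) : f x * eq (k * x) n = f y * eq (k * y) n := by
  rw [hf x y (h.trans hxy), eq_congr (show n ∣ k * x - k * y from mul_sub k x y ▸ hxy.mul_left k)]

theorem Gauss_sym_per (n : O) (j : ℕ) (x y : O) (h : n ∣ x - y) : sym n x ^ j = sym n y ^ j := by
  rw [sym_congr ((rad_dvd n).trans h)]

theorem Gauss_cub_per (n x y : O) (h : n ∣ x - y) : cub n x = cub n y :=
  cub_congr ((rad_dvd n).trans h)

theorem Gauss_sym_pow {n : O} (hn : Primary n) (a : O) {j : ℕ} (hj : j ≠ 0) (b : ℕ) :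
    sym n a ^ (j + 6 * b) = sym n a ^ j := by
  induction b with
  | zero => rfl
  | succ b ih => rw [mul_add, mul_one, ← add_assoc, sym_pow_add_six hn a (by omega), ih]

theorem Gauss_sym_six {n a : O} (hn : Primary n) (h : IsCoprime n a) (j : ℕ) :
    sym n a ^ (j + 6) = sym n a ^ j := by rw [pow_add, sym_pow_six hn h, mul_one]

theorem Gauss_conj_mul {z : ℂ} (h : ‖z‖ = 1) : conj z * z = 1 := by
  rw [Complex.conj_mul', h]; simp

theorem Gauss_unit {f : O → ℂ} {n : O} (hn : n ≠ 0) (hf : ∀ x y, n ∣ x - y → f x = f y)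
    (hm : ∀ x y, f (x * y) = f x * f y) {y : O} (hy : IsCoprime y n) (h1 : ‖f y‖ = 1) (k : O) :
    Gauss_G f n (k * y) = conj (f y) * Gauss_G f n k := by
  have h := sum_res_affine hn _ (Gauss_per hf dvd_rfl k) hy 0
  rw [Gauss_G, Gauss_G, ← h, Finset.mul_sum]
  refine Finset.sum_congr rfl fun x _ => ?_
  rw [add_zero, hm, ← mul_assoc, ← mul_assoc, Gauss_conj_mul h1, one_mul, mul_assoc k]

theorem Gauss_crt {f g : O → ℂ} {m n : O} (hm : m ≠ 0) (hn : n ≠ 0) (h : IsCoprime m n)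
    (hf : ∀ x y, m ∣ x - y → f x = f y) (hg : ∀ x y, n ∣ x - y → g x = g y)
    (hf' : ∀ x y, f (x * y) = f x * f y) (hg' : ∀ x y, g (x * y) = g x * g y) (k : O) :
    Gauss_G (fun x => f x * g x) (m * n) k = f n * g m * Gauss_G f m k * Gauss_G g n k := by
  rw [Gauss_G, sum_res_crt hm hn h _ (Gauss_per (m := m * n) (fun x y hxy => by
    rw [hf x y ((dvd_mul_right m n).trans hxy), hg x y ((dvd_mul_left n m).trans hxy)])
    dvd_rfl k), Gauss_G, Gauss_G, mul_assoc, Finset.sum_mul_sum, Finset.mul_sum]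
  refine Finset.sum_congr rfl fun x _ => ?_
  rw [Finset.mul_sum]
  refine Finset.sum_congr rfl fun y _ => ?_
  rw [hf _ (n * x) ⟨y, by ring⟩, hg _ (m * y) ⟨x, by ring⟩, hf', hg',
    show k * (n * x + m * y) = n * (k * x) + m * (k * y) by ring, eq_crt hm hn]
  ring

theorem Gauss_dvd {f : O → ℂ} {n k : O} (h : n ∣ k) : Gauss_G f n k = ∑ x ∈ res n, f x :=
  Finset.sum_congr rfl fun x _ => by
    rw [eq_congr (y := 0) (by simpa using h.mul_right x), Gauss_eq_zero, mul_one]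

open Classical in
theorem Gauss_delta {f : O → ℂ} {n : O} (hn : n ≠ 0) (hf : ∀ x y, n ∣ x - y → f x = f y) (a : O) :
    ∑ x ∈ res n, (if n ∣ a - x then f x else 0) = f a := by
  obtain ⟨r, ⟨hr, hr'⟩, hu⟩ := exists_unique_res hn a
  rw [Finset.sum_eq_single_of_mem r hr fun b hb hbr => if_neg fun h => hbr (hu b ⟨hb, h⟩),
    if_pos hr', hf a r hr']

theorem Gauss_norm {f : O → ℂ} {n : O} (hn : n ≠ 0) (hf : ∀ x y, n ∣ x - y → f x = f y)
    (h1 : f 1 = 1) (h : ∀ k, Gauss_G f n k = conj (f k) * Gauss_G f n 1) :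
    ‖Gauss_G f n 1‖ = Real.sqrt (nr n) := by
  classical
  have key : conj (Gauss_G f n 1) * Gauss_G f n 1 = nm n := by
    have e1 : conj (Gauss_G f n 1) * Gauss_G f n 1 =
        ∑ k ∈ res n, ∑ x ∈ res n, f x * conj (eq ((1 - x) * k) n) := by
      conv_lhs => rw [Gauss_G, map_sum, Finset.sum_mul]
      refine Finset.sum_congr rfl fun k _ => ?_
      rw [map_mul, mul_right_comm, ← Gauss_G, ← h, Gauss_G, Finset.sum_mul]
      refine Finset.sum_congr rfl fun x _ => ?_
      rw [← eq_neg, ← eq_neg, mul_assoc, ← eq_add]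
      congr 2
      ring
    rw [e1, Finset.sum_comm, ← one_mul (nm n : ℂ), ← h1,
      ← Gauss_delta (f := fun x => f x * nm n) hn (fun x y hxy => by rw [hf x y hxy]) 1]
    refine Finset.sum_congr rfl fun x _ => ?_
    rw [← Finset.mul_sum, ← map_sum, sum_res_eq_char hn]
    split_ifs <;> simp
  rw [Complex.conj_mul'] at key
  rw [← Real.sqrt_sq (norm_nonneg _)]
  congr 1
  exact_mod_cast key

open Classical in
theorem Gauss_pow {f : O → ℂ} {p : O} (hp : p ≠ 0) (hf : ∀ x y, p ∣ x - y → f x = f y) (i : ℕ)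
    (k : O) : Gauss_G f (p ^ (i + 1)) k =
      if p ^ i ∣ k then (nm p : ℂ) ^ i * Gauss_G f p (k / p ^ i) else 0 := by
  have hi := pow_ne_zero i hp
  rw [Gauss_G, pow_succ', sum_res_mul hp hi _ (Gauss_per hf (dvd_mul_right _ _) k)]
  have e : ∀ x, ∑ y ∈ res (p ^ i), f (x + p * y) * eq (k * (x + p * y)) (p * p ^ i) =
      f x * eq (k * x) (p * p ^ i) * if p ^ i ∣ k then (nm p : ℂ) ^ i else 0 := fun x => by
    rw [← Nat.cast_pow, ← nm_pow, ← sum_res_eq_char hi, Finset.mul_sum]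
    refine Finset.sum_congr rfl fun y _ => ?_
    rw [hf _ x ⟨y, by ring⟩, mul_add, eq_add, mul_left_comm k p, eq_mul_mul hp, mul_assoc]
  simp only [e]
  split_ifs with h
  · obtain ⟨k, rfl⟩ := h
    rw [mul_div_cancel_left₀ _ hi, Gauss_G, Finset.mul_sum]
    refine Finset.sum_congr rfl fun x _ => ?_
    rw [mul_comm p, mul_assoc (p ^ i), eq_mul_mul hi, mul_comm]
  · simp

theorem Gauss_split {n k : O} (hn : Primary n) (hs : Squarefree n) (h : ¬ IsCoprime n k) :
    ∃ p m, Prime p ∧ Primary p ∧ Primary m ∧ IsCoprime p m ∧ p ∣ k ∧ n = p * m := by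
  obtain ⟨z, hz, h1, h2⟩ : ∃ z, Prime z ∧ z ∣ n ∧ z ∣ k := by
    by_contra! H
    exact h (isCoprime_of_prime_dvd (fun h => hn.ne_zero h.1) H)
  obtain ⟨u, hu, hp⟩ := exists_unit_primary fun h => hn.not_lam_dvd (h.trans h1)
  obtain ⟨m, rfl⟩ := hu.mul_left_dvd.2 h1
  exact ⟨_, m, (prime_isUnit_mul hu).2 hz, hp, hp.of_mul hn,
    (squarefree_mul_iff.1 hs).1.isCoprime, hu.mul_left_dvd.2 h2, rfl⟩

theorem gs_congr (j : ℕ) {n k k' : O} (h : n ∣ k - k') : gs j n k = gs j n k' :=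
  Finset.sum_congr rfl fun x _ => by
    rw [eq_congr (show n ∣ k * x - k' * x from sub_mul k k' x ▸ h.mul_right x)]
theorem gs_add_six (j : ℕ) {n : O} (hn : Primary n) (k : O) : gs (j + 6) n k = gs j n k :=
  Finset.sum_congr rfl fun x _ => by rw [sym_pow_add_six hn x (by omega)]
@[simp] theorem gs_one (j : ℕ) (k : O) : gs j 1 k = 1 := by
  simpa [gs] using sum_res_eq_char one_ne_zero k
@[simp] theorem gam_one (j : ℕ) : gam j 1 = 1 := by simp [gam]
@[simp] theorem gc_one (k : O) : gc 1 k = 1 := by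
  simpa [gc] using sum_res_eq_char one_ne_zero k
theorem gs_two {n : O} (hn : Primary n) (k : O) : gs 2 n k = gc n k :=
  Finset.sum_congr rfl fun x _ => by rw [sym_pow_add_six hn x two_ne_zero, sym_sq hn]
/-- Scaling the frequency by a unit modulo `n`. -/
theorem gs_mul_unit (j : ℕ) {n : O} (hn : PO n) {y : O} (hy : IsCoprime y n) (k : O) :
    gs j n (k * y) = conj (sym n y ^ j) * gs j n k := by
  rw [← Gauss_sym_six hn.1 hy.symm]
  exact Gauss_unit hn.1.ne_zero (Gauss_sym_per n _) (fun x y => by rw [sym_mul_right hn, mul_pow])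
    hy (by rw [norm_pow, norm_sym hn.1 hy.symm, one_pow]) k
theorem gc_mul_unit {n : O} (hn : Primary n) {y : O} (hy : IsCoprime y n) (k : O) :
    gc n (k * y) = conj (cub n y) * gc n k :=
  Gauss_unit hn.ne_zero (Gauss_cub_per n) (cub_mul_right n) hy (norm_cub hn hy.symm) k
/-- Twisted multiplicativity. -/
theorem gs_mul (j : ℕ) {m n : O} (hm : PO m) (hn : PO n) (h : IsCoprime m n) (k : O) :
    gs j (m * n) k = sym m n ^ j * sym n m ^ j * gs j m k * gs j n k := by
  rw [← Gauss_sym_six hm.1 h, ← Gauss_sym_six hn.1 h.symm]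
  simp only [gs, sym_mul_left hm.1.ne_zero hn.1.ne_zero, mul_pow]
  exact Gauss_crt hm.1.ne_zero hn.1.ne_zero h (Gauss_sym_per m _) (Gauss_sym_per n _)
    (fun x y => by rw [sym_mul_right hm, mul_pow]) (fun x y => by rw [sym_mul_right hn, mul_pow]) k
theorem gc_mul {m n : O} (hm : Primary m) (hn : Primary n) (h : IsCoprime m n) (k : O) :
    gc (m * n) k = cub m n * cub n m * gc m k * gc n k := by
  simp only [gc, cub_mul_left hm.ne_zero hn.ne_zero]
  exact Gauss_crt hm.ne_zero hn.ne_zero h (Gauss_cub_per m) (Gauss_cub_per n)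
    (cub_mul_right m) (cub_mul_right n) k
theorem conj_gs (j : ℕ) {n : O} (hn : PO n) (k : O) :
    conj (gs j n k) = gs (5 * j) n (-k) := by
  rw [gs, map_sum]
  refine Finset.sum_congr rfl fun x _ => ?_
  rw [map_mul, map_pow, conj_sym hn.1, ← pow_mul, ← eq_neg, neg_mul,
    ← Gauss_sym_pow hn.1 x (j := 5 * j + 6) (by omega) 4]
  congr 2
/-- Primitive characters: squarefree modulus, `6 ∤ j`. -/
theorem gs_sqfree {j : ℕ} (hj : ¬ 6 ∣ j) {n : O} (hn : PO n) (hs : Squarefree n) (k : O) :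
    gs j n k = conj (sym n k ^ j) * gs j n 1 := by
  by_cases h : IsCoprime n k
  · simpa using gs_mul_unit j hn h.symm 1
  rw [(sym_eq_zero_iff hn.1).2 h, zero_pow (by omega), map_zero, zero_mul]
  obtain ⟨p, m, hp, hp', hm, hc, hk, rfl⟩ := Gauss_split hn.1 hs h
  have h1 := hn.of_dvd hp' (dvd_mul_right _ _)
  rw [gs_mul j h1 (hn.of_dvd hm (dvd_mul_left _ _)) hc, show gs j p k = 0 from
    (Gauss_dvd hk).trans (sum_res_sym_pow hp h1 (by omega)), mul_zero, zero_mul]

theorem Gauss_sum_cub {p : O} (hp : Prime p) (h : Primary p) : ∑ x ∈ res p, cub p x = 0 := by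
  obtain ⟨χ, h3, hχ⟩ := exists_mulChar_cub hp h
  have := Fact.mk hp.ne_zero
  let _ := Fintype.ofFinite (O ⧸ Ideal.span {p})
  simp only [← hχ]
  rw [sum_res_eq_quot hp.ne_zero]
  exact MulChar.sum_eq_zero_of_ne_one (by rintro rfl; simp at h3)

theorem gc_sqfree {n : O} (hn : Primary n) (hs : Squarefree n) (k : O) :
    gc n k = conj (cub n k) * gc n 1 := by
  by_cases h : IsCoprime n k
  · simpa using gc_mul_unit hn h.symm 1
  rw [(cub_eq_zero_iff hn).2 h, map_zero, zero_mul]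
  obtain ⟨p, m, hp, hp', hm, hc, hk, rfl⟩ := Gauss_split hn hs h
  rw [gc_mul hp' hm hc, show gc p k = 0 from (Gauss_dvd hk).trans (Gauss_sum_cub hp hp'),
    mul_zero, zero_mul]

theorem Gauss_norm_gs {j : ℕ} (hj : ¬ 6 ∣ j) {n : O} (hn : PO n) (hs : Squarefree n) :
    ‖gs j n 1‖ = Real.sqrt (nr n) :=
  Gauss_norm hn.1.ne_zero (Gauss_sym_per n _) (by rw [sym_one_right, one_pow]) fun k => by
    rw [sym_pow_add_six hn.1 k (by omega)]
    exact gs_sqfree hj hn hs k

theorem norm_gam {j : ℕ} (hj : ¬ 6 ∣ j) {n : O} (hn : PO n) (hs : Squarefree n) :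
    ‖gam j n‖ = 1 := by
  rw [gam, norm_div, Gauss_norm_gs hj hn hs, Complex.norm_real, Real.norm_of_nonneg (by positivity),
    div_self (Real.sqrt_pos.2 (nr_pos hn.1.ne_zero)).ne']
theorem norm_gc {n : O} (hn : Primary n) (hs : Squarefree n) :
    ‖gc n 1‖ = Real.sqrt (nr n) :=
  Gauss_norm hn.ne_zero (Gauss_cub_per n) (cub_one_right n) (gc_sqfree hn hs)

theorem Gauss_neg_one {n : O} (hn : PO n) : sym n (-1) ^ 2 = 1 := by
  rw [← sym_pow_right hn, neg_one_sq, sym_one_right]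

theorem gam_mul_gam {j : ℕ} (hj : ¬ 6 ∣ j) {n : O} (hn : PO n) (hs : Squarefree n) :
    gam j n * gam (5 * j) n = sym n (-1) ^ j := by
  have h1 := conj_gs j hn 1
  have h2 := Gauss_neg_one hn
  rw [gs_sqfree (by omega) hn hs (-1), map_pow, conj_sym hn.1, ← pow_mul,
    show 5 * (5 * j) = 2 * (12 * j) + j by ring, pow_add, pow_mul, h2, one_pow, one_mul] at h1
  have h3 : conj (gam j n) = sym n (-1) ^ j * gam (5 * j) n := by
    rw [gam, map_div₀, h1, Complex.conj_ofReal, gam, mul_div_assoc]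
  have h4 := Gauss_conj_mul (norm_gam hj hn hs)
  have h5 : (sym n (-1) ^ j) ^ 2 = 1 := by rw [← pow_mul, mul_comm, pow_mul, h2, one_pow]
  rw [h3] at h4
  linear_combination sym n (-1) ^ j * h4 - gam j n * gam (5 * j) n * h5
open Classical in
/-- Ramanujan sum modulo a prime. -/
theorem gs_prime_zero {j : ℕ} (hj : 6 ∣ j) {p : O} (hp : Prime p) (h : PO p) (k : O) :
    gs j p k = (if p ∣ k then (nm p : ℂ) else 0) - 1 := by
  obtain ⟨j, rfl⟩ := hj
  rw [← sum_res_eq_char hp.ne_zero, ← Gauss_eq_zero p, ← mul_zero k,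
    ← Gauss_delta (f := fun x => eq (k * x) p) hp.ne_zero (fun x y hxy =>
      eq_congr (mul_sub k x y ▸ hxy.mul_left k)) 0, ← Finset.sum_sub_distrib]
  refine Finset.sum_congr rfl fun x _ => ?_
  rw [zero_sub, dvd_neg]
  split_ifs with hx
  · rw [(sym_eq_zero_iff h.1).2 fun hc => hp.not_isUnit (hc.isUnit_of_dvd' dvd_rfl hx)]
    simp
  · have hc := hp.coprime_iff_not_dvd.2 hx
    rw [Gauss_sym_six h.1 hc, pow_mul, sym_pow_six h.1 hc]
    simp

open Classical in
theorem Gauss_gs_pow (j i : ℕ) {p : O} (h : PO p) (k : O) : gs j (p ^ (i + 1)) k =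
      if p ^ i ∣ k then (nm p : ℂ) ^ i * gs (j * (i + 1)) p (k / p ^ i) else 0 := by
  refine Eq.trans (Finset.sum_congr rfl fun x _ => ?_)
    (Gauss_pow h.1.ne_zero (Gauss_sym_per p (j * (i + 1) + 6)) i k)
  beta_reduce
  rw [sym_pow_left h.1.ne_zero, ← pow_mul, ← Gauss_sym_pow h.1 x (j := j * (i + 1) + 6) (by omega) i]
  congr 2
  ring

open Classical in
/-- Prime powers, non-principal case: `6 ∤ j i`. -/
theorem gs_prime_pow {j i : ℕ} (hji : ¬ 6 ∣ j * (i + 1)) {p : O} (hp : Prime p) (h : PO p) (k : O) :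
    gs j (p ^ (i + 1)) k =
      if p ^ i ∣ k then (nm p : ℂ) ^ i * gs (j * (i + 1)) p (k / p ^ i) else 0 :=
  Gauss_gs_pow j i h k
open Classical in
/-- Prime powers, principal case. -/
theorem gs_prime_pow_princ {j i : ℕ} (hji : 6 ∣ j * (i + 1)) {p : O} (hp : Prime p) (h : PO p)
    (k : O) : gs j (p ^ (i + 1)) k =
      (if p ^ (i + 1) ∣ k then (nm p : ℂ) ^ (i + 1) else 0) -
        (if p ^ i ∣ k then (nm p : ℂ) ^ i else 0) := by
  have hi := pow_ne_zero i hp.ne_zero
  rw [Gauss_gs_pow j i h, gs_prime_zero hji hp h]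
  by_cases hk : p ^ i ∣ k
  · rw [if_pos hk, if_pos hk]
    obtain ⟨k, rfl⟩ := hk
    rw [mul_div_cancel_left₀ _ hi, pow_succ p, mul_dvd_mul_iff_left hi]
    split_ifs <;> ring
  · rw [if_neg hk, if_neg hk, if_neg fun h => hk ((pow_dvd_pow p i.le_succ).trans h), sub_zero]
open Classical in
/-- The same for the cubic sums (valid also for `p = -2`). -/
theorem gc_prime_pow {i : ℕ} {p : O} (hp : Prime p) (h : Primary p) (k : O) :
    gc (p ^ (i + 1)) k =
      if p ^ i ∣ k then (nm p : ℂ) ^ i *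
        ∑ x ∈ res p, cub p x ^ (i + 1) * eq (k / p ^ i * x) p else 0 := by
  simp only [gc, cub_pow_left hp.ne_zero]
  exact Gauss_pow (f := fun x => cub p x ^ (i + 1)) hp.ne_zero
    (fun x y hxy => by rw [Gauss_cub_per p x y hxy]) i k

theorem Gauss_psi {p : O} (hp : Prime p) : ∃ ψ : AddChar (O ⧸ Ideal.span {p}) ℂ, ψ ≠ 1 ∧
    ∀ a, ψ (Ideal.Quotient.mk _ a) = eq a p := by
  have e : ∀ a : O, eq (Quotient.out (Ideal.Quotient.mk (Ideal.span {p}) a)) p = eq a p := fun a =>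
    eq_congr (Ideal.mem_span_singleton.1 (Ideal.Quotient.eq.1 (Ideal.Quotient.mk_out _)))
  refine ⟨⟨fun x => eq (Quotient.out x) p, ?_, fun x y => ?_⟩, fun h => ?_, e⟩
  · exact (e 0).trans (Gauss_eq_zero p)
  · obtain ⟨x, rfl⟩ := Ideal.Quotient.mk_surjective x
    obtain ⟨y, rfl⟩ := Ideal.Quotient.mk_surjective y
    rw [← map_add, e, e, e, eq_add]
  · have h1 := sum_res_eq_char hp.ne_zero 1
    have h2 : ∀ a, eq a p = 1 := fun a => (e a).symm.trans (DFunLike.congr_fun h _)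
    simp [h2, hp.not_dvd_one, card_res hp.ne_zero, nm_eq_zero, hp.ne_zero] at h1

theorem Gauss_gaussSum {p : O} (hp : Prime p) [Fintype (O ⧸ Ideal.span {p})]
    {ψ : AddChar (O ⧸ Ideal.span {p}) ℂ} (hψ : ∀ a, ψ (Ideal.Quotient.mk _ a) = eq a p)
    (χ : MulChar (O ⧸ Ideal.span {p}) ℂ) {f : O → ℂ} (h : ∀ a, χ (Ideal.Quotient.mk _ a) = f a) :
    Gauss_G f p 1 = gaussSum χ ψ := by
  rw [gaussSum, ← sum_res_eq_quot hp.ne_zero]
  simp only [Gauss_G, h, hψ, one_mul]

theorem Gauss_omC : IsPrimitiveRoot omC 3 := by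
  have h : omC ^ 2 + omC + 1 = 0 := by linear_combination omC_mul
  refine (IsPrimitiveRoot.iff three_pos).2 ⟨by linear_combination (omC - 1) * h, fun l h0 h3 e => ?_⟩
  interval_cases l
  · rw [pow_one] at e
    norm_num [e] at h
  · have : omC = -2 := by linear_combination h - e
    norm_num [this] at h

theorem Gauss_sum_poly {F : Type*} [Field F] [Fintype F] {m : ℕ} (h : 2 * m < Fintype.card F - 1) :
    ∑ x : F, x ^ m * (1 - x) ^ m = 0 := by
  simp only [sub_pow, Finset.mul_sum]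
  rw [Finset.sum_comm]
  refine Finset.sum_eq_zero fun i _ => ?_
  have := FiniteField.sum_pow_lt_card_sub_one F (m + (m - i)) (by omega)
  simp only [pow_add] at this
  calc _ = (-1) ^ (i + m) * (m.choose i : F) * ∑ x : F, x ^ m * x ^ (m - i) := by
        rw [Finset.mul_sum]
        exact Finset.sum_congr rfl fun x _ => by ring
    _ = 0 := by rw [this, mul_zero]

/-- The cube of the cubic Gauss sum (Jacobi sum `J(χ,χ) = -p` for primary `p`). -/
theorem gc_prime_cube {p : O} (hp : Prime p) (h : Primary p) :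
    gc p 1 ^ 3 = -(ι p) * (nm p : ℂ) := by
  obtain ⟨χ, h3, hχ⟩ := exists_mulChar_cub hp h
  obtain ⟨ψ, hψ1, hψ⟩ := Gauss_psi hp
  have := Fact.mk hp.ne_zero
  let _ := Fintype.ofFinite (O ⧸ Ideal.span {p})
  have := PrincipalIdealRing.isMaximal_of_irreducible hp.irreducible
  let _ := Ideal.Quotient.field (Ideal.span {p})
  have hq : Fintype.card (O ⧸ Ideal.span {p}) = nm p := by
    rw [← card_quot hp.ne_zero, Nat.card_eq_fintype_card]
  have hq3 := nm_prime_mod hp h
  have hq1 : nm p ≠ 1 := fun e => hp.not_isUnit (isUnit_iff_nm.2 e)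
  have hg : gc p 1 ^ 3 = nm p * jacobiSum χ χ := by
    have := gaussSum_pow_eq_prod_jacobiSum (χ := χ) (by omega) (AddChar.IsPrimitive.of_ne_one hψ1)
    have e : χ (-1) = 1 := (hχ (-1)).trans (cub_neg_one p)
    rw [h3, ← Gauss_gaussSum hp hψ χ hχ, e, hq] at this
    simpa using! this
  have hc : ∀ x, ∃ c : O, ι c = χ x ∧ Ideal.Quotient.mk _ c = x ^ ((nm p - 1) / 3) := fun x => by
    obtain ⟨a, rfl⟩ := Ideal.Quotient.mk_surjective x
    by_cases ha : p ∣ a
    · rw [Ideal.Quotient.eq_zero_iff_mem.2 (Ideal.mem_span_singleton.2 ha)]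
      exact ⟨0, by rw [map_zero, χ.map_zero], by rw [map_zero, zero_pow (by omega)]⟩
    · obtain ⟨k, -, hk⟩ := Gauss_omC.eq_pow_of_pow_eq_one
        (cub_pow_three h (hp.coprime_iff_not_dvd.2 ha))
      refine ⟨om ^ k, by rw [map_pow, ι_om, hk, hχ], ?_⟩
      rw [← map_pow, eq_comm, Ideal.Quotient.eq, Ideal.mem_span_singleton,
        ← cub1_eq_pow_iff hp h, ← cub_prime hp h, hk]
  choose c hc hc' using hc
  set J := ∑ x, c x * c (1 - x) with hJ
  have h1 : ι J = jacobiSum χ χ := by simp only [hJ, map_sum, map_mul, hc, jacobiSum]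
  have h2 : p ∣ J := by
    rw [← Ideal.mem_span_singleton, ← Ideal.Quotient.eq_zero_iff_mem]
    simp only [hJ, map_sum, map_mul, hc']
    exact Gauss_sum_poly (by omega)
  have h4 : Primary (-J) := by
    obtain ⟨z, hz, e⟩ := exists_jacobiSum_eq_neg_one_add (χ := χ) (ψ := χ) (n := 3) (by omega)
      (h3 ▸ pow_orderOf_eq_one χ) (h3 ▸ pow_orderOf_eq_one χ) (by omega) Gauss_omC
    obtain ⟨w, rfl⟩ : z ∈ ι.toIntAlgHom.range :=
      Algebra.adjoin_le (Set.singleton_subset_iff.2 (ι.toIntAlgHom.mem_range.2 ⟨om, ι_om⟩)) hz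
    have : J = -1 + w * (om - 1) ^ 2 := ι_injective (by simpa [h1, ι_om] using e)
    exact ⟨w * om, by linear_combination -this - w * om_sq_add⟩
  have h5 : nm J = nm p := by
    have e := congrArg norm hg
    have h0 := nr_pos hp.ne_zero
    rw [norm_pow, norm_gc h hp.squarefree, norm_mul, ← h1, norm_ι, Complex.norm_natCast,
      pow_succ, Real.sq_sqrt h0.le, mul_right_inj' h0.ne',
      Real.sqrt_inj h0.le (Nat.cast_nonneg _)] at e
    exact_mod_cast e.symm
  obtain ⟨t, ht⟩ := h2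
  have h6 : IsUnit (-t) := by
    rw [ht, nm_mul] at h5
    exact (isUnit_iff_nm.2 ((mul_eq_left₀ (by omega)).1 h5)).neg
  rw [hg, ← h1, h.eq_of_associated h4 (by rw [ht, ← mul_neg]; exact associated_mul_unit_right _ _ h6),
    map_neg, neg_neg, nm_neg, h5, mul_comm]

theorem Gauss_jac {F : Type*} [Field F] [Fintype F] [DecidableEq F] (hF : ringChar F ≠ 2)
    {χ ρ : MulChar F ℂ} (hχ : χ ≠ 1) (hρ : ∀ a, ρ a = quadraticChar F a) :
    χ 4 * jacobiSum χ χ = jacobiSum ρ χ := by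
  have h2 : (2 : F) ≠ 0 := Ring.two_ne_zero hF
  calc χ 4 * jacobiSum χ χ = ∑ x : F, χ (1 - (1 - 2 * x) ^ 2) := by
        rw [jacobiSum, Finset.mul_sum]
        refine Finset.sum_congr rfl fun x _ => ?_
        rw [← map_mul, ← map_mul]
        congr 1
        ring
    _ = ∑ y : F, χ (1 - y ^ 2) :=
        ((Equiv.mulLeft₀ 2 h2).trans (Equiv.subLeft 1)).sum_comp fun y => χ (1 - y ^ 2)
    _ = ∑ t : F, (ρ t + 1) * χ (1 - t) := by
        rw [← Finset.sum_fiberwise' Finset.univ (fun y : F => y ^ 2) fun t => χ (1 - t)]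
        refine Finset.sum_congr rfl fun t _ => ?_
        have := quadraticChar_card_sqrts hF t
        rw [Set.toFinset_ofPred] at this
        rw [Finset.sum_const, nsmul_eq_mul, hρ]
        congr 1
        exact_mod_cast this
    _ = _ := by
        simp only [add_mul, one_mul, Finset.sum_add_distrib]
        rw [show ∑ t : F, χ (1 - t) = 0 from ((Equiv.subLeft 1).sum_comp χ).trans
          (MulChar.sum_eq_zero_of_ne_one hχ), add_zero, jacobiSum]

theorem Gauss_four {p : O} (h : PO p) : conj (sym p 4) * sym p 4 = 1 :=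
  Gauss_conj_mul (norm_sym h.1 (by rw [show (4 : O) = 2 ^ 2 by norm_num]; exact h.2.pow_right))

/-- Hasse–Davenport duplication. -/
theorem gam_dup {p : O} (hp : Prime p) (h : PO p) :
    gam 1 p * gam 4 p = conj (sym p 4) * gam 2 p * gam 3 p := by
  classical
  obtain ⟨χ, h6, hχ⟩ := exists_mulChar_sym hp h
  obtain ⟨ψ, hψ1, hψ⟩ := Gauss_psi hp
  have := Fact.mk hp.ne_zero
  let _ := Fintype.ofFinite (O ⧸ Ideal.span {p})
  have := PrincipalIdealRing.isMaximal_of_irreducible hp.irreducible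
  let _ := Ideal.Quotient.field (Ideal.span {p})
  have hq : Fintype.card (O ⧸ Ideal.span {p}) = nm p := by
    rw [← card_quot hp.ne_zero, Nat.card_eq_fintype_card]
  have hq6 := (nm_prime_mod_six hp h.1 fun e => hp.not_isUnit
    (h.2.isUnit_of_dvd' dvd_rfl (by simp [e]))).1
  have hF : ringChar (O ⧸ Ideal.span {p}) ≠ 2 := fun e => by
    have := FiniteField.even_card_of_char_two e
    omega
  have hne : ∀ j, 0 < j → j < 6 → χ ^ j ≠ 1 := fun j h0 hj =>
    pow_ne_one_of_lt_orderOf h0.ne' (h6 ▸ hj)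
  have hg : ∀ j, j ≠ 0 → gs j p 1 = gaussSum (χ ^ j) ψ := fun j hj =>
    Gauss_gaussSum hp hψ _ fun a => by
      rw [MulChar.pow_apply' _ hj, hχ, sym_pow_add_six h.1 a hj]
  have hρ : ∀ a, (χ ^ 3) a = quadraticChar _ a := fun a => by
    obtain ⟨a, rfl⟩ := Ideal.Quotient.mk_surjective a
    rw [MulChar.pow_apply' _ three_ne_zero, hχ, sym_pow_three h.1, quad, pf_prime hp h.1,
      Finset.prod_singleton, vp_self hp, pow_one, quad1]
    have e : ∀ b : O, Ideal.Quotient.mk (Ideal.span {p}) b = 0 ↔ p ∣ b := fun b => by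
      rw [Ideal.Quotient.eq_zero_iff_mem, Ideal.mem_span_singleton]
    by_cases ha : p ∣ a
    · rw [if_pos ha, (e a).2 ha, MulChar.map_zero, Int.cast_zero]
    · rw [if_neg ha, quadraticChar_eq_pow_of_char_ne_two hF (mt (e a).1 ha), ← e, map_sub, map_pow,
        map_one, sub_eq_zero, hq, show (nm p - 1) / 2 = nm p / 2 by omega]
      split_ifs <;> simp
  have h1 := Gauss_jac hF (pow_one χ ▸ hne 1 one_pos (by omega)) hρ
  have h2 := jacobiSum_mul_nontrivial (pow_two χ ▸ hne 2 two_pos (by omega)) ψ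
  have h3 := jacobiSum_mul_nontrivial (pow_succ χ 3 ▸ hne 4 four_pos (by omega)) ψ
  have h4 : χ 4 = sym p 4 := hχ 4
  have h5 := gaussSum_ne_zero_of_nontrivial (by rw [hq]; exact_mod_cast (by omega))
    (pow_one χ ▸ hne 1 one_pos (by omega)) (AddChar.IsPrimitive.of_ne_one hψ1)
  rw [← pow_two] at h2
  rw [← pow_succ, ← h1, h4] at h3
  have key : gaussSum χ ψ * gaussSum (χ ^ 4) ψ =
      conj (sym p 4) * gaussSum (χ ^ 2) ψ * gaussSum (χ ^ 3) ψ := by
    refine mul_left_cancel₀ h5 ?_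
    linear_combination (-gaussSum (χ ^ 4) ψ) * h2 + conj (sym p 4) * gaussSum (χ ^ 2) ψ * h3
      - gaussSum (χ ^ 4) ψ * gaussSum (χ ^ 2) ψ * jacobiSum χ χ * Gauss_four h
  simp only [gam, hg _ one_ne_zero, hg _ two_ne_zero, hg _ three_ne_zero, hg _ four_ne_zero, pow_one]
  rw [div_mul_div_comm, key]
  ring
/-- The basic conversion at a prime: `μ γ₋₁ = χ(4) γ₃ · conj α · γ₂`. -/
theorem mu_gam_five_prime {p : O} (hp : Prime p) (h : PO p) :
    -gam 5 p = sym p 4 * gam 3 p * (conj (arg p) * gam 2 p) := by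
  have hs := hp.squarefree
  have e : ∀ j, gam (j + 6) p = gam j p := fun j => by rw [gam, gs_add_six j h.1, gam]
  have h1 := gam_mul_gam (j := 1) (by omega) h hs
  have h2 := gam_mul_gam (j := 2) (by omega) h hs
  have h3 := gam_mul_gam (j := 3) (by omega) h hs
  have h4 := Gauss_neg_one h
  rw [show gam (5 * 2) p = gam 4 p from e 4, h4] at h2
  rw [show gam (5 * 3) p = gam 3 p from (e 9).trans (e 3), pow_succ, h4] at h3
  have h5 := gam_dup hp h
  have h6 := Gauss_four h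
  have h7 := Gauss_conj_mul (norm_arg hp.ne_zero)
  have h8 : gam 2 p ^ 3 = -arg p := by
    have h0 := nr_pos hp.ne_zero
    have h9 : ((Real.sqrt (nr p) : ℝ) : ℂ) ^ 2 = nm p := by exact_mod_cast Real.sq_sqrt h0.le
    have h10 : ((Real.sqrt (nr p) : ℝ) : ℂ) ≠ 0 := by exact_mod_cast (Real.sqrt_pos.2 h0).ne'
    rw [gam, gs_two h.1, div_pow, gc_prime_cube hp h.1, arg, norm_ι, ← h9]
    field_simp
  have h0 : gam 1 p ≠ 0 := by
    rw [← norm_ne_zero_iff, norm_gam (by omega) h hs]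
    exact one_ne_zero
  refine mul_left_cancel₀ h0 ?_
  have h9 : gam 1 p = conj (sym p 4) * gam 2 p ^ 2 * gam 3 p := by
    linear_combination gam 2 p * h5 - gam 1 p * h2
  simp only [mul_one, pow_one, one_mul] at h1 h3
  rw [mul_neg, h1, h9]
  linear_combination (-(conj (arg p) * gam 2 p ^ 3 * gam 3 p ^ 2)) * h6
    - conj (arg p) * gam 2 p ^ 3 * h3 - sym p (-1) * conj (arg p) * h8 + sym p (-1) * h7

end Crest.Agent.R17
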