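import Crest.Agent.R17.DP
import Crest.Agent.R17.Count

/-!
# Row 17, module M15a: arithmetic of the Gauss sums (auxiliary file for `Gram`)
-/

set_option autoImplicit false

noncomputable section

namespace Crest.Agent.R17.GrB

open scoped ComplexConjugate Classical

theorem norm_gs_le (j : ℕ) {n : O} (hn : n ≠ 0) (k : O) : ‖gs j n k‖ ≤ nr n := by
  unfold gs
  refine (norm_sum_le _ _).trans ?_
  refine (Finset.sum_le_card_nsmul _ _ 1 fun x _ => ?_).trans ?_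
  · rw [norm_mul, norm_eq, mul_one, norm_pow]
    exact pow_le_one₀ (norm_nonneg _) (norm_sym_le _ _)
  · rw [card_res hn]; simp

theorem gs_pow_bound {p : O} (hp : Prime p) (h : PO p) (i : ℕ) (k : O) :
    ∃ j ≤ i, p ^ j ∣ k ∧ ‖gs 5 (p ^ i) k‖ ^ 2 ≤ nr (p ^ i) * nr (p ^ j) := by
  have hN := one_le_nr hp.ne_zero
  rcases i with _ | i
  · exact ⟨0, le_rfl, by simp, by simp [nr]⟩
  by_cases h1 : p ^ (i + 1) ∣ k
  · refine ⟨i + 1, le_rfl, h1, ?_⟩
    rw [← sq]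
    exact pow_le_pow_left₀ (norm_nonneg _) (norm_gs_le 5 (pow_ne_zero _ hp.ne_zero) k) 2
  by_cases h2 : p ^ i ∣ k
  swap
  · refine ⟨0, Nat.zero_le _, by simp, ?_⟩
    rw [Gauss_gs_pow 5 i h, if_neg h2, norm_zero, zero_pow two_ne_zero]
    positivity
  refine ⟨i, Nat.le_succ i, h2, ?_⟩
  obtain ⟨c, rfl⟩ := h2
  have h3 : ¬ p ∣ c := fun h4 => h1 (pow_succ p i ▸ mul_dvd_mul_left _ h4)
  have h4 : ‖gs (5 * (i + 1)) p c‖ ^ 2 ≤ nr p := by
    by_cases h6 : 6 ∣ 5 * (i + 1)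
    · rw [gs_prime_zero h6 hp h, if_neg h3]
      simpa using hN
    · rw [gs_sqfree h6 h hp.squarefree, norm_mul, Gauss_norm_gs h6 h hp.squarefree,
        Complex.norm_conj, norm_pow, mul_pow, Real.sq_sqrt (by positivity)]
      exact mul_le_of_le_one_left (by positivity)
        (pow_le_one₀ (by positivity) (pow_le_one₀ (norm_nonneg _) (norm_sym_le _ _)))
  rw [Gauss_gs_pow 5 i h, if_pos (dvd_mul_right _ _),
    mul_div_cancel_left₀ _ (pow_ne_zero _ hp.ne_zero), norm_mul, norm_pow, Complex.norm_natCast,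
    mul_pow, nr_pow, nr_pow]
  calc _ ≤ (nr p ^ i) ^ 2 * nr p := mul_le_mul_of_nonneg_left h4 (by positivity)
    _ = _ := by ring

theorem gs_bound {y : O} (hy : PO y) (k : O) :
    ∃ y' : O, Primary y' ∧ y' ∣ y ∧ y' ∣ k ∧ ‖gs 5 y k‖ ^ 2 ≤ nr y * nr y' := by
  have key : ∀ s : Finset O, (∀ p ∈ s, Prime p ∧ PO p) → PO (∏ p ∈ s, p ^ vp p y) ∧
      ∃ y' : O, Primary y' ∧ y' ∣ ∏ p ∈ s, p ^ vp p y ∧ y' ∣ k ∧
        ‖gs 5 (∏ p ∈ s, p ^ vp p y) k‖ ^ 2 ≤ nr (∏ p ∈ s, p ^ vp p y) * nr y' := by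
    intro s
    induction s using Finset.induction_on with
    | empty => exact fun _ => ⟨⟨primary_one, isCoprime_one_left⟩, 1, primary_one, by simp,
        one_dvd _, by simp [nr]⟩
    | insert q s hq ih =>
      intro hs
      obtain ⟨q1, q2⟩ := hs q (Finset.mem_insert_self _ _)
      obtain ⟨a0, y', a1, a2, a3, a4⟩ := ih fun p hp => hs p (Finset.mem_insert_of_mem hp)
      obtain ⟨j, b1, b2, b3⟩ := gs_pow_bound q1 q2 (vp q y) k
      have hq' : PO (q ^ vp q y) := ⟨q2.1.pow _, q2.2.pow_left⟩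
      have hc : IsCoprime q (∏ p ∈ s, p ^ vp p y) := IsCoprime.prod_right fun p hp => by
        obtain ⟨p1, p2⟩ := hs p (Finset.mem_insert_of_mem hp)
        exact (q1.irreducible.coprime_iff_not_dvd.2 fun hd =>
          hq (BasicB.eq_of_dvd q1 p1 q2.1 p2.1 hd ▸ hp)).pow_right
      rw [Finset.prod_insert hq]
      refine ⟨hq'.mul a0, q ^ j * y', (q2.1.pow _).mul a1, mul_dvd_mul (pow_dvd_pow q b1) a2,
        (hc.of_isCoprime_of_dvd_right a2).pow_left.mul_dvd b2 a3, ?_⟩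
      have h1 : ∀ m n : O, ‖sym m n ^ 5‖ ≤ 1 := fun m n => by
        rw [norm_pow]
        exact pow_le_one₀ (norm_nonneg _) (norm_sym_le _ _)
      rw [gs_mul 5 hq' a0 hc.pow_left, norm_mul, norm_mul, norm_mul, nr_mul, nr_mul]
      calc _ ≤ (1 * 1 * ‖gs 5 (q ^ vp q y) k‖ * ‖gs 5 (∏ p ∈ s, p ^ vp p y) k‖) ^ 2 := by
            gcongr <;> exact h1 _ _
        _ = ‖gs 5 (q ^ vp q y) k‖ ^ 2 * ‖gs 5 (∏ p ∈ s, p ^ vp p y) k‖ ^ 2 := by ring
        _ ≤ (nr (q ^ vp q y) * nr (q ^ j)) * (nr (∏ p ∈ s, p ^ vp p y) * nr y') :=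
            mul_le_mul b3 a4 (by positivity) (by positivity)
        _ = _ := by ring
  have := (key (pf y) fun p hp => ⟨(BasicB.of_mem_pf hp).1,
    hy.of_dvd (BasicB.of_mem_pf hp).2.1 (BasicB.of_mem_pf hp).2.2⟩).2
  rwa [← hy.1.eq_prod] at this

theorem vp_cases {k h p : O} (hk : Primary k) (hks : Squarefree k) (hh : Powerful h)
    (hc : IsCoprime k h) (hp : Prime p) (hp' : Primary p) :
    (vp p k = 0 ∧ vp p h = 0) ∨ (vp p k = 1 ∧ vp p h = 0) ∨ (vp p k = 0 ∧ 2 ≤ vp p h) := by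
  have h1 := BasicB.vp_le_one hks hp
  by_cases h2 : vp p h = 0
  · omega
  · have h3 : p ∈ pf h := (BasicB.mem_pf_iff hh.1.ne_zero hp hp').2 h2
    have h4 := hh.2 p h3
    have h5 : vp p k = 0 := by
      by_contra h6
      exact Finset.disjoint_left.1 (disjoint_pf hc)
        ((BasicB.mem_pf_iff hk.ne_zero hp hp').2 h6) h3
    omega

theorem unique {k h k' h' : O} (hk : Primary k) (hks : Squarefree k) (hh : Powerful h)
    (hc : IsCoprime k h) (hk' : Primary k') (hks' : Squarefree k') (hh' : Powerful h')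
    (hc' : IsCoprime k' h') (e : h * k = h' * k') : h = h' := by
  refine hh.1.ext_vp hh'.1 fun p hp hp' => ?_
  have e1 := congrArg (vp p) e
  rw [vp_mul hp hh.1.ne_zero hk.ne_zero, vp_mul hp hh'.1.ne_zero hk'.ne_zero] at e1
  have a := vp_cases hk hks hh hc hp hp'
  have b := vp_cases hk' hks' hh' hc' hp hp'
  omega

/-- The decomposition `x = y m`, `y` powerful, `m` squarefree. -/
theorem decomp (M : O) {L : ℝ} (hL : 0 ≤ L) (F : O → ℂ)
    (hF : ∀ x, F x ≠ 0 → Primary x ∧ IsCoprime x M) :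
    ∑ x ∈ ball ⌊L⌋₊, F x = ∑ y ∈ (ball ⌊L⌋₊).filter Powerful,
      ∑ m ∈ (sp M (L / nr y)).filter (IsCoprime · y), F (y * m) := by
  rw [Finset.sum_sigma']
  symm
  refine Finset.sum_of_injOn (fun z => z.1 * z.2) ?_ ?_ ?_ fun _ _ => rfl
  · rintro ⟨y, m⟩ h ⟨y', m'⟩ h' e
    simp only [Finset.coe_sigma, Set.mem_sigma_iff, Finset.mem_coe, Finset.mem_filter] at h h'
    obtain ⟨a, -⟩ := DP3_mem h.2.1
    obtain ⟨a', -⟩ := DP3_mem h'.2.1
    obtain rfl : y = y' := unique a.1 a.2.1 h.1.2 h.2.2 a'.1 a'.2.1 h'.1.2 h'.2.2 e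
    obtain rfl : m = m' := mul_left_cancel₀ h.1.2.1.ne_zero e
    rfl
  · rintro ⟨y, m⟩ h
    simp only [Finset.coe_sigma, Set.mem_sigma_iff, Finset.mem_coe, Finset.mem_filter] at h
    have a := (DP3_mem h.2.1).2
    rw [le_div_iff₀ (nr_pos h.1.2.1.ne_zero), mul_comm, ← nr_mul] at a
    exact mem_ball.2 ((Nat.le_floor_iff hL).2 a)
  · intro x hx hx'
    by_contra h0
    obtain ⟨x1, x2⟩ := hF x h0
    obtain ⟨m, y, a1, a2, a3, a4, rfl⟩ := exists_sqfree_powerful x1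
    refine hx' ⟨⟨y, m⟩, ?_, mul_comm _ _⟩
    simp only [Finset.coe_sigma, Set.mem_sigma_iff, Finset.mem_coe, Finset.mem_filter]
    have hy := nr_pos a3.1.ne_zero
    refine ⟨⟨mem_ball.2 ((nm_le_of_dvd (dvd_mul_left _ _) x1.ne_zero).trans (mem_ball.1 hx)), a3⟩,
      (mem_sp (by positivity)).2 ⟨⟨a1, a2, x2.of_mul_left_left⟩, ?_⟩, a4⟩
    rw [le_div_iff₀ hy, ← nr_mul]
    exact (Nat.le_floor_iff hL).1 (mem_ball.1 hx)

/-- The coefficients of the dual sums. -/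
def bet {M : O} (ν : Chr M) (b : O) (X : ℝ) (s : ℂ) (m : O) : ℂ :=
  ev ν m * conj (sym m b) * Wc (nr m / X) s

/-- The coefficients of `Gsum`. -/
def gco {M : O} (ν : Chr M) (k x : O) : ℂ :=
  if Primary x then ev ν x * (gs 5 x k / (Real.sqrt (nr x) : ℂ)) else 0

theorem polyB_gco {M : O} (hM : Adm M) (ν : Chr M) (k : O) : PolyB (gco ν k) 1 (1 / 2) := by
  refine ⟨if_neg fun h => h.ne_zero rfl, fun n => ?_⟩
  unfold gco
  split_ifs with h
  · have h1 := nr_pos h.ne_zero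
    have h2 := Real.sqrt_pos.2 h1
    rw [norm_mul, norm_div, Complex.norm_real, Real.norm_of_nonneg h2.le, ← Real.sqrt_eq_rpow]
    refine mul_le_mul (norm_ev_le hM.1 ν n) ?_ (by positivity) zero_le_one
    rw [div_le_iff₀ h2, Real.mul_self_sqrt h1.le]
    exact norm_gs_le 5 h.ne_zero k
  · rw [norm_zero]
    positivity

theorem gco_supp {M : O} (ν : Chr M) (k x : O) (h : gco ν k x ≠ 0) : Primary x ∧ IsCoprime x M := by
  unfold gco at h
  split_ifs at h with h1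
  · exact ⟨h1, by_contra fun h2 => h (by rw [ev_eq_zero ν h2, zero_mul])⟩
  · exact absurd rfl h

theorem gs_split {y m : O} (hy : PO y) (hm : PO m) (hs : Squarefree m) (h : IsCoprime m y) (k : O) :
    gs 5 (y * m) k = gs 5 y k * (Rs y m * conj (sym m (y ^ 2)) *
      ((Real.sqrt (nr m) : ℂ) * gam 5 m) * sym m k) := by
  have h1 : (Real.sqrt (nr m) : ℂ) ≠ 0 := by
    exact_mod_cast (Real.sqrt_pos.2 (nr_pos hm.1.ne_zero)).ne'
  rw [gs_mul 5 hy hm h.symm, gs_sqfree (by norm_num) hm hs, gam, mul_div_cancel₀ _ h1,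
    M4A.conj_pow (j' := 1) (by norm_num) hm.1, sym_recip hy hm, mul_pow,
    M4A.odd_pow (Or.inr rfl) (Rs_sq hy.2 hm.2), conj_sym hm.1, sym_pow_right hm]
  ring

/-- The terms with a given powerful part. -/
theorem inner_eq {M : O} (hM : Adm M) (ν : Chr M) {y : O} (hy : Primary y) :
    ∃ ν' : Chr M, ∀ (k : O) (L X : ℝ) (s : ℂ),
      ∑ m ∈ (sp M L).filter (IsCoprime · y), gco ν k (y * m) * Wc (nr (y * m) / X) s =
        gco ν k y * Sd M L (bet ν' (y ^ 2) (X / nr y) s) k := by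
  by_cases hc : IsCoprime y M
  swap
  · refine ⟨ν, fun k L X s => ?_⟩
    rw [show gco ν k y = 0 from by_contra fun h => hc (gco_supp ν k y h).2, zero_mul]
    refine Finset.sum_eq_zero fun m _ => mul_eq_zero_of_left ?_ _
    exact by_contra fun h => hc (gco_supp ν k _ h).2.of_mul_left_left
  have hy' := PO.of_adm hM hy hc
  obtain ⟨ψ, hψ⟩ := exists_chr_Rs hM hy'.2
  refine ⟨ν * ψ, fun k L X s => ?_⟩
  rw [Sd, Finset.mul_sum, Finset.sum_filter]
  refine Finset.sum_congr rfl fun m hm => ?_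
  have hm1 := (DP3_mem hm).1
  have hm' := DP3_po hM hm1
  split_ifs with h
  · have e : nr (y * m) / X = nr m / (X / nr y) := by
      rw [nr_mul, div_div_eq_mul_div, mul_comm]
    have h1 : (Real.sqrt (nr m) : ℂ) ≠ 0 := by
      exact_mod_cast (Real.sqrt_pos.2 (nr_pos hm'.1.ne_zero)).ne'
    have h2 : (Real.sqrt (nr y) : ℂ) ≠ 0 := by
      exact_mod_cast (Real.sqrt_pos.2 (nr_pos hy.ne_zero)).ne'
    rw [e, gco, gco, if_pos (hy.mul hm1.1), if_pos hy, gs_split hy' hm' hm1.2.1 h, bet, ev_mul,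
      ev_mul_chr, hψ m hm1.2.2, nr_mul, Real.sqrt_mul (Nat.cast_nonneg _)]
    push_cast
    field_simp
  · rw [bet, (sym_eq_zero_iff hm1.1).2 fun h' =>
      h ((IsCoprime.pow_right_iff two_pos).1 h')]
    simp

theorem Sd_shift {M : O} (hM : Adm M) (ν : Chr M) (y' c k : O) (L X : ℝ) (s : ℂ) :
    Sd M L (bet ν ((y' * c) ^ 2) X s) (y' * k) = Sd M L (bet ν (y' * c * c) X s) k := by
  refine Finset.sum_congr rfl fun m hm => ?_
  have hm' := DP3_po hM (DP3_mem hm).1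
  simp only [bet, sq, sym_mul_right hm', map_mul]
  by_cases h : IsCoprime m y'
  · have := Gauss_conj_mul (norm_sym hm'.1 h)
    linear_combination (ev ν m * conj (sym m y') * conj (sym m c) * conj (sym m c) *
      Wc (nr m / X) s * gam 5 m * sym m k) * this
  · simp [(sym_eq_zero_iff hm'.1).2 h]

end Crest.Agent.R17.GrB
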