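import Crest.Agent.R17.GramAuxA
import Crest.Agent.R17.GramAuxB

/-!
# Row 17, module M15a: the dual sum with a frozen powerful part (auxiliary file for `Gram`)
-/

set_option autoImplicit false

noncomputable section

namespace Crest.Agent.R17.GrC

open scoped ComplexConjugate Classical
open GrA GrB

theorem child_eq {M : O} (hM : Adm M) (ν ν' : Chr M) (b a : O) {h : O} (hh : h ≠ 0) {X Λ : ℝ}
    (hX : 0 < X) (hΛ : 0 < Λ) (s s' : ℂ) :
    Sr M (X * Λ / nr h) (ext (bet ν b X s) h ν' (nr h) (X * Λ) s') a =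
      ev ν h * conj (sym h b) * ((Λ⁻¹ : ℝ) : ℂ) ^ s' * ∑ m ∈ ball ⌊X / nr h * Λ⌋₊,
        sqc (ν * ν') (a * b) h m * Wc (nr m / (X / nr h)) (s + s') := by
  have hN := nr_pos hh
  have hsub : sp M (X * Λ / nr h) ⊆ ball ⌊X / nr h * Λ⌋₊ := by
    rw [div_mul_eq_mul_div]
    exact Finset.filter_subset _ _
  rw [Sr, ← Finset.sum_subset hsub, Finset.mul_sum]
  · refine Finset.sum_congr rfl fun m hm => ?_
    have hm1 := (DP3_mem hm).1
    have hm' := DP3_po hM hm1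
    have h0 := nr_pos hm1.1.ne_zero
    by_cases hc : IsCoprime m h
    swap
    · simp [ext, sqc, hc]
    have e1 : nr (h * m) / X = nr m / (X / nr h) := by
      rw [nr_mul, div_div_eq_mul_div, mul_comm]
    have e2 : nr m * nr h / (X * Λ) = nr m / (X / nr h) * Λ⁻¹ := by field_simp
    rw [ext, if_pos hc, sqc, if_pos ⟨hm1.2.1, hc⟩, bet, e1, e2, Wc_add (by positivity),
      Complex.ofReal_mul, Complex.mul_cpow_ofReal_nonneg (by positivity) (by positivity),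
      LBA.rc_pos _ _ hm1.1, ev_mul, ev_mul_chr, sym_mul_left hh hm1.1.ne_zero, sym_mul_right hm',
      map_mul, map_mul]
    ring
  · intro m hm hm'
    refine mul_eq_zero_of_left ?_ _
    unfold sqc
    split_ifs with h1
    swap
    · rfl
    by_contra h2
    refine hm' ?_
    rw [sp, Finset.mem_filter, ← div_mul_eq_mul_div]
    exact ⟨hm, by_contra fun h3 => h2 (LBA.rc_neg _ _ h3), h1.1,
      by_contra fun h3 => h2 (rc_eq_zero _ fun h4 => h3 h4.of_mul_right_left)⟩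

theorem child_le {M : O} (hM : Adm M) {δ : ℝ} (hδ : 0 < δ) (hδ' : δ ≤ 1 / 2) : ∃ C : ℝ, 0 < C ∧
    ∀ (K X : ℝ) (ν ν' : Chr M) (b a h : O) (s s' : ℂ), 1 ≤ K → 0 < X → X ≤ K → Primary h →
      nr h ≤ K ^ 2 → |s.re| ≤ 3 → -(1 / 2) ≤ s'.re → s'.re ≤ 0 →
      ‖Sr M (X * K ^ δ / nr h) (ext (bet ν b X s) h ν' (nr h) (X * K ^ δ) s') a‖ ≤
        C * K ^ δ * (X / nr h) ∧
      (¬ Exc M (a * b) →
        ‖Sr M (X * K ^ δ / nr h) (ext (bet ν b X s) h ν' (nr h) (X * K ^ δ) s') a‖ ≤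
          C * (K ^ δ) ^ 3 * ((1 + |s.im|) * (1 + |s'.im|)) * Real.sqrt (nr (a * b)) *
            (X / nr h) ^ (1 / 2 + δ)) := by
  obtain ⟨C₁, hC₁, h1⟩ := triv 0 4 le_rfl
  obtain ⟨C₂, hC₂, h2⟩ := trunc δ⁻¹ 0 4 le_rfl
  obtain ⟨C₃, hC₃, h3⟩ := sqc_le hM hδ hδ'
  refine ⟨C₁ + C₂ + C₃, by positivity, fun K X ν ν' b a h s s' hK hX hXK hh hhK hs hs1 hs2 => ?_⟩
  have hx : 1 ≤ K ^ δ := Real.one_le_rpow hK hδ.le
  have hN := one_le_nr hh.ne_zero
  have hY : 0 < X / nr h := by positivity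
  have hYK : X / nr h ≤ K := (div_le_self hX.le hN).trans hXK
  have hre : |(s + s').re| ≤ 4 := by
    rw [Complex.add_re, abs_le]
    constructor <;> linarith [abs_le.1 hs]
  have hc : ‖ev ν h * conj (sym h b) * (((K ^ δ)⁻¹ : ℝ) : ℂ) ^ s'‖ ≤ K ^ δ := by
    rw [norm_mul, norm_mul, Complex.norm_conj, Complex.norm_cpow_eq_rpow_re_of_pos (by positivity)]
    refine (mul_le_of_le_one_left (by positivity) (mul_le_one₀ (norm_ev_le hM.1 ν h)
      (norm_nonneg _) (norm_sym_le _ _))).trans ?_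
    rw [Real.inv_rpow (by positivity), ← Real.rpow_neg (by positivity)]
    exact Real.rpow_le_self_of_one_le hx (by linarith)
  have hb := polyB_sqc hM (ν * ν') (a * b) h
  rw [child_eq hM ν ν' b a hh.ne_zero hX (by positivity), norm_mul]
  generalize X / nr h = Y at hY hYK ⊢
  constructor
  · have h4 := h1 _ Y _ hb hY hre
    rw [zero_add, Real.rpow_one] at h4
    have h5 := (norm_sum_le (ball ⌊Y * K ^ δ⌋₊) _).trans
      (((summable_Sm hb hY (s + s')).sum_le_tsum _ fun _ _ => norm_nonneg _).trans h4)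
    calc _ ≤ K ^ δ * (C₁ * Y) := mul_le_mul hc h5 (norm_nonneg _) (by positivity)
      _ ≤ K ^ δ * ((C₁ + C₂ + C₃) * Y) := by gcongr; linarith
      _ = _ := by ring
  · intro hE
    have h4 := h2 _ 1 Y _ _ hb hY hx hre
    have h5 := h3 (ν * ν') (a * b) h Y _ hE hh hY hre
    have e1 : (K ^ δ) ^ (-δ⁻¹) = K⁻¹ := by
      rw [← Real.rpow_mul (by positivity), mul_neg, mul_inv_cancel₀ hδ.ne', Real.rpow_neg_one]
    rw [e1, zero_add, Real.rpow_one, mul_one] at h4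
    have h6 : Y * K⁻¹ ≤ Y ^ (1 / 2 + δ) := by
      rcases le_total Y 1 with h7 | h7
      · calc Y * K⁻¹ ≤ Y ^ (1 : ℝ) := by
              rw [Real.rpow_one]
              exact mul_le_of_le_one_right hY.le (inv_le_one_of_one_le₀ hK)
          _ ≤ _ := Real.rpow_le_rpow_of_exponent_ge hY h7 (by linarith)
      · exact ((div_le_one (by positivity)).2 hYK).trans (Real.one_le_rpow h7 (by linarith))
    have h7 : nr h ^ δ ≤ (K ^ δ) ^ 2 := by
      rw [← Real.rpow_mul_natCast (by positivity), mul_comm, Real.rpow_natCast_mul (by positivity)]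
      gcongr
    have h8 : 1 + |(s + s').im| ≤ (1 + |s.im|) * (1 + |s'.im|) := by
      rw [Complex.add_im]
      nlinarith [abs_add_le s.im s'.im, abs_nonneg s.im, abs_nonneg s'.im]
    have h9 : 1 ≤ (1 + |s.im|) * (1 + |s'.im|) :=
      (le_add_of_nonneg_right (abs_nonneg _)).trans h8
    have h10 : 1 ≤ Real.sqrt (nr (a * b)) :=
      Real.one_le_sqrt.2 (one_le_nr (ne_zero_of_not_exc hE))
    have h11 : 1 ≤ (K ^ δ) ^ 2 := one_le_pow₀ hx
    generalize (1 + |s.im|) * (1 + |s'.im|) = T at h8 h9 ⊢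
    calc _ ≤ K ^ δ * (C₃ * (K ^ δ) ^ 2 * T * Real.sqrt (nr (a * b)) * Y ^ (1 / 2 + δ) +
          C₂ * (K ^ δ) ^ 2 * T * Real.sqrt (nr (a * b)) * Y ^ (1 / 2 + δ)) := by
          refine mul_le_mul hc ((norm_le_insert' _ _).trans (add_le_add (h5.trans ?_)
            ((norm_sub_rev _ _).trans_le (h4.trans ?_)))) (norm_nonneg _) (by positivity)
          · gcongr
          · calc C₂ * Y * K⁻¹ = C₂ * 1 * 1 * 1 * (Y * K⁻¹) := by ring
              _ ≤ _ := by gcongr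
      _ = (C₂ + C₃) * (K ^ δ) ^ 3 * T * Real.sqrt (nr (a * b)) * Y ^ (1 / 2 + δ) := by ring
      _ ≤ _ := by gcongr; linarith

/-- The children of one row. -/
def Phi {M : O} (L : ℝ) (β : O → ℂ) (ν' : Chr M) (s' : ℂ) (a : O) : ℝ :=
  ∑ e ∈ (sp M L).filter (· ∈ pdiv a), ∑ t ∈ sp (M * e) L, nr e *
    ‖Sr M (L / (nr e * nr t)) (ext β (e * t) ν' (nr e * nr t) L s') a‖ ^ 2

theorem Phi_le {M : O} (hM : Adm M) {δ : ℝ} (hδ : 0 < δ) (hδ' : δ ≤ 1 / 2) : ∃ C : ℝ, 0 < C ∧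
    ∀ (K X : ℝ) (ν ν' : Chr M) (b a : O) (s s' : ℂ), 1 ≤ K → 0 < X → X * K ^ δ ≤ K → a ≠ 0 →
      nr a ≤ K ^ 3 → |s.re| ≤ 3 → -(1 / 2) ≤ s'.re → s'.re ≤ 0 →
      Phi (X * K ^ δ) (bet ν b X s) ν' s' a ≤ C * (K ^ δ) ^ 5 * X ^ 2 ∧
      (¬ Exc M (a * b) → Phi (X * K ^ δ) (bet ν b X s) ν' s' a ≤
        C * (K ^ δ) ^ 11 * ((1 + |s.im|) * (1 + |s'.im|)) ^ 2 * nr (a * b) * X) := by
  obtain ⟨C₁, hC₁, h1⟩ := child_le hM hδ hδ'
  obtain ⟨C₂, hC₂, h2⟩ := card_pdiv_le hδ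
  obtain ⟨C₃, hC₃, h3⟩ := CountAux.sum_all (σ := 1 + 2 * δ) (by linarith)
  refine ⟨C₂ * C₃ * C₁ ^ 2, by positivity, fun K X ν ν' b a s s' hK hX hL ha haK hs hs1 hs2 => ?_⟩
  have hx : 1 ≤ K ^ δ := Real.one_le_rpow hK hδ.le
  have hXK : X ≤ K := (le_mul_of_one_le_right hX.le hx).trans hL
  have hd : ((pdiv a).card : ℝ) ≤ C₂ * (K ^ δ) ^ 3 := by
    refine (h2 a ha).trans (mul_le_mul_of_nonneg_left ?_ hC₂.le)
    rw [← Real.rpow_mul_natCast (by positivity), mul_comm, Real.rpow_natCast_mul (by positivity)]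
    gcongr
  have key : ∀ D : ℝ, 0 ≤ D → (∀ e t : O, Primary e → Primary t → nr (e * t) ≤ K ^ 2 →
      nr e * ‖Sr M (X * K ^ δ / nr (e * t))
        (ext (bet ν b X s) (e * t) ν' (nr (e * t)) (X * K ^ δ) s') a‖ ^ 2 ≤
        D * nr t ^ (-(1 + 2 * δ))) →
      Phi (X * K ^ δ) (bet ν b X s) ν' s' a ≤ C₂ * (K ^ δ) ^ 3 * (D * C₃) := by
    intro D hD h
    refine (Finset.sum_le_card_nsmul _ _ (D * C₃) fun e he => ?_).trans ?_
    · obtain ⟨e1, e2⟩ := DP3_mem (Finset.mem_filter.1 he).1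
      refine (Finset.sum_le_sum fun t ht => ?_).trans
        ((Finset.mul_sum _ _ _).symm.trans_le (mul_le_mul_of_nonneg_left (h3 _) hD))
      obtain ⟨t1, t2⟩ := DP3_mem ht
      rw [← nr_mul]
      refine h e t e1.1 t1.1 ?_
      rw [nr_mul, sq]
      exact mul_le_mul (e2.trans hL) (t2.trans hL) (by positivity) (by positivity)
    · rw [nsmul_eq_mul]
      refine mul_le_mul_of_nonneg_right (le_trans ?_ hd) (by positivity)
      exact_mod_cast Finset.card_le_card fun e he => (Finset.mem_filter.1 he).2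
  constructor
  · refine (key (C₁ ^ 2 * (K ^ δ) ^ 2 * X ^ 2) (by positivity) fun e t he ht h => ?_).trans_eq
      (by ring)
    have a1 := one_le_nr he.ne_zero
    have a2 := one_le_nr ht.ne_zero
    have a3 : (nr t ^ 2)⁻¹ ≤ nr t ^ (-(1 + 2 * δ)) := by
      rw [← Real.rpow_two, ← Real.rpow_neg (by positivity)]
      exact Real.rpow_le_rpow_of_exponent_le a2 (by linarith)
    calc _ ≤ nr e * (C₁ * K ^ δ * (X / nr (e * t))) ^ 2 := by
          gcongr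
          exact (h1 K X ν ν' b a _ s s' hK hX hXK (he.mul ht) h hs hs1 hs2).1
      _ = C₁ ^ 2 * (K ^ δ) ^ 2 * X ^ 2 * ((nr t ^ 2)⁻¹ / nr e) := by
          rw [nr_mul]
          field_simp
      _ ≤ _ := mul_le_mul_of_nonneg_left ((div_le_self (by positivity) a1).trans a3) (by positivity)
  · intro hE
    refine (key (C₁ ^ 2 * (K ^ δ) ^ 8 * ((1 + |s.im|) * (1 + |s'.im|)) ^ 2 * nr (a * b) * X)
      (by positivity) fun e t he ht h => ?_).trans_eq (by ring)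
    have a1 := one_le_nr he.ne_zero
    have a2 := one_le_nr ht.ne_zero
    have a3 : nr e * ((X / nr (e * t)) ^ (1 / 2 + δ)) ^ 2 ≤
        (K ^ δ) ^ 2 * X * nr t ^ (-(1 + 2 * δ)) := by
      rw [← Real.rpow_mul_natCast (by positivity),
        show (1 / 2 + δ) * ((2 : ℕ) : ℝ) = 1 + 2 * δ by push_cast; ring, nr_mul,
        Real.div_rpow hX.le (by positivity), Real.mul_rpow (by positivity) (by positivity),
        Real.rpow_neg (by positivity), Real.rpow_add hX, Real.rpow_one]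
      have b1 : nr e ≤ nr e ^ (1 + 2 * δ) := Real.self_le_rpow_of_one_le a1 (by linarith)
      have b2 : X ^ (2 * δ) ≤ (K ^ δ) ^ 2 := by
        rw [← Real.rpow_mul_natCast (by positivity), mul_comm δ]
        push_cast
        gcongr
      calc _ ≤ nr e ^ (1 + 2 * δ) * (X * (K ^ δ) ^ 2 /
            (nr e ^ (1 + 2 * δ) * nr t ^ (1 + 2 * δ))) := by gcongr
        _ = _ := by field_simp
    calc _ ≤ nr e * (C₁ * (K ^ δ) ^ 3 * ((1 + |s.im|) * (1 + |s'.im|)) * Real.sqrt (nr (a * b)) *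
            (X / nr (e * t)) ^ (1 / 2 + δ)) ^ 2 := by
          gcongr
          exact (h1 K X ν ν' b a _ s s' hK hX hXK (he.mul ht) h hs hs1 hs2).2 hE
      _ = C₁ ^ 2 * (K ^ δ) ^ 6 * ((1 + |s.im|) * (1 + |s'.im|)) ^ 2 * Real.sqrt (nr (a * b)) ^ 2 *
            (nr e * ((X / nr (e * t)) ^ (1 / 2 + δ)) ^ 2) := by ring
      _ ≤ C₁ ^ 2 * (K ^ δ) ^ 6 * ((1 + |s.im|) * (1 + |s'.im|)) ^ 2 * Real.sqrt (nr (a * b)) ^ 2 *
            ((K ^ δ) ^ 2 * X * nr t ^ (-(1 + 2 * δ))) := by gcongr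
      _ = _ := by
          rw [Real.sq_sqrt (by positivity)]
          ring

/-- The number of exceptional rows. -/
theorem exc_le {M : O} (hM : Adm M) {δ : ℝ} (hδ : 0 < δ) : ∃ C : ℝ, 0 < C ∧
    ∀ (K A G : ℝ) (b : O), 1 ≤ K → 0 ≤ A → b ≠ 0 → A * nr b ≤ G → G ≤ K ^ 3 →
      (((rows A).filter fun a => Exc M (a * b)).card : ℝ) ≤ C * (K ^ δ) ^ 3 * G ^ (1 / 6 : ℝ) := by
  obtain ⟨C, hC, h⟩ := card_exc_le hδ
  have hM0 := nr_pos hM.1
  refine ⟨C * nr M ^ δ, by positivity, fun K A G b hK hA hb hG hGK => ?_⟩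
  have hG0 : 0 ≤ G := le_trans (by positivity) hG
  have h1 : ((rows A).filter fun a => Exc M (a * b)).card ≤
      ((ball ⌊G⌋₊).filter fun a => a ≠ 0 ∧ Exc M a).card := by
    refine Finset.card_le_card_of_injOn (· * b) (fun a ha => ?_)
      fun a _ a' _ e => mul_right_cancel₀ hb e
    simp only [Finset.coe_filter, Set.mem_ofPred_eq, mem_rows hA] at ha ⊢
    refine ⟨mem_ball.2 ((Nat.le_floor_iff hG0).2 ?_), mul_ne_zero ha.1.1 hb, ha.2⟩
    exact (nr_mul a b).trans_le ((mul_le_mul_of_nonneg_right ha.1.2 (by positivity)).trans hG)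
  refine (Nat.cast_le.2 h1).trans ?_
  rcases Nat.eq_zero_or_pos ⌊G⌋₊ with h0 | h0
  · rw [h0, Finset.filter_eq_empty_iff.2 fun a ha ha' =>
      ha'.1 (nm_eq_zero.1 (Nat.le_zero.1 (mem_ball.1 ha))), Finset.card_empty, Nat.cast_zero]
    positivity
  have h2 := Nat.floor_le hG0
  have h3 : (⌊G⌋₊ : ℝ) ^ δ ≤ (K ^ δ) ^ 3 := by
    rw [← Real.rpow_mul_natCast (by positivity), mul_comm, Real.rpow_natCast_mul (by positivity)]
    gcongr
    exact h2.trans hGK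
  refine (h M _ hM.1 h0).trans ?_
  rw [Real.mul_rpow (by positivity) hM0.le]
  calc _ ≤ C * G ^ (1 / 6 : ℝ) * ((K ^ δ) ^ 3 * nr M ^ δ) := by gcongr
    _ = _ := by ring

/-- The mean square of the dual sum with a frozen powerful part. -/
theorem frozen {M : O} (hM : Adm M) {δ : ℝ} (hδ : 0 < δ) (hδ' : δ ≤ 1 / 2) : ∃ C : ℝ, 0 < C ∧
    ∀ (K K' X G : ℝ) (ν : Chr M) (b : O) (s : ℂ), 1 ≤ K' → K' ≤ K → 0 < X → 1 ≤ X * K ^ δ →
      X * K ^ δ ≤ K → b ≠ 0 → (X * K ^ δ) ^ 2 * K ^ δ / K' * nr b ≤ G → G ≤ K ^ 3 → |s.re| ≤ 3 →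
      ∑ k ∈ rows K', ‖Sd M (X * K ^ δ) (bet ν b X s) k‖ ^ 2 ≤
        C * (K ^ δ) ^ 14 * (1 + |s.im|) ^ 2 * (K' * X * (1 + G ^ (1 / 6 : ℝ)) + X ^ 2 * G) := by
  obtain ⟨C₁, hC₁, h1⟩ := back hM hδ 2
  obtain ⟨C₂, hC₂, h2⟩ := Phi_le hM hδ hδ'
  obtain ⟨C₃, hC₃, h3⟩ := exc_le hM hδ
  refine ⟨C₁ * (8 * Real.exp 3 ^ 2 + C₂ * (C₃ + 7)), by positivity,
    fun K K' X G ν b s hK' hKK hX hL1 hL hb hG hGK hs => ?_⟩
  have hK : 1 ≤ K := hK'.trans hKK
  have hx : 1 ≤ K ^ δ := Real.one_le_rpow hK hδ.le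
  have hb1 := one_le_nr hb
  have hA0 : 0 ≤ (X * K ^ δ) ^ 2 * K ^ δ / K' := by positivity
  have hG0 : 0 ≤ G := le_trans (by positivity) hG
  have ht : 1 ≤ 1 + |s.im| := le_add_of_nonneg_right (abs_nonneg _)
  have h4 := h1 ({()} : Finset Unit) (fun _ => 1) (fun _ => K') (fun _ => X * K ^ δ)
    (fun _ => bet ν b X s) K (C₂ * (C₃ + 7) * (K ^ δ) ^ 13 * (1 + |s.im|) ^ 2 *
      (K' * X * G ^ (1 / 6 : ℝ) + X ^ 2 * G)) hK
    (fun _ _ => ⟨zero_le_one, by positivity, hKK, by positivity, hL⟩) fun ν' s' hs1 hs2 => by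
      rw [Finset.sum_singleton, one_mul]
      have hP := fun a (ha : a ∈ rows ((X * K ^ δ) ^ 2 * K ^ δ / K')) =>
        h2 K X ν ν' b a s s' hK hX hL ((mem_rows hA0).1 ha).1 (((mem_rows hA0).1 ha).2.trans
          (((le_mul_of_one_le_right hA0 hb1).trans hG).trans hGK)) hs hs1 hs2
      have ht' : 1 ≤ 1 + |s'.im| := le_add_of_nonneg_right (abs_nonneg _)
      have k1 := Finset.sum_le_card_nsmul
        ((rows ((X * K ^ δ) ^ 2 * K ^ δ / K')).filter fun a => Exc M (a * b)) _ _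
        fun a ha => (hP a (Finset.mem_filter.1 ha).1).1
      have k2 := Finset.sum_le_card_nsmul
        ((rows ((X * K ^ δ) ^ 2 * K ^ δ / K')).filter fun a => ¬ Exc M (a * b))
        (Phi (X * K ^ δ) (bet ν b X s) ν' s')
        (C₂ * (K ^ δ) ^ 11 * ((1 + |s.im|) * (1 + |s'.im|)) ^ 2 * G * X) fun a ha => by
          obtain ⟨a1, a2⟩ := Finset.mem_filter.1 ha
          refine ((hP a a1).2 a2).trans ?_
          gcongr
          exact (nr_mul a b).trans_le ((mul_le_mul_of_nonneg_right ((mem_rows hA0).1 a1).2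
            (by positivity)).trans hG)
      have k3 := h3 K _ G b hK hA0 hb hG hGK
      have k4 : (((rows ((X * K ^ δ) ^ 2 * K ^ δ / K')).filter fun a => ¬ Exc M (a * b)).card : ℝ) ≤
          7 * ((X * K ^ δ) ^ 2 * K ^ δ / K') :=
        (Nat.cast_le.2 (Finset.card_filter_le _ _)).trans (card_rows_le hA0)
      rw [nsmul_eq_mul] at k1 k2
      change _ * ∑ a ∈ _, Phi (X * K ^ δ) (bet ν b X s) ν' s' a ≤ _
      rw [← Finset.sum_filter_add_sum_filter_not _ fun a => Exc M (a * b)]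
      have k5 := add_le_add (k1.trans (mul_le_mul_of_nonneg_right k3 (by positivity)))
        (k2.trans (mul_le_mul_of_nonneg_right k4 (by positivity)))
      refine (mul_le_mul_of_nonneg_left k5 (by positivity)).trans ?_
      have hT : 1 ≤ ((1 + |s.im|) * (1 + |s'.im|)) ^ 2 :=
        one_le_pow₀ (one_le_mul_of_one_le_of_one_le ht ht')
      have k6 : (K ^ δ) ^ 7 ≤ (K ^ δ) ^ 13 := pow_le_pow_right₀ hx (by norm_num)
      calc _ = C₂ * C₃ * (K ^ δ) ^ 7 * 1 * (K' * X * G ^ (1 / 6 : ℝ)) +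
            C₂ * 7 * (K ^ δ) ^ 13 * ((1 + |s.im|) * (1 + |s'.im|)) ^ 2 * (X ^ 2 * G) := by
            field_simp
        _ ≤ C₂ * (C₃ + 7) * (K ^ δ) ^ 13 * ((1 + |s.im|) * (1 + |s'.im|)) ^ 2 *
              (K' * X * G ^ (1 / 6 : ℝ)) +
            C₂ * (C₃ + 7) * (K ^ δ) ^ 13 * ((1 + |s.im|) * (1 + |s'.im|)) ^ 2 * (X ^ 2 * G) := by
            gcongr <;> linarith
        _ = _ := by ring
  simp only [Finset.sum_singleton, one_mul] at h4
  have h5 : nsq M (X * K ^ δ) (bet ν b X s) ≤ 8 * (X * K ^ δ) * Real.exp 3 ^ 2 := by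
    refine (Finset.sum_le_card_nsmul _ _ (Real.exp 3 ^ 2) fun m _ => ?_).trans ?_
    · refine pow_le_pow_left₀ (norm_nonneg _) ?_ 2
      rw [bet, norm_mul, norm_mul, Complex.norm_conj]
      refine (mul_le_of_le_one_left (norm_nonneg _) (mul_le_one₀ (norm_ev_le hM.1 ν m)
        (norm_nonneg _) (norm_sym_le _ _))).trans ((norm_Wc_le _ _).trans ?_)
      exact Real.exp_le_exp.2 (by nlinarith [abs_le.1 hs])
    · rw [nsmul_eq_mul]
      exact mul_le_mul_of_nonneg_right (B1.card_sp_le M hL1) (by positivity)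
  refine h4.trans ?_
  rw [mul_assoc C₁, mul_assoc C₁, mul_assoc C₁]
  refine mul_le_mul_of_nonneg_left ?_ hC₁.le
  have h6 : K ^ δ ≤ (K ^ δ) ^ 14 := le_self_pow₀ hx (by norm_num)
  have h7 : 1 ≤ (1 + |s.im|) ^ 2 := one_le_pow₀ ht
  have h8 : 0 ≤ K' * X * G ^ (1 / 6 : ℝ) + X ^ 2 * G := by positivity
  have h9 : 0 ≤ K' * X := by positivity
  have h10 : K' * nsq M (X * K ^ δ) (bet ν b X s) ≤ 8 * Real.exp 3 ^ 2 * K ^ δ * 1 * (K' * X) :=
    (mul_le_mul_of_nonneg_left h5 (by positivity)).trans_eq (by ring)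
  rw [show K' * X * (1 + G ^ (1 / 6 : ℝ)) + X ^ 2 * G =
    K' * X + (K' * X * G ^ (1 / 6 : ℝ) + X ^ 2 * G) by ring]
  generalize K' * X * G ^ (1 / 6 : ℝ) + X ^ 2 * G = Q at h8 ⊢
  generalize K' * X = P at h9 h10 ⊢
  calc _ ≤ 8 * Real.exp 3 ^ 2 * K ^ δ * 1 * P + C₂ * (C₃ + 7) * (K ^ δ) ^ 14 *
        (1 + |s.im|) ^ 2 * Q := add_le_add h10 (le_of_eq (by ring))
    _ ≤ 8 * Real.exp 3 ^ 2 * (K ^ δ) ^ 14 * (1 + |s.im|) ^ 2 * (P + Q) +
        C₂ * (C₃ + 7) * (K ^ δ) ^ 14 * (1 + |s.im|) ^ 2 * (P + Q) := by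
        gcongr <;> linarith
    _ = _ := by ring

end Crest.Agent.R17.GrC
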