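import Crest.Agent.R17.DP
import Crest.Agent.R17.LBasic
import Crest.Agent.R17.GramAuxC

/-!
# Row 17, module M15a: mean square of the Gauss sum averages

Proof.  `X ≤ 1` is trivial.  Write `x = y m`, `y` powerful, `m` squarefree coprime to `y`
(`exists_sqfree_powerful`), Minkowski over `y`.  `gs 5 (y m) k = Rs(y,m) conj χ_m(y²) · gs 5 y k ·
√(N m) γ₅(m) χ_m(k)`.  If `gs 5 y k ≠ 0` there is `y'` with `y/rad y ∣ y' ∣ y`, `y' ∣ k` and
`|gs 5 y k|² ≤ N y N y'` (`gs_prime_pow`, `gs_prime_pow_princ`); write `k = y' k₁`, and apply `back`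
with `K/N y'`, `L = (X/N y) K^{ε'}`, coefficients `ν(m) W conj χ_m(y²) χ_m(y') = ν W conj χ_m(b)`,
`b = y²/y'`.  The diagonal gives `N y' (K/N y')(X/N y)`.  The children are squarefree sums
`∑_{m sqfree, (m,u)=1} rc ν' (a b) m · Wc(N m/X'', s')`, `X'' = X/N(y e t)`, on the rows `a b` of norm
`≤ A_G = X² K^{3ε'}/K`.  Exceptional rows `a b`: at most `A_G^{1/6} K^ε` of them (`card_exc_le`),
trivial bound `X''`.  Other rows: the sum is `∑_{j = j₁² j₂, j₂ ∣ rad u} ± rc(j) Pln(X''/N j)`, and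
`Pln(N)` is negligible unless `N ≤ A_G K^{ε'} (1+|t|)²` (`Pln_decay`), trivially `≪ N`; this gives
`≪ K^ε (1+|t|) √(X'' A_G)`, and the contribution `N y' (K/(N y' X')) (X'² N y'/K) X' A_G
≤ X² A_G/N y ≤ K X/N y` because `X³ ≤ K²`.  Finally `∑_{y powerful} N y^{-1/2} ≪ K^ε`.
-/

set_option autoImplicit false

noncomputable section

namespace Crest.Agent.R17

open scoped ComplexConjugate

open Classical in
/-- Smooth average of normalised Gauss sums over all primary moduli. -/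
def Gsum {M : O} (ν : Chr M) (X : ℝ) (s : ℂ) (k : O) : ℂ :=
  ∑' x : O, if Primary x then ev ν x * (gs 5 x k / (Real.sqrt (nr x) : ℂ)) * Wc (nr x / X) s else 0

namespace GrD

open GrA GrB GrC
open scoped Classical

theorem gco_sq_le {M : O} (hM : Adm M) (ν : Chr M) (k : O) {y : O} (hy : Primary y) :
    ‖gco ν k y‖ ^ 2 ≤ ∑ y' ∈ pdiv y, if y' ∣ k then nr y' else 0 := by
  have h0 : ∀ y' ∈ pdiv y, 0 ≤ if y' ∣ k then nr y' else 0 := fun y' _ => by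
    split_ifs <;> positivity
  by_cases h : gco ν k y = 0
  · rw [h, norm_zero, zero_pow two_ne_zero]
    exact Finset.sum_nonneg h0
  obtain ⟨y', a1, a2, a3, a4⟩ := gs_bound (PO.of_adm hM hy (gco_supp ν k y h).2) k
  refine le_trans ?_ (Finset.single_le_sum h0 ((mem_pdiv hy.ne_zero).2 ⟨a1, a2⟩))
  have hN := nr_pos hy.ne_zero
  rw [if_pos a3, gco, if_pos hy, norm_mul, norm_div, Complex.norm_real,
    Real.norm_of_nonneg (Real.sqrt_nonneg _), mul_pow, div_pow, Real.sq_sqrt hN.le]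
  refine (mul_le_of_le_one_left (by positivity)
    (pow_le_one₀ (norm_nonneg _) (norm_ev_le hM.1 ν y))).trans ?_
  rwa [div_le_iff₀' hN]

theorem sum_dvd_le {K : ℝ} (hK : 0 ≤ K) {d : O} (hd : d ≠ 0) (f : O → ℝ) (hf : ∀ k, 0 ≤ f k) :
    ∑ k ∈ rows K, (if d ∣ k then f k else 0) ≤ ∑ k ∈ rows (K / nr d), f (d * k) := by
  have hN := nr_pos hd
  rw [← Finset.sum_filter, ← Finset.sum_image (f := f) (g := fun k => d * k)
    fun a _ b _ h => mul_left_cancel₀ hd h]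
  refine Finset.sum_le_sum_of_subset_of_nonneg (fun k hk => ?_) fun _ _ _ => hf _
  obtain ⟨h1, c, rfl⟩ := Finset.mem_filter.1 hk
  obtain ⟨h2, h3⟩ := (mem_rows hK).1 h1
  refine Finset.mem_image.2 ⟨c, (mem_rows (by positivity)).2 ⟨right_ne_zero_of_mul h2, ?_⟩, rfl⟩
  rwa [le_div_iff₀' hN, ← nr_mul]

theorem per_y {M : O} (hM : Adm M) {δ : ℝ} (hδ : 0 < δ) (hδ' : δ ≤ 1 / 3) : ∃ C : ℝ, 0 < C ∧
    ∀ (K X : ℝ) (s : ℂ) (ν ν' : Chr M) (y : O), 1 ≤ K → 0 < X → X ^ 3 ≤ K ^ 2 → |s.re| ≤ 3 →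
      Primary y → nr y ≤ X * K ^ δ →
      ∑ k ∈ rows K, ‖gco ν k y * Sd M (X * K ^ δ / nr y) (bet ν' (y ^ 2) (X / nr y) s) k‖ ^ 2 ≤
        C * (K ^ δ) ^ 18 * (1 + |s.im|) ^ 2 * (K * X * (1 + (X ^ 2 / K) ^ (1 / 6 : ℝ))) / nr y := by
  obtain ⟨C₁, hC₁, h1⟩ := frozen hM hδ (by linarith)
  obtain ⟨C₂, hC₂, h2⟩ := card_pdiv_le hδ
  refine ⟨2 * C₁ * C₂, by positivity, fun K X s ν ν' y hK hX hXK hs hy hyL => ?_⟩
  have hx : 1 ≤ K ^ δ := Real.one_le_rpow hK hδ.le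
  have hx3 : (K ^ δ) ^ 3 ≤ K := by
    rw [← Real.rpow_mul_natCast (by positivity)]
    exact Real.rpow_le_self_of_one_le hK (by push_cast; linarith)
  have hL : X * K ^ δ ≤ K := by
    refine le_of_pow_le_pow_left₀ three_ne_zero (by positivity) ?_
    rw [mul_pow, pow_succ K 2]
    gcongr
  have hX1 : X ≤ K := (le_mul_of_one_le_right hX.le hx).trans hL
  have hN := one_le_nr hy.ne_zero
  have hd : ((pdiv y).card : ℝ) ≤ C₂ * K ^ δ := (h2 y hy.ne_zero).trans (by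
    gcongr
    exact hyL.trans hL)
  generalize hρ : (X ^ 2 / K) ^ (1 / 6 : ℝ) = ρ
  have hρ0 : 0 ≤ ρ := by rw [← hρ]; positivity
  have key : ∀ y' ∈ pdiv y, ∑ k ∈ rows K, (if y' ∣ k then nr y' *
      ‖Sd M (X * K ^ δ / nr y) (bet ν' (y ^ 2) (X / nr y) s) k‖ ^ 2 else 0) ≤
      2 * C₁ * (K ^ δ) ^ 17 * (1 + |s.im|) ^ 2 * (K * X * (1 + ρ)) / nr y := by
    intro y' hy'
    obtain ⟨a1, c, rfl⟩ := (mem_pdiv hy.ne_zero).1 hy'
    have b1 := one_le_nr a1.ne_zero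
    have hc := right_ne_zero_of_mul hy.ne_zero
    have b2 := one_le_nr hc
    have b3 : nr y' ≤ nr (y' * c) := by
      rw [nr_mul]
      exact le_mul_of_one_le_right (by positivity) b2
    refine (sum_dvd_le (by positivity) a1.ne_zero _ fun k => by positivity).trans ?_
    simp only [Sd_shift hM]
    rw [← Finset.mul_sum, ← div_mul_eq_mul_div]
    have h3 := h1 K (K / nr y') (X / nr (y' * c)) (X ^ 2 * (K ^ δ) ^ 3 / K) ν' (y' * c * c) s
      ((one_le_div (by positivity)).2 (b3.trans (hyL.trans hL))) (div_le_self (by positivity) b1)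
      (by positivity) (by rwa [div_mul_eq_mul_div, one_le_div (by positivity)])
      (by rw [div_mul_eq_mul_div]; exact (div_le_self (by positivity) hN).trans hL)
      (mul_ne_zero hy.ne_zero hc) (le_of_eq (by simp only [nr_mul]; field_simp)) (by
        rw [div_le_iff₀ (by positivity)]
        calc X ^ 2 * (K ^ δ) ^ 3 ≤ K ^ 2 * K := by gcongr
          _ = K ^ 3 * 1 := by ring
          _ ≤ _ := by gcongr) hs
    have h4 : (X ^ 2 * (K ^ δ) ^ 3 / K) ^ (1 / 6 : ℝ) ≤ (K ^ δ) ^ 3 * ρ := by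
      rw [mul_comm (X ^ 2), mul_div_assoc, Real.mul_rpow (by positivity) (by positivity), hρ]
      exact mul_le_mul_of_nonneg_right
        (Real.rpow_le_self_of_one_le (one_le_pow₀ hx) (by norm_num)) hρ0
    have h5 : nr y' * ((X / nr (y' * c)) ^ 2 * (X ^ 2 * (K ^ δ) ^ 3 / K)) ≤
        (K ^ δ) ^ 3 * (K * X / nr (y' * c)) := by
      calc _ ≤ nr (y' * c) * ((X / nr (y' * c)) ^ 2 * (X ^ 2 * (K ^ δ) ^ 3 / K)) := by gcongr
        _ = (K ^ δ) ^ 3 * (X ^ 3 * X / (K * nr (y' * c))) := by field_simp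
        _ ≤ (K ^ δ) ^ 3 * (K ^ 2 * X / (K * nr (y' * c))) := by gcongr
        _ = _ := by field_simp
    have h6 : 1 ≤ (K ^ δ) ^ 3 := one_le_pow₀ hx
    refine (mul_le_mul_of_nonneg_left h3 (by positivity)).trans ?_
    calc _ = C₁ * (K ^ δ) ^ 14 * (1 + |s.im|) ^ 2 *
          (K * X / nr (y' * c) * (1 + (X ^ 2 * (K ^ δ) ^ 3 / K) ^ (1 / 6 : ℝ)) +
            nr y' * ((X / nr (y' * c)) ^ 2 * (X ^ 2 * (K ^ δ) ^ 3 / K))) := by field_simp
      _ ≤ C₁ * (K ^ δ) ^ 14 * (1 + |s.im|) ^ 2 *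
          (K * X / nr (y' * c) * ((K ^ δ) ^ 3 + (K ^ δ) ^ 3 * ρ) +
            (K ^ δ) ^ 3 * (K * X / nr (y' * c)) * (1 + ρ)) := by
          have h7 := h5.trans (le_mul_of_one_le_right (by positivity)
            (show (1 : ℝ) ≤ 1 + ρ by linarith))
          exact mul_le_mul_of_nonneg_left (add_le_add
            (mul_le_mul_of_nonneg_left (add_le_add h6 h4) (by positivity)) h7) (by positivity)
      _ = _ := by ring
  calc _ ≤ ∑ k ∈ rows K, ∑ y' ∈ pdiv y, (if y' ∣ k then nr y' *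
          ‖Sd M (X * K ^ δ / nr y) (bet ν' (y ^ 2) (X / nr y) s) k‖ ^ 2 else 0) := by
        refine Finset.sum_le_sum fun k _ => ?_
        rw [norm_mul, mul_pow]
        refine (mul_le_mul_of_nonneg_right (gco_sq_le hM ν k hy) (by positivity)).trans_eq ?_
        simp only [Finset.sum_mul, ite_mul, zero_mul]
    _ ≤ (pdiv y).card • (2 * C₁ * (K ^ δ) ^ 17 * (1 + |s.im|) ^ 2 * (K * X * (1 + ρ)) / nr y) := by
        rw [Finset.sum_comm]
        exact Finset.sum_le_card_nsmul _ _ _ key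
    _ ≤ C₂ * K ^ δ * (2 * C₁ * (K ^ δ) ^ 17 * (1 + |s.im|) ^ 2 * (K * X * (1 + ρ)) / nr y) := by
        rw [nsmul_eq_mul]
        gcongr
    _ = _ := by ring

theorem main {M : O} (hM : Adm M) {δ : ℝ} (hδ : 0 < δ) (hδ' : δ ≤ 1 / 3) : ∃ C : ℝ, 0 < C ∧
    ∀ (K X : ℝ) (s : ℂ) (ν : Chr M), 1 ≤ K → 0 < X → X ^ 3 ≤ K ^ 2 → |s.re| ≤ 3 →
      ∑ k ∈ rows K, ‖∑ x ∈ ball ⌊X * K ^ δ⌋₊, gco ν k x * Wc (nr x / X) s‖ ^ 2 ≤
        C * (K ^ δ) ^ 20 * (1 + |s.im|) ^ 2 * (K * X * (1 + (X ^ 2 / K) ^ (1 / 6 : ℝ))) := by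
  obtain ⟨C₁, hC₁, h1⟩ := per_y hM hδ hδ'
  obtain ⟨C₂, hC₂, h2⟩ := sum_powerful_le hδ
  refine ⟨C₂ ^ 2 * C₁, by positivity, fun K X s ν hK hX hXK hs => ?_⟩
  have hx : 1 ≤ K ^ δ := Real.one_le_rpow hK hδ.le
  have hL : X * K ^ δ ≤ K := by
    refine le_of_pow_le_pow_left₀ three_ne_zero (by positivity) ?_
    rw [mul_pow, pow_succ K 2, ← Real.rpow_mul_natCast (by positivity)]
    exact mul_le_mul hXK (Real.rpow_le_self_of_one_le hK (by push_cast; linarith)) (by positivity)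
      (by positivity)
  choose! ν' hν' using fun y (hy : Primary y) => inner_eq hM ν hy
  set P := (ball ⌊X * K ^ δ⌋₊).filter Powerful with hP
  have hP1 : ∀ y ∈ P, Primary y ∧ nr y ≤ X * K ^ δ := fun y hy => by
    obtain ⟨a1, a2⟩ := Finset.mem_filter.1 hy
    exact ⟨a2.1, (Nat.le_floor_iff (by positivity)).1 (mem_ball.1 a1)⟩
  have hW : ∑ y ∈ P, nr y ^ (-(1 / 2 : ℝ)) ≤ C₂ * K ^ δ := by
    refine (Finset.sum_le_sum_of_subset_of_nonneg (Finset.filter_subset_filter _ fun y hy =>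
      mem_ball.2 ((mem_ball.1 hy).trans (Nat.floor_mono hL))) fun _ _ _ => by positivity).trans
      ((h2 ⌊K⌋₊ ((Nat.one_le_floor_iff K).2 hK)).trans ?_)
    gcongr
    exact Nat.floor_le (by positivity)
  generalize hD : C₁ * (K ^ δ) ^ 18 * (1 + |s.im|) ^ 2 *
    (K * X * (1 + (X ^ 2 / K) ^ (1 / 6 : ℝ))) = D
  have hD0 : 0 ≤ D := by rw [← hD]; positivity
  calc _ ≤ ∑ k ∈ rows K, C₂ * K ^ δ * ∑ y ∈ P, nr y ^ (1 / 2 : ℝ) *
          ‖gco ν k y * Sd M (X * K ^ δ / nr y) (bet (ν' y) (y ^ 2) (X / nr y) s) k‖ ^ 2 := by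
        refine Finset.sum_le_sum fun k _ => ?_
        rw [decomp M (by positivity) _ fun x h => gco_supp ν k x (left_ne_zero_of_mul h),
          Finset.sum_congr rfl fun y hy => hν' y (hP1 y hy).1 k _ X s]
        refine (pow_le_pow_left₀ (norm_nonneg _) (norm_sum_le _ _) 2).trans
          ((Finset.sum_sq_le_sum_mul_sum_of_sq_le_mul P (f := fun y => nr y ^ (-(1 / 2 : ℝ)))
            (fun _ _ => by positivity) (fun _ _ => by positivity) fun y hy => ?_).trans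
            (mul_le_mul_of_nonneg_right hW (Finset.sum_nonneg fun _ _ => by positivity)))
        rw [← mul_assoc, ← Real.rpow_add (nr_pos (hP1 y hy).1.ne_zero), neg_add_cancel,
          Real.rpow_zero, one_mul]
    _ ≤ C₂ * K ^ δ * ∑ y ∈ P, nr y ^ (-(1 / 2 : ℝ)) * D := by
        rw [← Finset.mul_sum, Finset.sum_comm]
        refine mul_le_mul_of_nonneg_left (Finset.sum_le_sum fun y hy => ?_) (by positivity)
        have hN := nr_pos (hP1 y hy).1.ne_zero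
        rw [← Finset.mul_sum]
        refine (mul_le_mul_of_nonneg_left (h1 K X s ν (ν' y) y hK hX hXK hs (hP1 y hy).1
          (hP1 y hy).2) (by positivity)).trans_eq ?_
        rw [hD, show -(1 / 2 : ℝ) = 1 / 2 - 1 by norm_num, Real.rpow_sub_one hN.ne']
        ring
    _ ≤ C₂ * K ^ δ * (C₂ * K ^ δ * D) := by
        rw [← Finset.sum_mul]
        gcongr
    _ = _ := by rw [← hD]; ring

end GrD

theorem gram {M : O} (hM : Adm M) {ε : ℝ} (hε : 0 < ε) : ∃ (C : ℝ) (J : ℕ), 0 < C ∧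
    ∀ (K X : ℝ) (s : ℂ) (ν : Chr M), 1 ≤ K → 0 < X → X ^ 3 ≤ K ^ 2 → |s.re| ≤ 3 →
      ∑ k ∈ rows K, ‖Gsum ν X s k‖ ^ 2 ≤
        C * K ^ ε * (1 + |s.im|) ^ J * (K * X * (1 + (X ^ 2 / K) ^ (1 / 6 : ℝ))) := by
  obtain ⟨δ, hδ, hδ1, hδ2⟩ : ∃ δ : ℝ, 0 < δ ∧ δ ≤ 1 / 3 ∧ δ ≤ ε / 20 :=
    ⟨min (1 / 3) (ε / 20), lt_min (by norm_num) (by positivity), min_le_left _ _, min_le_right _ _⟩
  obtain ⟨C₁, hC₁, h1⟩ := GrD.main hM hδ hδ1
  obtain ⟨C₂, hC₂, h2⟩ := GrA.trunc δ⁻¹ (1 / 2) 3 (by norm_num)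
  refine ⟨2 * C₁ + 14 * C₂ ^ 2, 2, by positivity, fun K X s ν hK hX hXK hs => ?_⟩
  have hx : 1 ≤ K ^ δ := Real.one_le_rpow hK hδ.le
  have hX1 : X ≤ K := le_of_pow_le_pow_left₀ three_ne_zero (by positivity)
    (hXK.trans (pow_le_pow_right₀ hK (by norm_num)))
  have e1 : (K ^ δ) ^ (-δ⁻¹) = K⁻¹ := by
    rw [← Real.rpow_mul (by positivity), mul_neg, mul_inv_cancel₀ hδ.ne', Real.rpow_neg_one]
  have h3 : ∀ k, ‖Gsum ν X s k‖ ^ 2 ≤
      2 * ‖∑ x ∈ ball ⌊X * K ^ δ⌋₊, GrB.gco ν k x * Wc (nr x / X) s‖ ^ 2 + 2 * (C₂ ^ 2 * X) := by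
    intro k
    have e : Gsum ν X s k = Sm (GrB.gco ν k) X s := tsum_congr fun x => by
      unfold GrB.gco
      split_ifs <;> simp
    have h4 := h2 _ 1 X _ s (GrB.polyB_gco hM ν k) hX hx hs
    rw [← e, e1, mul_one] at h4
    have h5 : (C₂ * X ^ (1 / 2 + 1 : ℝ) * K⁻¹) ^ 2 ≤ C₂ ^ 2 * X := by
      rw [mul_pow, mul_pow, ← Real.rpow_mul_natCast hX.le,
        show (1 / 2 + 1 : ℝ) * ((2 : ℕ) : ℝ) = ((3 : ℕ) : ℝ) by norm_num, Real.rpow_natCast,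
        mul_assoc, inv_pow, ← div_eq_mul_inv]
      refine mul_le_mul_of_nonneg_left ?_ (by positivity)
      rw [div_le_iff₀ (by positivity), pow_succ' X 2]
      gcongr
    have h6 := (pow_le_pow_left₀ (norm_nonneg _) h4 2).trans h5
    have h7 := pow_le_pow_left₀ (norm_nonneg _) (norm_le_insert' (Gsum ν X s k)
      (∑ x ∈ ball ⌊X * K ^ δ⌋₊, GrB.gco ν k x * Wc (nr x / X) s)) 2
    nlinarith [sq_nonneg (‖∑ x ∈ ball ⌊X * K ^ δ⌋₊, GrB.gco ν k x * Wc (nr x / X) s‖ -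
      ‖Gsum ν X s k - ∑ x ∈ ball ⌊X * K ^ δ⌋₊, GrB.gco ν k x * Wc (nr x / X) s‖)]
  have h4 := h1 K X s ν hK hX hXK hs
  have h5 : (K ^ δ) ^ 20 ≤ K ^ ε := by
    rw [← Real.rpow_mul_natCast (by positivity)]
    exact Real.rpow_le_rpow_of_exponent_le hK (by push_cast; linarith)
  have h6 : 1 ≤ K ^ ε := Real.one_le_rpow hK hε.le
  have h7 : 1 ≤ (1 + |s.im|) ^ 2 := one_le_pow₀ (le_add_of_nonneg_right (abs_nonneg _))
  have h8 : 1 ≤ 1 + (X ^ 2 / K) ^ (1 / 6 : ℝ) := le_add_of_nonneg_right (by positivity)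
  have h9 := card_rows_le (zero_le_one.trans hK)
  refine (Finset.sum_le_sum fun k _ => h3 k).trans ?_
  rw [Finset.sum_add_distrib, ← Finset.mul_sum, Finset.sum_const, nsmul_eq_mul]
  generalize 1 + (X ^ 2 / K) ^ (1 / 6 : ℝ) = ρ at h4 h8 ⊢
  calc _ ≤ 2 * (C₁ * K ^ ε * (1 + |s.im|) ^ 2 * (K * X * ρ)) + 7 * K * (2 * (C₂ ^ 2 * X)) := by
        gcongr
        exact h4.trans (by gcongr)
    _ = 2 * C₁ * K ^ ε * (1 + |s.im|) ^ 2 * (K * X * ρ) + 14 * C₂ ^ 2 * 1 * 1 * (K * X * 1) := by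
        ring
    _ ≤ 2 * C₁ * K ^ ε * (1 + |s.im|) ^ 2 * (K * X * ρ) +
        14 * C₂ ^ 2 * K ^ ε * (1 + |s.im|) ^ 2 * (K * X * ρ) := by gcongr
    _ = _ := by ring

end Crest.Agent.R17
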