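import Crest.Agent.R17.HSideB

/-!
# Row 17, `hside`, part A: the exact dual identity
-/

set_option autoImplicit false

noncomputable section

namespace Crest.Agent.R17.HS

open scoped ComplexConjugate

theorem A_cond_congr {M : O} (hM : Adm M) {n n' : O} (h : M ∣ n - n')
    (hn : Primary n ∧ IsCoprime n M) : Primary n' ∧ IsCoprime n' M := by
  obtain ⟨k, hk⟩ := h
  have e : n' = n + M * (-k) := by linear_combination -hk
  refine ⟨?_, by rw [e]; exact hn.2.add_mul_left_left _⟩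
  have h3 : (3 : O) ∣ M := Dvd.dvd.trans ⟨24, by norm_num⟩ hM.2
  have : n' - 1 = (n - 1) + M * (-k) := by rw [e]; ring
  rw [Primary, this]
  exact dvd_add hn.1 (h3.mul_right _)

theorem A_cond_iff {M : O} (hM : Adm M) {n n' : O} (h : M ∣ n - n') :
    Primary n ∧ IsCoprime n M ↔ Primary n' ∧ IsCoprime n' M :=
  ⟨A_cond_congr hM h, A_cond_congr hM (by rw [← dvd_neg, neg_sub]; exact h)⟩

theorem A_xiR_congr {M : O} (hM : Adm M) (a a' : O) (h : M ∣ a - a') : xiR M a = xiR M a' := by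
  classical
  unfold xiR
  exact if_congr (A_cond_iff hM h) rfl rfl

theorem A_xiR_mul {M y : O} (hy : Primary y) (hyM : IsCoprime y M) (a : O) :
    xiR M (y * a) = xiR M a := by
  classical
  unfold xiR
  exact if_congr ⟨fun h => ⟨hy.of_mul h.1, h.2.of_mul_left_right⟩,
    fun h => ⟨hy.mul h.1, hyM.mul_left h.2⟩⟩ rfl rfl

theorem A_norm_xiR (M a : O) : ‖xiR M a‖ ≤ 1 := by
  unfold xiR
  split_ifs <;> simp

theorem A_ft_congr (q : O) (f : O → ℂ) (a a' : O) (h : q ∣ a - a') : ft q f a = ft q f a' :=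
  Finset.sum_congr rfl fun x _ => by
    rw [eq_congr (show q ∣ a * x - a' * x from sub_mul a a' x ▸ h.mul_right x)]

/-- Poisson summation in the row for one pair `(n, x)`: `poisson` with `q = M * (n * x)`, `ft_mul`,
`xiR M (n * x * y) = xiR M y`, `PB1_ft_row` (with `y = M`), `PB1_ft_const`, `ft_ft`, `PB1_per`. -/
theorem pois_pair {M : O} (hM : Adm M) {n x : O} (hn : Primary n) (hnM : IsCoprime n M)
    (hx : Primary x) (hxM : IsCoprime x M) {Y : ℝ} (hY : 0 < Y) :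
    ∑' a : O, xiR M a * ft (n * x) (fun k => sym n k * conj (gs 5 x k)) a * (gw (nr a / Y) : ℂ) =
      ((Y / nr M : ℝ) : ℂ) * (conj (sym n M) * sym x M) *
        ∑' h : O, ft M (xiR M) h * (sym n (-h) * conj (gs 5 x (-h))) *
          (gw (Y * nr h / (nr M * nr n * nr x)) : ℂ) := by
  have hq : n * x ≠ 0 := mul_ne_zero hn.ne_zero hx.ne_zero
  have hc : IsCoprime M (n * x) := (hnM.mul_left hxM).symm
  have pM := nr_pos hM.1
  have pn := nr_pos hn.ne_zero
  have px := nr_pos hx.ne_zero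
  rw [poisson (mul_ne_zero hM.1 hq)
    (fun a => xiR M a * ft (n * x) (fun k => sym n k * conj (gs 5 x k)) a) (fun a a' h => by
      rw [A_xiR_congr hM a a' ((dvd_mul_right _ _).trans h),
        A_ft_congr _ _ a a' ((dvd_mul_left _ _).trans h)]) hY, ← tsum_mul_left, ← tsum_mul_left]
  refine tsum_congr fun h => ?_
  rw [ft_mul hM.1 hq hc _ _ (A_xiR_congr hM) (A_ft_congr _ _)]
  simp only [A_xiR_mul (hn.mul hx) (hnM.mul_left hxM), mul_comm M,
    PB1_ft_row (PO.of_adm hM hn hnM) (PO.of_adm hM hx hxM) hc]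
  rw [PB1_ft_const, ft_ft hq _ (PB1_per n x)]
  have e1 : nr (n * x * M) = nr M * nr n * nr x := by
    rw [nr_mul, nr_mul]
    ring
  have e2 : ((Y / (nr M * nr n * nr x) : ℝ) : ℂ) * (nm (n * x) : ℂ) = ((Y / nr M : ℝ) : ℂ) := by
    rw [← Complex.ofReal_natCast, ← Complex.ofReal_mul]
    congr 1
    rw [show ((nm (n * x) : ℕ) : ℝ) = nr n * nr x from nr_mul n x]
    field_simp
  rw [e1, ← e2]
  ring

open Classical in
theorem A_summable_T {M : O} (hM : Adm M) (ψ : Chr M) {B : ℝ} (hB : 0 < B) {z π : O}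
    (hz : z ≠ 0) (hπ : π ≠ 0) : Summable (fun v : O × O × O => xiR M v.1 *
      if z ∣ v.2.1 then cf ψ v.1 v.2.1 v.2.2 * Phi B v.1 (nr v.2.1 / nr z) (nr v.2.2 * nr π)
      else 0) := by
  refine Summable.of_norm_bounded (summable_probe hM ψ hB hz hπ) fun v => ?_
  rw [norm_mul]
  refine (mul_le_of_le_one_left (norm_nonneg _) (A_norm_xiR _ _)).trans ?_
  split_ifs
  · exact le_rfl
  · rw [norm_zero]
    exact norm_nonneg _

theorem summable_row {M : O} (hM : Adm M) (ψ : Chr M) {B : ℝ} (hB : 0 < B) {z π : O}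
    (hz : z ≠ 0) (hπ : π ≠ 0) : Summable (fun a : O => xiR M a * Irow ψ B a z π) := by
  have h := (A_summable_T hM ψ hB hz hπ).prod
  simp only [tsum_mul_left] at h
  exact h

open Classical in
theorem A_norm_t {φ : O → ℂ} (hφ : ∀ n, ‖φ n‖ ≤ 1) (D : ℝ) (z h n : O) :
    ‖(if z ∣ n then th n * φ n * sym n h * Wc (nr n / D) (1 / 2) else 0 : ℂ)‖ ≤
      ‖th n * Wc (nr n / D) (1 / 2)‖ := by
  split_ifs
  · rw [show th n * φ n * sym n h * Wc (nr n / D) (1 / 2) =
      φ n * sym n h * (th n * Wc (nr n / D) (1 / 2)) by ring, norm_mul, norm_mul]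
    exact mul_le_of_le_one_left (norm_nonneg _)
      (mul_le_one₀ (hφ n) (norm_nonneg _) (norm_sym_le _ _))
  · rw [norm_zero]
    exact norm_nonneg _

theorem A_norm_g {M : O} (hM : M ≠ 0) (ν : Chr M) (X Y : ℝ) (h x : O) :
    ‖conj (gx ν (-h) x * Wc (nr x / X) (-(1 / 2))) * (gw (nr h / (Y * nr x)) : ℂ)‖ ≤
      nr x ^ (1 / 2 : ℝ) * ‖Wc (nr x / X) (-(1 / 2))‖ * gw (nr h / (Y * nr x)) := by
  rw [norm_mul, Complex.norm_conj, norm_mul, Complex.norm_real, Real.norm_of_nonneg (gw_pos _).le]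
  exact mul_le_mul_of_nonneg_right
    (mul_le_mul_of_nonneg_right (norm_gx_le hM ν _ _) (norm_nonneg _)) (gw_pos _).le

open Classical in
theorem A_dual {M : O} (hM : M ≠ 0) {φ θ : O → ℂ} (hφ : ∀ n, ‖φ n‖ ≤ 1) (hθ : ∀ h, ‖θ h‖ ≤ 1)
    (ν : Chr M) {B X L : ℝ} (hB : 0 < B) (hX : 0 < X) (hL : 0 < L) {z : O} (hz : z ≠ 0)
    (U : O × O → O → ℂ) (hU : ∀ v h, U v h = θ h *
      ((if z ∣ v.1 then th v.1 * φ v.1 * sym v.1 h * Wc (nr v.1 / (B * nr z)) (1 / 2) else 0) *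
        (conj (gx ν (-h) v.2 * Wc (nr v.2 / X) (-(1 / 2))) *
          (gw (nr h / (L * nr z * nr v.2)) : ℂ)))) :
    (∀ v, Summable (U v)) ∧ Summable (fun v => ∑' h, U v h) ∧
      ∑' v, ∑' h, U v h = Dual φ ν θ B X L z := by
  have pz := nr_pos hz
  have s1 := summable_th (D := B * nr z) (by positivity) (1 / 2)
  have s2 := summable_G (Y := L * nr z) hX (by positivity) (-(1 / 2))
  have s3 := s1.mul_of_nonneg s2 (fun _ => norm_nonneg _)
    (fun v => by have := gw_pos (nr v.2 / (L * nr z * nr v.1)); positivity)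
  have s4 : Summable (Function.uncurry U) := by
    refine Summable.of_norm_bounded ((Equiv.prodAssoc O O O).summable_iff.2 s3) fun w => ?_
    rw [Function.uncurry, hU, norm_mul]
    refine (mul_le_of_le_one_left (norm_nonneg _) (hθ _)).trans ?_
    rw [norm_mul]
    exact mul_le_mul (A_norm_t hφ _ _ _ _) (A_norm_g hM ν _ _ _ _) (norm_nonneg _) (norm_nonneg _)
  refine ⟨fun v => s4.prod_factor v, s4.prod, ?_⟩
  rw [← s4.tsum_comm, Dual]
  refine tsum_congr fun h => ?_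
  simp only [hU]
  rw [tsum_mul_left, Tz, Gz, tsum_mul_tsum_of_summable_norm]
  · exact Summable.of_nonneg_of_le (fun _ => norm_nonneg _) (fun n => A_norm_t hφ _ _ _ n) s1
  · exact Summable.of_nonneg_of_le (fun _ => norm_nonneg _) (fun x => A_norm_g hM ν _ _ h x)
      (s2.prod_symm.prod_factor h)

theorem A_norm_const {A D X a b : ℝ} (hD : 0 < D) (hX : 0 < X) (ha : 0 < a) (hb : 0 < b) :
    ((A * (a / D) : ℝ) : ℂ) / ((Real.sqrt a * b : ℝ) : ℂ) * (Wc (a / D) 0 * Wc (b / X) 0) =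
      ((A / Real.sqrt (D * X) : ℝ) : ℂ) *
        (Wc (a / D) (1 / 2) * (Wc (b / X) (-(1 / 2)) / (Real.sqrt b : ℂ))) := by
  have h1 : Wc (a / D) (1 / 2) = Wc (a / D) 0 * (Real.sqrt (a / D) : ℂ) := by
    have := Wc_add (div_pos ha hD) 0 (1 / 2)
    rw [zero_add] at this
    rw [this, Real.sqrt_eq_rpow, Complex.ofReal_cpow (div_pos ha hD).le]
    norm_num
  have h2 : Wc (b / X) 0 = Wc (b / X) (-(1 / 2)) * (Real.sqrt (b / X) : ℂ) := by
    have := Wc_add (div_pos hb hX) (-(1 / 2)) (1 / 2)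
    rw [neg_add_cancel] at this
    rw [this, Real.sqrt_eq_rpow, Complex.ofReal_cpow (div_pos hb hX).le]
    norm_num
  have h3 : A * (a / D) / (Real.sqrt a * b) * Real.sqrt (b / X) =
      A / Real.sqrt (D * X) * Real.sqrt (a / D) / Real.sqrt b := by
    obtain ⟨a, ha', rfl⟩ : ∃ t, 0 < t ∧ a = t ^ 2 := ⟨_, Real.sqrt_pos.2 ha, (Real.sq_sqrt ha.le).symm⟩
    obtain ⟨b, hb', rfl⟩ : ∃ t, 0 < t ∧ b = t ^ 2 := ⟨_, Real.sqrt_pos.2 hb, (Real.sq_sqrt hb.le).symm⟩
    obtain ⟨D, hD', rfl⟩ : ∃ t, 0 < t ∧ D = t ^ 2 := ⟨_, Real.sqrt_pos.2 hD, (Real.sq_sqrt hD.le).symm⟩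
    obtain ⟨X, hX', rfl⟩ : ∃ t, 0 < t ∧ X = t ^ 2 := ⟨_, Real.sqrt_pos.2 hX, (Real.sq_sqrt hX.le).symm⟩
    rw [← mul_pow, ← div_pow a D, ← div_pow b X, Real.sqrt_sq ha'.le, Real.sqrt_sq hb'.le,
      Real.sqrt_sq (by positivity), Real.sqrt_sq (by positivity), Real.sqrt_sq (by positivity)]
    field_simp
  have h4 := congrArg (fun t : ℝ => (t : ℂ)) h3
  simp only [Complex.ofReal_mul (_ / _), Complex.ofReal_div (_ * _)] at h4
  rw [h1, h2]
  linear_combination (Wc (a / D) 0 * Wc (b / X) (-(1 / 2))) * h4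

/-- **The dual identity.**  Interchange `∑'_a` and `∑'_{(n,x)}` (`summable_probe`), apply
`pois_pair` with `Y = A N n/(B N z)` on the support of `cf` (`cf_support`), put
`θ h = ft M (xiR M) h / N M`, use `sym n (-1) * sym n (-h) = sym n h`, expand `Rs n x`
(`Rs_expand`: index set `Chr M × Chr M`, `φ n = if Primary n ∧ IsCoprime n M then
b ν₁ ν₂ * ev ν₁ n * ev ψ n * Gf n * conj (sym n M) else 0`, periodic by `Gf_congr`,
`exists_chr_sym`; the character of `x` is `ν₂ * ν_M⁻¹` where `ev ν_M x = sym x M`), interchange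
`∑'_{(n,x)}` and `∑'_h` (majorant: `summable_th` times `summable_G`) and factor
(`tsum_mul_tsum_of_summable_norm`).  Normalisation:
`Y/(√(N n) N x) · W(N n/(B N z)) W(N x/X') =
A/√(B N z X') · Wc(N n/(B N z), 1/2) · Wc(N x/X', -1/2)/√(N x)` (`Wc_add`), `X' = X/N π`. -/
theorem dual_eq {M : O} (hM : Adm M) (ψ : Chr M) : ∃ (κ : Type) (S : Finset κ) (φ : κ → O → ℂ)
    (ν : κ → Chr M) (θ : O → ℂ), (∀ i, PerB M (φ i)) ∧ (∀ h, ‖θ h‖ ≤ 1) ∧
    ∀ (B : ℝ) (z π : O), 0 < B → z ≠ 0 → π ≠ 0 →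
      ∑' a : O, xiR M a * Irow ψ B a z π =
        ((Apar B / Real.sqrt (B * nr z * (Xpar B / nr π)) : ℝ) : ℂ) *
          ∑ i ∈ S, Dual (φ i) (ν i) θ B (Xpar B / nr π) (B * nr M / Apar B) z := by
  classical
  have := finite_chr hM.1
  have : Fintype (Chr M) := Fintype.ofFinite _
  obtain ⟨b, hb, hR⟩ := Rs_expand hM
  obtain ⟨μ, hμ⟩ := exists_chr_sym hM hM.1 fun p hp => (BasicB.of_mem_pf hp).2.2
  have pM := nr_pos hM.1
  obtain ⟨φ, hφ⟩ : ∃ φ : Chr M × Chr M → O → ℂ, ∀ i n, φ i n =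
      if Primary n ∧ IsCoprime n M then b i.1 i.2 * ev i.1 n * ev ψ n * Gf n * conj (ev μ n)
      else 0 := ⟨_, fun _ _ => rfl⟩
  have hφ1 : ∀ i n, ‖φ i n‖ ≤ 1 := fun i n => by
    rw [hφ]
    split_ifs with h
    · rw [norm_mul, norm_mul, norm_mul, norm_mul, Complex.norm_conj,
        norm_Gf (PO.of_adm hM h.1 h.2), norm_ev hM.1 _ h.2, norm_ev hM.1 _ h.2, norm_ev hM.1 _ h.2]
      simpa using hb i.1 i.2
    · simp
  have hθ : ∀ h, ‖ft M (xiR M) h / (nr M : ℂ)‖ ≤ 1 := fun h => by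
    rw [norm_div, Complex.norm_real, Real.norm_of_nonneg pM.le, div_le_one pM]
    simpa using PB1_norm_ft_le hM.1 (A_norm_xiR M) h
  refine ⟨Chr M × Chr M, Finset.univ, φ, fun i => i.2 * μ⁻¹, fun h => ft M (xiR M) h / (nr M : ℂ),
    fun i => ⟨hφ1 i, fun n n' h => ?_, fun n h => by rw [hφ, if_neg fun h' => h h'.2]⟩, hθ,
    fun B z π hB hz hπ => ?_⟩
  · rw [hφ, hφ]
    by_cases c : Primary n ∧ IsCoprime n M
    · have c' := (A_cond_iff hM h).1 c
      rw [if_pos c, if_pos c', ev_congr i.1 h, ev_congr ψ h, ev_congr μ h,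
        Gf_congr (PO.of_adm hM c.1 c.2) (PO.of_adm hM c'.1 c'.2)
          ((Dvd.dvd.trans ⟨18, by norm_num⟩ hM.2).trans h)]
    · rw [if_neg c, if_neg fun c' => c ((A_cond_iff hM h).2 c')]
  have pA := RT.Apar_pos hB
  have pX := RT.Xpar_pos hB
  have pz := nr_pos hz
  have pπ := nr_pos hπ
  obtain ⟨U, hU⟩ : ∃ U : Chr M × Chr M → O × O → O → ℂ, ∀ i v h, U i v h =
      ft M (xiR M) h / (nr M : ℂ) *
        ((if z ∣ v.1 then th v.1 * φ i v.1 * sym v.1 h * Wc (nr v.1 / (B * nr z)) (1 / 2) else 0) *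
          (conj (gx (i.2 * μ⁻¹) (-h) v.2 * Wc (nr v.2 / (Xpar B / nr π)) (-(1 / 2))) *
            (gw (nr h / (B * nr M / Apar B * nr z * nr v.2)) : ℂ))) := ⟨_, fun _ _ _ => rfl⟩
  have hD := fun i => A_dual hM.1 (hφ1 i) hθ (i.2 * μ⁻¹) hB (X := Xpar B / nr π)
    (L := B * nr M / Apar B) (by positivity) (by positivity) hz (U i) (hU i)
  have e1 := (A_summable_T hM ψ hB hz hπ).tsum_comm
    (f := fun (a : O) (v : O × O) => xiR M a *
      if z ∣ v.1 then cf ψ a v.1 v.2 * Phi B a (nr v.1 / nr z) (nr v.2 * nr π) else 0)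
  simp only [Irow, ← tsum_mul_left]
  rw [← e1, ← Finset.sum_congr rfl fun i _ => (hD i).2.2,
    ← Summable.tsum_finsetSum fun i _ => (hD i).2.1, ← tsum_mul_left]
  refine tsum_congr fun v => ?_
  obtain ⟨n, x⟩ := v
  rw [← Summable.tsum_finsetSum fun i _ => (hD i).1 (n, x)]
  by_cases c : z ∣ n ∧ (Primary n ∧ IsCoprime n M) ∧ Primary x ∧ IsCoprime x M
  swap
  · have z1 : ∀ a, (if z ∣ n then cf ψ a n x * Phi B a (nr n / nr z) (nr x * nr π) else 0) = 0 := by
      intro a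
      split_ifs with h
      · refine mul_eq_zero_of_left ?_ _
        by_contra h0
        obtain ⟨a1, a2, a3⟩ := cf_support ψ h0
        exact c ⟨h, ⟨a1, a2⟩, a3⟩
      · rfl
    have z2 : ∀ i h, U i (n, x) h = 0 := by
      intro i h
      rw [hU]
      by_cases c1 : z ∣ n
      · by_cases c2 : Primary n ∧ IsCoprime n M
        · have : gx (i.2 * μ⁻¹) (-h) x = 0 := by
            unfold gx
            split_ifs with c3
            · rw [ev_eq_zero _ fun c4 => c ⟨c1, c2, c3, c4⟩, zero_mul]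
            · rfl
          simp [this]
        · simp [hφ, c2]
      · simp [c1]
    simp [z1, z2]
  obtain ⟨c1, c2, c3, c4⟩ := c
  have pn := nr_pos c2.1.ne_zero
  have px := nr_pos c3.ne_zero
  have po := PO.of_adm hM c2.1 c2.2
  have hY : 0 < Apar B * (nr n / (B * nr z)) := by positivity
  have k1 : ∀ a, xiR M a * (if z ∣ n then cf ψ a n x * Phi B a (nr n / nr z) (nr x * nr π) else 0) =
      th n * ev ψ n * Gf n * sym n (-1) * Rs n x / ((Real.sqrt (nr n) * nr x : ℝ) : ℂ) *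
        (Wc (nr n / (B * nr z)) 0 * Wc (nr x / (Xpar B / nr π)) 0) *
        (xiR M a * ft (n * x) (fun k => sym n k * conj (gs 5 x k)) a *
          (gw (nr a / (Apar B * (nr n / (B * nr z)))) : ℂ)) := fun a => by
    rw [if_pos c1, cf, if_pos ⟨c3, c4⟩, Phi,
      show nr n / nr z / B = nr n / (B * nr z) by field_simp,
      show nr x * nr π / Xpar B = nr x / (Xpar B / nr π) by field_simp,
      show nr a * B / (Apar B * (nr n / nr z)) = nr a / (Apar B * (nr n / (B * nr z))) by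
        field_simp]
    ring
  simp only [k1]
  rw [tsum_mul_left, pois_pair hM c2.1 c2.2 c3 c4 hY, ← tsum_mul_left, ← tsum_mul_left,
    ← tsum_mul_left]
  refine tsum_congr fun h => ?_
  have k2 := A_norm_const (A := Apar B) (D := B * nr z) (X := Xpar B / nr π) (by positivity)
    (by positivity) pn px
  have k3 : sym n h = sym n (-1) * sym n (-h) := by rw [← sym_mul_right po, neg_one_mul, neg_neg]
  have k4 : ∀ i : Chr M × Chr M, U i (n, x) h = b i.1 i.2 * ev i.1 n * conj (ev i.2 x) *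
      (ft M (xiR M) h / (nr M : ℂ) * (th n * ev ψ n * Gf n * conj (sym n M) * sym x M *
        (sym n (-1) * sym n (-h)) * conj (gs 5 x (-h)) *
        (gw (Apar B * (nr n / (B * nr z)) * nr h / (nr M * nr n * nr x)) : ℂ) *
        (Wc (nr n / (B * nr z)) (1 / 2) *
          (Wc (nr x / (Xpar B / nr π)) (-(1 / 2)) / (Real.sqrt (nr x) : ℂ))))) := fun i => by
    rw [hU, if_pos c1, hφ, if_pos c2, gx, if_pos c3, ev_mul_chr, ev_inv hM.1, hμ n c2.1 c2.2,
      hμ x c3 c4, k3, show nr h / (B * nr M / Apar B * nr z * nr x) =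
        Apar B * (nr n / (B * nr z)) * nr h / (nr M * nr n * nr x) by field_simp]
    simp only [map_mul, map_div₀, Complex.conj_conj, Complex.conj_ofReal, conj_Wc, map_neg, map_one,
      map_ofNat]
    ring
  simp only [k4]
  rw [← Finset.sum_mul, Fintype.sum_prod_type, ← hR n x c2.2 c4, Complex.ofReal_div]
  linear_combination (Rs n x * (ft M (xiR M) h / (nr M : ℂ)) * (th n * ev ψ n * Gf n *
    conj (sym n M) * sym x M * (sym n (-1) * sym n (-h)) * conj (gs 5 x (-h)) *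
    (gw (Apar B * (nr n / (B * nr z)) * nr h / (nr M * nr n * nr x)) : ℂ))) * k2

end Crest.Agent.R17.HS
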