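import Crest.Agent.R17.HSideDefs

/-!
# Row 17, `hside`, part B: summability, the term `h = 0`, Mellin separation
-/

set_option autoImplicit false

noncomputable section

namespace Crest.Agent.R17.HS

open scoped ComplexConjugate
open MeasureTheory

/-- Majorant of the theta side (`PB1_norm_th_le`, `summable_Sm` with `PolyB th 1 (1/2)`). -/
theorem summable_th {D : ℝ} (hD : 0 < D) (s : ℂ) :
    Summable (fun n : O => ‖th n * Wc (nr n / D) s‖) := by
  have h : PolyB th 1 (1 / 2) := by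
    refine ⟨?_, fun n => ?_⟩
    · rw [th, if_neg fun h0 => Primary.ne_zero h0.1 rfl]
    · rw [one_mul, ← Real.sqrt_eq_rpow]
      exact PB1_norm_th_le n
  exact summable_Sm h hD s

theorem hB_summable_rpow {X a : ℝ} (hX : 0 < X) (ha : a ≠ 0) (s : ℂ) :
    Summable (fun x : O => nr x ^ a * ‖Wc (nr x / X) s‖) := by
  have h : PolyB (fun x => ((nr x ^ a : ℝ) : ℂ)) 1 a := by
    refine ⟨by simp [nr, Real.zero_rpow ha], fun n => ?_⟩
    rw [one_mul, Complex.norm_real, Real.norm_of_nonneg (by positivity)]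
  refine (summable_Sm h hX s).congr fun x => ?_
  rw [norm_mul, Complex.norm_real, Real.norm_of_nonneg (by positivity)]

/-- Majorant of the Gauss sum side in the two variables `(x, h)`: `summable_prod_of_nonneg`,
`summable_gw'`, `tsum_gw_le` (`∑_h gw (N h/(Y N x)) ≤ 1 + 7 Y N x` for `x ≠ 0`; the terms `x = 0`
vanish) and `summable_Sm`. -/
theorem summable_G {X Y : ℝ} (hX : 0 < X) (hY : 0 < Y) (s : ℂ) :
    Summable (fun v : O × O =>
      nr v.1 ^ (1 / 2 : ℝ) * ‖Wc (nr v.1 / X) s‖ * gw (nr v.2 / (Y * nr v.1))) := by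
  have h0 : nr (0 : O) ^ (1 / 2 : ℝ) = 0 := by simp [nr]
  refine (summable_prod_of_nonneg fun v => mul_nonneg (by positivity) (gw_pos _).le).2
    ⟨fun x => ?_, ?_⟩
  · by_cases hx : x = 0
    · subst hx
      simp only [h0, zero_mul]
      exact summable_zero
    · exact (summable_gw' (mul_pos hY (nr_pos hx))).mul_left
        (nr x ^ (1 / 2 : ℝ) * ‖Wc (nr x / X) s‖)
  · refine Summable.of_nonneg_of_le
      (fun x => tsum_nonneg fun k => mul_nonneg (by positivity) (gw_pos _).le) (fun x => ?_)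
      ((hB_summable_rpow hX (a := 1 / 2) (by norm_num) s).add
        ((hB_summable_rpow hX (a := 1 / 2 + 1) (by norm_num) s).mul_left (7 * Y)))
    by_cases hx : x = 0
    · subst hx
      simp only [h0, zero_mul, tsum_zero, zero_add]
      positivity
    · have h1 := nr_pos hx
      simp only
      rw [tsum_mul_left, Real.rpow_add_one h1.ne']
      refine (mul_le_mul_of_nonneg_left (tsum_gw_le (mul_pos hY h1)) (by positivity)).trans
        (le_of_eq ?_)
      ring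

theorem hB_norm_Tz_le {φ : O → ℂ} (hφ : ∀ n, ‖φ n‖ ≤ 1) {B : ℝ} (hB : 0 < B) {z : O} (hz : z ≠ 0)
    (h : O) : ‖Tz φ B z h‖ ≤ ∑' n : O, ‖th n * Wc (nr n / (B * nr z)) (1 / 2)‖ := by
  refine tsum_of_norm_bounded (summable_th (mul_pos hB (nr_pos hz)) (1 / 2)).hasSum fun n => ?_
  split_ifs
  · rw [norm_mul, norm_mul, norm_mul, norm_mul, mul_assoc ‖th n‖]
    exact mul_le_mul_of_nonneg_right (mul_le_of_le_one_right (norm_nonneg _)
      (mul_le_one₀ (hφ n) (norm_nonneg _) (norm_sym_le n h))) (norm_nonneg _)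
  · rw [norm_zero]
    exact norm_nonneg _

/-- `Tz` is bounded uniformly in `h`, and `‖Gz h‖ ≤ ∑_x` (majorant of `summable_G`). -/
theorem summable_dual {M : O} (hM : M ≠ 0) {φ : O → ℂ} (hφ : ∀ n, ‖φ n‖ ≤ 1) (ν : Chr M)
    {B X Y : ℝ} (hB : 0 < B) (hX : 0 < X) (hY : 0 < Y) {z : O} (hz : z ≠ 0) :
    Summable (fun h : O => ‖Tz φ B z h * Gz ν X Y h‖) := by
  have hG := (summable_G hX hY (-(1 / 2))).prod_symm
  refine Summable.of_nonneg_of_le (fun _ => norm_nonneg _) (fun h => ?_)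
    (hG.prod.mul_left (∑' n : O, ‖th n * Wc (nr n / (B * nr z)) (1 / 2)‖))
  rw [norm_mul]
  refine mul_le_mul (hB_norm_Tz_le hφ hB hz h) ?_ (norm_nonneg _)
    (tsum_nonneg fun _ => norm_nonneg _)
  refine tsum_of_norm_bounded (hG.prod_factor h).hasSum fun x => ?_
  rw [norm_mul, Complex.norm_conj, norm_mul, Complex.norm_real, Real.norm_of_nonneg (gw_pos _).le]
  exact mul_le_mul_of_nonneg_right (mul_le_mul_of_nonneg_right (norm_gx_le hM ν _ x)
    (norm_nonneg _)) (gw_pos _).le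

theorem hB_Tz_zero (φ : O → ℂ) (B : ℝ) {z : O} (hz : Primary z) :
    Tz φ B z 0 = if z = 1 then th 1 * φ 1 * sym 1 0 * Wc (nr 1 / (B * nr 1)) (1 / 2) else 0 := by
  classical
  unfold Tz
  rw [tsum_eq_single 1]
  · by_cases h1 : z = 1
    · subst h1
      rw [if_pos (dvd_refl _), if_pos rfl]
    · rw [if_neg h1, if_neg fun h => h1 (hz.eq_one_of_isUnit (isUnit_of_dvd_one h))]
  · intro n hn
    split_ifs
    · by_cases hp : Primary n
      · rw [(sym_eq_zero_iff hp).2 fun h => hn (hp.eq_one_of_isUnit (isCoprime_zero_right.1 h)),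
          mul_zero, zero_mul]
      · rw [th, if_neg fun h => hp h.1, zero_mul, zero_mul, zero_mul]
    · rfl

/-- The term `h = 0`: `th n * sym n 0 ≠ 0` forces `n = 1` (`sym_eq_zero_iff`), hence `z = 1`;
`‖Tz φ B 1 0‖ ≤ exp (1/16)` (`norm_Wc_le`), `‖Gz ν X Y 0‖ ≤ C X^{3/2} ≤ C K` (`tsum_norm_Sm_le`,
`polyB_gx`, `gw_le_one`). -/
theorem zero_term {M : O} (hM : M ≠ 0) : ∃ C : ℝ, 0 < C ∧ ∀ (B X K : ℝ) (Y : O → ℝ) (φ : O → ℂ)
    (ν : Chr M) (Zs : Finset O) (c : O → ℂ), 0 < X → 0 ≤ K → X ^ 3 ≤ K ^ 2 → (∀ n, ‖φ n‖ ≤ 1) →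
      (∀ z ∈ Zs, Primary z) → (∀ z, ‖c z‖ ≤ 1) →
      ‖∑ z ∈ Zs, c z * (Tz φ B z 0 * Gz ν X (Y z) 0)‖ ≤ C * K := by
  classical
  obtain ⟨C, hC, H⟩ := tsum_norm_Sm_le 0 (1 / 2) 1 (by norm_num)
  refine ⟨Real.exp 1 * C, by positivity, fun B X K Y φ ν Zs c hX hK hXK hφ hZ hc => ?_⟩
  have h1 : ∑ z ∈ Zs, c z * (Tz φ B z 0 * Gz ν X (Y z) 0) = ∑ z ∈ Zs, if z = 1 then
      c 1 * (th 1 * φ 1 * sym 1 0 * Wc (nr 1 / (B * nr 1)) (1 / 2) * Gz ν X (Y 1) 0) else 0 := by
    refine Finset.sum_congr rfl fun z hz => ?_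
    rw [hB_Tz_zero φ B (hZ z hz)]
    split_ifs with h
    · rw [h]
    · rw [zero_mul, mul_zero]
  rw [h1, Finset.sum_ite_eq']
  split_ifs
  swap
  · rw [norm_zero]
    positivity
  have h2 : ‖th 1 * φ 1 * sym 1 0 * Wc (nr 1 / (B * nr 1)) (1 / 2)‖ ≤ Real.exp 1 := by
    rw [PB1_th_one, one_mul, norm_mul, norm_mul]
    refine (mul_le_of_le_one_left (norm_nonneg _)
      (mul_le_one₀ (hφ 1) (norm_nonneg _) (norm_sym_le _ _))).trans
      ((norm_Wc_le _ _).trans (Real.exp_le_exp.2 ?_))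
    norm_num
  have h3 : X ^ (1 / 2 + 1 : ℝ) ≤ K := by
    refine le_of_sq_le_sq ?_ hK
    rw [← Real.rpow_natCast, ← Real.rpow_mul hX.le]
    norm_num
    exact hXK
  have h4 : ‖Gz ν X (Y 1) 0‖ ≤ C * K := by
    have h5 := H _ 1 X (-(1 / 2)) (polyB_gx hM ν (-0)) hX (by norm_num [abs_le])
    rw [mul_one] at h5
    refine le_trans ?_ (h5.trans (mul_le_mul_of_nonneg_left ((min_le_left _ _).trans h3) hC.le))
    refine tsum_of_norm_bounded (summable_Sm (polyB_gx hM ν (-0)) hX _).hasSum fun x => ?_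
    rw [norm_mul, Complex.norm_conj, Complex.norm_real, Real.norm_of_nonneg (gw_pos _).le]
    exact mul_le_of_le_one_right (norm_nonneg _) (gw_le_one (by simp [nr]))
  rw [norm_mul, norm_mul _ (Gz _ _ _ _), mul_assoc (Real.exp 1)]
  exact (mul_le_of_le_one_left (by positivity) (hc 1)).trans
    (mul_le_mul h2 h4 (norm_nonneg _) (Real.exp_pos _).le)

theorem hB_int {σ : ℝ} (hσ : 0 < σ) {f : ℝ → ℂ} (hf : Continuous f) {C : ℝ} (hC : ∀ u, ‖f u‖ ≤ C) :
    Integrable fun u : ℝ => Complex.Gamma (σ + u * Complex.I) * f u := by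
  have h : Integrable fun u : ℝ => Complex.Gamma (σ + u * Complex.I) :=
    (integrable_norm_iff (WA.continuous_Gamma_line hσ).aestronglyMeasurable).1
      (by simpa using integrable_Gamma_mul_pow hσ 0)
  exact h.mul_bdd hf.aestronglyMeasurable (Filter.Eventually.of_forall hC)

theorem hB_cont_cpow {y : ℝ} (hy : 0 < y) {f : ℝ → ℂ} (hf : Continuous f) :
    Continuous fun u => (y : ℂ) ^ f u := by
  simp only [WA.cpow_eq hy]
  fun_prop

theorem hB_norm_term {M : O} (ν : Chr M) (X σ u : ℝ) (k x : O) :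
    ‖gx ν k x * Wc (nr x / X) (conj (σ + u * Complex.I) - 1 / 2)‖ =
      ‖gx ν k x * Wc (nr x / X) (σ - 1 / 2)‖ := by
  rw [norm_mul, norm_mul, norm_Wc, norm_Wc]
  simp

theorem hB_cont_term {M : O} (ν : Chr M) (X σ : ℝ) (k x : O) :
    Continuous fun u : ℝ => gx ν k x * Wc (nr x / X) (conj (σ + u * Complex.I) - 1 / 2) := by
  unfold Wc
  fun_prop

theorem hB_cont_Gsum {M : O} (hM : M ≠ 0) (ν : Chr M) {X : ℝ} (hX : 0 < X) (σ : ℝ) (k : O) :
    Continuous fun u : ℝ => Gsum ν X (conj (σ + u * Complex.I) - 1 / 2) k := by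
  simp only [Gsum_eq]
  exact continuous_tsum (hB_cont_term ν X σ k) (summable_Sm (polyB_gx hM ν k) hX (σ - 1 / 2))
    fun x u => (hB_norm_term ν X σ u k x).le

theorem hB_norm_Gsum {M : O} (hM : M ≠ 0) (ν : Chr M) {X : ℝ} (hX : 0 < X) (σ u : ℝ) (k : O) :
    ‖Gsum ν X (conj (σ + u * Complex.I) - 1 / 2) k‖ ≤
      ∑' x : O, ‖gx ν k x * Wc (nr x / X) (σ - 1 / 2)‖ := by
  rw [Gsum_eq]
  exact tsum_of_norm_bounded (summable_Sm (polyB_gx hM ν k) hX (σ - 1 / 2)).hasSum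
    fun x => (hB_norm_term ν X σ u k x).le

theorem hB_norm_pow {A t : ℝ} (hA : 0 < A) (ht : 0 < t) (σ u : ℝ) :
    ‖(A : ℂ) ^ (-(σ + u * Complex.I)) * (t : ℂ) ^ (σ + u * Complex.I)‖ = A ^ (-σ) * t ^ σ := by
  rw [norm_mul, Complex.norm_cpow_eq_rpow_re_of_pos hA, Complex.norm_cpow_eq_rpow_re_of_pos ht]
  simp

/-- Mellin separation of one `Gz`. -/
theorem hB_Gz {M : O} (hM : M ≠ 0) (ν : Chr M) {X Y A t σ : ℝ} (hX : 0 < X) (hY : 0 < Y)
    (hA : 0 < A) (ht : 0 < t) (hσ : 0 < σ) {h : O} (hh : h ≠ 0)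
    (e : 2 * Real.pi / Real.sqrt 3 * (nr h / Y) = A * X / t) :
    Gz ν X Y h = (1 / (2 * Real.pi) : ℂ) * ∫ u : ℝ, Complex.Gamma (σ + u * Complex.I) *
      ((A : ℂ) ^ (-(σ + u * Complex.I)) * (t : ℂ) ^ (σ + u * Complex.I) *
        conj (Gsum ν X (conj (σ + u * Complex.I) - 1 / 2) (-h))) := by
  set F : O → ℝ → ℂ := fun x u => Complex.Gamma (σ + u * Complex.I) *
      ((A : ℂ) ^ (-(σ + u * Complex.I)) * (t : ℂ) ^ (σ + u * Complex.I) *
        conj (gx ν (-h) x * Wc (nr x / X) (conj (σ + u * Complex.I) - 1 / 2))) with hF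
  have hn : ∀ (x : O) (u : ℝ), ‖(A : ℂ) ^ (-(σ + u * Complex.I)) * (t : ℂ) ^ (σ + u * Complex.I) *
      conj (gx ν (-h) x * Wc (nr x / X) (conj (σ + u * Complex.I) - 1 / 2))‖ =
      A ^ (-σ) * t ^ σ * ‖gx ν (-h) x * Wc (nr x / X) (σ - 1 / 2)‖ := fun x u => by
    rw [norm_mul, hB_norm_pow hA ht, Complex.norm_conj, hB_norm_term]
  have hi : ∀ x, Integrable (F x) := fun x =>
    hB_int hσ (((hB_cont_cpow hA (by fun_prop)).mul (hB_cont_cpow ht (by fun_prop))).mul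
      (Complex.continuous_conj.comp (hB_cont_term ν X σ (-h) x))) fun u => (hn x u).le
  have hs : Summable fun x => ∫ u, ‖F x u‖ := by
    simp only [hF, norm_mul (Complex.Gamma _), hn, integral_mul_const]
    exact ((summable_Sm (polyB_gx hM ν (-h)) hX (σ - 1 / 2)).mul_left _).mul_left _
  have h1 : ∀ x : O, conj (gx ν (-h) x * Wc (nr x / X) (-(1 / 2))) * (gw (nr h / (Y * nr x)) : ℂ) =
      (1 / (2 * Real.pi) : ℂ) * ∫ u, F x u := fun x => by
    by_cases hx : x = 0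
    · subst hx
      simp [hF, (polyB_gx hM ν (-h)).1]
    have h2 := nr_pos hx
    have h3 := nr_pos hh
    have h4 : 0 < nr x / X := div_pos h2 hX
    rw [gw_eq_integral (by positivity) hσ, mul_left_comm, ← integral_const_mul]
    congr 2
    funext u
    have h5 : 2 * Real.pi / Real.sqrt 3 * (nr h / (Y * nr x)) = A / (t * (nr x / X)) := by
      rw [← div_div, ← mul_div_assoc _ (nr h / Y), e]
      field_simp
    have h6 : conj (conj ((σ : ℂ) + u * Complex.I) - 1 / 2) = -(1 / 2) + (σ + u * Complex.I) := by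
      rw [map_sub, Complex.conj_conj]
      simp [map_ofNat]
      ring
    have h7 : conj (-(1 / 2) : ℂ) = -(1 / 2) := by simp [map_ofNat]
    simp only [hF]
    rw [h5, map_mul, map_mul, conj_Wc, conj_Wc, h6, h7, Wc_add h4, WA.cpow_eq (by positivity),
      WA.cpow_eq hA, WA.cpow_eq ht, WA.cpow_eq h4, Real.log_div hA.ne' (by positivity),
      Real.log_mul ht.ne' h4.ne']
    generalize (σ : ℂ) + u * Complex.I = s
    rw [show -s * ((Real.log A - (Real.log t + Real.log (nr x / X)) : ℝ) : ℂ) =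
      -s * (Real.log A : ℂ) + s * (Real.log t : ℂ) + s * (Real.log (nr x / X) : ℂ) by
        push_cast; ring, Complex.exp_add, Complex.exp_add]
    ring
  unfold Gz
  simp only [h1]
  rw [tsum_mul_left, integral_tsum_of_summable_integral_norm hi hs]
  congr 2
  funext u
  simp only [hF]
  rw [tsum_mul_left, tsum_mul_left, Gsum_eq, Complex.conj_tsum]

/-- **Mellin separation** for `h ≠ 0`.  With `s = σ + iu` and `κ = 2π/√3 ≥ 1`, `gw_eq_integral`
gives for `x ≠ 0`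
`gw (N h/(L N z N x)) = (1/2π) ∫ Γ(s) (κ N h/(2 L Z X))^{-s} (N z/(2Z))^s (N x/X)^s du`;
interchange `∑'_x` and `∫` (`integral_tsum_of_summable_integral_norm` or
`hasSum_integral_of_summable_integral_norm`; `‖(N x/X)^s‖ = (N x/X)^σ`, `Wc_add`, `summable_Sm`),
then the finite sum over `z` (`integral_finset_sum`);
`conj (Wc y (-1/2)) y^s = Wc y (s - 1/2) = conj (Wc y (conj s - 1/2))` (`conj_Wc`, `Wc_add`),
`Gsum_eq`, `Tc_eq`; finally `norm_integral_le_integral_norm` and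
`(1/2π) (κ N h/(2 L Z X))^{-σ} ≤ (K / N h)^σ` (pull this constant out of the integral, no
monotonicity of the integral is needed). -/
theorem mellin_h {M : O} (hM : M ≠ 0) {φ : O → ℂ} (ν : Chr M) {B X L Z K σ : ℝ} (hX : 0 < X)
    (hL : 0 < L) (hZ : 0 < Z) (hK : 2 * L * Z * X ≤ K) (hσ : 0 < σ) (Zs : Finset O)
    (hz : ∀ z ∈ Zs, z ≠ 0) (c : O → ℂ) {h : O} (hh : h ≠ 0) :
    ‖∑ z ∈ Zs, c z * (Tz φ B z h * Gz ν X (L * nr z) h)‖ ≤ (K / nr h) ^ σ *
      ∫ u : ℝ, ‖Complex.Gamma (σ + u * Complex.I)‖ *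
        (‖Tc φ Zs (cs Zs c Z (σ + u * Complex.I)) B (1 / 2) h‖ *
          ‖Gsum ν X (conj (σ + u * Complex.I) - 1 / 2) (-h)‖) := by
  have hπ := Real.pi_gt_three
  have hκ := pois_three_le
  have h3 := nr_pos hh
  set κ := 2 * Real.pi / Real.sqrt 3 with hκd
  have hκ0 : 0 < κ := by linarith
  set A : ℝ := κ * nr h / (2 * L * Z * X) with hAd
  have hA : 0 < A := by positivity
  set G : ℝ → ℂ := fun u => conj (Gsum ν X (conj (σ + u * Complex.I) - 1 / 2) (-h)) with hG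
  have h1 : ∀ z ∈ Zs, c z * (Tz φ B z h * Gz ν X (L * nr z) h) =
      (1 / (2 * Real.pi) : ℂ) * ∫ u : ℝ, c z * Tz φ B z h * (Complex.Gamma (σ + u * Complex.I) *
        ((A : ℂ) ^ (-(σ + u * Complex.I)) * ((nr z / (2 * Z) : ℝ) : ℂ) ^ (σ + u * Complex.I) *
          G u)) := fun z hzs => by
    have h4 := nr_pos (hz z hzs)
    rw [hB_Gz hM ν hX (by positivity) hA (t := nr z / (2 * Z)) (by positivity) hσ hh
      (by rw [← hκd, hAd]; field_simp), integral_const_mul]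
    ring
  have h2 : ∀ z ∈ Zs, Integrable fun u : ℝ => c z * Tz φ B z h *
      (Complex.Gamma (σ + u * Complex.I) * ((A : ℂ) ^ (-(σ + u * Complex.I)) *
        ((nr z / (2 * Z) : ℝ) : ℂ) ^ (σ + u * Complex.I) * G u)) := fun z hzs => by
    have h4 := nr_pos (hz z hzs)
    have ht : 0 < nr z / (2 * Z) := by positivity
    refine (hB_int hσ (((hB_cont_cpow hA (by fun_prop)).mul (hB_cont_cpow ht (by fun_prop))).mul
      (Complex.continuous_conj.comp (hB_cont_Gsum hM ν hX σ (-h))))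
      (C := A ^ (-σ) * (nr z / (2 * Z)) ^ σ * ∑' x : O, ‖gx ν (-h) x * Wc (nr x / X) (σ - 1 / 2)‖)
      fun u => ?_).const_mul _
    simp only [Pi.mul_apply, Function.comp_apply]
    rw [norm_mul, hB_norm_pow hA ht, Complex.norm_conj]
    exact mul_le_mul_of_nonneg_left (hB_norm_Gsum hM ν hX σ u (-h)) (by positivity)
  rw [Finset.sum_congr rfl h1, ← Finset.mul_sum, ← integral_finsetSum _ h2, norm_mul]
  refine (mul_le_mul_of_nonneg_left (norm_integral_le_integral_norm _) (norm_nonneg _)).trans ?_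
  have h5 : ∀ u : ℝ, ‖∑ z ∈ Zs, c z * Tz φ B z h *
      (Complex.Gamma (σ + u * Complex.I) * ((A : ℂ) ^ (-(σ + u * Complex.I)) *
        ((nr z / (2 * Z) : ℝ) : ℂ) ^ (σ + u * Complex.I) * G u))‖ =
      A ^ (-σ) * (‖Complex.Gamma (σ + u * Complex.I)‖ *
        (‖Tc φ Zs (cs Zs c Z (σ + u * Complex.I)) B (1 / 2) h‖ *
          ‖Gsum ν X (conj (σ + u * Complex.I) - 1 / 2) (-h)‖)) := fun u => by
    have h6 : ∑ z ∈ Zs, c z * Tz φ B z h *
        (Complex.Gamma (σ + u * Complex.I) * ((A : ℂ) ^ (-(σ + u * Complex.I)) *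
          ((nr z / (2 * Z) : ℝ) : ℂ) ^ (σ + u * Complex.I) * G u)) =
        (A : ℂ) ^ (-(σ + u * Complex.I)) * (Complex.Gamma (σ + u * Complex.I) *
          (Tc φ Zs (cs Zs c Z (σ + u * Complex.I)) B (1 / 2) h * G u)) := by
      rw [Tc_eq, Finset.sum_mul, Finset.mul_sum, Finset.mul_sum]
      refine Finset.sum_congr rfl fun z hzs => ?_
      rw [cs, if_pos hzs]
      ring
    rw [h6, norm_mul, norm_mul, norm_mul, Complex.norm_cpow_eq_rpow_re_of_pos hA, hG,
      Complex.norm_conj]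
    simp
  simp only [h5]
  rw [integral_const_mul, ← mul_assoc]
  refine mul_le_mul_of_nonneg_right ?_ (integral_nonneg fun u => by positivity)
  have h7 : ‖(1 / (2 * Real.pi) : ℂ)‖ ≤ 1 := by
    rw [norm_div, norm_one, norm_mul, Complex.norm_real, Real.norm_of_nonneg Real.pi_pos.le,
      Complex.norm_ofNat, div_le_one (by positivity)]
    linarith
  refine (mul_le_of_le_one_left (by positivity) h7).trans ?_
  rw [Real.rpow_neg hA.le, ← Real.inv_rpow hA.le]
  refine Real.rpow_le_rpow (by positivity) ?_ hσ.le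
  rw [hAd, inv_div]
  exact div_le_div₀ ((by positivity : 0 ≤ 2 * L * Z * X).trans hK) hK h3
    (le_mul_of_one_le_left h3.le (by linarith))

end Crest.Agent.R17.HS
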