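import Crest.Agent.R17.HSideB
import Crest.Agent.R17.DPAuxG

/-!
# Row 17, `hside`, part C: Cauchy–Schwarz, `energy` and `gram`
-/

set_option autoImplicit false

noncomputable section

namespace Crest.Agent.R17.HS

open scoped ComplexConjugate
open MeasureTheory

/-- Dyadic summation of the tail (fibre over `j` with `2^j K ≤ N h ≤ 2^{j+1} K`;
`∑ 8^{-j} 4^{j+1} ≤ 8`). -/
theorem tail_le {K E : ℝ} (hK : 0 < K) (f : O → ℝ) (hf : ∀ h, 0 ≤ f h)
    (hE : ∀ t : ℝ, 1 ≤ t → ∑ h ∈ rows (t * K), f h ≤ t ^ 2 * E) (S : Finset O)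
    (hS : ∀ h ∈ S, K ≤ nr h) : ∑ h ∈ S, (K / nr h) ^ (3 : ℝ) * f h ≤ 8 * E := by
  classical
  have hE0 : 0 ≤ E := by
    have := hE 1 le_rfl
    have h0 : 0 ≤ ∑ h ∈ rows (1 * K), f h := Finset.sum_nonneg fun h _ => hf h
    linarith
  have hj : ∀ h : O, ∃ j : ℕ, h ∈ S → (2 : ℝ) ^ j ≤ nr h / K ∧ nr h / K < 2 ^ (j + 1) := by
    intro h
    by_cases hh : h ∈ S
    · obtain ⟨j, hj⟩ := exists_nat_pow_near ((one_le_div hK).2 (hS h hh)) (one_lt_two (α := ℝ))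
      exact ⟨j, fun _ => hj⟩
    · exact ⟨0, fun h' => absurd h' hh⟩
  choose j hj using hj
  set N := S.sup j + 1 with hN
  have h1 : ∀ h ∈ S, (K / nr h) ^ (3 : ℝ) * f h ≤
      ∑ i ∈ Finset.range N, if h ∈ rows (2 ^ (i + 1) * K) then (1 / 8 : ℝ) ^ i * f h else 0 := by
    intro h hh
    obtain ⟨a1, a2⟩ := hj h hh
    have hn : 0 < nr h := hK.trans_le (hS h hh)
    have h0 : h ≠ 0 := by
      rintro rfl
      simp [nr] at hn
    have hmem : h ∈ rows (2 ^ (j h + 1) * K) :=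
      (mem_rows (by positivity)).2 ⟨h0, ((div_lt_iff₀ hK).1 a2).le⟩
    have hjN : j h ∈ Finset.range N :=
      Finset.mem_range.2 (Nat.lt_succ_of_le (Finset.le_sup (f := j) hh))
    refine le_trans ?_ (Finset.single_le_sum (f := fun i =>
      if h ∈ rows (2 ^ (i + 1) * K) then (1 / 8 : ℝ) ^ i * f h else 0) (fun i _ => ?_) hjN)
    · simp only [if_pos hmem]
      refine mul_le_mul_of_nonneg_right ?_ (hf h)
      have h2 : K / nr h ≤ (1 / 2) ^ j h := by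
        rw [one_div, inv_pow, ← inv_div]
        exact inv_anti₀ (by positivity) a1
      calc (K / nr h) ^ (3 : ℝ) = (K / nr h) ^ (3 : ℕ) := by
            rw [← Real.rpow_natCast]; norm_num
        _ ≤ ((1 / 2) ^ j h) ^ (3 : ℕ) := by gcongr
        _ = (1 / 8 : ℝ) ^ j h := by rw [← pow_mul, mul_comm, pow_mul]; norm_num
    · split_ifs
      · exact mul_nonneg (by positivity) (hf h)
      · exact le_rfl
  refine (Finset.sum_le_sum h1).trans ?_
  rw [Finset.sum_comm]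
  have h2 : ∀ i ∈ Finset.range N,
      (∑ h ∈ S, if h ∈ rows (2 ^ (i + 1) * K) then (1 / 8 : ℝ) ^ i * f h else 0) ≤
        4 * E * (1 / 2 : ℝ) ^ i := by
    intro i _
    rw [← Finset.sum_filter, ← Finset.mul_sum]
    have h3 : ∑ h ∈ S.filter (fun h => h ∈ rows (2 ^ (i + 1) * K)), f h ≤
        ∑ h ∈ rows (2 ^ (i + 1) * K), f h :=
      Finset.sum_le_sum_of_subset_of_nonneg (fun h hh => (Finset.mem_filter.1 hh).2)
        fun h _ _ => hf h
    have h4 := h3.trans (hE (2 ^ (i + 1)) (one_le_pow₀ one_le_two))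
    have h5 : (1 / 8 : ℝ) ^ i * (((2 : ℝ) ^ (i + 1)) ^ 2 * E) = 4 * E * (1 / 2 : ℝ) ^ i := by
      have : (1 / 2 : ℝ) ^ i = (1 / 8 : ℝ) ^ i * ((2 : ℝ) ^ i) ^ 2 := by
        rw [← pow_mul, mul_comm i 2, pow_mul, ← mul_pow]; norm_num
      rw [this]; ring
    rw [← h5]
    exact mul_le_mul_of_nonneg_left h4 (by positivity)
  refine (Finset.sum_le_sum h2).trans ?_
  rw [← Finset.mul_sum]
  have h6 := sum_geometric_two_le N
  nlinarith

/-- Cauchy–Schwarz on the rows of norm `≤ t K`: `energy` (`h₀ = 1`, `D = B`, `R` replaced by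
`t R`, `En B (t K) Z ≤ t² En B K Z`) and `gram` (reindex `h ↦ -h`; `Gr (t K) X ≤ t Gr K X`);
use both with `min ε (1/2)`. -/
theorem block {M : O} (hM : Adm M) {ε : ℝ} (hε : 0 < ε) : ∃ (C : ℝ) (J : ℕ), 0 < C ∧
    ∀ (R B X Z K t : ℝ) (φ : O → ℂ) (ν : Chr M) (Zs : Finset O) (c : O → ℂ) (s : ℂ),
      1 ≤ B → B ≤ R → 0 < X → 1 ≤ Z → Z ≤ R → 1 ≤ K → K ≤ R → X ^ 3 ≤ K ^ 2 → 1 ≤ t →
      PerB M φ → (∀ z ∈ Zs, SP M z ∧ Z ≤ nr z ∧ nr z ≤ 2 * Z) → (∀ z, ‖c z‖ ≤ 1) → |s.re| ≤ 3 →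
      ∑ h ∈ rows (t * K), ‖Tc φ Zs c B (1 / 2) h‖ * ‖Gsum ν X s (-h)‖ ≤
        t ^ 2 * (C * R ^ ε * (1 + |s.im|) ^ J *
          (Real.sqrt (B * Z * En B K Z) * Real.sqrt (Gr K X))) := by
  have hε' : 0 < min ε (1 / 2) := lt_min hε (by norm_num)
  obtain ⟨C₁, J₁, hC₁, h₁⟩ := energy hM hε'
  obtain ⟨C₂, J₂, hC₂, h₂⟩ := gram hM hε'
  refine ⟨C₁ + C₂, J₂, by positivity,
    fun R B X Z K t φ ν Zs c s hB hBR hX hZ hZR hK hKR hXK ht hφ hZs hc hs => ?_⟩
  have hR : 1 ≤ R := hB.trans hBR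
  have hB0 : 0 < B := by linarith
  have hK0 : 0 < K := by linarith
  have hZ0 : 0 < Z := by linarith
  have ht0 : 0 < t := by linarith
  have hR0 : 0 < R := by linarith
  have htR : R ≤ t * R := le_mul_of_one_le_left hR0.le ht
  have htK : K ≤ t * K := le_mul_of_one_le_left hK0.le ht
  have htKR : t * K ≤ t * R := by gcongr
  set q := Real.sqrt t with hq
  set r := R ^ ε with hr
  set W := (1 + |s.im|) ^ J₂ with hW
  have hq2 : q ^ 2 = t := Real.sq_sqrt ht0.le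
  have hq0 : 0 ≤ q := Real.sqrt_nonneg _
  have hr0 : 0 ≤ r := by positivity
  have hW1 : 1 ≤ W := one_le_pow₀ (by linarith [abs_nonneg s.im])
  have hP : (t * R) ^ min ε (1 / 2) ≤ q * r := by
    rw [Real.mul_rpow ht0.le hR0.le, hq, Real.sqrt_eq_rpow]
    exact mul_le_mul (Real.rpow_le_rpow_of_exponent_le ht (min_le_right _ _))
      (Real.rpow_le_rpow_of_exponent_le hR (min_le_left _ _)) (by positivity) (by positivity)
  have hEn := En_nonneg hB0.le hK0.le hZ0.le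
  have hGr := Gr_nonneg hK0.le hX.le
  have ht2 : t ≤ t ^ 2 := by nlinarith
  -- the energy
  have e1 : ∑ h ∈ rows (t * K), ‖Tc φ Zs c B (1 / 2) h‖ ^ 2 ≤
      C₁ * (q * r) * t ^ 2 * (B * Z * En B K Z) := by
    have a := h₁ (t * R) (t * K) B Z φ 1 Zs c (1 / 2) (hK.trans htK) htKR hZ (hZR.trans htR) hB0
      (hBR.trans htR) ((inv_le_one_of_one_le₀ hB).trans (hR.trans htR))
      (by simpa [nr] using hR.trans htR) hφ primary_one isCoprime_one_left hZs hc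
      (by norm_num [abs_le])
    have im0 : ((1 / 2 : ℂ)).im = 0 := by norm_num
    simp only [mul_one, nr, nm_one, Nat.cast_one, one_pow, im0, abs_zero, add_zero] at a
    refine le_trans a ?_
    have b : t * K + (t * K) ^ 2 * Z / B +
        min (Z ^ 2 * Real.sqrt (t * K)) (t * K * Z ^ 2 / Real.sqrt B) +
        min (t * K * Z) (Real.sqrt (t * K) * Z * B ^ (1 / 4 : ℝ)) ≤ t ^ 2 * En B K Z := by
      have b1 : t * K ≤ t ^ 2 * K := by gcongr
      have b2 : (t * K) ^ 2 * Z / B = t ^ 2 * (K ^ 2 * Z / B) := by ring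
      have b3 : t * K * Z ^ 2 / Real.sqrt B ≤ t ^ 2 * (K * Z ^ 2 / Real.sqrt B) := by
        rw [show t * K * Z ^ 2 / Real.sqrt B = t * (K * Z ^ 2 / Real.sqrt B) by ring]
        gcongr
      have b4 : Real.sqrt (t * K) * Z * B ^ (1 / 4 : ℝ) ≤
          t ^ 2 * (Real.sqrt K * Z * B ^ (1 / 4 : ℝ)) := by
        have : Real.sqrt (t * K) ≤ t ^ 2 * Real.sqrt K := by
          rw [Real.sqrt_mul ht0.le]
          gcongr
          exact Real.sqrt_le_iff.2 ⟨by positivity, by nlinarith⟩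
        calc _ ≤ t ^ 2 * Real.sqrt K * Z * B ^ (1 / 4 : ℝ) := by gcongr
          _ = _ := by ring
      have b5 := min_le_right (Z ^ 2 * Real.sqrt (t * K)) (t * K * Z ^ 2 / Real.sqrt B)
      have b6 := min_le_right (t * K * Z) (Real.sqrt (t * K) * Z * B ^ (1 / 4 : ℝ))
      unfold En
      rw [mul_add, mul_add, mul_add]
      linarith
    calc _ ≤ C₁ * (q * r) * (B * Z) * (t ^ 2 * En B K Z) := by gcongr
      _ = _ := by ring
  -- the Gram bound
  have e2 : ∑ h ∈ rows (t * K), ‖Gsum ν X s (-h)‖ ^ 2 ≤ C₂ * (q * r) * W * t * Gr K X := by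
    have a := h₂ (t * K) X s ν (hK.trans htK) hX (hXK.trans (by gcongr)) hs
    have e : ∑ h ∈ rows (t * K), ‖Gsum ν X s (-h)‖ ^ 2 =
        ∑ h ∈ rows (t * K), ‖Gsum ν X s h‖ ^ 2 := by
      refine Finset.sum_equiv (Equiv.neg O) (fun h => ?_) (fun h _ => rfl)
      rw [mem_rows (by positivity), mem_rows (by positivity)]
      simp [nr]
    rw [e]
    refine le_trans a ?_
    have b : t * K * X * (1 + (X ^ 2 / (t * K)) ^ (1 / 6 : ℝ)) ≤ t * Gr K X := by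
      unfold Gr
      calc _ ≤ t * K * X * (1 + (X ^ 2 / K) ^ (1 / 6 : ℝ)) := by gcongr
        _ = _ := by ring
    have b' : (t * K) ^ min ε (1 / 2) ≤ q * r := le_trans (by gcongr) hP
    calc _ ≤ C₂ * (q * r) * W * (t * Gr K X) := by gcongr
      _ = _ := by ring
  have e3 : Real.sqrt (C₁ * (q * r) * t ^ 2) * Real.sqrt (C₂ * (q * r) * W * t) ≤
      t ^ 2 * ((C₁ + C₂) * r * W) := by
    rw [← Real.sqrt_mul (by positivity)]
    refine Real.sqrt_le_iff.2 ⟨by positivity, ?_⟩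
    calc C₁ * (q * r) * t ^ 2 * (C₂ * (q * r) * W * t)
        = (C₁ * C₂) * W * (q ^ 2 * t ^ 3 * r ^ 2) := by ring
      _ ≤ (C₁ + C₂) ^ 2 * W ^ 2 * (q ^ 2 * t ^ 3 * r ^ 2) := by
        gcongr
        · nlinarith [mul_pos hC₁ hC₂]
        · nlinarith
      _ = _ := by rw [hq2]; ring
  calc _ ≤ Real.sqrt (∑ h ∈ rows (t * K), ‖Tc φ Zs c B (1 / 2) h‖ ^ 2) *
        Real.sqrt (∑ h ∈ rows (t * K), ‖Gsum ν X s (-h)‖ ^ 2) :=
        Real.sum_mul_le_sqrt_mul_sqrt _ _ _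
    _ ≤ Real.sqrt (C₁ * (q * r) * t ^ 2 * (B * Z * En B K Z)) *
        Real.sqrt (C₂ * (q * r) * W * t * Gr K X) :=
        mul_le_mul (Real.sqrt_le_sqrt e1) (Real.sqrt_le_sqrt e2) (Real.sqrt_nonneg _)
          (Real.sqrt_nonneg _)
    _ = (Real.sqrt (C₁ * (q * r) * t ^ 2) * Real.sqrt (C₂ * (q * r) * W * t)) *
        (Real.sqrt (B * Z * En B K Z) * Real.sqrt (Gr K X)) := by
        rw [Real.sqrt_mul (x := C₁ * (q * r) * t ^ 2) (by positivity),
          Real.sqrt_mul (x := C₂ * (q * r) * W * t) (by positivity)]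
        ring
    _ ≤ (t ^ 2 * ((C₁ + C₂) * r * W)) *
        (Real.sqrt (B * Z * En B K Z) * Real.sqrt (Gr K X)) := by gcongr
    _ = _ := by ring

/-- **The core estimate.**  `∑_z c z Dual z = ∑'_h θ h F h`, `F h = ∑_z c z Tz Gz`
(`summable_dual`); bound every finite partial sum of `‖F h‖`: `h = 0` by `zero_term`
(`K ≤ √(B Z En) √Gr`), `0 < N h ≤ K` by `mellin_h` with `σ = min ε 1` (`(K/N h)^σ ≤ R^ε`) and
`block` with `t = 1`, `N h ≥ K` by `mellin_h` with `σ = 3`, `tail_le` and `block`; sums and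
integrals are interchanged by `DPG.sum_integral_le` (file `DPAuxG`, no integrability of the pieces
is needed), `integrable_Gamma_mul_pow`, `norm_cs_le`. -/
theorem core {M : O} (hM : Adm M) {ε : ℝ} (hε : 0 < ε) : ∃ C : ℝ, 0 < C ∧
    ∀ (R B X L Z K : ℝ) (φ : O → ℂ) (ν : Chr M) (θ : O → ℂ) (Zs : Finset O) (c : O → ℂ),
      1 ≤ B → B ≤ R → 1 ≤ X → 0 < L → 1 ≤ Z → Z ≤ R → 1 ≤ K → K ≤ R → 2 * L * Z * X ≤ K →
      X ^ 3 ≤ K ^ 2 → PerB M φ → (∀ h, ‖θ h‖ ≤ 1) →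
      (∀ z ∈ Zs, SP M z ∧ Z ≤ nr z ∧ nr z ≤ 2 * Z) → (∀ z, ‖c z‖ ≤ 1) →
      ‖∑ z ∈ Zs, c z * Dual φ ν θ B X L z‖ ≤
        C * R ^ ε * (Real.sqrt (B * Z * En B K Z) * Real.sqrt (Gr K X)) := by
  classical
  have hε2 : 0 < ε / 2 := by positivity
  obtain ⟨C₁, J, hC₁, h₁⟩ := block hM hε2
  obtain ⟨C₀, hC₀, h₀⟩ := zero_term hM.1
  set σ₁ : ℝ := min (ε / 2) 1 with hσ₁
  have hσ₁0 : 0 < σ₁ := lt_min hε2 one_pos
  set I : ℝ → ℝ := fun σ => ∫ u : ℝ, ‖Complex.Gamma (σ + u * Complex.I)‖ * (1 + |u|) ^ J with hI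
  have hI0 : ∀ σ, 0 ≤ I σ := fun σ => integral_nonneg fun u => by positivity
  refine ⟨C₀ + C₁ * I σ₁ + 8 * C₁ * I 3, by have := hI0 σ₁; have := hI0 3; positivity,
    fun R B X L Z K φ ν θ Zs c hB hBR hX hL hZ hZR hK hKR hLK hXK hφ hθ hZs hc => ?_⟩
  have hR : 1 ≤ R := hB.trans hBR
  have hB0 : 0 < B := by linarith
  have hK0 : 0 < K := by linarith
  have hZ0 : 0 < Z := by linarith
  have hX0 : 0 < X := by linarith
  have hR0 : 0 < R := by linarith
  have hz0 : ∀ z ∈ Zs, z ≠ 0 := fun z hz => (hZs z hz).1.1.ne_zero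
  set Q := Real.sqrt (B * Z * En B K Z) * Real.sqrt (Gr K X) with hQ
  have hQ0 : 0 ≤ Q := by positivity
  set F : O → ℂ := fun h => ∑ z ∈ Zs, c z * (Tz φ B z h * Gz ν X (L * nr z) h) with hF
  have hsum : HasSum (fun h => θ h * F h) (∑ z ∈ Zs, c z * Dual φ ν θ B X L z) := by
    have : (fun h => θ h * F h) =
        fun h => ∑ z ∈ Zs, c z * (θ h * (Tz φ B z h * Gz ν X (L * nr z) h)) := by
      funext h
      rw [hF, Finset.mul_sum]
      exact Finset.sum_congr rfl fun z _ => by ring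
    rw [this]
    refine hasSum_sum fun z hz => HasSum.mul_left _ (Summable.hasSum ?_)
    refine Summable.of_norm_bounded (summable_dual hM.1 hφ.1 ν hB0 hX0
      (mul_pos hL (nr_pos (hz0 z hz))) (hz0 z hz)) fun h => ?_
    rw [norm_mul]
    exact mul_le_of_le_one_left (norm_nonneg _) (hθ h)
  -- Mellin separation on a finite set of non-zero rows
  have key : ∀ (σ E : ℝ) (S : Finset O), 0 < σ → σ ≤ 3 → (∀ h ∈ S, h ≠ 0) →
      (∀ (c' : O → ℂ) (s : ℂ), (∀ z, ‖c' z‖ ≤ 1) → |s.re| ≤ 3 →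
        ∑ h ∈ S, (K / nr h) ^ σ * (‖Tc φ Zs c' B (1 / 2) h‖ * ‖Gsum ν X s (-h)‖) ≤
          E * (1 + |s.im|) ^ J) → ∑ h ∈ S, ‖F h‖ ≤ E * I σ := by
    intro σ E S hσ hσ3 hS hE
    refine (Finset.sum_le_sum fun h hh =>
      mellin_h hM.1 ν hX0 hL hZ0 hLK hσ Zs hz0 c (hS h hh)).trans ?_
    rw [hI, ← integral_const_mul]
    refine GP.sum_integral_le S _ _ _ (fun h _ => by positivity) (fun h _ u => by positivity)
      ((integrable_Gamma_mul_pow hσ J).const_mul E) fun u => ?_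
    have a := hE (cs Zs c Z (σ + u * Complex.I)) (conj (σ + u * Complex.I) - 1 / 2)
      (norm_cs_le hZ0 (fun z hz => ⟨hz0 z hz, (hZs z hz).2.2⟩) hc (by simpa using hσ.le))
      (by
        have : (conj ((σ : ℂ) + u * Complex.I) - 1 / 2).re = σ - 1 / 2 := by simp
        rw [this, abs_le]; constructor <;> linarith)
    have im : |(conj ((σ : ℂ) + u * Complex.I) - 1 / 2).im| = |u| := by simp
    rw [im] at a
    calc _ = ‖Complex.Gamma (σ + u * Complex.I)‖ * ∑ h ∈ S, (K / nr h) ^ σ *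
          (‖Tc φ Zs (cs Zs c Z (σ + u * Complex.I)) B (1 / 2) h‖ *
            ‖Gsum ν X (conj (σ + u * Complex.I) - 1 / 2) (-h)‖) := by
          rw [Finset.mul_sum]
          exact Finset.sum_congr rfl fun h _ => by ring
      _ ≤ ‖Complex.Gamma (σ + u * Complex.I)‖ * (E * (1 + |u|) ^ J) := by gcongr
      _ = _ := by ring
  have hr1 : 1 ≤ R ^ (ε / 2) := Real.one_le_rpow hR hε2.le
  have hrr : R ^ (ε / 2) * R ^ (ε / 2) = R ^ ε := by
    rw [← Real.rpow_add hR0]; congr 1; ring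
  have hr2 : R ^ (ε / 2) ≤ R ^ ε := Real.rpow_le_rpow_of_exponent_le hR (by linarith)
  -- the three pieces
  have p0 : ‖F 0‖ ≤ C₀ * R ^ ε * Q := by
    have a := h₀ B X K (fun z => L * nr z) φ ν Zs c hX0 hK0.le hXK hφ.1
      (fun z hz => (hZs z hz).1.1) hc
    have b1 : K ≤ B * Z * En B K Z := by
      have : K ≤ En B K Z := by
        unfold En
        have : 0 ≤ K ^ 2 * Z / B + K * Z ^ 2 / Real.sqrt B + Real.sqrt K * Z * B ^ (1 / 4 : ℝ) := by
          positivity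
        linarith
      exact this.trans (le_mul_of_one_le_left (hK0.le.trans this) (one_le_mul_of_one_le_of_one_le hB hZ))
    have b2 : K ≤ Gr K X := by
      unfold Gr
      have : 0 ≤ (X ^ 2 / K) ^ (1 / 6 : ℝ) := by positivity
      calc K = K * 1 * 1 := by ring
        _ ≤ _ := by gcongr; linarith
    have b3 : K ≤ Q := by
      calc K = Real.sqrt K * Real.sqrt K := (Real.mul_self_sqrt hK0.le).symm
        _ ≤ Q := by rw [hQ]; gcongr
    calc ‖F 0‖ ≤ C₀ * K := a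
      _ = C₀ * 1 * K := by ring
      _ ≤ _ := by gcongr; exact hr1.trans hr2
  have p1 : ∑ h ∈ rows K, ‖F h‖ ≤ C₁ * R ^ ε * Q * I σ₁ := by
    refine key σ₁ _ _ hσ₁0 ((min_le_right _ _).trans (by norm_num))
      (fun h hh => ((mem_rows hK0.le).1 hh).1) fun c' s hc' hs => ?_
    have a := h₁ R B X Z K 1 φ ν Zs c' s hB hBR hX0 hZ hZR hK hKR hXK le_rfl hφ hZs hc' hs
    rw [one_mul, one_pow, one_mul] at a
    calc _ ≤ ∑ h ∈ rows K, R ^ (ε / 2) * (‖Tc φ Zs c' B (1 / 2) h‖ * ‖Gsum ν X s (-h)‖) := by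
          refine Finset.sum_le_sum fun h hh => mul_le_mul_of_nonneg_right ?_ (by positivity)
          have h1 := one_le_nr ((mem_rows hK0.le).1 hh).1
          have h2 : K / nr h ≤ R := (div_le_self hK0.le h1).trans hKR
          exact (Real.rpow_le_rpow (by positivity) h2 hσ₁0.le).trans
            (Real.rpow_le_rpow_of_exponent_le hR (min_le_left _ _))
      _ ≤ R ^ (ε / 2) * (C₁ * R ^ (ε / 2) * (1 + |s.im|) ^ J * Q) := by
          rw [← Finset.mul_sum]; gcongr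
      _ = _ := by rw [← hrr]; ring
  have p2 : ∀ S : Finset O, (∀ h ∈ S, K ≤ nr h) →
      ∑ h ∈ S, ‖F h‖ ≤ 8 * C₁ * R ^ ε * Q * I 3 := by
    intro S hS
    refine key 3 _ _ (by norm_num) le_rfl (fun h hh => ?_) fun c' s hc' hs => ?_
    · rintro rfl
      have := hS 0 hh
      simp only [nr, nm_zero, Nat.cast_zero] at this
      linarith
    · refine (tail_le hK0 _ (fun h => by positivity) (fun t ht =>
        h₁ R B X Z K t φ ν Zs c' s hB hBR hX0 hZ hZR hK hKR hXK ht hφ hZs hc' hs) S hS).trans ?_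
      calc _ ≤ 8 * (C₁ * R ^ ε * (1 + |s.im|) ^ J * Q) := by gcongr
        _ = _ := by ring
  refine le_of_tendsto' hsum.norm fun S => ?_
  have q1 : ∑ h ∈ S.filter (fun h => ¬ K ≤ nr h), ‖F h‖ ≤ ‖F 0‖ + ∑ h ∈ rows K, ‖F h‖ := by
    rw [← Finset.sum_insert (f := fun h => ‖F h‖) (a := 0) (s := rows K)
      (fun h => ((mem_rows hK0.le).1 h).1 rfl)]
    refine Finset.sum_le_sum_of_subset_of_nonneg (fun h hh => ?_) fun _ _ _ => norm_nonneg _
    rw [Finset.mem_insert, mem_rows hK0.le]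
    by_cases h0 : h = 0
    · exact Or.inl h0
    · exact Or.inr ⟨h0, (not_le.1 (Finset.mem_filter.1 hh).2).le⟩
  have q2 := p2 (S.filter (fun h => K ≤ nr h)) fun h hh => (Finset.mem_filter.1 hh).2
  calc ‖∑ h ∈ S, θ h * F h‖ ≤ ∑ h ∈ S, ‖F h‖ := by
        refine (norm_sum_le _ _).trans (Finset.sum_le_sum fun h _ => ?_)
        rw [norm_mul]
        exact mul_le_of_le_one_left (norm_nonneg _) (hθ h)
    _ = ∑ h ∈ S.filter (fun h => K ≤ nr h), ‖F h‖ +
        ∑ h ∈ S.filter (fun h => ¬ K ≤ nr h), ‖F h‖ :=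
        (Finset.sum_filter_add_sum_filter_not _ _ _).symm
    _ ≤ 8 * C₁ * R ^ ε * Q * I 3 + (C₀ * R ^ ε * Q + C₁ * R ^ ε * Q * I σ₁) := by linarith
    _ = _ := by ring

end Crest.Agent.R17.HS
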