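import Crest.Agent.R17.HSideDefs

/-!
# Row 17, `hside`, part D: parametrisation of the slots
-/

set_option autoImplicit false

noncomputable section

namespace Crest.Agent.R17.HS

open scoped ComplexConjugate

namespace SlotAux

theorem sum_pi {ι α R : Type*} [Fintype ι] [DecidableEq ι] [CommSemiring R] (J : Finset ι)
    (S : ι → Finset α) (a : α) (f : ι → α → R) :
    ∑ q ∈ Fintype.piFinset (fun i => if i ∈ J then S i else {a}), ∏ i ∈ J, f i (q i) =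
      ∏ i ∈ J, ∑ p ∈ S i, f i p := by
  have h := Finset.prod_univ_sum (fun i => if i ∈ J then S i else {a})
    fun i p => if i ∈ J then f i p else 1
  simp only [Finset.prod_ite_mem, Finset.univ_inter] at h
  rw [← h, ← Finset.univ_inter J, ← Finset.prod_ite_mem, Finset.univ_inter]
  refine Finset.prod_congr rfl fun i _ => ?_
  split_ifs <;> simp

theorem sum_split {ι α R : Type*} [Fintype ι] [DecidableEq ι] [AddCommMonoid R] (J : Finset ι)
    (S : ι → Finset α) (a : α) (G : (ι → α) → R) :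
    ∑ p ∈ Fintype.piFinset S, G p =
      ∑ q ∈ Fintype.piFinset (fun i => if i ∈ J then S i else {a}),
        ∑ r ∈ Fintype.piFinset (fun i => if i ∈ Jᶜ then S i else {a}), G (J.piecewise q r) := by
  rw [← Finset.sum_product']
  refine Finset.sum_nbij' (fun p => (J.piecewise p fun _ => a, J.piecewise (fun _ => a) p))
    (fun v => J.piecewise v.1 v.2) ?_ ?_ ?_ ?_ ?_
  · intro p hp
    simp only [Finset.mem_product, Fintype.mem_piFinset] at hp ⊢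
    constructor <;> intro i <;> by_cases h : i ∈ J <;> simp [h, hp i]
  · intro v hv
    simp only [Finset.mem_product, Fintype.mem_piFinset] at hv ⊢
    intro i
    have h1 := hv.1 i
    have h2 := hv.2 i
    by_cases h : i ∈ J
    · simpa [h] using h1
    · simpa [h] using h2
  · intro p _
    funext i
    by_cases h : i ∈ J <;> simp [h]
  · intro v hv
    simp only [Finset.mem_product, Fintype.mem_piFinset] at hv
    refine Prod.ext (funext fun i => ?_) (funext fun i => ?_)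
    · have h1 := hv.1 i
      by_cases h : i ∈ J
      · simp [h]
      · simpa [h, eq_comm] using h1
    · have h2 := hv.2 i
      by_cases h : i ∈ J
      · simpa [h, eq_comm] using h2
      · simp [h]
  · intro p _
    congr 1
    funext i
    by_cases h : i ∈ J <;> simp [h]

theorem mem_of {ι α : Type*} [Fintype ι] [DecidableEq ι] {J : Finset ι} {S : ι → Finset α} {a : α}
    {q : ι → α} (hq : q ∈ Fintype.piFinset fun i => if i ∈ J then S i else {a}) :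
    (∀ i ∈ J, q i ∈ S i) ∧ ∀ i, i ∉ J → q i = a := by
  rw [Fintype.mem_piFinset] at hq
  exact ⟨fun i hi => by simpa [hi] using hq i, fun i hi => by simpa [hi] using hq i⟩

theorem nr_prod' {ι : Type*} (I : Finset ι) (r : ι → O) : nr (∏ i ∈ I, r i) = ∏ i ∈ I, nr (r i) := by
  classical
  induction I using Finset.induction_on with
  | empty => simp [nr]
  | insert j I hj ih => rw [Finset.prod_insert hj, Finset.prod_insert hj, nr_mul, ih]

variable {M : O} {K₀ : ℕ} {B : ℝ} {I : Finset (Fin K₀)} {r r' : Fin K₀ → O}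

theorem eq_index (hB : 1 ≤ B) {i j : Fin K₀} {p q : O} (hp : p ∈ Pset M K₀ B i)
    (hq : q ∈ Pset M K₀ B j) (h : p ∣ q) : i = j ∧ p = q := by
  have hB0 : 0 < B := one_pos.trans_le hB
  have h1 := (mem_Pset hB0).1 hp
  have h2 := (mem_Pset hB0).1 hq
  have e := BasicB.eq_of_dvd h1.1 h2.1 h1.2.1 h2.2.1 h
  refine ⟨?_, e⟩
  by_contra hc
  exact Finset.disjoint_left.1 (disjoint_Pset M K₀ hB fun h' => hc (Fin.ext h')) hp (e ▸ hq)

theorem sp_prod (hB : 1 ≤ B) (hr : ∀ i ∈ I, r i ∈ Pset M K₀ B i) : SP M (∏ i ∈ I, r i) := by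
  have hB0 : 0 < B := one_pos.trans_le hB
  have h := fun i hi => (mem_Pset hB0).1 (hr i hi)
  refine ⟨Primary.prod fun i hi => (h i hi).2.1,
    Finset.squarefree_prod_of_pairwise_isCoprime (fun i hi j hj hij => ?_)
      fun i hi => (h i hi).1.squarefree,
    IsCoprime.prod_left fun i hi => (h i hi).1.irreducible.coprime_iff_not_dvd.2 (h i hi).2.2.1⟩
  exact ((h i hi).1.irreducible.coprime_iff_not_dvd.2 fun hd =>
    hij (eq_index hB (hr i hi) (hr j hj) hd).1).isRelPrime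

theorem eq_of_prod (hB : 1 ≤ B) (hr : ∀ i ∈ I, r i ∈ Pset M K₀ B i)
    (hr' : ∀ i ∈ I, r' i ∈ Pset M K₀ B i) (h : ∏ i ∈ I, r i = ∏ i ∈ I, r' i) :
    ∀ i ∈ I, r i = r' i := by
  intro i hi
  have hp := ((mem_Pset (one_pos.trans_le hB)).1 (hr i hi)).1
  obtain ⟨j, hj, hd⟩ := (hp.dvd_finsetProd_iff r').1 (h ▸ Finset.dvd_prod_of_mem r hi)
  obtain ⟨rfl, e⟩ := eq_index hB (hr i hi) (hr' j hj) hd
  exact e

theorem nr_le (hK : 1 ≤ K₀) (hB : 1 ≤ B) (hr : ∀ i ∈ I, r i ∈ Pset M K₀ B i) :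
    nr (∏ i ∈ I, r i) ≤ B ^ (5 / 24 : ℝ) := by
  have hB0 : 0 < B := one_pos.trans_le hB
  have hK0 : (0 : ℝ) < K₀ := by exact_mod_cast hK
  rw [nr_prod']
  refine (Finset.prod_le_prod (fun _ _ => Nat.cast_nonneg _) fun i hi =>
    ((mem_Pset hB0).1 (hr i hi)).2.2.2.2.trans
      (Real.rpow_le_rpow_of_exponent_le hB (ell_bounds i.2).2)).trans ?_
  rw [Finset.prod_const, ← Real.rpow_mul_natCast hB0.le]
  refine Real.rpow_le_rpow_of_exponent_le hB ?_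
  have h1 : (I.card : ℝ) ≤ K₀ := by exact_mod_cast (by simpa using I.card_le_univ : I.card ≤ K₀)
  rw [div_mul_eq_mul_div, div_le_iff₀ (by positivity)]
  linarith

theorem le_nr (hB : 1 ≤ B) (hr : ∀ i ∈ I, r i ∈ Pset M K₀ B i) :
    B ^ (1 / (8 * (K₀ : ℝ)) * I.card) ≤ nr (∏ i ∈ I, r i) := by
  have hB0 : 0 < B := one_pos.trans_le hB
  rw [nr_prod', Real.rpow_mul_natCast hB0.le, ← Finset.prod_const]
  exact Finset.prod_le_prod (fun _ _ => by positivity) fun i hi =>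
    (Real.rpow_le_rpow_of_exponent_le hB (ell_bounds i.2).1).trans
      ((mem_Pset hB0).1 (hr i hi)).2.2.2.1.le

theorem mom_eq (hB : 0 < B) (σ : ℝ) (x : Fin K₀ → ℝ) :
    (∏ i ∈ I, x i) * (nr (∏ i ∈ I, r i) / ∏ i ∈ I, Pw K₀ B i) ^ σ =
      ∏ i ∈ I, x i * nr (r i) ^ σ / Pw K₀ B i ^ σ := by
  rw [nr_prod', ← Finset.prod_div_distrib, ← Real.finsetProd_rpow I
    (fun i => nr (r i) / Pw K₀ B i) fun i _ =>
      div_nonneg (Nat.cast_nonneg _) (PA.Pw_pos K₀ hB i).le, ← Finset.prod_mul_distrib]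
  refine Finset.prod_congr rfl fun i _ => ?_
  rw [Real.div_rpow (Nat.cast_nonneg _) (PA.Pw_pos K₀ hB i).le, mul_div_assoc]

theorem pow_le {C : ℝ} (I : Finset (Fin K₀)) (hC : 0 ≤ C) : C ^ I.card ≤ max 1 C ^ K₀ :=
  (pow_le_pow_left₀ hC (le_max_right _ _) _).trans
    (pow_le_pow_right₀ (le_max_left _ _) (by simpa using I.card_le_univ))

end SlotAux

open SlotAux in
/-- Fix `J`; `P = ∏_{i ∈ J} Pw i` (so `∏_{i ∉ J} Pw i = B^{1/6}/P`, `prod_Pw`, `PA.one_le_Pw`).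
Split `p = J.piecewise q r` with `q ∈ Q = piFinset (i ↦ if i ∈ J then Pset i else {1})`,
`r ∈ Q' = piFinset (i ↦ if i ∈ J then {1} else Pset i)`; `π q = ∏_{i ∈ J} q i`,
`w q = ∏_{i ∈ J} cw i (q i)`; `Zs` is the image of `Q'` under `r ↦ ∏_{i ∉ J} r i` which is injective
on `Q'` (`disjoint_Pset`, `squarefree_prod_primes`/`pf`), `c z` the weight of the preimage.
Sizes: `mem_Pset`, `ell_bounds` (`K₀ · 1/(8K₀) = 1/8`, `K₀ · 5/(24 K₀) = 5/24`); moments: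
`sum_cw_le 3` and `Finset.prod_univ_sum`; `C = (max 1 C₀)^{K₀}`. -/
theorem slots {M : O} (hM : Adm M) (ψ : Chr M) {K₀ : ℕ} (hK : 1 ≤ K₀) : ∃ C : ℝ, 0 < C ∧
    ∀ (B : ℝ) (J : Finset (Fin K₀)), 1 ≤ B → ∃ (P : ℝ) (Q : Finset (Fin K₀ → O))
      (π : (Fin K₀ → O) → O) (w : (Fin K₀ → O) → ℂ) (Zs : Finset O) (c : O → ℂ),
      1 ≤ P ∧ P ≤ B ^ (1 / 6 : ℝ) ∧
      (∀ q ∈ Q, π q ≠ 0 ∧ nr (π q) ≤ B ^ (5 / 24 : ℝ)) ∧
      (∀ z ∈ Zs, SP M z ∧ nr z ≤ B ^ (5 / 24 : ℝ)) ∧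
      (∀ q ∈ Q, ∀ z ∈ Zs, B ^ (1 / 8 : ℝ) ≤ nr z * nr (π q)) ∧
      (∀ σ : ℝ, |σ| ≤ 3 → ∑ q ∈ Q, ‖w q‖ * (nr (π q) / P) ^ σ ≤ C * P) ∧
      (∀ σ : ℝ, |σ| ≤ 3 → ∀ z ∈ Zs, ‖c z‖ * (nr z / (B ^ (1 / 6 : ℝ) / P)) ^ σ ≤ C) ∧
      ∀ F : O → O → ℂ,
        ∑ p ∈ Fintype.piFinset (fun i : Fin K₀ => Pset M K₀ B i),
          (∏ i : Fin K₀, cw K₀ B i (p i)) * (∏ i ∈ Jᶜ, -conj (ev ψ (p i))) *
            F (∏ i ∈ Jᶜ, p i) (∏ i ∈ J, p i) =
        ∑ q ∈ Q, w q * ∑ z ∈ Zs, c z * F z (π q) := by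
  classical
  obtain ⟨C, hC, hcw⟩ := sum_cw_le 3
  refine ⟨max 1 C ^ K₀, by positivity, fun B J hB => ?_⟩
  have hB0 : 0 < B := one_pos.trans_le hB
  have hK0 : (0 : ℝ) < K₀ := by exact_mod_cast hK
  have hPw := fun i => PA.Pw_pos K₀ hB0 i
  have hone : ∀ I : Finset (Fin K₀), 1 ≤ ∏ i ∈ I, Pw K₀ B i := fun I =>
    (Finset.prod_const_one (s := I)).ge.trans
      (Finset.prod_le_prod (fun _ _ => zero_le_one) fun i _ => PA.one_le_Pw i.2 hB)
  have hsplit : (∏ i ∈ J, Pw K₀ B i) * ∏ i ∈ Jᶜ, Pw K₀ B i = B ^ (1 / 6 : ℝ) := by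
    rw [Finset.prod_mul_prod_compl, prod_Pw hK hB0]
  obtain ⟨Q', hQ'⟩ : ∃ Q', Q' = Fintype.piFinset
      fun i : Fin K₀ => if i ∈ Jᶜ then Pset M K₀ B i else {1} := ⟨_, rfl⟩
  have hQ'm : ∀ r ∈ Q', (∀ i ∈ Jᶜ, r i ∈ Pset M K₀ B i) ∧ ∀ i, i ∉ Jᶜ → r i = 1 :=
    fun r hr => mem_of (hQ' ▸ hr)
  have hinj : Set.InjOn (fun r : Fin K₀ → O => ∏ i ∈ Jᶜ, r i) Q' := by
    intro r hr r' hr' h
    funext i
    by_cases hi : i ∈ Jᶜ
    · exact eq_of_prod hB (hQ'm r hr).1 (hQ'm r' hr').1 h i hi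
    · rw [(hQ'm r hr).2 i hi, (hQ'm r' hr').2 i hi]
  obtain ⟨c, hc⟩ : ∃ c : O → ℂ, ∀ r ∈ Q', c (∏ i ∈ Jᶜ, r i) =
      ∏ i ∈ Jᶜ, cw K₀ B i (r i) * -conj (ev ψ (r i)) := by
    refine ⟨fun z => (fun r : Fin K₀ → O => ∏ i ∈ Jᶜ, cw K₀ B i (r i) * -conj (ev ψ (r i)))
      (Function.invFunOn (fun r : Fin K₀ → O => ∏ i ∈ Jᶜ, r i) Q' z), fun r hr => ?_⟩
    exact congrArg _ (hinj.leftInvOn_invFunOn hr)
  refine ⟨∏ i ∈ J, Pw K₀ B i, Fintype.piFinset fun i => if i ∈ J then Pset M K₀ B i else {1},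
    fun q => ∏ i ∈ J, q i, fun q => ∏ i ∈ J, cw K₀ B i (q i),
    Q'.image fun r => ∏ i ∈ Jᶜ, r i, c, hone J, ?_, fun q hq => ?_, fun z hz => ?_,
    fun q hq z hz => ?_, fun σ hσ => ?_, fun σ hσ z hz => ?_, fun F => ?_⟩
  · rw [← hsplit]
    exact le_mul_of_one_le_right (by linarith [hone J]) (hone _)
  · exact ⟨(sp_prod hB (mem_of hq).1).1.ne_zero, nr_le hK hB (mem_of hq).1⟩
  · obtain ⟨r, hr, rfl⟩ := Finset.mem_image.1 hz
    exact ⟨sp_prod hB (hQ'm r hr).1, nr_le hK hB (hQ'm r hr).1⟩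
  · obtain ⟨r, hr, rfl⟩ := Finset.mem_image.1 hz
    refine le_trans (le_of_eq ?_) (mul_le_mul (le_nr hB (hQ'm r hr).1) (le_nr hB (mem_of hq).1)
      (by positivity) (Nat.cast_nonneg _))
    rw [← Real.rpow_add hB0, ← mul_add, ← Nat.cast_add, Finset.card_compl_add_card,
      Fintype.card_fin]
    congr 1
    field_simp
  · simp only [norm_prod, mom_eq hB0]
    rw [sum_pi J (fun i => Pset M K₀ B i) 1
      fun i p => ‖cw K₀ B i p‖ * nr p ^ σ / Pw K₀ B i ^ σ]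
    refine le_trans (Finset.prod_le_prod (g := fun i : Fin K₀ => C * Pw K₀ B i)
      (fun i _ => Finset.sum_nonneg fun _ _ => ?_) fun i _ => ?_) ?_
    · exact div_nonneg (by positivity) (Real.rpow_nonneg (hPw i).le _)
    · rw [← Finset.sum_div, div_le_iff₀ (Real.rpow_pos_of_pos (hPw i) _)]
      refine (hcw M K₀ i B σ hB0 hσ).1.trans_eq ?_
      rw [Real.rpow_add (hPw i), Real.rpow_one, mul_assoc]
    · rw [Finset.prod_mul_distrib, Finset.prod_const]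
      exact mul_le_mul_of_nonneg_right (pow_le J hC.le) (by linarith [hone J])
  · obtain ⟨r, hr, rfl⟩ := Finset.mem_image.1 hz
    rw [← hsplit, mul_div_cancel_left₀ _ (by linarith [hone J]), hc r hr, norm_prod, mom_eq hB0]
    refine le_trans ?_ (pow_le Jᶜ hC.le)
    rw [← Finset.prod_const]
    refine Finset.prod_le_prod (fun i _ => div_nonneg (by positivity)
      (Real.rpow_nonneg (hPw i).le _)) fun i hi => ?_
    rw [div_le_iff₀ (Real.rpow_pos_of_pos (hPw i) _)]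
    refine le_trans ?_ ((hcw M K₀ i B σ hB0 hσ).2 (r i)
      ((mem_Pset hB0).1 ((hQ'm r hr).1 i hi)).1.ne_zero)
    refine mul_le_mul_of_nonneg_right ?_ (by positivity)
    rw [norm_mul, norm_neg, Complex.norm_conj]
    exact mul_le_of_le_one_right (norm_nonneg _) (norm_ev_le hM.1 ψ _)
  · rw [sum_split J _ 1, ← hQ']
    refine Finset.sum_congr rfl fun q _ => ?_
    rw [Finset.sum_image hinj, Finset.mul_sum]
    refine Finset.sum_congr rfl fun r hr => ?_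
    have e1 : ∀ {R : Type} [CommMonoid R] (f : Fin K₀ → O → R),
        ∏ i ∈ J, f i (J.piecewise q r i) = ∏ i ∈ J, f i (q i) := fun f =>
      Finset.prod_congr rfl fun i hi => by rw [Finset.piecewise_eq_of_mem _ _ _ hi]
    have e2 : ∀ {R : Type} [CommMonoid R] (f : Fin K₀ → O → R),
        ∏ i ∈ Jᶜ, f i (J.piecewise q r i) = ∏ i ∈ Jᶜ, f i (r i) := fun f =>
      Finset.prod_congr rfl fun i hi => by
        rw [Finset.piecewise_eq_of_notMem _ _ _ (Finset.mem_compl.1 hi)]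
    rw [hc r hr, ← Finset.prod_mul_prod_compl J, e1 fun i p => cw K₀ B i p,
      e2 fun i p => cw K₀ B i p, e2 fun _ p => -conj (ev ψ p), e1 fun _ p => p, e2 fun _ p => p,
      Finset.prod_mul_distrib]
    ring

end Crest.Agent.R17.HS
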