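import Crest.Agent.R17.RowTail
import Crest.Agent.R17.Gram
import Crest.Agent.R17.Energy

/-!
# Row 17, module M15c: definitions for the dual side of the probe (sub-skeleton of `hside`)

`HSideA.dual_eq` (exact dual identity), `HSideB` (summability, `h = 0`, Mellin separation),
`HSideC.core` (Cauchy–Schwarz, `energy`, `gram`), `HSideD.slots` (parametrisation of the slots),
`HSideE.numeric` (exponents); `HSide.hside` is the assembly.
-/

set_option autoImplicit false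

noncomputable section

namespace Crest.Agent.R17.HS

open scoped ComplexConjugate

open Classical in
/-- The theta side for one mark `z` (this is the inner sum of `Tc φ Zs c B (1/2) h`). -/
def Tz (φ : O → ℂ) (B : ℝ) (z h : O) : ℂ :=
  ∑' n : O, if z ∣ n then th n * φ n * sym n h * Wc (nr n / (B * nr z)) (1 / 2) else 0

open Classical in
/-- The normalised Gauss sum (the coefficient in `Gsum ν X s h`). -/
def gx {M : O} (ν : Chr M) (h x : O) : ℂ :=
  if Primary x then ev ν x * (gs 5 x h / (Real.sqrt (nr x) : ℂ)) else 0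

/-- The Gauss sum side, with the Gaussian. -/
def Gz {M : O} (ν : Chr M) (X Y : ℝ) (h : O) : ℂ :=
  ∑' x : O, conj (gx ν (-h) x * Wc (nr x / X) (-(1 / 2))) * (gw (nr h / (Y * nr x)) : ℂ)

/-- The dual sum of one mark `z`. -/
def Dual {M : O} (φ : O → ℂ) (ν : Chr M) (θ : O → ℂ) (B X L : ℝ) (z : O) : ℂ :=
  ∑' h : O, θ h * (Tz φ B z h * Gz ν X (L * nr z) h)

/-- The bracket of `energy` (second entries of the minima, `D = B`). -/
def En (B K Z : ℝ) : ℝ :=
  K + K ^ 2 * Z / B + K * Z ^ 2 / Real.sqrt B + Real.sqrt K * Z * B ^ (1 / 4 : ℝ)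

/-- The bracket of `gram`. -/
def Gr (K X : ℝ) : ℝ := K * X * (1 + (X ^ 2 / K) ^ (1 / 6 : ℝ))

open Classical in
/-- The twisted coefficients after Mellin separation. -/
def cs (Zs : Finset O) (c : O → ℂ) (Z : ℝ) (s : ℂ) (z : O) : ℂ :=
  if z ∈ Zs then c z * ((nr z / (2 * Z) : ℝ) : ℂ) ^ s else 0

theorem Tc_eq (φ : O → ℂ) (Zs : Finset O) (c : O → ℂ) (B : ℝ) (h : O) :
    Tc φ Zs c B (1 / 2) h = ∑ z ∈ Zs, c z * Tz φ B z h := rfl

theorem Gsum_eq {M : O} (ν : Chr M) (X : ℝ) (s : ℂ) (h : O) :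
    Gsum ν X s h = ∑' x : O, gx ν h x * Wc (nr x / X) s := by
  unfold Gsum gx
  refine tsum_congr fun x => ?_
  split_ifs <;> simp

theorem norm_gx_le {M : O} (hM : M ≠ 0) (ν : Chr M) (h x : O) :
    ‖gx ν h x‖ ≤ nr x ^ (1 / 2 : ℝ) := by
  unfold gx
  split_ifs with hx
  · have h1 := nr_pos hx.ne_zero
    have h2 : 0 < Real.sqrt (nr x) := Real.sqrt_pos.2 h1
    rw [norm_mul, norm_div, Complex.norm_real, Real.norm_of_nonneg h2.le, ← Real.sqrt_eq_rpow]
    refine (mul_le_of_le_one_left (by positivity) (norm_ev_le hM ν x)).trans ?_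
    rw [div_le_iff₀ h2, Real.mul_self_sqrt h1.le]
    exact PB1_norm_gs_le 5 hx.ne_zero h
  · rw [norm_zero]; positivity

theorem polyB_gx {M : O} (hM : M ≠ 0) (ν : Chr M) (h : O) : PolyB (gx ν h) 1 (1 / 2) := by
  refine ⟨?_, fun x => by rw [one_mul]; exact norm_gx_le hM ν h x⟩
  unfold gx
  rw [if_neg fun h0 => Primary.ne_zero h0 rfl]

theorem norm_cs_le {Zs : Finset O} {c : O → ℂ} {Z : ℝ} (hZ : 0 < Z)
    (hz : ∀ z ∈ Zs, z ≠ 0 ∧ nr z ≤ 2 * Z) (hc : ∀ z, ‖c z‖ ≤ 1) {s : ℂ} (hs : 0 ≤ s.re) (z : O) :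
    ‖cs Zs c Z s z‖ ≤ 1 := by
  unfold cs
  split_ifs with h
  · have h1 := nr_pos (hz z h).1
    rw [norm_mul, Complex.norm_cpow_eq_rpow_re_of_pos (by positivity)]
    exact mul_le_one₀ (hc z) (by positivity) (Real.rpow_le_one (by positivity)
      ((div_le_one (by positivity)).2 (hz z h).2) hs)
  · simp

theorem En_nonneg {B K Z : ℝ} (hB : 0 ≤ B) (hK : 0 ≤ K) (hZ : 0 ≤ Z) : 0 ≤ En B K Z := by
  unfold En; positivity

theorem Gr_nonneg {K X : ℝ} (hK : 0 ≤ K) (hX : 0 ≤ X) : 0 ≤ Gr K X := by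
  unfold Gr; positivity

end Crest.Agent.R17.HS
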