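import Crest.Agent.R17.HSideDefs

/-!
# Row 17, `hside`, part E: the exponents
-/

set_option autoImplicit false

noncomputable section

namespace Crest.Agent.R17.HS

theorem rpow_eq_pow {B : ℝ} (hB : 0 ≤ B) (n : ℕ) (e : ℝ) (h : e = n / 96) :
    B ^ e = (B ^ (1 / 96 : ℝ)) ^ n := by
  rw [← Real.rpow_natCast, ← Real.rpow_mul hB, h]; congr 1; ring

theorem lam_facts {u v : ℝ} (hu : 0 < u) (hv : 0 < v) :
    1 ≤ (u + u⁻¹) * (v + v⁻¹) ∧ u ≤ (u + u⁻¹) * (v + v⁻¹) ∧ u * v⁻¹ ≤ (u + u⁻¹) * (v + v⁻¹) ∧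
      u⁻¹ * v⁻¹ ≤ (u + u⁻¹) * (v + v⁻¹) := by
  have hu' := inv_pos.2 hu
  have hv' := inv_pos.2 hv
  have h1 : 1 ≤ v + v⁻¹ := by
    rcases le_total 1 v with h | h
    · linarith
    · linarith [one_le_inv₀ hv |>.2 h]
  have h2 : 1 ≤ u + u⁻¹ := by
    rcases le_total 1 u with h | h
    · linarith
    · linarith [one_le_inv₀ hu |>.2 h]
  refine ⟨one_le_mul_of_one_le_of_one_le h2 h1, ?_, ?_, ?_⟩
  · nlinarith
  · exact mul_le_mul (by linarith) (by linarith) hv'.le (by linarith)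
  · exact mul_le_mul (by linarith) (by linarith) hv'.le (by linarith)

/-- the algebraic core, `b = B^{1/96}` -/
theorem numeric_aux {b P μ K Z X : ℝ} (hb : 1 ≤ b) (hP : 1 ≤ P) (hμ : 1 ≤ μ)
    (hK0 : 0 < K) (hZ0 : 0 < Z) (hX0 : 0 < X) (hK : K ≤ μ * (b ^ 80 / P ^ 2))
    (hZ : Z ≤ μ * (b ^ 16 / P)) (hX : X ^ 2 / K ≤ μ * b ^ 12) :
    b ^ 78 / Real.sqrt (b ^ 96 * Z * X) *
      (Real.sqrt (b ^ 96 * Z * (K + K ^ 2 * Z / b ^ 96 + K * Z ^ 2 / b ^ 48 +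
        Real.sqrt K * Z * b ^ 24)) * Real.sqrt (Gr K X)) ≤ 3 * μ ^ 3 * (b ^ 159 / P) := by
  have hb0 : 0 < b := by linarith
  have hP0 : 0 < P := by linarith
  set KJ := b ^ 80 / P ^ 2 with hKJ
  have hKJ0 : 0 < KJ := by positivity
  have hμ2 : μ ≤ μ ^ 2 := by nlinarith
  have hμ3 : μ ^ 2 ≤ μ ^ 3 := pow_le_pow_right₀ hμ (by norm_num)
  have hZ' : Z ≤ μ * b ^ 16 := hZ.trans (by gcongr; exact div_le_self (by positivity) hP)
  have hK' : K ≤ μ * b ^ 80 :=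
    hK.trans (by gcongr; exact div_le_self (by positivity) (one_le_pow₀ hP))
  have e1 : K ≤ μ ^ 3 * KJ := hK.trans (by gcongr; linarith)
  have e2 : K ^ 2 * Z / b ^ 96 ≤ μ ^ 3 * KJ := by
    rw [div_le_iff₀ (by positivity)]
    calc K ^ 2 * Z = K * K * Z := by ring
      _ ≤ (μ * KJ) * (μ * b ^ 80) * (μ * b ^ 16) := by gcongr
      _ = _ := by ring
  have e3 : K * Z ^ 2 / b ^ 48 ≤ μ ^ 3 * KJ := by
    rw [div_le_iff₀ (by positivity)]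
    calc K * Z ^ 2 ≤ (μ * KJ) * (μ * b ^ 16) ^ 2 := by gcongr
      _ = μ ^ 3 * KJ * b ^ 32 := by ring
      _ ≤ _ := by gcongr; norm_num
  have e4 : Real.sqrt K * Z * b ^ 24 ≤ μ ^ 3 * KJ := by
    have h1 : Real.sqrt K ≤ μ * (b ^ 40 / P) := by
      refine Real.sqrt_le_iff.2 ⟨by positivity, hK.trans ?_⟩
      calc μ * KJ ≤ μ ^ 2 * KJ := by gcongr
        _ = _ := by rw [hKJ]; field_simp
    calc Real.sqrt K * Z * b ^ 24 ≤ μ * (b ^ 40 / P) * (μ * (b ^ 16 / P)) * b ^ 24 := by gcongr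
      _ = μ ^ 2 * KJ := by rw [hKJ]; field_simp
      _ ≤ _ := by gcongr
  have e5 : (X ^ 2 / K) ^ (1 / 6 : ℝ) ≤ μ * b ^ 2 := by
    have h1 : X ^ 2 / K ≤ (μ * b ^ 2) ^ 6 := by
      refine hX.trans ?_
      rw [mul_pow, ← pow_mul]
      gcongr
      exact le_self_pow₀ hμ (by norm_num)
    refine (Real.rpow_le_rpow (by positivity) h1 (by norm_num)).trans_eq ?_
    rw [← Real.rpow_natCast, ← Real.rpow_mul (by positivity)]
    norm_num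
  have e6 : Gr K X ≤ (μ * KJ) * X * (2 * (μ * b ^ 2)) := by
    unfold Gr
    have : 1 ≤ μ * b ^ 2 := one_le_mul_of_one_le_of_one_le hμ (one_le_pow₀ hb)
    gcongr
    linarith
  set E := K + K ^ 2 * Z / b ^ 96 + K * Z ^ 2 / b ^ 48 + Real.sqrt K * Z * b ^ 24 with hE
  have e7 : E ≤ 4 * (μ ^ 3 * KJ) := by linarith
  have hE0 : 0 ≤ E := by positivity
  have hs : 0 < Real.sqrt (b ^ 96 * Z * X) := Real.sqrt_pos.2 (by positivity)
  rw [← Real.sqrt_mul (by positivity), div_mul_eq_mul_div, div_le_iff₀ hs]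
  have h8 : Real.sqrt (b ^ 96 * Z * E * Gr K X) ≤
      3 * μ ^ 3 * KJ * b * Real.sqrt (b ^ 96 * Z * X) := by
    refine Real.sqrt_le_iff.2 ⟨by positivity, ?_⟩
    rw [mul_pow, Real.sq_sqrt (by positivity)]
    have hμ5 : μ ^ 5 ≤ μ ^ 6 := pow_le_pow_right₀ hμ (by norm_num)
    calc b ^ 96 * Z * E * Gr K X
        ≤ b ^ 96 * Z * (4 * (μ ^ 3 * KJ)) * ((μ * KJ) * X * (2 * (μ * b ^ 2))) := by
          gcongr; exact Gr_nonneg hK0.le hX0.le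
      _ = 8 * μ ^ 5 * (KJ ^ 2 * b ^ 2 * (b ^ 96 * Z * X)) := by ring
      _ ≤ 9 * μ ^ 6 * (KJ ^ 2 * b ^ 2 * (b ^ 96 * Z * X)) := by gcongr; norm_num
      _ = _ := by ring
  have h9 : b ^ 78 * KJ * b ≤ b ^ 159 / P := by
    rw [hKJ, show b ^ 78 * (b ^ 80 / P ^ 2) * b = b ^ 159 / P ^ 2 by ring]
    gcongr
    nlinarith
  calc b ^ 78 * Real.sqrt (b ^ 96 * Z * E * Gr K X)
      ≤ b ^ 78 * (3 * μ ^ 3 * KJ * b * Real.sqrt (b ^ 96 * Z * X)) := by gcongr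
    _ = 3 * μ ^ 3 * (b ^ 78 * KJ * b) * Real.sqrt (b ^ 96 * Z * X) := by ring
    _ ≤ _ := by gcongr

theorem numeric {B P Z N m u v X K : ℝ} (hB : 1 ≤ B) (hP : 1 ≤ P)
    (hZ : 0 < Z) (hN : 0 < N) (hm : 1 ≤ m) (hu : u = Z / (B ^ (1 / 6 : ℝ) / P)) (hv : v = N / P)
    (hX : X = Xpar B / N) (hK : K = 2 * (B * m / Apar B) * Z * X) :
    Apar B / Real.sqrt (B * Z * X) * (Real.sqrt (B * Z * En B K Z) * Real.sqrt (Gr K X)) ≤
      24 * m ^ 3 * ((u + u⁻¹) ^ 3 * (v + v⁻¹) ^ 3) * (NrmB B * B ^ (7 / 8 : ℝ) / P) := by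
  have hB0 : 0 ≤ B := by linarith
  have hb : 1 ≤ B ^ (1 / 96 : ℝ) := Real.one_le_rpow hB (by norm_num)
  have a1 : Apar B = (B ^ (1 / 96 : ℝ)) ^ 78 := rpow_eq_pow hB0 78 _ (by norm_num)
  have a2 : Xpar B = (B ^ (1 / 96 : ℝ)) ^ 46 := rpow_eq_pow hB0 46 _ (by norm_num)
  have a3 : B ^ (1 / 6 : ℝ) = (B ^ (1 / 96 : ℝ)) ^ 16 := rpow_eq_pow hB0 16 _ (by norm_num)
  have a4 : B ^ (1 / 4 : ℝ) = (B ^ (1 / 96 : ℝ)) ^ 24 := rpow_eq_pow hB0 24 _ (by norm_num)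
  have a5 : Real.sqrt B = (B ^ (1 / 96 : ℝ)) ^ 48 := by
    rw [Real.sqrt_eq_rpow]; exact rpow_eq_pow hB0 48 _ (by norm_num)
  have a6 : B ^ (7 / 8 : ℝ) = (B ^ (1 / 96 : ℝ)) ^ 84 := rpow_eq_pow hB0 84 _ (by norm_num)
  have a7 : Apar B ^ (1 / 6 : ℝ) = (B ^ (1 / 96 : ℝ)) ^ 13 := by
    rw [Apar, ← Real.rpow_mul hB0]; exact rpow_eq_pow hB0 13 _ (by norm_num)
  have a8 : B = (B ^ (1 / 96 : ℝ)) ^ 96 := by
    rw [← rpow_eq_pow hB0 96 1 (by norm_num), Real.rpow_one]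
  rw [NrmB, En, a7, a6, a5, a4]
  rw [a3] at hu
  rw [a2] at hX
  rw [a1] at hK
  rw [a3, a2, a1]
  generalize B ^ (1 / 96 : ℝ) = b at *
  subst a8
  have hb0 : 0 < b := by linarith
  have hP0 : 0 < P := by linarith
  have hu0 : 0 < u := by rw [hu]; positivity
  have hv0 : 0 < v := by rw [hv]; positivity
  have hX0 : 0 < X := by rw [hX]; positivity
  have hK0 : 0 < K := by rw [hK]; positivity
  obtain ⟨l1, l2, l3, l4⟩ := lam_facts hu0 hv0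
  set Λ := (u + u⁻¹) * (v + v⁻¹) with hΛ
  have hZ' : Z = u * (b ^ 16 / P) := by rw [hu]; field_simp
  have hN' : N = v * P := by rw [hv]; field_simp
  have hK' : K = 2 * m * (u * v⁻¹) * (b ^ 80 / P ^ 2) := by
    rw [hK, hX, hZ', hN']; field_simp
  have hm2 : 1 ≤ 2 * m := by linarith
  have hΛμ : Λ ≤ 2 * m * Λ := le_mul_of_one_le_left (by linarith) hm2
  have hXK : X ^ 2 / K = (2 * m)⁻¹ * (u⁻¹ * v⁻¹) * b ^ 12 := by
    rw [hK', hX, hN']; field_simp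
  refine (numeric_aux (μ := 2 * m * Λ) hb hP (l1.trans hΛμ) hK0 hZ hX0 ?_ ?_ ?_).trans_eq ?_
  · rw [hK']; gcongr
  · rw [hZ']; gcongr; exact l2.trans hΛμ
  · rw [hXK]
    exact mul_le_mul_of_nonneg_right ((mul_le_of_le_one_left (by positivity)
      (inv_le_one_of_one_le₀ hm2)).trans (l4.trans hΛμ)) (by positivity)
  · rw [← mul_pow, ← hΛ]; ring

end Crest.Agent.R17.HS
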