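import Crest.Agent.R17.HSideA
import Crest.Agent.R17.HSideC
import Crest.Agent.R17.HSideD
import Crest.Agent.R17.HSideE

/-!
# Row 17, `hside`, part F: dyadic pieces of the marks
-/

set_option autoImplicit false

noncomputable section

namespace Crest.Agent.R17.HS

open Finset

/-- dyadic decomposition of a complex sum -/
theorem dyadic_norm {ε : ℝ} (hε : 0 < ε) : ∃ C : ℝ, 0 < C ∧ ∀ (Q E : ℝ) (S : Finset O)
    (f : O → ℂ), 1 ≤ Q → 0 ≤ E → (∀ k ∈ S, k ≠ 0 ∧ nr k ≤ Q) →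
    (∀ (Z : ℝ) (T : Finset O), 1 ≤ Z → T ⊆ S → T.Nonempty →
      (∀ k ∈ T, Z ≤ nr k ∧ nr k ≤ 2 * Z) → ‖∑ k ∈ T, f k‖ ≤ E) →
    ‖∑ k ∈ S, f k‖ ≤ C * Q ^ ε * E := by
  classical
  obtain ⟨C, hC, h⟩ := En.log_le hε
  refine ⟨C, hC, fun Q E S f hQ hE0 hS hE => ?_⟩
  have hK0 : ⌊Q⌋₊ ≠ 0 := by
    have := (Nat.one_le_floor_iff Q).2 hQ
    omega
  have hm : (2 : ℝ) ^ Nat.log 2 ⌊Q⌋₊ ≤ Q :=
    le_trans (by exact_mod_cast Nat.pow_log_le_self 2 hK0) (Nat.floor_le (by linarith))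
  rw [← sum_fiberwise_of_maps_to (t := range (Nat.log 2 ⌊Q⌋₊ + 1)) (g := fun k => Nat.log 2 (nm k))
    fun k hk => mem_range.2 (Nat.lt_succ_of_le (Nat.log_mono_right
      ((Nat.le_floor_iff (by linarith)).2 (hS k hk).2)))]
  refine (norm_sum_le _ _).trans ?_
  calc _ ≤ ∑ _e ∈ range (Nat.log 2 ⌊Q⌋₊ + 1), E := by
        refine sum_le_sum fun e _ => ?_
        rcases (S.filter fun k => Nat.log 2 (nm k) = e).eq_empty_or_nonempty with he | he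
        · rw [he, sum_empty, norm_zero]; exact hE0
        refine hE (2 ^ e) _ (one_le_pow₀ one_le_two) (filter_subset _ _) he fun k hk => ?_
        obtain ⟨hk', rfl⟩ := mem_filter.1 hk
        have h0 : nm k ≠ 0 := fun h0 => (hS k hk').1 (nm_eq_zero.1 h0)
        refine ⟨by exact_mod_cast Nat.pow_log_le_self 2 h0, ?_⟩
        have := (Nat.lt_pow_succ_log_self one_lt_two (nm k)).le
        rw [pow_succ'] at this
        exact_mod_cast this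
    _ ≤ _ := by
        rw [sum_const, card_range, nsmul_eq_mul]
        refine mul_le_mul_of_nonneg_right ?_ hE0
        exact_mod_cast h Q _ hm

theorem cube_le {v : ℝ} (hv : 0 < v) :
    (v + v⁻¹) ^ 3 ≤ 4 * (v ^ (3 : ℝ) + v ^ (-3 : ℝ)) := by
  have hv' := inv_pos.2 hv
  rw [Real.rpow_neg hv.le, show (3 : ℝ) = (3 : ℕ) by norm_num, Real.rpow_natCast, ← inv_pow]
  nlinarith [mul_nonneg (add_pos hv hv').le (sq_nonneg (v - v⁻¹))]

/-- the sizes of the parameters of a non-empty piece -/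
theorem sizes {B Z N m y : ℝ} (hB : 1 ≤ B) (hm : 1 ≤ m) (hZ : 1 ≤ Z) (h1 : Z ≤ y) (h2 : y ≤ 2 * Z)
    (hN : 1 ≤ N) (hN' : N ≤ B ^ (5 / 24 : ℝ)) (hy : y ≤ B ^ (5 / 24 : ℝ))
    (hyN : B ^ (1 / 8 : ℝ) ≤ y * N) :
    1 ≤ Xpar B / N ∧ Z ≤ 2 * m * B ∧ 1 ≤ 2 * (B * m / Apar B) * Z * (Xpar B / N) ∧
      2 * (B * m / Apar B) * Z * (Xpar B / N) ≤ 2 * m * B ∧
      (Xpar B / N) ^ 3 ≤ (2 * (B * m / Apar B) * Z * (Xpar B / N)) ^ 2 := by
  have hB0 : 0 ≤ B := by linarith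
  have hb : 1 ≤ B ^ (1 / 96 : ℝ) := Real.one_le_rpow hB (by norm_num)
  have a1 : Apar B = (B ^ (1 / 96 : ℝ)) ^ 78 := rpow_eq_pow hB0 78 _ (by norm_num)
  have a2 : Xpar B = (B ^ (1 / 96 : ℝ)) ^ 46 := rpow_eq_pow hB0 46 _ (by norm_num)
  have a3 : B ^ (5 / 24 : ℝ) = (B ^ (1 / 96 : ℝ)) ^ 20 := rpow_eq_pow hB0 20 _ (by norm_num)
  have a4 : B ^ (1 / 8 : ℝ) = (B ^ (1 / 96 : ℝ)) ^ 12 := rpow_eq_pow hB0 12 _ (by norm_num)
  have a8 : B = (B ^ (1 / 96 : ℝ)) ^ 96 := by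
    rw [← rpow_eq_pow hB0 96 1 (by norm_num), Real.rpow_one]
  rw [a3] at hN' hy
  rw [a4] at hyN
  rw [a1, a2]
  generalize B ^ (1 / 96 : ℝ) = b at *
  subst a8
  have hb0 : 0 < b := by linarith
  have hN0 : 0 < N := by linarith
  have hy0 : 0 < y := by linarith
  have p1 : b ^ 20 ≤ b ^ 46 := pow_le_pow_right₀ hb (by norm_num)
  have p2 : b ^ 20 ≤ b ^ 96 := pow_le_pow_right₀ hb (by norm_num)
  have p3 : b ^ 10 ≤ b ^ 12 := pow_le_pow_right₀ hb (by norm_num)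
  have c1 : 1 ≤ b ^ 46 / N := (one_le_div hN0).2 (hN'.trans p1)
  have e : b ^ 96 * m / b ^ 78 = b ^ 18 * m := by field_simp
  rw [e]
  set X := b ^ 46 / N with hX
  have c5 : X ^ 3 ≤ (2 * (b ^ 18 * m) * Z * X) ^ 2 := by
    have d1 : X ≤ (b ^ 18 * y) ^ 2 := by
      rw [hX, div_le_iff₀ hN0]
      calc b ^ 46 = b ^ 36 * (1 * b ^ 10) := by ring
        _ ≤ b ^ 36 * (y * (y * N)) := by gcongr; exacts [hZ.trans h1, p3.trans hyN]
        _ = _ := by ring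
    have d2 : b ^ 18 * y ≤ 2 * (b ^ 18 * m) * Z := by
      calc b ^ 18 * y = b ^ 18 * 1 * y := by ring
        _ ≤ b ^ 18 * m * (2 * Z) := by gcongr
        _ = _ := by ring
    calc X ^ 3 = X * X ^ 2 := by ring
      _ ≤ (2 * (b ^ 18 * m) * Z) ^ 2 * X ^ 2 := by
          gcongr
          exact d1.trans (pow_le_pow_left₀ (by positivity) d2 2)
      _ = _ := by ring
  refine ⟨c1, ?_, ?_, ?_, c5⟩
  · nlinarith [h1.trans (hy.trans p2), pow_pos hb0 96]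
  · by_contra h
    have h3 : (2 * (b ^ 18 * m) * Z * X) ^ 2 < 1 :=
      pow_lt_one₀ (by positivity) (not_le.1 h) two_ne_zero
    linarith [one_le_pow₀ (n := 3) c1]
  · calc 2 * (b ^ 18 * m) * Z * X ≤ 2 * (b ^ 18 * m) * b ^ 20 * b ^ 46 := by
          gcongr
          exacts [h1.trans hy, div_le_self (by positivity) hN]
      _ = 2 * m * b ^ 84 := by ring
      _ ≤ _ := by gcongr; norm_num

/-- One dyadic piece of marks, one compensation, one class. -/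
theorem piece {M : O} (hM : Adm M) {ε : ℝ} (hε : 0 < ε) : ∃ C : ℝ, 0 < C ∧
    ∀ (B P Z N C₂ : ℝ) (φ : O → ℂ) (ν : Chr M) (θ : O → ℂ) (T : Finset O) (c : O → ℂ),
      1 ≤ B → 1 ≤ P → 1 ≤ Z → 1 ≤ N → N ≤ B ^ (5 / 24 : ℝ) → 0 < C₂ → PerB M φ →
      (∀ h, ‖θ h‖ ≤ 1) → T.Nonempty →
      (∀ z ∈ T, SP M z ∧ nr z ≤ B ^ (5 / 24 : ℝ) ∧ B ^ (1 / 8 : ℝ) ≤ nr z * N ∧ Z ≤ nr z ∧
        nr z ≤ 2 * Z) →
      (∀ σ : ℝ, |σ| ≤ 3 → ∀ z ∈ T, ‖c z‖ * (nr z / (B ^ (1 / 6 : ℝ) / P)) ^ σ ≤ C₂) →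
      ‖∑ z ∈ T, c z * (((Apar B / Real.sqrt (B * nr z * (Xpar B / N)) : ℝ) : ℂ) *
          Dual φ ν θ B (Xpar B / N) (B * nr M / Apar B) z)‖ ≤
        C * C₂ * B ^ ε * (N / P + (N / P)⁻¹) ^ 3 * (NrmB B * B ^ (7 / 8 : ℝ) / P) := by
  classical
  obtain ⟨C, hC, h⟩ := core hM hε
  have hm := one_le_nr hM.1
  refine ⟨64 * C * (2 * nr M) ^ ε * (24 * nr M ^ 3), by positivity,
    fun B P Z N C₂ φ ν θ T c hB hP hZ hN hN' hC₂ hφ hθ ⟨z₀, hz₀⟩ hT hc => ?_⟩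
  obtain ⟨-, b1, b2, b3, b4⟩ := hT z₀ hz₀
  obtain ⟨s1, s2, s3, s4, s5⟩ := sizes hB hm hZ b3 b4 hN hN' b1 b2
  have hB0 : 0 < B := by linarith
  have hP0 : 0 < P := by linarith
  have hZ0 : 0 < Z := by linarith
  have hA : 0 < Apar B := Real.rpow_pos_of_pos hB0 _
  set X := Xpar B / N with hX
  set K := 2 * (B * nr M / Apar B) * Z * X with hK
  set ZJ := B ^ (1 / 6 : ℝ) / P with hZJ
  have hZJ0 : 0 < ZJ := by positivity
  set u := Z / ZJ with hu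
  have hu0 : 0 < u := by positivity
  have hX0 : 0 < X := by linarith
  set a := Apar B / Real.sqrt (B * Z * X) with ha
  have ha0 : 0 < a := by positivity
  set γ := a * (64 * C₂) / (u + u⁻¹) ^ 3 with hγ
  have hγ0 : 0 < γ := by positivity
  have h1 := h (2 * nr M * B) B X (B * nr M / Apar B) Z K φ ν θ T
    (fun z => if z ∈ T then c z * ((Apar B / Real.sqrt (B * nr z * X) : ℝ) : ℂ) / (γ : ℂ) else 0)
    hB (le_mul_of_one_le_left hB0.le (by linarith)) s1 (by positivity) hZ s2 s3 s4 le_rfl s5 hφ hθ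
    (fun z hz => ⟨(hT z hz).1, (hT z hz).2.2.2⟩) (fun z => by
      split_ifs with hz
      · obtain ⟨-, -, -, d3, d4⟩ := hT z hz
        have hz0 : 0 < nr z := by linarith
        rw [norm_div, norm_mul, Complex.norm_real, Complex.norm_real,
          Real.norm_of_nonneg (by positivity), Real.norm_of_nonneg hγ0.le, div_le_one hγ0, hγ,
          le_div_iff₀ (by positivity)]
        have e1 : Apar B / Real.sqrt (B * nr z * X) ≤ a := by rw [ha]; gcongr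
        set u' := nr z / ZJ with hu'
        have hu'0 : 0 < u' := by positivity
        have e2 : u + u⁻¹ ≤ 2 * (u' + u'⁻¹) := by
          have f1 : u ≤ u' := by rw [hu, hu']; gcongr
          have f2 : u⁻¹ ≤ 2 * u'⁻¹ := by
            rw [hu, hu', inv_div, inv_div, ← mul_div_assoc, div_le_div_iff₀ hZ0 hz0]
            nlinarith
          linarith
        have e3 : (u + u⁻¹) ^ 3 ≤ 32 * (u' ^ (3 : ℝ) + u' ^ (-3 : ℝ)) :=
          (pow_le_pow_left₀ (by positivity) e2 3).trans (by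
            rw [mul_pow]; linarith [cube_le hu'0])
        have e4 := hc 3 (by norm_num) z hz
        have e5 := hc (-3) (by norm_num) z hz
        calc ‖c z‖ * (Apar B / Real.sqrt (B * nr z * X)) * (u + u⁻¹) ^ 3
            ≤ ‖c z‖ * a * (32 * (u' ^ (3 : ℝ) + u' ^ (-3 : ℝ))) := by gcongr
          _ = a * (32 * (‖c z‖ * u' ^ (3 : ℝ) + ‖c z‖ * u' ^ (-3 : ℝ))) := by ring
          _ ≤ a * (32 * (C₂ + C₂)) := by gcongr
          _ = _ := by ring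
      · simp)
  have e : ∑ z ∈ T, c z * (((Apar B / Real.sqrt (B * nr z * X) : ℝ) : ℂ) *
      Dual φ ν θ B X (B * nr M / Apar B) z) = (γ : ℂ) * ∑ z ∈ T, (if z ∈ T then
        c z * ((Apar B / Real.sqrt (B * nr z * X) : ℝ) : ℂ) / (γ : ℂ) else 0) *
          Dual φ ν θ B X (B * nr M / Apar B) z := by
    rw [mul_sum]
    refine sum_congr rfl fun z hz => ?_
    have : (γ : ℂ) ≠ 0 := Complex.ofReal_ne_zero.2 hγ0.ne'
    rw [if_pos hz]
    field_simp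
  have h2 := numeric hB hP hZ0 (by linarith : 0 < N) hm hu rfl hX hK
  rw [e, norm_mul, Complex.norm_real, Real.norm_of_nonneg hγ0.le]
  rw [Real.mul_rpow (by positivity) hB0.le] at h1
  rw [← ha] at h2
  generalize Real.sqrt (B * Z * En B K Z) * Real.sqrt (Gr K X) = W at h1 h2
  have hU : 0 < (u + u⁻¹) ^ 3 := by positivity
  calc _ ≤ γ * (C * ((2 * nr M) ^ ε * B ^ ε) * W) := by gcongr
    _ = 64 * C₂ * C * ((2 * nr M) ^ ε * B ^ ε) / (u + u⁻¹) ^ 3 * (a * W) := by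
        rw [hγ]; ring
    _ ≤ 64 * C₂ * C * ((2 * nr M) ^ ε * B ^ ε) / (u + u⁻¹) ^ 3 * (24 * nr M ^ 3 *
        ((u + u⁻¹) ^ 3 * (N / P + (N / P)⁻¹) ^ 3) * (NrmB B * B ^ (7 / 8 : ℝ) / P)) := by gcongr
    _ = _ := by
        generalize (N / P + (N / P)⁻¹) ^ 3 = V
        generalize NrmB B * B ^ (7 / 8 : ℝ) / P = Y
        field_simp

end Crest.Agent.R17.HS
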