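import Crest.Agent.R17.Poisson
import Crest.Agent.R17.Contour
import Crest.Agent.R17.LBasicAuxG

/-!
# Row 17, reflection of plain sums (`Pln_reflect`): the Hankel transform of `Wc`
-/

set_option autoImplicit false

noncomputable section

namespace Crest.Agent.R17.LBD

open scoped ComplexConjugate
open MeasureTheory Complex Classical

/-- The gamma factor of the functional equation. -/
def gamR (w : ℂ) : ℂ :=
  ((2 * Real.pi / Real.sqrt 3 : ℝ) : ℂ) ^ (2 * w - 1) * Gamma (1 - w) / Gamma w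

/-- The Mellin density of the Hankel transform of `Wc · s`. -/
def Kg (w s : ℂ) : ℂ := (1 / (2 * Real.pi) : ℂ) * Wm (w + s) * gamR w

/-- The Hankel transform of `Wc · s`. -/
def Vg (y : ℝ) (s : ℂ) : ℂ :=
  ∫ u : ℝ, Kg (1 / 2 + u * I) s * (y : ℂ) ^ ((1 / 2 + u * I : ℂ) - 1)

/-! ### Auxiliary facts on `gamR` -/

theorem c0_pos : 0 < 2 * Real.pi / Real.sqrt 3 := lt_of_lt_of_le (by norm_num) pois_three_le

theorem c0_ne : ((2 * Real.pi / Real.sqrt 3 : ℝ) : ℂ) ≠ 0 := ofReal_ne_zero.2 c0_pos.ne'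

theorem one_sub_ne {w : ℂ} (hw : w.re < 1) (m : ℕ) : 1 - w ≠ -m := fun h => by
  have h1 := congrArg Complex.re h
  simp only [sub_re, one_re, neg_re, natCast_re] at h1
  have : (0 : ℝ) ≤ m := m.cast_nonneg
  linarith

theorem differentiableAt_gamR {w : ℂ} (hw : w.re < 1) : DifferentiableAt ℂ gamR w := by
  have h1 : DifferentiableAt ℂ
      (fun w : ℂ => ((2 * Real.pi / Real.sqrt 3 : ℝ) : ℂ) ^ (2 * w - 1)) w :=
    DifferentiableAt.const_cpow (by fun_prop) (Or.inl c0_ne)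
  have h2 : DifferentiableAt ℂ (fun w : ℂ => Gamma (1 - w)) w :=
    (differentiableAt_Gamma _ (one_sub_ne hw)).comp w (f := fun w : ℂ => 1 - w) (by fun_prop)
  have h3 : DifferentiableAt ℂ (fun w : ℂ => (Gamma w)⁻¹) w := differentiable_one_div_Gamma w
  have e : gamR = fun w : ℂ => ((2 * Real.pi / Real.sqrt 3 : ℝ) : ℂ) ^ (2 * w - 1) *
      Gamma (1 - w) * (Gamma w)⁻¹ := by
    funext w
    rw [gamR, div_eq_mul_inv]
  rw [e]
  exact (h1.mul h2).mul h3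

theorem inv_Gamma_eq {w : ℂ} (hw : w.re < 1) :
    (Gamma w)⁻¹ = Gamma (1 - w) * Complex.sin (Real.pi * w) / Real.pi := by
  have g2 := Gamma_ne_zero (one_sub_ne hw)
  have h3 := Gamma_mul_Gamma_one_sub w
  have hpi : (Real.pi : ℂ) ≠ 0 := ofReal_ne_zero.2 Real.pi_ne_zero
  by_cases g3 : Complex.sin (Real.pi * w) = 0
  · rw [g3, div_zero] at h3
    rw [(mul_eq_zero.1 h3).resolve_right g2, g3]
    simp
  · have g1 : Gamma w ≠ 0 := fun h => by
      rw [h, zero_mul] at h3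
      exact div_ne_zero hpi g3 h3.symm
    rw [eq_div_iff g3] at h3
    rw [eq_div_iff hpi, inv_mul_eq_iff_eq_mul₀ g1, ← mul_assoc, h3]

/-- A crude bound for the gamma factor in a strip left of `Re w = 1/2`. -/
theorem norm_gamR_strip (σ₀ : ℝ) : ∃ K : ℝ, 0 < K ∧ ∀ w : ℂ, σ₀ ≤ w.re → w.re ≤ 1 / 2 →
    ‖gamR w‖ ≤ K * Real.exp (4 * |w.im|) := by
  obtain ⟨K, hK, hK'⟩ := LG.Gamma_bdd (σ₀ := 1 / 2) (σ₁ := 1 - σ₀) (by norm_num)
  refine ⟨K * K, by positivity, fun w h0 h1 => ?_⟩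
  have hw : w.re < 1 := by linarith
  have h4 : ‖Gamma (1 - w)‖ ≤ K := by
    refine (WA.norm_Gamma_le ?_).trans (hK' _ ?_ ?_)
    all_goals simp only [sub_re, one_re]; linarith
  have h5 : ‖Complex.sin (Real.pi * w)‖ ≤ Real.exp (4 * |w.im|) := by
    refine (LG.norm_sin_le _).trans (Real.exp_le_exp.2 ?_)
    rw [im_ofReal_mul, abs_mul, abs_of_pos Real.pi_pos]
    exact mul_le_mul_of_nonneg_right Real.pi_lt_four.le (abs_nonneg _)
  have h6 : ‖((2 * Real.pi / Real.sqrt 3 : ℝ) : ℂ) ^ (2 * w - 1)‖ ≤ 1 := by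
    rw [norm_cpow_line c0_pos]
    refine Real.rpow_le_one_of_one_le_of_nonpos (le_trans (by norm_num) pois_three_le) ?_
    simp only [sub_re, mul_re, re_ofNat, im_ofNat, one_re]
    linarith
  have h7 : ‖(Gamma w)⁻¹‖ ≤ K * Real.exp (4 * |w.im|) := by
    rw [inv_Gamma_eq hw, norm_div, norm_mul, Complex.norm_real, Real.norm_of_nonneg Real.pi_pos.le]
    refine (div_le_self (by positivity) (by linarith [Real.pi_gt_three])).trans ?_
    exact mul_le_mul h4 h5 (norm_nonneg _) hK.le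
  rw [gamR, div_eq_mul_inv, norm_mul, norm_mul]
  calc _ ≤ 1 * K * (K * Real.exp (4 * |w.im|)) := by gcongr
    _ = _ := by ring

theorem norm_gamR_half (u : ℝ) : ‖gamR (1 / 2 + u * I)‖ = 1 := by
  have e : (1 : ℂ) - (1 / 2 + u * I) = conj (1 / 2 + u * I) := by
    apply Complex.ext <;> simp
    norm_num
  have hne : Gamma (1 / 2 + u * I) ≠ 0 := Gamma_ne_zero_of_re_pos (by simp)
  have e2 : (2 * (1 / 2 + u * I) - 1 : ℂ).re = 0 := by simp
  rw [gamR, norm_div, norm_mul, norm_cpow_line c0_pos, e2, Real.rpow_zero, one_mul, e, Gamma_conj,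
    Complex.norm_conj, div_self (norm_ne_zero_iff.2 hne)]

theorem norm_gamR_sub_one {w : ℂ} (hw : w.re < 1) : ‖gamR (w - 1)‖ ≤ ‖w - 1‖ ^ 2 * ‖gamR w‖ := by
  have h1 : (1 : ℂ) - w ≠ 0 := by simpa using one_sub_ne hw 0
  have h2 : w - 1 ≠ 0 := fun h => h1 (by linear_combination -h)
  have e1 : Gamma (1 - (w - 1)) = (1 - w) * Gamma (1 - w) := by
    rw [← Gamma_add_one _ h1]; congr 1; ring
  have e2 : (Gamma (w - 1))⁻¹ = (w - 1) * (Gamma w)⁻¹ := by
    have := Gamma_add_one _ h2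
    rw [sub_add_cancel] at this
    rw [this, mul_inv, ← mul_assoc, mul_inv_cancel₀ h2, one_mul]
  have h3 : ‖((2 * Real.pi / Real.sqrt 3 : ℝ) : ℂ) ^ (2 * (w - 1) - 1)‖ ≤
      ‖((2 * Real.pi / Real.sqrt 3 : ℝ) : ℂ) ^ (2 * w - 1)‖ := by
    rw [norm_cpow_line c0_pos, norm_cpow_line c0_pos]
    refine Real.rpow_le_rpow_of_exponent_le (le_trans (by norm_num) pois_three_le) ?_
    simp only [sub_re, mul_re, re_ofNat, im_ofNat, one_re, sub_im, one_im]
    linarith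
  rw [gamR, gamR, div_eq_mul_inv _ (Gamma (w - 1)), div_eq_mul_inv _ (Gamma w), e1, e2]
  simp only [norm_mul]
  rw [norm_sub_rev 1 w]
  calc _ ≤ ‖((2 * Real.pi / Real.sqrt 3 : ℝ) : ℂ) ^ (2 * w - 1)‖ * (‖w - 1‖ * ‖Gamma (1 - w)‖) *
        (‖w - 1‖ * ‖(Gamma w)⁻¹‖) := by gcongr
    _ = _ := by ring

theorem Kg_mul_eq (w s : ℂ) {y : ℝ} (hy : 0 < y) : Kg w s * (y : ℂ) ^ (w - 1) =
    Wm (w + s) * (y : ℂ) ^ w * ((1 / (2 * Real.pi) : ℂ) * (y : ℂ)⁻¹ * gamR w) := by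
  have : (y : ℂ) ≠ 0 := ofReal_ne_zero.2 hy.ne'
  rw [Kg, cpow_sub _ _ this, cpow_one]
  ring

theorem continuous_Kg_half (s : ℂ) : Continuous fun u : ℝ => Kg (1 / 2 + u * I) s := by
  have h1 : Continuous fun u : ℝ => gamR (1 / 2 + u * I) := by
    refine continuous_iff_continuousAt.2 fun u => ?_
    exact ContinuousAt.comp (f := fun u : ℝ => (1 / 2 + u * I : ℂ))
      (differentiableAt_gamR (by simp; norm_num)).continuousAt (by fun_prop)
  have h2 : Continuous fun u : ℝ => Wm (1 / 2 + u * I + s) :=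
    differentiable_Wm.continuous.comp (by fun_prop)
  exact (continuous_const.mul h2).mul h1

theorem norm_Kg_half (u τ : ℝ) : ‖Kg (1 / 2 + u * I) (τ * I)‖ ≤ Real.exp (-(u + τ) ^ 2 / 4) := by
  have e1 : (1 / 2 + u * I + τ * I : ℂ).re = 1 / 2 := by simp
  have e2 : (1 / 2 + u * I + τ * I : ℂ).im = u + τ := by simp
  have hpi := Real.pi_gt_three
  have e3 : ‖(1 / (2 * Real.pi) : ℂ)‖ = 1 / (2 * Real.pi) := by
    rw [norm_div, norm_mul, Complex.norm_real, Real.norm_of_nonneg Real.pi_pos.le]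
    simp
  rw [Kg, norm_mul, norm_mul, norm_gamR_half, mul_one, norm_Wm, e1, e2, e3,
    show ((1 / 2 : ℝ) ^ 2 - (u + τ) ^ 2) / 4 = 1 / 16 + -(u + τ) ^ 2 / 4 by ring, Real.exp_add]
  have h1 : √Real.pi ≤ 2 := by
    rw [Real.sqrt_le_left (by norm_num)]
    linarith [Real.pi_lt_four]
  have h2 : Real.exp (1 / 16) ≤ 3 :=
    (Real.exp_le_exp.2 (by norm_num : (1 / 16 : ℝ) ≤ 1)).trans
      (by linarith [Real.exp_one_lt_d9])
  calc _ ≤ 1 / (2 * 3) * (2 * (3 * Real.exp (-(u + τ) ^ 2 / 4))) := by gcongr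
    _ = _ := by ring

/-- The line of integration may be moved to `Re w = 1/2 - k`. -/
theorem Vg_eq (k : ℕ) {y : ℝ} (hy : 0 < y) (s : ℂ) :
    Vg y s = ∫ u : ℝ, Kg ((1 / 2 - k : ℝ) + u * I) s *
      (y : ℂ) ^ ((((1 / 2 - k : ℝ) : ℂ) + u * I) - 1) := by
  have hk : (0 : ℝ) ≤ k := k.cast_nonneg
  obtain ⟨K, hK, hK'⟩ := norm_gamR_strip (1 / 2 - k)
  have hy' : (y : ℂ) ≠ 0 := ofReal_ne_zero.2 hy.ne'
  have hd : DifferentiableOn ℂ (fun w : ℂ => Kg w s * (y : ℂ) ^ (w - 1))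
      (strip (1 / 2 - k) (1 / 2)) := fun w hw => by
    refine DifferentiableAt.differentiableWithinAt ?_
    have h1 : DifferentiableAt ℂ (fun w : ℂ => Wm (w + s)) w :=
      (differentiable_Wm.comp (differentiable_id.add_const s)) w
    exact (((differentiableAt_const _).mul h1).mul
      (differentiableAt_gamR (by linarith [hw.2]))).mul
      (DifferentiableAt.const_cpow (by fun_prop) (Or.inl hy'))
  set B : ℝ := k + 1 / 2 + |s.re| with hB
  set Y : ℝ := y ^ (1 / 2 - k - 1 : ℝ) + y ^ (1 / 2 - 1 : ℝ) with hY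
  have hb : ∀ w ∈ strip (1 / 2 - k) (1 / 2), (0 : ℝ) ≤ |w.im| →
      ‖Kg w s * (y : ℂ) ^ (w - 1)‖ ≤ (‖(1 / (2 * Real.pi) : ℂ)‖ * √Real.pi * K * Y *
        Real.exp (B ^ 2 / 4 + 36 + 6 * |s.im|)) / (1 + w.im ^ 2) := fun w hw _ => by
    have h3 : ‖(y : ℂ) ^ (w - 1)‖ ≤ Y := by
      rw [norm_cpow_line hy]
      have p0 := Real.rpow_nonneg hy.le (1 / 2 - k - 1 : ℝ)
      have p1 := Real.rpow_nonneg hy.le (1 / 2 - 1 : ℝ)
      have q0 : (1 / 2 - k - 1 : ℝ) ≤ (w - 1).re := by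
        simp only [sub_re, one_re]; linarith [hw.1]
      have q1 : (w - 1).re ≤ (1 / 2 - 1 : ℝ) := by
        simp only [sub_re, one_re]; linarith [hw.2]
      rcases le_total 1 y with h | h
      · linarith [Real.rpow_le_rpow_of_exponent_le h q1]
      · linarith [Real.rpow_le_rpow_of_exponent_ge hy h q0]
    have h4 : |(w + s).re| ≤ B := by
      rw [add_re]
      refine (abs_add_le _ _).trans (add_le_add_left ?_ _)
      rw [abs_le]
      constructor <;> linarith [hw.1, hw.2]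
    have h5 : (w + s).re ^ 2 ≤ B ^ 2 := by rw [← sq_abs]; gcongr
    have h6 : 1 + w.im ^ 2 ≤ Real.exp (2 * |w.im|) := by
      have := Real.add_one_le_exp |w.im|
      have a0 := abs_nonneg w.im
      rw [two_mul, Real.exp_add, ← sq_abs]
      nlinarith
    have h7 : |w.im| ≤ |w.im + s.im| + |s.im| := by
      have := abs_sub_abs_le_abs_sub w.im (-s.im)
      rw [abs_neg, sub_neg_eq_add] at this
      linarith
    have hYn : 0 ≤ Y := (norm_nonneg _).trans h3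
    rw [le_div_iff₀ (by positivity), Kg, norm_mul, norm_mul, norm_mul, norm_Wm]
    calc _ ≤ ‖(1 / (2 * Real.pi) : ℂ)‖ * (√Real.pi *
          Real.exp (((w + s).re ^ 2 - (w + s).im ^ 2) / 4)) * (K * Real.exp (4 * |w.im|)) * Y *
          Real.exp (2 * |w.im|) := by
          gcongr
          exact hK' w hw.1 hw.2
      _ = ‖(1 / (2 * Real.pi) : ℂ)‖ * √Real.pi * K * Y *
          Real.exp (((w + s).re ^ 2 - (w + s).im ^ 2) / 4 + 4 * |w.im| + 2 * |w.im|) := by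
          rw [Real.exp_add, Real.exp_add]; ring
      _ ≤ _ := by
          refine mul_le_mul_of_nonneg_left (Real.exp_le_exp.2 ?_) (by positivity)
          rw [add_im, ← sq_abs (w.im + s.im)]
          nlinarith [sq_nonneg (|w.im + s.im| / 2 - 6)]
  have h := contour_shift (F := fun w : ℂ => Kg w s * (y : ℂ) ^ (w - 1)) (by linarith) hd hb
  rw [← h, Vg]
  simp only [one_div, ofReal_inv, ofReal_ofNat]

theorem norm_gamR_le (k : ℕ) : ∃ C : ℝ, 0 < C ∧ ∀ u : ℝ,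
    ‖gamR ((1 / 2 - k : ℝ) + u * I)‖ ≤ C * (1 + |u|) ^ (2 * k) := by
  induction k with
  | zero =>
    refine ⟨1, one_pos, fun u => ?_⟩
    have := norm_gamR_half u
    simp only [CharP.cast_eq_zero, sub_zero, one_div, ofReal_inv, ofReal_ofNat, mul_zero, pow_zero,
      mul_one] at this ⊢
    exact this.le
  | succ k ih =>
    obtain ⟨C, hC, h⟩ := ih
    have hk : (0 : ℝ) ≤ k := k.cast_nonneg
    refine ⟨(k + 1) ^ 2 * C, by positivity, fun u => ?_⟩
    have e : (((1 / 2 - (k + 1 : ℕ) : ℝ) : ℂ) + u * I) = (((1 / 2 - k : ℝ) : ℂ) + u * I) - 1 := by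
      push_cast; ring
    have h1 : ‖(((1 / 2 - k : ℝ) : ℂ) + u * I) - 1‖ ≤ (k + 1) * (1 + |u|) := by
      refine (norm_le_abs_re_add_abs_im _).trans ?_
      have e1 : ((((1 / 2 - k : ℝ) : ℂ) + u * I) - 1).re = 1 / 2 - k - 1 := by simp
      have e2 : ((((1 / 2 - k : ℝ) : ℂ) + u * I) - 1).im = u := by simp
      rw [e1, e2, abs_of_nonpos (by linarith)]
      nlinarith [abs_nonneg u]
    have hw : (((1 / 2 - k : ℝ) : ℂ) + u * I).re < 1 := by
      have e1 : (((1 / 2 - k : ℝ) : ℂ) + u * I).re = 1 / 2 - k := by simp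
      rw [e1]; linarith
    rw [e]
    refine (norm_gamR_sub_one hw).trans ?_
    calc _ ≤ ((k + 1) * (1 + |u|)) ^ 2 * (C * (1 + |u|) ^ (2 * k)) := by
          gcongr
          exact h u
      _ = _ := by ring

theorem norm_Vg_le (k : ℕ) : ∃ C : ℝ, 0 < C ∧ ∀ y τ : ℝ, 0 < y →
    ‖Vg y (τ * I)‖ ≤ C * (1 + |τ|) ^ (2 * k) * y ^ (-(1 / 2 + k : ℝ)) := by
  obtain ⟨C, hC, h⟩ := norm_gamR_le k
  obtain ⟨A, hA, hA'⟩ := norm_integral_Wm_le |(1 / 2 - k : ℝ)| (2 * k)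
  have hc : 0 < ‖(1 / (2 * Real.pi) : ℂ)‖ := norm_pos_iff.2
    (one_div_ne_zero (mul_ne_zero two_ne_zero (ofReal_ne_zero.2 Real.pi_ne_zero)))
  refine ⟨A * (‖(1 / (2 * Real.pi) : ℂ)‖ * C), by positivity, fun y τ hy => ?_⟩
  have h1 := hA' (fun u : ℝ => (1 / (2 * Real.pi) : ℂ) * (y : ℂ)⁻¹ *
      gamR ((1 / 2 - k : ℝ) + u * I)) (1 / 2 - k) (‖(1 / (2 * Real.pi) : ℂ)‖ * y⁻¹ * C) y (τ * I) hy
      (by simp) fun u => by
    rw [norm_mul, norm_mul, norm_inv, Complex.norm_real, Real.norm_of_nonneg hy.le, mul_assoc _ C]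
    gcongr
    exact h u
  rw [Vg_eq k hy]
  simp_rw [Kg_mul_eq _ _ hy]
  refine h1.trans_eq ?_
  have e1 : ((τ : ℂ) * I).im = τ := by simp
  rw [e1, show (-(1 / 2 + k) : ℝ) = (1 / 2 - k) - 1 by ring, Real.rpow_sub hy (1 / 2 - k) 1,
    Real.rpow_one]
  ring

theorem summable_Vg {b : O → ℂ} {H : ℝ} (h0 : b 0 = 0) (hb : ∀ h, ‖b h‖ ≤ H) {Z : ℝ} (hZ : 0 < Z)
    (τ : ℝ) : Summable fun h : O => b h * Vg (Z * nr h) (τ * I) := by
  obtain ⟨C, hC, h⟩ := norm_Vg_le 1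
  have hH : 0 ≤ H := (norm_nonneg _).trans (hb 0)
  refine Summable.of_norm_bounded ((summable_nr_rpow (σ := 3 / 2) (by norm_num)).mul_left
    (H * (C * (1 + |τ|) ^ (2 * 1) * Z ^ (-(3 / 2) : ℝ)))) fun n => ?_
  by_cases hn : n = 0
  · rw [hn, h0, zero_mul, norm_zero]
    positivity
  · have hp := nr_pos hn
    have h1 := h (Z * nr n) τ (mul_pos hZ hp)
    rw [show (-(1 / 2 + (1 : ℕ)) : ℝ) = -(3 / 2) by norm_num, Real.mul_rpow hZ.le hp.le] at h1
    rw [norm_mul]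
    calc _ ≤ H * (C * (1 + |τ|) ^ (2 * 1) * (Z ^ (-(3 / 2) : ℝ) * nr n ^ (-(3 / 2) : ℝ))) :=
          mul_le_mul (hb n) h1 (norm_nonneg _) hH
      _ = _ := by ring

end Crest.Agent.R17.LBD
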