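import Crest.Agent.R17.LBasicAuxD1
import Crest.Agent.R17.LBasicAuxG

/-!
# Row 17, reflection of plain sums (`Pln_reflect`): Poisson summation against `Wc`
-/

set_option autoImplicit false

noncomputable section

namespace Crest.Agent.R17.LBD

open scoped ComplexConjugate
open MeasureTheory Complex Classical

namespace D2

open Set

/-- The entire function `Wm (w + s) / Γ(w)`. -/
def E (s w : ℂ) : ℂ := Wm (w + s) * (Gamma w)⁻¹

/-- The inverse Mellin transform of `h` on the line `σ`. -/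
def K (h : ℝ → ℂ) (σ x : ℝ) : ℂ := ∫ u : ℝ, h u * (x : ℂ) ^ ((σ : ℂ) + u * I - 1)

theorem differentiable_E (s : ℂ) : Differentiable ℂ (E s) :=
  (differentiable_Wm.comp (differentiable_id.add_const s)).mul
    (by simpa only [one_div] using differentiable_one_div_Gamma)

theorem E_bound (τ : ℝ) : ∃ C : ℝ, 0 < C ∧ ∀ w ∈ strip (-1 / 2) (3 / 2), 1 ≤ |w.im| →
    ‖E (τ * I) w‖ ≤ C / (1 + w.im ^ 2) := by
  obtain ⟨C, hC, h⟩ := LG.norm_inv_Gamma_le
  have hp := Real.pi_pos
  refine ⟨√Real.pi * C * Real.exp (37 + 6 * |τ|), by positivity, fun w hw h1 => ?_⟩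
  have h2 := h w (by linarith [hw.1]) (by linarith [hw.2]) h1
  have h3 : 1 + w.im ^ 2 ≤ Real.exp (2 * |w.im|) := by
    rw [two_mul, Real.exp_add, ← sq_abs]
    nlinarith [Real.add_one_le_exp |w.im|, abs_nonneg w.im]
  rw [le_div_iff₀ (by positivity), E, norm_mul, norm_Wm]
  have e1 : (w + τ * I).re = w.re := by simp
  have e2 : (w + τ * I).im = w.im + τ := by simp
  rw [e1, e2]
  calc _ ≤ √Real.pi * Real.exp ((w.re ^ 2 - (w.im + τ) ^ 2) / 4) *
        (C * Real.exp (4 * |w.im|)) * Real.exp (2 * |w.im|) := by gcongr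
    _ = √Real.pi * C * Real.exp ((w.re ^ 2 - (w.im + τ) ^ 2) / 4 + 4 * |w.im| + 2 * |w.im|) := by
        rw [Real.exp_add, Real.exp_add]; ring
    _ ≤ _ := by
        refine mul_le_mul_of_nonneg_left (Real.exp_le_exp.2 ?_) (by positivity)
        have a1 := abs_sub_abs_le_abs_sub w.im (-τ)
        rw [abs_neg, sub_neg_eq_add] at a1
        rw [← sq_abs (w.im + τ)]
        nlinarith [hw.1, hw.2, sq_nonneg (|w.im + τ| - 12)]

theorem integrable_E (τ : ℝ) {σ : ℝ} (h0 : -1 / 2 ≤ σ) (h1 : σ ≤ 3 / 2) :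
    Integrable fun u : ℝ => E (τ * I) (σ + u * I) := by
  obtain ⟨C, -, h⟩ := E_bound τ
  obtain ⟨C', h'⟩ := Contour.bound_of_far (differentiable_E _).continuous.continuousOn h
  exact Contour.integrable_line h0 h1 (differentiable_E _).continuous.continuousOn h'

theorem K_shift (τ : ℝ) {σ₀ σ₁ : ℝ} (h0 : -1 / 2 ≤ σ₀) (h01 : σ₀ ≤ σ₁) (h1 : σ₁ ≤ 3 / 2) {x : ℝ}
    (hx : 0 < x) : K (fun u => E (τ * I) (σ₁ + u * I)) σ₁ x =
      K (fun u => E (τ * I) (σ₀ + u * I)) σ₀ x := by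
  obtain ⟨C, hC, h⟩ := E_bound τ
  refine contour_shift (F := fun w => E (τ * I) w * (x : ℂ) ^ (w - 1)) (T := 1)
    (K := C * (x ^ (-3 / 2 : ℝ) + x ^ (1 / 2 : ℝ))) h01
    ((differentiable_E _).mul ((differentiable_id.sub_const 1).const_cpow
      (Or.inl (by exact_mod_cast hx.ne')))).differentiableOn fun w hw h2 => ?_
  have a0 : -1 / 2 ≤ w.re := h0.trans hw.1
  have a1 : w.re ≤ 3 / 2 := hw.2.trans h1
  rw [norm_mul, norm_cpow_line hx, mul_div_right_comm]
  refine mul_le_mul (h w ⟨a0, a1⟩ h2) ?_ (by positivity) (by positivity)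
  rw [sub_re, one_re]
  rcases le_total x 1 with hx1 | hx1
  · exact (Real.rpow_le_rpow_of_exponent_ge hx hx1 (by linarith)).trans
      (le_add_of_nonneg_right (by positivity))
  · exact (Real.rpow_le_rpow_of_exponent_le hx1 (by linarith)).trans
      (le_add_of_nonneg_left (by positivity))

theorem norm_term {x : ℝ} (hx : 0 < x) (σ u : ℝ) (a b : ℂ) :
    ‖a * (b * (x : ℂ) ^ ((σ : ℂ) + u * I - 1))‖ = ‖(x : ℂ) ^ ((σ : ℂ) - 1) • a‖ * ‖b‖ := by
  simp only [norm_mul, norm_smul, norm_cpow_line hx, sub_re, add_re, ofReal_re, mul_re, I_re,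
    ofReal_im, I_im, mul_zero, zero_mul, sub_zero, add_zero]
  ring

/-- Pairing of a function with an inverse Mellin transform. -/
theorem pair {g h : ℝ → ℂ} {σ : ℝ} (hg : Measurable g) (hm : MellinConvergent g σ)
    (hc : Continuous h) (hi : Integrable h) :
    IntegrableOn (fun x => g x * K h σ x) (Ioi 0) ∧
      (∫ x in Ioi (0 : ℝ), g x * K h σ x = ∫ u : ℝ, h u * mellin g (σ + u * I)) ∧
      ∫ x in Ioi (0 : ℝ), ‖g x * K h σ x‖ ≤
        (∫ x in Ioi (0 : ℝ), ‖(x : ℂ) ^ ((σ : ℂ) - 1) • g x‖) * ∫ u, ‖h u‖ := by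
  have hh := hc.measurable
  have hF : Integrable (Function.uncurry fun x u : ℝ =>
      g x * (h u * (x : ℂ) ^ ((σ : ℂ) + u * I - 1))) ((volume.restrict (Ioi 0)).prod volume) := by
    refine (hm.norm.mul_prod hi.norm).mono' (Measurable.aestronglyMeasurable ?_) ?_
    · unfold Function.uncurry
      fun_prop
    · filter_upwards [Measure.quasiMeasurePreserving_fst.ae (ae_restrict_mem measurableSet_Ioi)]
        with p hp
      exact (norm_term hp σ p.2 _ _).le
  have h1 : IntegrableOn (fun x => g x * K h σ x) (Ioi 0) := by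
    simpa only [Function.uncurry, integral_const_mul, IntegrableOn, K] using hF.integral_prod_left
  refine ⟨h1, ?_, ?_⟩
  · have := integral_integral_swap hF
    simp only [integral_const_mul] at this
    refine this.trans (integral_congr_ae (Filter.Eventually.of_forall fun u => ?_))
    simp only [mellin, smul_eq_mul, ← integral_const_mul]
    exact integral_congr_ae (Filter.Eventually.of_forall fun x => by ring)
  · rw [← integral_mul_const]
    refine setIntegral_mono_on h1.norm (hm.norm.mul_const _) measurableSet_Ioi fun x hx => ?_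
    rw [K, ← integral_const_mul, ← integral_const_mul]
    exact (norm_integral_le_integral_norm _).trans_eq
      (integral_congr_ae (Filter.Eventually.of_forall fun u => norm_term hx σ u _ _))

theorem integral_norm_eq {g : ℝ → ℝ} (h0 : ∀ x, 0 < x → 0 ≤ g x) (σ : ℝ) :
    ∫ x in Ioi (0 : ℝ), ‖(x : ℂ) ^ ((σ : ℂ) - 1) • (g x : ℂ)‖ =
      ‖mellin (fun x => (g x : ℂ)) σ‖ := by
  have e : ∀ x ∈ Ioi (0 : ℝ), (x : ℂ) ^ ((σ : ℂ) - 1) • (g x : ℂ) =
      ((‖(x : ℂ) ^ ((σ : ℂ) - 1) • (g x : ℂ)‖ : ℝ) : ℂ) := fun x hx => by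
    rw [norm_smul, norm_cpow_line hx, norm_real, Real.norm_of_nonneg (h0 x hx), ofReal_mul,
      ofReal_cpow (le_of_lt hx), smul_eq_mul]
    simp
  rw [mellin, setIntegral_congr_fun measurableSet_Ioi e, integral_complex_ofReal, norm_real,
    Real.norm_of_nonneg (integral_nonneg fun _ => norm_nonneg _)]

/-- Interchange of sum and integral. -/
theorem swap {a : O → ℂ} {H β σ : ℝ} (h0 : a 0 = 0) (hb : ∀ n, ‖a n‖ ≤ H) (hβ : 0 < β)
    {P : ℝ → ℝ → ℝ} (hP : ∀ b, Measurable (P b)) (hP0 : ∀ b x, 0 < x → 0 ≤ P b x)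
    (hM : ∀ b, 0 < b → HasMellin (fun x => (P b x : ℂ)) σ
      ((1 / b : ℂ) ^ (3 / 2 : ℂ) * Gamma (3 / 2)))
    {h : ℝ → ℂ} (hc : Continuous h) (hi : Integrable h) :
    ∑' n, a n * ∫ x in Ioi (0 : ℝ), P (β * nr n) x * K h σ x =
      ∫ x in Ioi (0 : ℝ), (∑' n, a n * P (β * nr n) x) * K h σ x := by
  have hp := fun b (hb : 0 < b) => pair (measurable_ofReal.comp (hP b)) (hM b hb).1 hc hi
  simp only [← integral_const_mul, ← tsum_mul_right, mul_assoc]
  refine integral_tsum_of_summable_integral_norm (fun n => ?_) ?_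
  · rcases eq_or_ne n 0 with rfl | hn
    · simp [h0]
    · exact (hp _ (mul_pos hβ (nr_pos hn))).1.const_mul _
  · refine Summable.of_nonneg_of_le (fun n => integral_nonneg fun _ => norm_nonneg _) (fun n => ?_)
      ((summable_nr_rpow (σ := 3 / 2) (by norm_num)).mul_left
        (|H| * (β ^ (-(3 / 2) : ℝ) * ‖Gamma (3 / 2)‖ * ∫ u, ‖h u‖)))
    have i0 : 0 ≤ ∫ u, ‖h u‖ := integral_nonneg fun _ => norm_nonneg _
    rcases eq_or_ne n 0 with rfl | hn
    · simp only [h0, zero_mul, norm_zero, integral_zero]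
      positivity
    · have p := mul_pos hβ (nr_pos hn)
      have h3 := (hp _ p).2.2
      simp only [Function.comp_def] at h3
      rw [integral_norm_eq (hP0 _), (hM _ p).2, norm_mul, ← ofReal_one, ← ofReal_div,
        norm_cpow_line (by positivity), one_div, Real.inv_rpow p.le, ← Real.rpow_neg p.le,
        Real.mul_rpow hβ.le (nr_pos hn).le] at h3
      simp only [norm_mul (a n), integral_const_mul]
      refine (mul_le_mul ((hb n).trans (le_abs_self H)) h3
        (integral_nonneg fun _ => norm_nonneg _) (abs_nonneg H)).trans_eq ?_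
      norm_num
      ring

/-- The two profiles. -/
def p1 (b x : ℝ) : ℝ := Real.exp (-(b * x))
def p2 (b x : ℝ) : ℝ := x⁻¹ * Real.exp (-(b * x⁻¹))

theorem mellin_p1 {b : ℝ} (hb : 0 < b) {w : ℂ} (hw : 0 < w.re) :
    HasMellin (fun x => (p1 b x : ℂ)) w ((1 / b : ℂ) ^ w * Gamma w) := by
  have e : mellin (fun x => (p1 b x : ℂ)) w = (1 / b : ℂ) ^ w * Gamma w := by
    rw [← integral_cpow_mul_exp_neg_mul_Ioi hw hb, mellin]
    simp [p1]
  refine ⟨Integrable.of_integral_ne_zero (fun h => ?_), e⟩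
  have h2 : (1 / b : ℂ) ^ w * Gamma w = 0 := e.symm.trans h
  rcases mul_eq_zero.1 h2 with h | h
  · exact one_div_ne_zero (ofReal_ne_zero.2 hb.ne') ((cpow_eq_zero_iff _ _).1 h).1
  · exact Gamma_ne_zero_of_re_pos hw h

theorem mellin_p2 {b : ℝ} (hb : 0 < b) {w : ℂ} (hw : w.re < 1) :
    HasMellin (fun x => (p2 b x : ℂ)) w ((1 / b : ℂ) ^ (1 - w) * Gamma (1 - w)) := by
  have h := mellin_p1 hb (w := 1 - w) (by simpa using hw)
  have e : (fun x => (p2 b x : ℂ)) =
      fun x : ℝ => (fun t : ℝ => (t : ℂ) ^ (1 : ℂ) • (p1 b t : ℂ)) (x ^ (-1 : ℝ)) := by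
    ext x
    simp [p1, p2, Real.rpow_neg_one]
  have e2 : w / ((-1 : ℝ) : ℂ) + 1 = 1 - w := by push_cast; ring
  rw [e]
  refine ⟨?_, ?_⟩
  · refine (MellinConvergent.comp_rpow (f := fun t : ℝ => (t : ℂ) ^ (1 : ℂ) • (p1 b t : ℂ))
      (by norm_num)).2 ?_
    rw [MellinConvergent.cpow_smul, e2]
    exact h.1
  · refine (mellin_comp_rpow (fun t : ℝ => (t : ℂ) ^ (1 : ℂ) • (p1 b t : ℂ)) _ _).trans ?_
    rw [mellin_cpow_smul, e2, h.2]
    simp

end D2

open D2 Set in
/-- Poisson summation for the weight `Wc`. -/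
theorem hankel {q : O} (hq : q ≠ 0) {f : O → ℂ} (hf : ∀ x y, q ∣ x - y → f x = f y)
    (hb : ∀ x, ‖f x‖ ≤ 1) (h0 : f 0 = 0) (hm : ft q f 0 = 0) {X : ℝ} (hX : 0 < X) (τ : ℝ) :
    Sm f X (τ * I) = (X / nr q : ℝ) * ∑' h : O, ft q f h * Vg (X / nr q * nr h) (τ * I) := by
  set c : ℝ := 2 * Real.pi / Real.sqrt 3 with hc
  have c0 : 0 < c := by positivity
  have q0 := nr_pos hq
  have hZ : 0 < X / nr q := by positivity
  have cE : ∀ σ : ℝ, Continuous fun u : ℝ => E (τ * I) (σ + u * I) := fun σ =>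
    (differentiable_E _).continuous.comp (by fun_prop)
  have m1 : ∀ b, Measurable (p1 b) := fun b => by unfold p1; fun_prop
  have m2 : ∀ b, Measurable (p2 b) := fun b => by unfold p2; fun_prop
  have i1 := integrable_E τ (σ := 3 / 2) (by norm_num) le_rfl
  have i2 := integrable_E τ (σ := 1 / 2) (by norm_num) (by norm_num)
  have i3 := integrable_E τ (σ := -1 / 2) le_rfl (by norm_num)
  have s1 := swap h0 hb (inv_pos.2 hX) m1 (fun _ _ _ => (Real.exp_pos _).le) (σ := 3 / 2)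
    (fun b hb => by simpa using mellin_p1 hb (w := 3 / 2) (by norm_num)) (cE _) i1
  have s2 := swap (a := ft q f) (H := nr q) hm (fun n => by
      refine (norm_sum_le _ _).trans ((Finset.sum_le_card_nsmul _ _ 1 fun x _ => ?_).trans_eq ?_)
      · rw [norm_mul, norm_eq, mul_one]; exact hb x
      · rw [card_res hq, nsmul_eq_mul, mul_one])
    (β := c ^ 2 * (X / nr q)) (by positivity) m2
    (fun _ x hx => by unfold p2; positivity) (σ := -1 / 2)
    (fun b hb => by
      have := mellin_p2 hb (w := ((-1 / 2 : ℝ) : ℂ)) (by norm_num)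
      rwa [show 1 - ((-1 / 2 : ℝ) : ℂ) = 3 / 2 by norm_num] at this) (cE _) i3
  have e1 : ∀ y : ℝ, 0 < y → Wc y (τ * I) = (1 / (2 * Real.pi) : ℂ) * ∫ x in Ioi (0 : ℝ),
      p1 y x * K (fun u => E (τ * I) ((3 / 2 : ℝ) + u * I)) (3 / 2 : ℝ) x := fun y hy => by
    rw [(pair (σ := 3 / 2) (g := fun x => p1 y x) (measurable_ofReal.comp (m1 y))
      (mellin_p1 hy (by norm_num)).1 (cE _) i1).2.1, Wc_eq_integral hy (3 / 2)]
    congr 1
    refine integral_congr_ae (Filter.Eventually.of_forall fun u => ?_)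
    have hw : 0 < (((3 / 2 : ℝ) : ℂ) + u * I).re := by simp
    beta_reduce
    rw [(mellin_p1 hy hw).2, E, one_div, inv_cpow _ _ (by
      rw [arg_ofReal_of_nonneg hy.le]; exact Real.pi_ne_zero.symm), cpow_neg]
    have := Gamma_ne_zero_of_re_pos hw
    generalize Gamma (((3 / 2 : ℝ) : ℂ) + u * I) = G at this
    field_simp
  have e2 : ∀ y : ℝ, 0 < y → Vg y (τ * I) = (1 / (2 * Real.pi) : ℂ) * (c * ∫ x in Ioi (0 : ℝ),
      p2 (c ^ 2 * y) x * K (fun u => E (τ * I) ((-1 / 2 : ℝ) + u * I)) (-1 / 2 : ℝ) x) := by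
    intro y hy
    have p : 0 < c ^ 2 * y := by positivity
    rw [setIntegral_congr_fun measurableSet_Ioi fun x hx => by
      rw [← K_shift τ le_rfl (σ₁ := 1 / 2) (by norm_num) (by norm_num) hx]]
    rw [(pair (σ := 1 / 2) (g := fun x => p2 (c ^ 2 * y) x) (measurable_ofReal.comp (m2 _))
      (mellin_p2 p (by norm_num)).1 (cE _) i2).2.1,
      ← integral_const_mul, ← integral_const_mul, Vg]
    refine integral_congr_ae (Filter.Eventually.of_forall fun u => ?_)
    have hw : (((1 / 2 : ℝ) : ℂ) + u * I).re < 1 := by simp; norm_num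
    beta_reduce
    rw [(mellin_p2 p hw).2, E, Kg, gamR, ← hc]
    have e : ((1 / 2 : ℝ) : ℂ) = 1 / 2 := by norm_num
    rw [e]
    generalize (1 / 2 + u * I : ℂ) = w
    have c1 : (c : ℂ) ≠ 0 := ofReal_ne_zero.2 c0.ne'
    rw [one_div ((c ^ 2 * y : ℝ) : ℂ), inv_cpow _ _ (by
        rw [arg_ofReal_of_nonneg p.le]; exact Real.pi_ne_zero.symm), ← cpow_neg, neg_sub, sq,
      ofReal_mul, ofReal_mul, ← ofReal_mul, mul_cpow_ofReal_nonneg (by positivity) hy.le,
      ofReal_mul, mul_cpow_ofReal_nonneg c0.le c0.le,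
      show 2 * w - 1 = (w - 1) + (w - 1) + 1 by ring, cpow_add _ _ c1, cpow_add _ _ c1, cpow_one]
    ring
  have e3 : ∀ x ∈ Ioi (0 : ℝ), (∑' n, f n * p1 (X⁻¹ * nr n) x) *
      K (fun u => E (τ * I) ((3 / 2 : ℝ) + u * I)) (3 / 2 : ℝ) x = ((X / nr q : ℝ) : ℂ) * c *
      ((∑' n, ft q f n * p2 (c ^ 2 * (X / nr q) * nr n) x) *
        K (fun u => E (τ * I) ((-1 / 2 : ℝ) + u * I)) (-1 / 2 : ℝ) x) := fun x (hx : 0 < x) => by
    have a1 : ∀ n : O, p1 (X⁻¹ * nr n) x = gw (nr n / (c * X / x)) := fun n => by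
      rw [p1, gw, ← hc]; congr 1; field_simp
    have a2 : ∀ n : O, (p2 (c ^ 2 * (X / nr q) * nr n) x : ℂ) =
        gw (c * X / x * nr n / nr q) * (x : ℂ)⁻¹ := fun n => by
      rw [p2, gw, ← hc, mul_comm, ofReal_mul, ofReal_inv]; congr 3; field_simp
    simp only [a1, a2, ← mul_assoc, tsum_mul_right]
    rw [poisson hq f hf (by positivity), K_shift τ le_rfl (by norm_num) le_rfl hx]
    push_cast
    ring
  calc Sm f X (τ * I) = (1 / (2 * Real.pi) : ℂ) * ∑' n, f n * ∫ x in Ioi (0 : ℝ),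
        p1 (X⁻¹ * nr n) x * K (fun u => E (τ * I) ((3 / 2 : ℝ) + u * I)) (3 / 2 : ℝ) x := by
        rw [Sm, ← tsum_mul_left]
        refine tsum_congr fun n => ?_
        rcases eq_or_ne n 0 with rfl | hn
        · simp [h0]
        · rw [e1 _ (div_pos (nr_pos hn) hX), div_eq_inv_mul]; ring
    _ = _ := by
        rw [s1, setIntegral_congr_fun measurableSet_Ioi e3, integral_const_mul, ← s2,
          ← tsum_mul_left, ← tsum_mul_left, ← tsum_mul_left]
        refine tsum_congr fun n => ?_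
        rcases eq_or_ne n 0 with rfl | hn
        · simp [hm]
        · rw [e2 _ (mul_pos hZ (nr_pos hn)), mul_assoc (c ^ 2)]; ring

end Crest.Agent.R17.LBD
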