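import Crest.Agent.R17.LBasicAuxA

/-!
# Row 17, reflection of plain sums (`Pln_reflect`): arithmetic
-/

set_option autoImplicit false

noncomputable section

namespace Crest.Agent.R17.LBD

open scoped ComplexConjugate
open MeasureTheory Complex Classical

/-- The primes of the row which contribute to the conductor. -/
def act (M a : O) : Finset O := (pf a).filter (fun p => ¬ p ∣ M ∧ ¬ 6 ∣ vp p a)

/-- The primes of the row at which the row character is only punctured. -/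
def pun (M a : O) : Finset O := (pf a).filter (fun p => ¬ p ∣ M ∧ 6 ∣ vp p a)

/-- The active part of the row. -/
def rr (M a : O) : O := ∏ p ∈ act M a, p ^ vp p a

/-- The row character after reciprocity, without the puncture. -/
def Fr {M : O} (ν : Chr M) (r n : O) : ℂ := if Primary n then ev ν n * conj (sym r n) else 0

theorem D3_mem_act {M a p : O} (h : p ∈ act M a) : p ∈ pf a ∧ ¬ p ∣ M ∧ ¬ 6 ∣ vp p a :=
  Finset.mem_filter.1 h

theorem D3_mem_pun {M a p : O} (h : p ∈ pun M a) : p ∈ pf a ∧ ¬ p ∣ M ∧ 6 ∣ vp p a :=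
  Finset.mem_filter.1 h

theorem D3_act_sub (M a : O) : ∀ q ∈ act M a, Prime q ∧ Primary q :=
  fun _ hq => BasicB.pf_sub (D3_mem_act hq).1

theorem D3_primary_rr (M a : O) : Primary (rr M a) := BasicB.primary_prod_pow (D3_act_sub M a) _

theorem D3_vp_rr {M a p : O} (hp : Prime p) (hp' : Primary p) :
    vp p (rr M a) = if p ∈ act M a then vp p a else 0 := by
  unfold rr
  convert vp_prod_pow (D3_act_sub M a) (fun q => vp q a) hp hp'

theorem D3_pf_rr (M a : O) : pf (rr M a) = act M a := by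
  ext p
  constructor
  · intro h
    obtain ⟨h1, h2⟩ := BasicB.pf_sub h
    have h3 := BasicB.vp_ne_zero h
    rw [D3_vp_rr h1 h2] at h3
    by_contra h4
    exact h3 (if_neg h4)
  · intro h
    obtain ⟨h1, h2⟩ := D3_act_sub M a p h
    rw [BasicB.mem_pf_iff (D3_primary_rr M a).ne_zero h1 h2, D3_vp_rr h1 h2, if_pos h]
    exact BasicB.vp_ne_zero (D3_mem_act h).1

theorem D3_rad_rr (M a : O) : rad (rr M a) = ∏ p ∈ act M a, p := by
  rw [rad, D3_pf_rr]

theorem D3_cop_act {M a p : O} (h : p ∈ act M a) : IsCoprime p M :=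
  (D3_act_sub M a p h).1.coprime_iff_not_dvd.2 (D3_mem_act h).2.1

theorem D3_cop_rr (M a : O) : IsCoprime (rr M a) M :=
  IsCoprime.prod_left fun _ hp => (D3_cop_act hp).pow_left

theorem D3_po_rr {M : O} (hM : Adm M) (a : O) : PO (rr M a) :=
  PO.of_adm hM (D3_primary_rr M a) (D3_cop_rr M a)

theorem D3_sym_rr (M a x : O) : sym (rr M a) x = ∏ p ∈ act M a, sym p x ^ vp p a := by
  rw [sym_eq_prod, D3_pf_rr]
  refine Finset.prod_congr rfl fun p hp => ?_
  obtain ⟨h1, h2⟩ := D3_act_sub M a p hp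
  rw [D3_vp_rr h1 h2, if_pos hp]

theorem nr_act (M a : O) : nr (∏ p ∈ act M a, p) = cond M a := by
  unfold cond
  rw [nr, nm_prod, Nat.cast_prod]
  rfl

theorem cond_mul_le {M a : O} (ha : a ≠ 0) {E : Finset O} (hE : E ⊆ pun M a) :
    cond M a * nr (∏ p ∈ E, p) ≤ nr a := by
  have hd : Disjoint (act M a) E :=
    Finset.disjoint_left.2 fun p hp hp' => (D3_mem_act hp).2.2 (D3_mem_pun (hE hp')).2.2
  have hs : act M a ∪ E ⊆ pf a :=
    Finset.union_subset (fun p hp => (D3_mem_act hp).1) fun p hp => (D3_mem_pun (hE hp)).1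
  have h := nm_le_of_dvd (BasicB.prod_dvd_of_subset ha hs) ha
  rw [← nr_act, ← nr_mul, ← Finset.prod_union hd]
  exact Nat.cast_le.2 h

theorem D3_Fr_pos {M : O} (ν : Chr M) (r : O) {n : O} (h : Primary n) :
    Fr ν r n = ev ν n * conj (sym r n) := if_pos h

theorem D3_Fr_neg {M : O} (ν : Chr M) (r : O) {n : O} (h : ¬ Primary n) : Fr ν r n = 0 := if_neg h

theorem Fr_zero {M : O} (ν : Chr M) (r : O) : Fr ν r 0 = 0 := by
  exact D3_Fr_neg ν r fun h => h.ne_zero rfl

theorem norm_Fr_le {M : O} (hM : Adm M) (ν : Chr M) (r n : O) : ‖Fr ν r n‖ ≤ 1 := by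
  by_cases hn : Primary n
  · rw [D3_Fr_pos ν r hn, norm_mul, Complex.norm_conj]
    exact mul_le_one₀ (norm_ev_le hM.1 ν n) (norm_nonneg _) (norm_sym_le r n)
  · rw [D3_Fr_neg ν r hn, norm_zero]
    exact zero_le_one

theorem Fr_mul {M : O} (hM : Adm M) (ν : Chr M) (a : O) {e : O} (he : Primary e) (n : O) :
    Fr ν (rr M a) (e * n) = Fr ν (rr M a) e * Fr ν (rr M a) n := by
  by_cases hn : Primary n
  · rw [D3_Fr_pos ν _ he, D3_Fr_pos ν _ hn, D3_Fr_pos ν _ (he.mul hn), ev_mul,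
      sym_mul_right (D3_po_rr hM a), map_mul]
    ring
  · rw [D3_Fr_neg ν _ hn, D3_Fr_neg ν _ fun h => hn (he.of_mul h), mul_zero]

theorem D3_three_dvd {M : O} (hM : Adm M) : (3 : O) ∣ M := Dvd.dvd.trans ⟨24, by norm_num⟩ hM.2

theorem Fr_periodic {M : O} (hM : Adm M) (ν : Chr M) (a : O) (x y : O)
    (h : M * ∏ p ∈ act M a, p ∣ x - y) : Fr ν (rr M a) x = Fr ν (rr M a) y := by
  have h1 : M ∣ x - y := (dvd_mul_right _ _).trans h
  have h2 : rad (rr M a) ∣ x - y := by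
    rw [D3_rad_rr]
    exact (dvd_mul_left _ _).trans h
  by_cases hx : Primary x
  · rw [D3_Fr_pos ν _ hx, D3_Fr_pos ν _ (LBA.primary_congr ((D3_three_dvd hM).trans h1) hx),
      ev_congr ν h1, sym_congr h2]
  · rw [D3_Fr_neg ν _ hx, D3_Fr_neg ν _ fun hy =>
      hx (LBA.primary_congr ((D3_three_dvd hM).trans (dvd_sub_comm.1 h1)) hy)]

theorem sym_rr_zero {M a : O} (h : ¬ Exc M a) : sym (rr M a) 0 = 0 := by
  simp only [Exc, not_forall] at h
  obtain ⟨p, hp, hpM, hv⟩ := h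
  have h1 : p ∈ pf (rr M a) := by
    rw [D3_pf_rr]
    exact Finset.mem_filter.2 ⟨hp, hpM, hv⟩
  obtain ⟨h2, -, h3⟩ := BasicB.of_mem_pf h1
  exact (sym_eq_zero_iff (D3_primary_rr M a)).2 fun hc =>
    h2.not_isUnit (hc.isUnit_of_dvd' h3 (dvd_zero p))

theorem sym_rr_mul {M : O} (hM : Adm M) (a x y : O) :
    sym (rr M a) (x * y) = sym (rr M a) x * sym (rr M a) y := by
  exact sym_mul_right (D3_po_rr hM a) x y

theorem D3_split (M : O) {a : O} (ha : a ≠ 0) : ∃ s : O, s ≠ 0 ∧ (∀ p ∈ pf s, p ∣ M) ∧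
    a = s * rr M a * (∏ p ∈ pun M a, p ^ (vp p a / 6)) ^ 6 := by
  obtain ⟨u, j, hu, he⟩ := exists_eq_unit_lam_primary ha
  have e1 : (∏ p ∈ pun M a, p ^ (vp p a / 6)) ^ 6 = ∏ p ∈ pun M a, p ^ vp p a := by
    rw [← Finset.prod_pow]
    refine Finset.prod_congr rfl fun p hp => ?_
    rw [← pow_mul, Nat.div_mul_cancel (D3_mem_pun hp).2.2]
  have e2 : rr M a * ∏ p ∈ pun M a, p ^ vp p a =
      ∏ p ∈ (pf a).filter (fun p => ¬ p ∣ M), p ^ vp p a := by
    rw [← Finset.prod_filter_mul_prod_filter_not ((pf a).filter (fun p => ¬ p ∣ M))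
      (fun p => 6 ∣ vp p a), Finset.filter_filter, Finset.filter_filter, mul_comm]
    rfl
  have e : a = (u * lam ^ j * ∏ p ∈ (pf a).filter (· ∣ M), p ^ vp p a) * rr M a *
      (∏ p ∈ pun M a, p ^ (vp p a / 6)) ^ 6 := by
    rw [e1, mul_assoc _ (rr M a), e2, mul_assoc (u * lam ^ j),
      Finset.prod_filter_mul_prod_filter_not]
    exact he
  refine ⟨_, left_ne_zero_of_mul (left_ne_zero_of_mul (e ▸ ha)), fun p hp => ?_, e⟩
  obtain ⟨h1, h2, h3⟩ := BasicB.of_mem_pf hp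
  rcases h1.dvd_or_dvd h3 with h4 | h4
  · rcases h1.dvd_or_dvd h4 with h5 | h5
    · exact absurd (isUnit_of_dvd_unit h5 hu) h1.not_isUnit
    · exact absurd (h1.associated_of_dvd prime_lam (h1.dvd_of_dvd_pow h5)).symm.dvd h2.not_lam_dvd
  · obtain ⟨q, hq, h5⟩ := (Prime.dvd_finsetProd_iff h1 _).1 h4
    exact (h1.dvd_of_dvd_pow h5).trans (Finset.mem_filter.1 hq).2

/-- Reciprocity. -/
theorem rc_eq_Fr {M : O} (hM : Adm M) {a : O} (ha : a ≠ 0) : ∃ ψ : Chr M, ∀ (ν : Chr M) (n : O),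
    rc ν a n = if ∀ p ∈ pun M a, ¬ p ∣ n then Fr (ν * ψ) (rr M a) n else 0 := by
  obtain ⟨s, hs, hsM, e⟩ := D3_split M ha
  obtain ⟨ν₀, h0⟩ := exists_chr_sym hM hs hsM
  have hr := D3_po_rr hM a
  have h2 : ∀ n, IsCoprime n M → IsCoprime n 2 := fun n hn =>
    hn.of_isCoprime_of_dvd_right (Dvd.dvd.trans ⟨36, by norm_num⟩ hM.2)
  obtain ⟨ν₁, h1⟩ := exists_chr (M := M) (fun n => Rs n (rr M a)) (Rs_one_left hr.2)
    (fun m n hm hn => Rs_mul_left (h2 m hm) (h2 n hn) hr.2)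
    fun m n _ h => Rs_congr ((Dvd.dvd.trans ⟨18, by norm_num⟩ hM.2).trans h) (by simp)
  refine ⟨ν₀⁻¹ * ν₁⁻¹, fun ν n => ?_⟩
  split_ifs with hp
  · by_cases hn : Primary n
    · rw [LBA.rc_pos ν a hn, D3_Fr_pos _ _ hn]
      by_cases hc : IsCoprime n M
      · have hpo := PO.of_adm hM hn hc
        have hc' : IsCoprime n (∏ p ∈ pun M a, p ^ (vp p a / 6)) :=
          IsCoprime.prod_right fun p hp' =>
            ((BasicB.pf_sub (D3_mem_pun hp').1).1.coprime_iff_not_dvd.2 (hp p hp')).symm.pow_right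
        have e' : sym n a = sym n s * (Rs n (rr M a) * sym (rr M a) n) := by
          conv_lhs => rw [e]
          rw [sym_mul_right hpo, sym_mul_right hpo, sym_pow_right hpo, sym_pow_six hn hc', mul_one,
            sym_recip hpo hr]
        rw [e', ev_mul_chr, ev_mul_chr, ev_inv hM.1, ev_inv hM.1, h0 n hn hc, h1 n hc, map_mul,
          map_mul]
        ring
      · rw [ev_eq_zero ν hc, ev_eq_zero _ hc, zero_mul, zero_mul]
    · rw [LBA.rc_neg ν a hn, D3_Fr_neg _ _ hn]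
  · simp only [not_forall, not_not] at hp
    obtain ⟨p, hp, hpn⟩ := hp
    obtain ⟨h3, -, h4⟩ := BasicB.of_mem_pf (D3_mem_pun hp).1
    exact LBA.rc_eq_zero ν fun hc => h3.not_isUnit (hc.isUnit_of_dvd' hpn (h4.mul_left M))

/-- Primitivity of products of non-trivial powers of prime symbols. -/
theorem D3_prim (e : O → ℕ) {s : Finset O} (hs : ∀ p ∈ s, Prime p ∧ PO p ∧ ¬ 6 ∣ e p) (k : O) :
    Gauss_G (fun x => ∏ p ∈ s, sym p x ^ e p) (∏ p ∈ s, p) k =
      conj (∏ p ∈ s, sym p k ^ e p) * Gauss_G (fun x => ∏ p ∈ s, sym p x ^ e p) (∏ p ∈ s, p) 1 := by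
  induction s using Finset.induction_on with
  | empty =>
    simp only [Finset.prod_empty, Gauss_G, one_mul, map_one]
    have h1 := sum_res_eq_char one_ne_zero k
    have h2 := sum_res_eq_char one_ne_zero (1 : O)
    simp only [one_dvd, if_true, one_mul] at h1 h2
    rw [h1, h2]
  | insert p s hp ih =>
    have hs' : ∀ q ∈ s, Prime q ∧ PO q ∧ ¬ 6 ∣ e q := fun q hq => hs q (Finset.mem_insert_of_mem hq)
    obtain ⟨p1, p2, p3⟩ := hs p (Finset.mem_insert_self _ _)
    have hprim : Primary (∏ q ∈ s, q) := Primary.prod fun q hq => (hs' q hq).2.1.1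
    have hc : IsCoprime p (∏ q ∈ s, q) := IsCoprime.prod_right fun q hq =>
      p1.coprime_iff_not_dvd.2 fun h =>
        hp (BasicB.eq_of_dvd p1 (hs' q hq).1 p2.1 (hs' q hq).2.1.1 h ▸ hq)
    have hG : ∀ k, Gauss_G (fun x => sym p x ^ e p) p k = gs (e p) p k := fun k =>
      Finset.sum_congr rfl fun x _ => by rw [sym_pow_add_six p2.1 x (by omega)]
    have key := Gauss_crt (f := fun x => sym p x ^ e p) (g := fun x => ∏ q ∈ s, sym q x ^ e q)
      p1.ne_zero hprim.ne_zero hc (Gauss_sym_per p _)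
      (fun x y h => Finset.prod_congr rfl fun q hq =>
        Gauss_sym_per q _ x y ((Finset.dvd_prod_of_mem _ hq).trans h))
      (fun x y => by rw [sym_mul_right p2, mul_pow])
      (fun x y => by
        rw [← Finset.prod_mul_distrib]
        exact Finset.prod_congr rfl fun q hq => by rw [sym_mul_right (hs' q hq).2.1, mul_pow])
    simp only [Finset.prod_insert hp]
    rw [key k, key 1, ih hs', hG, hG, gs_sqfree p3 p2 p1.squarefree k, map_mul]
    ring

theorem D3_conj_sym_rr (M a x : O) :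
    conj (sym (rr M a) x) = ∏ p ∈ act M a, sym p x ^ (5 * vp p a) := by
  rw [D3_sym_rr, map_prod]
  refine Finset.prod_congr rfl fun p hp => ?_
  rw [map_pow, conj_sym (D3_act_sub M a p hp).2, ← pow_mul]

theorem D3_gauss {M : O} (hM : Adm M) (a k : O) :
    Gauss_G (fun x => conj (sym (rr M a) x)) (∏ p ∈ act M a, p) k =
      conj (conj (sym (rr M a) k)) *
        Gauss_G (fun x => conj (sym (rr M a) x)) (∏ p ∈ act M a, p) 1 := by
  simp only [D3_conj_sym_rr]
  refine D3_prim (fun p => 5 * vp p a) (fun p hp => ⟨(D3_act_sub M a p hp).1,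
    PO.of_adm hM (D3_act_sub M a p hp).2 (D3_cop_act hp), ?_⟩) k
  have := (D3_mem_act hp).2.2
  omega

/-- The finite Fourier transform of `Fr`. -/
theorem ft_Fr {M : O} (hM : Adm M) (ν : Chr M) (a : O) : ∃ (τ₀ : ℂ) (Φ : O → ℂ),
    ‖τ₀‖ ≤ Real.sqrt (cond M a) ∧ (∀ x, ‖Φ x‖ ≤ nr M) ∧ (∀ x y, M ∣ x - y → Φ x = Φ y) ∧
      ∀ h, ft (M * ∏ p ∈ act M a, p) (Fr ν (rr M a)) h = τ₀ * Φ h * sym (rr M a) h := by
  have hρ : (∏ p ∈ act M a, p) ≠ 0 := (Primary.prod fun p hp => (D3_act_sub M a p hp).2).ne_zero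
  have hc : IsCoprime M (∏ p ∈ act M a, p) := IsCoprime.prod_right fun p hp => (D3_cop_act hp).symm
  have hχ : ∀ x y, (∏ p ∈ act M a, p) ∣ x - y → conj (sym (rr M a) x) = conj (sym (rr M a) y) :=
    fun x y h => by rw [sym_congr (by rwa [D3_rad_rr])]
  set φ : O → ℂ := fun n => if Primary n then ev ν n else 0 with hφ
  have hφ1 : ∀ n, ‖φ n‖ ≤ 1 := fun n => by
    simp only [hφ]
    split_ifs
    · exact norm_ev_le hM.1 ν n
    · simp
  have hφ2 : ∀ x y, M ∣ x - y → φ x = φ y := fun x y h => by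
    simp only [hφ]
    by_cases hx : Primary x
    · rw [if_pos hx, if_pos (LBA.primary_congr ((D3_three_dvd hM).trans h) hx), ev_congr ν h]
    · rw [if_neg hx, if_neg fun hy =>
        hx (LBA.primary_congr ((D3_three_dvd hM).trans (dvd_sub_comm.1 h)) hy)]
  have hF : Fr ν (rr M a) = fun x => φ x * conj (sym (rr M a) x) := funext fun x => by
    simp only [hφ, Fr]
    split_ifs <;> simp
  have hN := Gauss_norm hρ hχ (by rw [sym_one_right, map_one]) (D3_gauss hM a)
  refine ⟨conj (sym (rr M a) M) * Gauss_G (fun x => conj (sym (rr M a) x)) (∏ p ∈ act M a, p) 1,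
    ft M (fun x => φ ((∏ p ∈ act M a, p) * x)), ?_, fun k => ?_, fun x y h => ?_, fun k => ?_⟩
  · rw [norm_mul, hN, nr_act, Complex.norm_conj]
    exact mul_le_of_le_one_left (Real.sqrt_nonneg _) (norm_sym_le _ _)
  · refine (norm_sum_le _ _).trans ((Finset.sum_le_card_nsmul _ _ 1 fun x _ => ?_).trans ?_)
    · rw [norm_mul, norm_eq, mul_one]
      exact hφ1 _
    · rw [card_res hM.1, nsmul_eq_mul, mul_one]
  · exact Finset.sum_congr rfl fun z _ => by
      rw [eq_congr (show M ∣ x * z - y * z from sub_mul x y z ▸ h.mul_right z)]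
  · rw [hF, ft_mul hM.1 hρ hc φ _ hφ2 hχ k]
    have e : ft (∏ p ∈ act M a, p) (fun y => conj (sym (rr M a) (M * y))) k =
        conj (sym (rr M a) M) * Gauss_G (fun x => conj (sym (rr M a) x)) (∏ p ∈ act M a, p) k := by
      rw [ft, Gauss_G, Finset.mul_sum]
      refine Finset.sum_congr rfl fun x _ => ?_
      rw [sym_rr_mul hM, map_mul, mul_assoc]
    rw [e, D3_gauss hM a k, Complex.conj_conj]
    ring

end Crest.Agent.R17.LBD
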