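import Crest.Agent.R17.LS2Defs

/-!
# Row 17, module M7 (quadratic large sieve): averaging over the scale (Mellin transform)
-/

set_option autoImplicit false

noncomputable section

namespace Crest.Agent.R17.LS2

open scoped ComplexConjugate
open Classical MeasureTheory

theorem avg_fc_mk {L : (ℝ → ℂ) → ℂ} (s : Finset ℝ) (μ : ℝ → ℂ) (hs : ∀ y ∈ s, 0 < y)
    (h : ∀ f, L f = ∑ y ∈ s, μ y * f y) : FC L := by
  refine ⟨Finsupp.onFinset s (fun y => if y ∈ s then μ y else 0) (fun y hy => ?_), fun y hy =>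
    hs y (Finsupp.support_onFinset_subset hy), fun f => ?_⟩
  · by_contra hc
    exact hy (if_neg hc)
  · rw [h f, Finset.sum_subset Finsupp.support_onFinset_subset]
    · refine Finset.sum_congr rfl fun y hy => ?_
      rw [Finsupp.onFinset_apply, if_pos hy]
    · intro y _ hy
      rw [Finsupp.notMem_support_iff.1 hy, zero_mul]

theorem FC.zero : FC (fun _ => 0) :=
  avg_fc_mk ∅ (fun _ => 0) (by simp) (by simp)

theorem FC.eval {y : ℝ} (hy : 0 < y) : FC (fun f => f y) :=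
  avg_fc_mk {y} (fun _ => 1) (by simpa using hy) (by simp)

theorem FC.const_mul {L : (ℝ → ℂ) → ℂ} (h : FC L) (c : ℂ) : FC (fun f => c * L f) := by
  obtain ⟨μ, h0, h1⟩ := h
  refine avg_fc_mk μ.support (fun y => c * μ y) h0 fun f => ?_
  simp only [h1 f, Finset.mul_sum, mul_assoc]

theorem FC.add {L L' : (ℝ → ℂ) → ℂ} (h : FC L) (h' : FC L') : FC (fun f => L f + L' f) := by
  obtain ⟨μ, h0, h1⟩ := h
  obtain ⟨ν, k0, k1⟩ := h'
  refine avg_fc_mk (μ.support ∪ ν.support) (fun y => μ y + ν y) (fun y hy => ?_) fun f => ?_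
  · rcases Finset.mem_union.1 hy with hy | hy
    exacts [h0 y hy, k0 y hy]
  · simp only [h1 f, k1 f, add_mul, Finset.sum_add_distrib]
    congr 1
    · refine Finset.sum_subset Finset.subset_union_left fun y _ hy => ?_
      rw [Finsupp.notMem_support_iff.1 hy, zero_mul]
    · refine Finset.sum_subset Finset.subset_union_right fun y _ hy => ?_
      rw [Finsupp.notMem_support_iff.1 hy, zero_mul]

theorem FC.sum {α : Type*} (s : Finset α) {L : α → (ℝ → ℂ) → ℂ} (h : ∀ i ∈ s, FC (L i)) :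
    FC (fun f => ∑ i ∈ s, L i f) := by
  induction s using Finset.induction_on with
  | empty => simpa using FC.zero
  | insert a s ha ih =>
    simp only [Finset.sum_insert ha]
    exact (h a (Finset.mem_insert_self _ _)).add (ih fun i hi => h i (Finset.mem_insert_of_mem hi))

theorem avg_cpow {r : ℝ} (hr : 0 < r) (s : ℂ) :
    (r : ℂ) ^ s = Complex.exp ((Real.log r : ℂ) * s) := by
  rw [Complex.cpow_def_of_ne_zero (by exact_mod_cast hr.ne'), Complex.ofReal_log hr.le]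

theorem avg_gauss (b : ℝ) : Integrable (fun v : ℝ => Real.exp (-v ^ 2 + b * v)) := by
  have := (integrable_cexp_quadratic (b := 1) (by simp) (b : ℂ) 0).norm
  refine this.congr (Filter.Eventually.of_forall fun v => ?_)
  simp only [Complex.norm_exp]
  congr 1
  have : (-1 * (v : ℂ) ^ 2 + (b : ℂ) * v + 0) = ((-v ^ 2 + b * v : ℝ) : ℂ) := by
    push_cast; ring
  rw [this, Complex.ofReal_re]

theorem avg_Wm (σ b : ℝ) :
    Integrable (fun u : ℝ => ‖Wm (((-σ : ℝ) : ℂ) + u * Complex.I + (b : ℂ))‖) := by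
  refine (integrable_Wm_mul_pow (b - σ) 0).congr (Filter.Eventually.of_forall fun u => ?_)
  simp only [pow_zero, mul_one]
  congr 2
  push_cast; ring

theorem avg_kernel (σ b : ℝ) (s : Finset ℝ) (μ : ℝ → ℂ) (hs : ∀ y ∈ s, 0 < y) {B w : ℝ}
    (hw : 0 < w) (hB : ∀ z : ℂ, z.re = σ → ‖∑ y ∈ s, μ y * (y : ℂ) ^ (-z)‖ ≤ B) :
    ‖∑ y ∈ s, μ y * Wc (w / y) b‖ ≤
      (1 / (2 * Real.pi) * ∫ u : ℝ, ‖Wm (((-σ : ℝ) : ℂ) + u * Complex.I + (b : ℂ))‖) *
        (w ^ σ * B) := by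
  have hre : ∀ u : ℝ, (-(((-σ : ℝ) : ℂ) + u * Complex.I)).re = σ := fun u => by simp
  have hcont : Continuous fun u : ℝ => Wm (((-σ : ℝ) : ℂ) + u * Complex.I + (b : ℂ)) :=
    differentiable_Wm.continuous.comp (by fun_prop)
  have hint : ∀ r : ℝ, 0 < r → Integrable (fun u : ℝ =>
      Wm (((-σ : ℝ) : ℂ) + u * Complex.I + (b : ℂ)) *
        (r : ℂ) ^ (-(((-σ : ℝ) : ℂ) + u * Complex.I))) := by
    intro r hr
    refine ((avg_Wm σ b).mul_const (r ^ σ)).mono' ?_ (Filter.Eventually.of_forall fun u => ?_)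
    · refine (hcont.mul ?_).aestronglyMeasurable
      simp only [avg_cpow hr]
      fun_prop
    · rw [norm_mul, Complex.norm_cpow_eq_rpow_re_of_pos hr, hre]
  have e : ∑ y ∈ s, μ y * Wc (w / y) b = (1 / (2 * Real.pi) : ℂ) * ∫ u : ℝ,
      Wm (((-σ : ℝ) : ℂ) + u * Complex.I + (b : ℂ)) *
        ((w : ℂ) ^ (-(((-σ : ℝ) : ℂ) + u * Complex.I)) *
          ∑ y ∈ s, μ y * (y : ℂ) ^ (-(-(((-σ : ℝ) : ℂ) + u * Complex.I)))) := by
    have e1 : ∀ u : ℝ, Wm (((-σ : ℝ) : ℂ) + u * Complex.I + (b : ℂ)) *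
        ((w : ℂ) ^ (-(((-σ : ℝ) : ℂ) + u * Complex.I)) *
          ∑ y ∈ s, μ y * (y : ℂ) ^ (-(-(((-σ : ℝ) : ℂ) + u * Complex.I)))) =
        ∑ y ∈ s, μ y * (Wm (((-σ : ℝ) : ℂ) + u * Complex.I + (b : ℂ)) *
          ((w / y : ℝ) : ℂ) ^ (-(((-σ : ℝ) : ℂ) + u * Complex.I))) := by
      intro u
      rw [Finset.mul_sum, Finset.mul_sum]
      refine Finset.sum_congr rfl fun y hy => ?_
      rw [avg_cpow hw, avg_cpow (hs y hy), avg_cpow (div_pos hw (hs y hy)),
        Real.log_div hw.ne' (hs y hy).ne', Complex.ofReal_sub, sub_mul, sub_eq_add_neg,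
        Complex.exp_add, mul_neg (Real.log y : ℂ) (-_)]
      ring
    simp only [e1]
    rw [integral_finsetSum _ fun y hy => (hint _ (div_pos hw (hs y hy))).const_mul _,
      Finset.mul_sum]
    refine Finset.sum_congr rfl fun y hy => ?_
    rw [integral_const_mul, Wc_eq_integral (div_pos hw (hs y hy)) (-σ) b]
    ring
  rw [e, norm_mul, mul_assoc]
  have e2 : ‖(1 / (2 * Real.pi) : ℂ)‖ = 1 / (2 * Real.pi) := by
    rw [show (1 / (2 * Real.pi) : ℂ) = ((1 / (2 * Real.pi) : ℝ) : ℂ) by push_cast; ring,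
      Complex.norm_real, Real.norm_of_nonneg (by positivity)]
  rw [e2]
  refine mul_le_mul_of_nonneg_left ?_ (by positivity)
  rw [← integral_mul_const]
  refine norm_integral_le_of_norm_le ((avg_Wm σ b).mul_const _)
    (Filter.Eventually.of_forall fun u => ?_)
  rw [norm_mul, norm_mul, Complex.norm_cpow_eq_rpow_re_of_pos hw, hre]
  exact mul_le_mul_of_nonneg_left
    (mul_le_mul_of_nonneg_left (hB _ (hre u)) (Real.rpow_nonneg hw.le _)) (norm_nonneg _)

theorem avg_CE {E : ℝ → ℝ} {CE : ℝ} (hE : ∀ y : ℝ, 0 < y → |E y| ≤ CE * min 1 (Real.sqrt y)⁻¹) :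
    0 ≤ CE := by
  have := hE 1 one_pos
  simp only [Real.sqrt_one, inv_one, min_self, mul_one] at this
  exact (abs_nonneg _).trans this

theorem avg_mellin_int {E : ℝ → ℝ} (hEm : Measurable (fun x : ℝ => E (Real.exp x))) {CE : ℝ}
    (hE : ∀ y : ℝ, 0 < y → |E y| ≤ CE * min 1 (Real.sqrt y)⁻¹) {σ : ℝ} (h0 : 0 < σ)
    (h1 : σ < 1 / 2) : Integrable (fun x : ℝ => |E (Real.exp x)| * Real.exp (σ * x)) := by
  have hCE := avg_CE hE
  have hm : AEStronglyMeasurable (fun x : ℝ => |E (Real.exp x)| * Real.exp (σ * x)) volume :=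
    (hEm.abs.mul (by fun_prop)).aestronglyMeasurable
  rw [← integrableOn_univ, ← Set.Iic_union_Ioi (a := (0 : ℝ))]
  refine IntegrableOn.union ?_ ?_
  · refine ((integrableOn_exp_mul_Iic h0 0).const_mul CE).mono' hm.restrict
      (Filter.Eventually.of_forall fun x => ?_)
    rw [Real.norm_of_nonneg (by positivity)]
    refine mul_le_mul_of_nonneg_right ((hE _ (Real.exp_pos x)).trans ?_) (Real.exp_pos _).le
    exact mul_le_of_le_one_right hCE (min_le_left _ _)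
  · refine ((exp_neg_integrableOn_Ioi 0 (sub_pos.2 h1)).const_mul CE).mono' hm.restrict
      (Filter.Eventually.of_forall fun x => ?_)
    rw [Real.norm_of_nonneg (by positivity)]
    have e : Real.exp (-(1 / 2 - σ) * x) = (Real.sqrt (Real.exp x))⁻¹ * Real.exp (σ * x) := by
      rw [← Real.exp_half, ← Real.exp_neg, ← Real.exp_add]
      congr 1; ring
    rw [e, ← mul_assoc]
    refine mul_le_mul_of_nonneg_right ((hE _ (Real.exp_pos x)).trans ?_) (Real.exp_pos _).le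
    exact mul_le_mul_of_nonneg_left (min_le_right _ _) hCE

/-- Mellin transform of a finite combination of dilates of `E`, smoothed by a log-Gaussian. -/
theorem mel {E : ℝ → ℝ} (hEm : Measurable (fun x : ℝ => E (Real.exp x))) {CE : ℝ}
    (hE : ∀ y : ℝ, 0 < y → |E y| ≤ CE * min 1 (Real.sqrt y)⁻¹) {σ : ℝ} (h0 : 0 < σ)
    (h1 : σ < 1 / 2) (b : ℝ) : ∃ C : ℝ, 0 < C ∧ ∀ (L : (ℝ → ℂ) → ℂ) (M B : ℝ), FC L → 0 < M →
      (∀ s : ℂ, s.re = σ → ‖L (fun y => (y : ℂ) ^ (-s))‖ ≤ B) →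
      MeasureTheory.Integrable (fun v : ℝ =>
        L (fun y => (E (y * (M * Real.exp v)) : ℂ)) * (Real.exp (-v ^ 2 + b * v) : ℂ)) ∧
      ‖∫ v : ℝ, L (fun y => (E (y * (M * Real.exp v)) : ℂ)) * (Real.exp (-v ^ 2 + b * v) : ℂ)‖
        ≤ C * (M ^ (-σ) * B) := by
  have hCE := avg_CE hE
  have hI := avg_mellin_int hEm hE h0 h1
  set cW : ℝ := 1 / (2 * Real.pi) * ∫ u : ℝ, ‖Wm (((-σ : ℝ) : ℂ) + u * Complex.I + (b : ℂ))‖
    with hcW
  have hcW0 : 0 ≤ cW := mul_nonneg (by positivity) (integral_nonneg fun _ => norm_nonneg _)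
  set I : ℝ := ∫ x : ℝ, |E (Real.exp x)| * Real.exp (σ * x) with hIdef
  have hI0 : 0 ≤ I := integral_nonneg fun _ => by positivity
  refine ⟨cW * I + 1, by positivity, fun L M B hL hM hB => ?_⟩
  obtain ⟨μ, hs, hL⟩ := hL
  have hB0 : 0 ≤ B := (norm_nonneg _).trans (hB σ (by simp))
  simp only [hL] at hB ⊢
  -- the shifted terms
  set F : ℝ → ℝ → ℂ := fun a x => (E (Real.exp x) : ℂ) * Wc (Real.exp x / a) b with hF
  have hsh : ∀ y : ℝ, 0 < y → ∀ v : ℝ, F (y * M) (v + Real.log (y * M)) =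
      (E (y * (M * Real.exp v)) : ℂ) * (Real.exp (-v ^ 2 + b * v) : ℂ) := by
    intro y hy v
    have ha := mul_pos hy hM
    simp only [hF]
    rw [Real.exp_add, Real.exp_log ha, mul_div_cancel_right₀ _ ha.ne', Wc, Real.log_exp,
      show Real.exp v * (y * M) = y * (M * Real.exp v) by ring]
    push_cast
    rfl
  have hint : ∀ y : ℝ, 0 < y → Integrable (fun v : ℝ =>
      (E (y * (M * Real.exp v)) : ℂ) * (Real.exp (-v ^ 2 + b * v) : ℂ)) := by
    intro y hy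
    have ha := mul_pos hy hM
    refine ((avg_gauss b).const_mul CE).mono' ?_ (Filter.Eventually.of_forall fun v => ?_)
    · have : Measurable fun v : ℝ => E (y * (M * Real.exp v)) := by
        have := hEm.comp (measurable_add_const (Real.log (y * M)))
        refine (congrArg Measurable (funext fun v => ?_)).mp this
        simp only [Function.comp]
        rw [Real.exp_add, Real.exp_log ha]
        congr 1; ring
      exact ((Complex.measurable_ofReal.comp this).mul (by fun_prop)).aestronglyMeasurable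
    · rw [norm_mul, Complex.norm_real, Complex.norm_real, Real.norm_eq_abs,
        Real.norm_of_nonneg (Real.exp_pos _).le]
      refine mul_le_mul_of_nonneg_right ((hE _ (by positivity)).trans ?_) (Real.exp_pos _).le
      exact mul_le_of_le_one_right hCE (min_le_left _ _)
  have hint' : ∀ y : ℝ, 0 < y → Integrable (F (y * M)) := by
    intro y hy
    have := (hint y hy).comp_sub_right (Real.log (y * M))
    simp only [← hsh y hy, sub_add_cancel] at this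
    exact this
  simp only [Finset.sum_mul, mul_assoc]
  refine ⟨integrable_finsetSum _ fun y hy => (hint y (hs y hy)).const_mul _, ?_⟩
  have e : ∫ v : ℝ, ∑ y ∈ μ.support, μ y *
      ((E (y * (M * Real.exp v)) : ℂ) * (Real.exp (-v ^ 2 + b * v) : ℂ)) =
      ∫ x : ℝ, ∑ y ∈ μ.support, μ y * F (y * M) x := by
    rw [integral_finsetSum _ fun y hy => (hint y (hs y hy)).const_mul _,
      integral_finsetSum _ fun y hy => (hint' y (hs y hy)).const_mul _]
    refine Finset.sum_congr rfl fun y hy => ?_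
    rw [integral_const_mul, integral_const_mul,
      ← integral_add_right_eq_self (F (y * M)) (Real.log (y * M))]
    simp only [hsh y (hs y hy)]
  rw [e]
  have hb : ‖∫ x : ℝ, ∑ y ∈ μ.support, μ y * F (y * M) x‖ ≤
      ∫ x : ℝ, |E (Real.exp x)| * Real.exp (σ * x) * (cW * (M ^ (-σ) * B)) := by
    refine norm_integral_le_of_norm_le (hI.mul_const _) (Filter.Eventually.of_forall fun x => ?_)
    have e1 : ∑ y ∈ μ.support, μ y * F (y * M) x =
        (E (Real.exp x) : ℂ) * ∑ y ∈ μ.support, μ y * Wc (Real.exp x / M / y) b := by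
      rw [Finset.mul_sum]
      refine Finset.sum_congr rfl fun y _ => ?_
      simp only [hF]
      rw [div_div, mul_comm M y]
      ring
    have e2 : (Real.exp x / M) ^ σ = Real.exp (σ * x) * M ^ (-σ) := by
      rw [Real.div_rpow (Real.exp_pos x).le hM.le, Real.rpow_neg hM.le, ← Real.exp_mul,
        mul_comm x σ, div_eq_mul_inv]
    have := avg_kernel σ b μ.support μ hs (div_pos (Real.exp_pos x) hM) hB
    rw [e2, ← hcW] at this
    rw [e1, norm_mul, Complex.norm_real, Real.norm_eq_abs, mul_assoc]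
    refine mul_le_mul_of_nonneg_left (this.trans (le_of_eq ?_)) (abs_nonneg _)
    ring
  rw [integral_mul_const, ← hIdef] at hb
  have : 0 ≤ M ^ (-σ) * B := mul_nonneg (Real.rpow_nonneg hM.le _) hB0
  nlinarith

/-- An inequality valid at every scale `X` is averaged over `X = M e^v` with weight `e^{-v²}`. -/
theorem avg {E : ℝ → ℝ} (hEm : Measurable (fun x : ℝ => E (Real.exp x))) {CE : ℝ}
    (hE : ∀ y : ℝ, 0 < y → |E y| ≤ CE * min 1 (Real.sqrt y)⁻¹) {σ τ : ℝ} (hσ0 : 0 < σ)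
    (hσ1 : σ < 1 / 2) (hτ0 : 0 < τ) (hτ1 : τ < 1 / 2) (A : ℝ) :
    ∃ C : ℝ, 0 < C ∧ ∀ (L₀ L₁ L₂ : (ℝ → ℂ) → ℂ) (M T D B₀ B₁ B₂ : ℝ), FC L₀ → FC L₁ → FC L₂ →
      0 < M → 0 ≤ D →
      (∀ s : ℂ, s.re = σ → ‖L₀ (fun y => (y : ℂ) ^ (-s))‖ ≤ B₀) →
      (∀ s : ℂ, s.re = σ → ‖L₁ (fun y => (y : ℂ) ^ (-s))‖ ≤ B₁) →
      (∀ s : ℂ, s.re = τ → ‖L₂ (fun y => (y : ℂ) ^ (-s))‖ ≤ B₂) →
      (∀ X : ℝ, 0 < X → gw (M / X) * T ≤ D * (X / M + (X / M) ^ (-A)) +
        ((X : ℂ) * (L₁ (fun y => (E (y * X) : ℂ)) + L₂ (fun y => (E (y * X) : ℂ))) -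
          L₀ (fun y => (E (y / X) : ℂ))).re) →
      T ≤ C * (D + M ^ σ * B₀ + M ^ (1 - σ) * B₁ + M ^ (1 - τ) * B₂) := by
  obtain ⟨C₀, hC₀, m₀⟩ := mel hEm hE hσ0 hσ1 0
  obtain ⟨C₁, hC₁, m₁⟩ := mel hEm hE hσ0 hσ1 1
  obtain ⟨C₂, hC₂, m₂⟩ := mel hEm hE hτ0 hτ1 1
  have hgi : Integrable (fun v : ℝ => gw (Real.exp (-v)) * Real.exp (-v ^ 2 + 0 * v)) := by
    refine (avg_gauss 0).mono' ?_ (Filter.Eventually.of_forall fun v => ?_)
    · unfold gw
      exact Continuous.aestronglyMeasurable (by fun_prop)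
    · unfold gw
      rw [Real.norm_of_nonneg (by positivity)]
      refine mul_le_of_le_one_left (Real.exp_pos _).le (Real.exp_le_one_iff.2 ?_)
      have : 0 < 2 * Real.pi / Real.sqrt 3 * Real.exp (-v) := by positivity
      linarith
  set c : ℝ := ∫ v : ℝ, gw (Real.exp (-v)) * Real.exp (-v ^ 2 + 0 * v) with hc
  have hc0 : 0 < c := by
    have hp : ∀ v : ℝ, 0 < gw (Real.exp (-v)) * Real.exp (-v ^ 2 + 0 * v) := fun v => by
      unfold gw; positivity
    rw [hc, integral_pos_iff_support_of_nonneg (fun v => (hp v).le) hgi]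
    rw [show Function.support (fun v : ℝ => gw (Real.exp (-v)) * Real.exp (-v ^ 2 + 0 * v)) =
      Set.univ from Set.eq_univ_of_forall fun v => (hp v).ne']
    simp
  set J : ℝ := ∫ v : ℝ, (Real.exp (-v ^ 2 + 1 * v) + Real.exp (-v ^ 2 + -A * v)) with hJ
  have hJ0 : 0 ≤ J := integral_nonneg fun _ => by positivity
  refine ⟨(J + C₀ + C₁ + C₂) / c, by positivity,
    fun L₀ L₁ L₂ M T D B₀ B₁ B₂ f₀ f₁ f₂ hM hD b₀ b₁ b₂ H => ?_⟩
  have hB₀ : 0 ≤ B₀ := (norm_nonneg _).trans (b₀ σ (by simp))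
  have hB₁ : 0 ≤ B₁ := (norm_nonneg _).trans (b₁ σ (by simp))
  have hB₂ : 0 ≤ B₂ := (norm_nonneg _).trans (b₂ τ (by simp))
  obtain ⟨i₀, n₀⟩ := m₀ L₀ M⁻¹ B₀ f₀ (inv_pos.2 hM) b₀
  obtain ⟨i₁, n₁⟩ := m₁ L₁ M B₁ f₁ hM b₁
  obtain ⟨i₂, n₂⟩ := m₂ L₂ M B₂ f₂ hM b₂
  set g₀ : ℝ → ℂ := fun v =>
    L₀ (fun y => (E (y * (M⁻¹ * Real.exp v)) : ℂ)) * (Real.exp (-v ^ 2 + 0 * v) : ℂ) with hg₀
  set g₁ : ℝ → ℂ := fun v =>
    L₁ (fun y => (E (y * (M * Real.exp v)) : ℂ)) * (Real.exp (-v ^ 2 + 1 * v) : ℂ) with hg₁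
  set g₂ : ℝ → ℂ := fun v =>
    L₂ (fun y => (E (y * (M * Real.exp v)) : ℂ)) * (Real.exp (-v ^ 2 + 1 * v) : ℂ) with hg₂
  have iZ : Integrable (fun v : ℝ => (M : ℂ) * (g₁ v + g₂ v) - g₀ (-v)) :=
    ((i₁.add i₂).const_mul _).sub i₀.comp_neg
  have iR : Integrable (fun v : ℝ => ((M : ℂ) * (g₁ v + g₂ v) - g₀ (-v)).re) := iZ.re
  have iJ : Integrable
      (fun v : ℝ => Real.exp (-v ^ 2 + 1 * v) + Real.exp (-v ^ 2 + -A * v)) :=
    (avg_gauss 1).add (avg_gauss (-A))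
  have key : ∫ v : ℝ, gw (Real.exp (-v)) * Real.exp (-v ^ 2 + 0 * v) * T ≤
      ∫ v : ℝ, (D * (Real.exp (-v ^ 2 + 1 * v) + Real.exp (-v ^ 2 + -A * v)) +
        ((M : ℂ) * (g₁ v + g₂ v) - g₀ (-v)).re) := by
    refine integral_mono (hgi.mul_const T) ((iJ.const_mul D).add iR) fun v => ?_
    have hv := mul_le_mul_of_nonneg_right (H (M * Real.exp v) (by positivity))
      (Real.exp_pos (-v ^ 2)).le
    have e1 : M / (M * Real.exp v) = Real.exp (-v) := by
      rw [Real.exp_neg]; field_simp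
    have e2 : M * Real.exp v / M = Real.exp v := by field_simp
    have e3 : ∀ y : ℝ, y / (M * Real.exp v) = y * (M⁻¹ * Real.exp (-v)) := fun y => by
      rw [Real.exp_neg]; field_simp
    have e4 : Real.exp (-v ^ 2 + 1 * v) = Real.exp v * Real.exp (-v ^ 2) := by
      rw [← Real.exp_add]; congr 1; ring
    have e5 : Real.exp (-v ^ 2 + -A * v) = Real.exp v ^ (-A) * Real.exp (-v ^ 2) := by
      rw [← Real.exp_mul, ← Real.exp_add]; congr 1; ring
    have e6 : Real.exp (-(-v) ^ 2 + 0 * -v) = Real.exp (-v ^ 2) := by congr 1; ring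
    have e7 : Real.exp (-v ^ 2 + 0 * v) = Real.exp (-v ^ 2) := by congr 1; ring
    simp only [e1, e2, e3] at hv
    have e8 : (M : ℂ) * (g₁ v + g₂ v) - g₀ (-v) =
        (((M * Real.exp v : ℝ) : ℂ) * (L₁ (fun y => (E (y * (M * Real.exp v)) : ℂ)) +
          L₂ (fun y => (E (y * (M * Real.exp v)) : ℂ))) -
          L₀ (fun y => (E (y * (M⁻¹ * Real.exp (-v))) : ℂ))) * (Real.exp (-v ^ 2) : ℂ) := by
      simp only [hg₀, hg₁, hg₂, e4, e6]
      simp only [Complex.ofReal_mul]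
      ring
    simp only
    rw [e8, Complex.re_mul_ofReal, e4, e5, e7]
    linarith
  rw [integral_mul_const, integral_add (iJ.const_mul D) iR, integral_const_mul, ← hc, ← hJ]
    at key
  have r1 : ∫ v : ℝ, ((M : ℂ) * (g₁ v + g₂ v) - g₀ (-v)).re =
      ((M : ℂ) * ((∫ v, g₁ v) + ∫ v, g₂ v) - ∫ v, g₀ v).re := by
    have i12 : Integrable (fun v : ℝ => (M : ℂ) * (g₁ v + g₂ v)) := (i₁.add i₂).const_mul _
    rw [← integral_neg_eq_self g₀, ← integral_add i₁ i₂, ← integral_const_mul,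
      ← integral_sub i12 i₀.comp_neg]
    exact integral_re iZ
  have r2 : ((M : ℂ) * ((∫ v, g₁ v) + ∫ v, g₂ v) - ∫ v, g₀ v).re ≤
      M * (C₁ * (M ^ (-σ) * B₁) + C₂ * (M ^ (-τ) * B₂)) + C₀ * (M⁻¹ ^ (-σ) * B₀) := by
    refine (Complex.re_le_norm _).trans ((norm_sub_le _ _).trans (add_le_add ?_ n₀))
    rw [norm_mul, Complex.norm_real, Real.norm_of_nonneg hM.le]
    exact mul_le_mul_of_nonneg_left ((norm_add_le _ _).trans (add_le_add n₁ n₂)) hM.le
  have p0 : M⁻¹ ^ (-σ) = M ^ σ := by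
    rw [Real.inv_rpow hM.le, Real.rpow_neg hM.le, inv_inv]
  have p1 : ∀ t : ℝ, M ^ (1 - t) = M * M ^ (-t) := fun t => by
    rw [sub_eq_add_neg, Real.rpow_add hM, Real.rpow_one]
  rw [p0] at r2
  rw [r1] at key
  rw [p1, p1, div_mul_eq_mul_div, le_div_iff₀ hc0]
  have q0 : 0 ≤ M ^ σ * B₀ := mul_nonneg (Real.rpow_nonneg hM.le _) hB₀
  have q1 : 0 ≤ M * M ^ (-σ) * B₁ := mul_nonneg (mul_nonneg hM.le (Real.rpow_nonneg hM.le _)) hB₁
  have q2 : 0 ≤ M * M ^ (-τ) * B₂ := mul_nonneg (mul_nonneg hM.le (Real.rpow_nonneg hM.le _)) hB₂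
  have : c * T ≤ J * D + C₀ * (M ^ σ * B₀) + C₁ * (M * M ^ (-σ) * B₁) +
      C₂ * (M * M ^ (-τ) * B₂) := by linarith
  generalize M ^ σ * B₀ = x₀ at *
  generalize M * M ^ (-σ) * B₁ = x₁ at *
  generalize M * M ^ (-τ) * B₂ = x₂ at *
  nlinarith [mul_nonneg hJ0 q0, mul_nonneg hJ0 q1, mul_nonneg hJ0 q2, mul_nonneg hC₀.le hD,
    mul_nonneg hC₀.le q1, mul_nonneg hC₀.le q2, mul_nonneg hC₁.le hD, mul_nonneg hC₁.le q0,
    mul_nonneg hC₁.le q2, mul_nonneg hC₂.le hD, mul_nonneg hC₂.le q0, mul_nonneg hC₂.le q1]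

end Crest.Agent.R17.LS2
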