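import Crest.Agent.R17.LS2Defs

/-!
# Row 17, module M7 (quadratic large sieve): evaluation of `origA`, `dualA` at multiplicative test functions
-/

set_option autoImplicit false

noncomputable section

namespace Crest.Agent.R17.LS2

open scoped ComplexConjugate
open Classical

theorem Eval_prod {ψ : ℝ → ℂ} (hψ : MulF ψ) (t : O → ℝ) (D : Finset O) (h : ∀ p ∈ D, 0 < t p) :
    ψ (∏ p ∈ D, t p) = ∏ p ∈ D, ψ (t p) := by
  induction D using Finset.induction_on with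
  | empty => simpa using hψ.1
  | insert p D hp ih =>
    have h' : ∀ q ∈ D, 0 < t q := fun q hq => h q (Finset.mem_insert_of_mem hq)
    rw [Finset.prod_insert hp, Finset.prod_insert hp,
      hψ.2 _ _ (h p (Finset.mem_insert_self _ _)) (Finset.prod_pos h'), ih h']

theorem Eval_alt (S : Finset O) (t : O → ℂ) :
    ∑ D ∈ S.powerset, (-1) ^ D.card * ∏ p ∈ D, t p = ∏ p ∈ S, (1 - t p) := by
  simp only [sub_eq_add_neg, Finset.prod_one_add, Finset.prod_neg]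

theorem Eval_inner {ψ : ℝ → ℂ} (hψ : MulF ψ) {c : ℝ} (hc : 0 < c) {S : Finset O}
    (hS : ∀ p ∈ S, p ≠ 0) :
    ∑ D ∈ S.powerset, (-1) ^ D.card * ψ (c * nP D ^ 2) = ψ c * eu ψ S := by
  rw [eu, ← Eval_alt, Finset.mul_sum]
  refine Finset.sum_congr rfl fun D hD => ?_
  have h0 : ∀ p ∈ D, p ≠ 0 := fun p hp => hS p (Finset.mem_powerset.1 hD hp)
  have h1 := nP_pos h0
  rw [hψ.2 _ _ hc (by positivity), sq, hψ.2 _ _ h1 h1, nP,
    Eval_prod hψ _ _ fun p hp => nr_pos (h0 p hp), Finset.prod_pow]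
  ring

theorem Eval_eu_union (ψ : ℝ → ℂ) (A B : Finset O) :
    eu ψ (A \ (A ∩ B) ∪ B \ (A ∩ B)) = eu ψ (A \ (A ∩ B)) * eu ψ (B \ (A ∩ B)) := by
  refine Finset.prod_union (Finset.disjoint_left.2 fun p h1 h2 => ?_)
  simp only [Finset.mem_sdiff, Finset.mem_inter] at h1 h2
  exact h1.2 ⟨h1.1, h2.1⟩

theorem Eval_eu_union' (ψ : ℝ → ℂ) (A B : Finset O) :
    eu ψ (A ∪ B) = eu ψ (A ∩ B) * (eu ψ (A \ (A ∩ B)) * eu ψ (B \ (A ∩ B))) := by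
  rw [← Eval_eu_union, eu, eu, eu, ← Finset.prod_union]
  · congr 1
    ext p
    simp only [Finset.mem_sdiff, Finset.mem_inter, Finset.mem_union]
    tauto
  · refine Finset.disjoint_left.2 fun p h1 h2 => ?_
    simp only [Finset.mem_sdiff, Finset.mem_union] at h2
    exact h2.elim (fun h => h.2 h1) fun h => h.2 h1

theorem Eval_ne_zero (n₁ n₂ : O) : ∀ p ∈ pf n₁ ∪ pf n₂, p ≠ 0 := fun p hp =>
  (Finset.mem_union.1 hp).elim (ne_zero_of_subset_pf subset_rfl p)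
    (ne_zero_of_subset_pf subset_rfl p)

theorem Eval_quad {n : O} (h : SP 6 n) {G : Finset O} (hG : G ⊆ pf n) (a : O) :
    quad n a = quad (∏ p ∈ G, p) a * quad (cof G n) a := by
  rw [← quad_mul_left (ne_zero_of_SP (SP_prod h hG)) (ne_zero_of_SP (SP_cof h G)),
    prod_mul_cof h.1 h.2.1 hG]

theorem Eval_four {ψ : ℝ → ℂ} (hψ : MulF ψ) {x P y z : ℝ} (hx : 0 < x) (hP : 0 < P) (hy : 0 < y)
    (hz : 0 < z) : ψ (x * (P * P) * y * z) = ψ x * (ψ P * ψ P) * ψ y * ψ z := by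
  rw [hψ.2 _ z (by positivity) hz, hψ.2 _ y (by positivity) hy, hψ.2 x _ hx (by positivity),
    hψ.2 _ _ hP hP]

theorem Eval_dualB {ψ : ℝ → ℂ} (hψ : MulF ψ) {G : Finset O} (hG : ∀ p ∈ G, p ≠ 0) {m₁ m₂ a : O}
    (h₁ : m₁ ≠ 0) (h₂ : m₂ ≠ 0) (ha : a ≠ 0) :
    dualB G m₁ m₂ a ψ =
      (ψ (nr a) * ∏ p ∈ G, (1 - (if p ∣ a then ψ (nr p)⁻¹ ^ 2 else 1) / (nr p : ℂ))) *
        (ψ (nr m₁)⁻¹ / (Real.sqrt (nr m₁) : ℂ) * quad m₁ a) *
        (ψ (nr m₂)⁻¹ / (Real.sqrt (nr m₂) : ℂ) * quad m₂ a) * eu ψ (pf m₁ ∪ pf m₂) := by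
  rw [← Eval_alt, dualB]
  simp only [Finset.mul_sum _ _ (ψ (nr a)), Finset.sum_mul]
  refine Finset.sum_congr rfl fun E hE => ?_
  have h0 : ∀ p ∈ E.filter (· ∣ a), 0 < (nr p)⁻¹ := fun p hp =>
    inv_pos.2 (nr_pos (hG p (Finset.mem_powerset.1 hE (Finset.mem_filter.1 hp).1)))
  have p0 := Finset.prod_pos h0
  have p1 := inv_pos.2 (nr_pos h₁)
  have p2 := inv_pos.2 (nr_pos h₂)
  have p3 := nr_pos ha
  have e : ∀ D : Finset O, nr a * nP D ^ 2 / (nP (E.filter (· ∣ a)) ^ 2 * nr m₁ * nr m₂) =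
      nr a * ((∏ p ∈ E.filter (· ∣ a), (nr p)⁻¹) * ∏ p ∈ E.filter (· ∣ a), (nr p)⁻¹) *
        (nr m₁)⁻¹ * (nr m₂)⁻¹ * nP D ^ 2 := fun D => by
    rw [Finset.prod_inv_distrib, ← nP.eq_1 (E.filter (· ∣ a))]
    ring
  simp only [e]
  rw [Eval_inner hψ (mul_pos (mul_pos (mul_pos p3 (mul_pos p0 p0)) p1) p2) (Eval_ne_zero m₁ m₂),
    Eval_four hψ p3 p0 p1 p2, Eval_prod hψ _ _ h0, Finset.prod_div_distrib, ← Finset.prod_filter, Finset.prod_pow, nP]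
  push_cast
  ring

theorem Eval_origA_smul (n₁ n₂ a : O) (c : ℂ) (f : ℝ → ℂ) :
    origA n₁ n₂ a (fun y => c * f y) = c * origA n₁ n₂ a f := by
  simp only [origA, Finset.mul_sum]
  exact Finset.sum_congr rfl fun _ _ => by ring

theorem Eval_dualA_smul (n₁ n₂ a : O) (c : ℂ) (f : ℝ → ℂ) :
    dualA n₁ n₂ a (fun y => c * f y) = c * dualA n₁ n₂ a f := by
  simp only [dualA, dualB, Finset.mul_sum]
  exact Finset.sum_congr rfl fun _ _ => Finset.sum_congr rfl fun _ _ => by ring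

theorem orig_eval {ψ : ℝ → ℂ} (hψ : MulF ψ) {n₁ n₂ a : O} (h₁ : SP 6 n₁) (h₂ : SP 6 n₂)
    (ha : a ≠ 0) :
    origA n₁ n₂ a ψ =
      (quad (∏ p ∈ pf n₁ ∩ pf n₂, p) a ^ 2 * ψ (nr a) * eu ψ (pf n₁ ∩ pf n₂)) *
        (eu ψ (pf (cof (pf n₁ ∩ pf n₂) n₁)) * quad (cof (pf n₁ ∩ pf n₂) n₁) a) *
        (eu ψ (pf (cof (pf n₁ ∩ pf n₂) n₂)) * quad (cof (pf n₁ ∩ pf n₂) n₂) a) := by
  rw [origA, Eval_inner hψ (nr_pos ha) (Eval_ne_zero n₁ n₂), Eval_eu_union', pf_cof, pf_cof,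
    Eval_quad h₁ (Finset.inter_subset_left (s₂ := pf n₂)) a,
    Eval_quad h₂ (Finset.inter_subset_right (s₁ := pf n₁)) a]
  ring

theorem dual_eval {ψ : ℝ → ℂ} (hψ : MulF ψ) {n₁ n₂ a : O} (h₁ : SP 6 n₁) (h₂ : SP 6 n₂)
    (ha : a ≠ 0) :
    dualA n₁ n₂ a ψ =
      (ψ (nr a) * ∏ p ∈ pf n₁ ∩ pf n₂, (1 - (if p ∣ a then ψ (nr p)⁻¹ ^ 2 else 1) / (nr p : ℂ))) *
        (ψ (nr (cof (pf n₁ ∩ pf n₂) n₁))⁻¹ / (Real.sqrt (nr (cof (pf n₁ ∩ pf n₂) n₁)) : ℂ) *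
          eu ψ (pf (cof (pf n₁ ∩ pf n₂) n₁)) * quad (cof (pf n₁ ∩ pf n₂) n₁) a) *
        (ψ (nr (cof (pf n₁ ∩ pf n₂) n₂))⁻¹ / (Real.sqrt (nr (cof (pf n₁ ∩ pf n₂) n₂)) : ℂ) *
          eu ψ (pf (cof (pf n₁ ∩ pf n₂) n₂)) * quad (cof (pf n₁ ∩ pf n₂) n₂) a) := by
  rw [dualA, Eval_dualB hψ (ne_zero_of_subset_pf Finset.inter_subset_left)
    (ne_zero_of_SP (SP_cof h₁ _)) (ne_zero_of_SP (SP_cof h₂ _)) ha, pf_cof, pf_cof, Eval_eu_union]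
  ring

/-- The main terms of the two sides coincide. -/
theorem main_cancel (κ : ℝ) {X : ℝ} (hX : 0 < X) {n₁ n₂ a : O} (h₁ : SP 6 n₁) (h₂ : SP 6 n₂)
    (ha : a ≠ 0) :
    (X : ℂ) * dualA n₁ n₂ a (fun y => ((κ / Real.sqrt (y * X) : ℝ) : ℂ)) =
      origA n₁ n₂ a (fun y => ((κ / Real.sqrt (y / X) : ℝ) : ℂ)) := by
  set ψ : ℝ → ℂ := fun y => (((Real.sqrt y)⁻¹ : ℝ) : ℂ) with hψd
  have hψ : MulF ψ := ⟨by simp [hψd], fun x y hx _ => by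
    simp only [hψd, Real.sqrt_mul hx.le, mul_inv, Complex.ofReal_mul]⟩
  have e1 : (fun y => ((κ / Real.sqrt (y * X) : ℝ) : ℂ)) =
      fun y => ((κ / Real.sqrt X : ℝ) : ℂ) * ψ y := by
    funext y
    simp only [hψd, Real.sqrt_mul' y hX.le, ← Complex.ofReal_mul]
    congr 1
    ring
  have e2 : (fun y => ((κ / Real.sqrt (y / X) : ℝ) : ℂ)) =
      fun y => ((κ * Real.sqrt X : ℝ) : ℂ) * ψ y := by
    funext y
    simp only [hψd, Real.sqrt_div' y hX.le, ← Complex.ofReal_mul]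
    congr 1
    rw [div_div_eq_mul_div, div_eq_mul_inv]
  have e3 : (X : ℂ) * ((κ / Real.sqrt X : ℝ) : ℂ) = ((κ * Real.sqrt X : ℝ) : ℂ) := by
    rw [← Complex.ofReal_mul]
    congr 1
    have h1 := Real.mul_self_sqrt hX.le
    have h2 := (Real.sqrt_pos.2 hX).ne'
    field_simp
    linear_combination -κ * h1
  have e4 : ∀ m : O, m ≠ 0 → ψ (nr m)⁻¹ / (Real.sqrt (nr m) : ℂ) = 1 := fun m hm => by
    simp only [hψd, Real.sqrt_inv, inv_inv]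
    exact div_self (Complex.ofReal_ne_zero.2 (Real.sqrt_pos.2 (nr_pos hm)).ne')
  rw [e1, e2, Eval_origA_smul, Eval_dualA_smul, ← mul_assoc, e3, orig_eval hψ h₁ h₂ ha,
    dual_eval hψ h₁ h₂ ha, e4 _ (ne_zero_of_SP (SP_cof h₁ _)), e4 _ (ne_zero_of_SP (SP_cof h₂ _)),
    one_mul, one_mul]
  have hG : pf n₁ ∩ pf n₂ ⊆ pf n₁ := Finset.inter_subset_left
  have hg := SP_prod h₁ hG
  have key : ∏ p ∈ pf n₁ ∩ pf n₂, (1 - (if p ∣ a then ψ (nr p)⁻¹ ^ 2 else 1) / (nr p : ℂ)) =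
      quad (∏ p ∈ pf n₁ ∩ pf n₂, p) a ^ 2 * eu ψ (pf n₁ ∩ pf n₂) := by
    by_cases h : ∃ p ∈ pf n₁ ∩ pf n₂, p ∣ a
    · obtain ⟨p, hp, hpa⟩ := h
      have hp' := (BasicB.pf_sub (hG hp)).1
      have hn := nr_pos hp'.ne_zero
      rw [(Symbol_quad_eq_zero_iff hg.1).2 fun hc =>
        hp'.not_isUnit (hc.isUnit_of_dvd' (Finset.dvd_prod_of_mem _ hp) hpa),
        zero_pow two_ne_zero, zero_mul]
      refine Finset.prod_eq_zero hp ?_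
      simp only [if_pos hpa, hψd, Real.sqrt_inv, inv_inv]
      rw [← Complex.ofReal_pow, Real.sq_sqrt hn.le, div_self (Complex.ofReal_ne_zero.2 hn.ne'),
        sub_self]
    · push Not at h
      rw [quad_sq hg.1 (IsCoprime.prod_left fun p hp =>
        (BasicB.pf_sub (hG hp)).1.irreducible.coprime_iff_not_dvd.2 (h p hp)), one_mul, eu]
      refine Finset.prod_congr rfl fun p hp => ?_
      have hn := nr_pos (BasicB.pf_sub (hG hp)).1.ne_zero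
      simp only [if_neg (h p hp), hψd]
      rw [← Complex.ofReal_pow, inv_pow, Real.sq_sqrt hn.le, Complex.ofReal_inv, one_div]
  rw [key]
  ring

end Crest.Agent.R17.LS2
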