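import Crest.Agent.R17.LS2Bil
import Crest.Agent.R17.LS2Eval

/-!
# Row 17, module M7 (quadratic large sieve): bounds for the Mellin transforms
-/

set_option autoImplicit false

noncomputable section

namespace Crest.Agent.R17.LS2

open scoped ComplexConjugate
open Classical

theorem Bnd_norm_psi (s : ℂ) {y : ℝ} (hy : 0 < y) : ‖(y : ℂ) ^ (-s)‖ = y ^ (-s.re) := by
  rw [Complex.norm_cpow_eq_rpow_re_of_pos hy, Complex.neg_re]

theorem Bnd_norm_psi_le {s : ℂ} (hs : 0 ≤ s.re) {y : ℝ} (hy : 1 ≤ y) : ‖(y : ℂ) ^ (-s)‖ ≤ 1 := by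
  rw [Bnd_norm_psi s (by linarith)]
  exact Real.rpow_le_one_of_one_le_of_nonpos hy (by linarith)

theorem Bnd_prod_le {T : Finset O} {n : O} {w : ℝ} (hT : T ⊆ pf n) (hw : 2 ^ (pf n).card ≤ w)
    {f : O → ℂ} (hf : ∀ p ∈ T, ‖f p‖ ≤ 1) : ‖∏ p ∈ T, (1 - f p)‖ ≤ w := by
  rw [norm_prod]
  calc ∏ p ∈ T, ‖1 - f p‖ ≤ ∏ _p ∈ T, (2 : ℝ) := by
        refine Finset.prod_le_prod (fun _ _ => norm_nonneg _) fun p hp => ?_
        have := norm_sub_le (1 : ℂ) (f p)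
        rw [norm_one] at this
        linarith [hf p hp]
    _ = 2 ^ T.card := by simp
    _ ≤ 2 ^ (pf n).card := pow_le_pow_right₀ one_le_two (Finset.card_le_card hT)
    _ ≤ w := hw

theorem Bnd_eu {s : ℂ} (hs : 0 ≤ s.re) {T : Finset O} {n : O} {w : ℝ} (hT : T ⊆ pf n)
    (hw : 2 ^ (pf n).card ≤ w) : ‖eu (fun y => (y : ℂ) ^ (-s)) T‖ ≤ w := by
  refine Bnd_prod_le hT hw fun p hp => ?_
  rw [norm_pow]
  exact pow_le_one₀ (norm_nonneg _) (Bnd_norm_psi_le hs (one_le_nr (ne_zero_of_subset_pf hT p hp)))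

theorem Bnd_dual_c {s : ℂ} (hs' : s.re ≤ 1 / 2) {T : Finset O} {n : O} {w : ℝ} (hT : T ⊆ pf n)
    (hw : 2 ^ (pf n).card ≤ w) (a : O) :
    ‖∏ p ∈ T, (1 - (if p ∣ a then ((((nr p)⁻¹ : ℝ) : ℂ) ^ (-s)) ^ 2 else 1) / (nr p : ℂ))‖ ≤ w := by
  refine Bnd_prod_le hT hw fun p hp => ?_
  have h1 := one_le_nr (ne_zero_of_subset_pf hT p hp)
  have h0 : 0 < nr p := by linarith
  rw [norm_div, Complex.norm_real, Real.norm_eq_abs, abs_of_pos h0, div_le_one h0]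
  split_ifs
  · rw [norm_pow, Bnd_norm_psi s (inv_pos.2 h0), Real.inv_rpow h0.le, Real.rpow_neg h0.le, inv_inv,
      ← Real.rpow_natCast, ← Real.rpow_mul h0.le]
    calc nr p ^ (s.re * ((2 : ℕ) : ℝ)) ≤ nr p ^ (1 : ℝ) :=
          Real.rpow_le_rpow_of_exponent_le h1 (by push_cast; linarith)
      _ = nr p := Real.rpow_one _
  · simpa using h1

theorem Bnd_eta {s : ℂ} (hs : 0 ≤ s.re) {m n : O} {w : ℝ} (hm : m ≠ 0) (hT : pf m ⊆ pf n)
    (hw : 2 ^ (pf n).card ≤ w) :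
    ‖(((nr m)⁻¹ : ℝ) : ℂ) ^ (-s) / (Real.sqrt (nr m) : ℂ) * eu (fun y => (y : ℂ) ^ (-s)) (pf m)‖ ≤
      nr m ^ (s.re - 1 / 2) * w := by
  have h0 := nr_pos hm
  rw [norm_mul, norm_div, Bnd_norm_psi s (inv_pos.2 h0), Real.inv_rpow h0.le, Real.rpow_neg h0.le,
    inv_inv, Complex.norm_real, Real.norm_eq_abs, abs_of_nonneg (Real.sqrt_nonneg _),
    Real.sqrt_eq_rpow, ← Real.rpow_sub h0]
  exact mul_le_mul_of_nonneg_left (Bnd_eu hs hT hw) (by positivity)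

theorem Bnd_fin {S : Finset O} {w : ℝ} (hw : ∀ n ∈ S, 2 ^ (pf n).card ≤ w) (β : O → ℂ) :
    ∑ n ∈ S, 3 ^ (pf n).card * ‖β n‖ ^ 2 ≤ w ^ 2 * ∑ n ∈ S, ‖β n‖ ^ 2 := by
  rw [Finset.mul_sum]
  refine Finset.sum_le_sum fun n hn => mul_le_mul_of_nonneg_right ?_ (by positivity)
  calc (3 : ℝ) ^ (pf n).card ≤ (2 ^ 2) ^ (pf n).card := pow_le_pow_left₀ (by norm_num) (by norm_num) _
    _ = (2 ^ (pf n).card) ^ 2 := by rw [← pow_mul, ← pow_mul, mul_comm]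
    _ ≤ w ^ 2 := pow_le_pow_left₀ (by positivity) (hw n hn) 2

theorem Bnd_basic {N w : ℝ} {S : Finset O} (hB : Blk N S) (hw : ∀ n ∈ S, 2 ^ (pf n).card ≤ w)
    (hne : S.Nonempty) : 1 ≤ w ∧ 1 ≤ N := by
  obtain ⟨n, hn⟩ := hne
  exact ⟨le_trans (one_le_pow₀ one_le_two) (hw n hn),
    le_trans (one_le_nr (ne_zero_of_SP (hB.1 n hn).1)) (hB.1 n hn).2.2⟩

theorem Bnd_pf_cof (G : Finset O) (n : O) : pf (cof G n) ⊆ pf n := by
  rw [pf_cof]; exact Finset.sdiff_subset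

theorem bnd_orig {ξ V N D w : ℝ} (hξ : 0 ≤ ξ) (hV : 1 ≤ V) (hS : Sieve ξ V N D) (hD : 0 ≤ D)
    {S : Finset O} (hB : Blk N S) (hw : ∀ n ∈ S, 2 ^ (pf n).card ≤ w) (β : O → ℂ) {s : ℂ}
    (hs : 0 ≤ s.re) :
    ‖∑ n₁ ∈ S, ∑ n₂ ∈ S, β n₁ * conj (β n₂) *
        ∑ a ∈ sqf V, origA n₁ n₂ a (fun y => (y : ℂ) ^ (-s))‖ ≤
      w ^ 5 * (N + V ^ ξ) * D * ∑ n ∈ S, ‖β n‖ ^ 2 := by
  rcases S.eq_empty_or_nonempty with rfl | hne
  · simp
  obtain ⟨hw1, hN1⟩ := Bnd_basic hB hw hne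
  have hV0 : 0 ≤ V := by linarith
  have hVξ : 0 ≤ V ^ ξ := by positivity
  have key := bil (Λ := w ^ 3 * (N + V ^ ξ)) hS hD (by positivity)
    (fun n hn => ⟨(hB.1 n hn).1, (hB.1 n hn).2.2⟩) β
    (fun G a => quad (∏ p ∈ G, p) a ^ 2 * ((nr a : ℝ) : ℂ) ^ (-s) * eu (fun y => (y : ℂ) ^ (-s)) G)
    (fun m => eu (fun y => (y : ℂ) ^ (-s)) (pf m)) (fun _ => w)
    (fun n hn G _ => Bnd_eu hs (Bnd_pf_cof G n) (hw n hn)) (fun n hn G hG a ha => by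
      have ha0 := ne_zero_of_mem_sqf ha
      have h1 : ‖quad (∏ p ∈ G, p) a ^ 2 * ((nr a : ℝ) : ℂ) ^ (-s) *
          eu (fun y => (y : ℂ) ^ (-s)) G‖ ≤ w := by
        rw [norm_mul, norm_mul, norm_pow]
        calc _ ≤ 1 * 1 * w := by
              gcongr
              · exact pow_le_one₀ (norm_nonneg _) (norm_quad_le _ _)
              · exact Bnd_norm_psi_le hs (one_le_nr ha0)
              · exact Bnd_eu hs hG (hw n hn)
          _ = w := by ring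
      have h2 : N / nP G ≤ N := div_le_self (by linarith) (one_le_nP (ne_zero_of_subset_pf hG))
      have h3 : nr a ^ ξ ≤ V ^ ξ := Real.rpow_le_rpow (nr_pos ha0).le ((mem_sqf hV0).1 ha).2 hξ
      have h4 : 0 ≤ N / nP G := div_nonneg (by linarith) (nP_pos (ne_zero_of_subset_pf hG)).le
      have h5 : 0 ≤ nr a ^ ξ := Real.rpow_nonneg (nr_pos ha0).le _
      calc _ ≤ w * w ^ 2 * (N + V ^ ξ) := by gcongr
        _ = w ^ 3 * (N + V ^ ξ) := by ring)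
  refine le_trans (le_of_eq ?_) (key.trans ?_)
  · refine congrArg norm ?_
    refine Finset.sum_congr rfl fun n₁ h₁ => Finset.sum_congr rfl fun n₂ h₂ => ?_
    refine congrArg (fun z => β n₁ * conj (β n₂) * z) ?_
    exact Finset.sum_congr rfl fun a ha =>
      orig_eval (mulF_cpow s) (hB.1 n₁ h₁).1 (hB.1 n₂ h₂).1 (ne_zero_of_mem_sqf ha)
  · calc _ ≤ w ^ 3 * (N + V ^ ξ) * D * (w ^ 2 * ∑ n ∈ S, ‖β n‖ ^ 2) :=
          mul_le_mul_of_nonneg_left (Bnd_fin hw β) (by positivity)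
      _ = _ := by ring

theorem bnd_lo {ξ V N D w : ℝ} (hV : 1 ≤ V) (hS : Sieve ξ V N D) (hD : 0 ≤ D)
    {S : Finset O} (hB : Blk N S) (hw : ∀ n ∈ S, 2 ^ (pf n).card ≤ w) (β : O → ℂ) {s : ℂ}
    (hs : 0 ≤ s.re) (hs' : s.re ≤ 1 / 2) :
    ‖∑ n₁ ∈ S, ∑ n₂ ∈ S, β n₁ * conj (β n₂) *
        ∑ a ∈ (sqf V).filter (fun a => nr a ^ ξ ≤ N / nP (pf n₁ ∩ pf n₂)),
          dualA n₁ n₂ a (fun y => (y : ℂ) ^ (-s))‖ ≤
      4 * w ^ 5 * N ^ (2 * s.re) * D * ∑ n ∈ S, ‖β n‖ ^ 2 := by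
  rcases S.eq_empty_or_nonempty with rfl | hne
  · simp
  obtain ⟨hw1, hN1⟩ := Bnd_basic hB hw hne
  have hNs : 0 ≤ N ^ (2 * s.re) := by positivity
  have key := bil (Λ := 4 * w ^ 3 * N ^ (2 * s.re)) hS hD (by positivity)
    (fun n hn => ⟨(hB.1 n hn).1, (hB.1 n hn).2.2⟩) β
    (fun G a => if nr a ^ ξ ≤ N / nP G then ((nr a : ℝ) : ℂ) ^ (-s) *
      ∏ p ∈ G, (1 - (if p ∣ a then ((((nr p)⁻¹ : ℝ) : ℂ) ^ (-s)) ^ 2 else 1) / (nr p : ℂ)) else 0)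
    (fun m => (((nr m)⁻¹ : ℝ) : ℂ) ^ (-s) / (Real.sqrt (nr m) : ℂ) *
      eu (fun y => (y : ℂ) ^ (-s)) (pf m)) (fun G => (N / nP G / 2) ^ (s.re - 1 / 2) * w)
    (fun n hn G hG => by
      have hP := nP_pos (ne_zero_of_subset_pf hG)
      refine (Bnd_eta hs (ne_zero_of_SP (SP_cof (hB.1 n hn).1 G)) (Bnd_pf_cof G n)
        (hw n hn)).trans (mul_le_mul_of_nonneg_right ?_ (by linarith))
      refine Real.rpow_le_rpow_of_nonpos (by positivity) ?_ (by linarith)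
      rw [nr_cof (hB.1 n hn).1 hG, div_right_comm]
      exact div_le_div_of_nonneg_right (hB.1 n hn).2.1 hP.le)
    (fun n hn G hG a ha => by
      have ha0 := ne_zero_of_mem_sqf ha
      have hP := nP_pos (ne_zero_of_subset_pf hG)
      split_ifs with hc
      · have h1 : ‖((nr a : ℝ) : ℂ) ^ (-s) * ∏ p ∈ G, (1 - (if p ∣ a then
            ((((nr p)⁻¹ : ℝ) : ℂ) ^ (-s)) ^ 2 else 1) / (nr p : ℂ))‖ ≤ w := by
          rw [norm_mul]
          calc _ ≤ 1 * w := by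
                gcongr
                · exact Bnd_norm_psi_le hs (one_le_nr ha0)
                · exact Bnd_dual_c hs' hG (hw n hn) a
            _ = w := by ring
        have h2 : N / nP G ≤ N := div_le_self (by linarith) (one_le_nP (ne_zero_of_subset_pf hG))
        set y := N / nP G / 2 with hy
        have hy0 : 0 < y := by positivity
        have h3 : (y ^ (s.re - 1 / 2)) ^ 2 * y = y ^ (2 * s.re) := by
          rw [← Real.rpow_natCast, ← Real.rpow_mul hy0.le, ← Real.rpow_add_one hy0.ne']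
          congr 1; push_cast; ring
        have h4 : y ^ (2 * s.re) ≤ N ^ (2 * s.re) :=
          Real.rpow_le_rpow hy0.le (by linarith) (by linarith)
        have h5 : 0 ≤ nr a ^ ξ := Real.rpow_nonneg (nr_pos ha0).le _
        have h6 : N / nP G + nr a ^ ξ ≤ 4 * y := by linarith
        calc _ ≤ w * (y ^ (s.re - 1 / 2) * w) ^ 2 * (4 * y) := by gcongr
          _ = 4 * w ^ 3 * ((y ^ (s.re - 1 / 2)) ^ 2 * y) := by ring
          _ ≤ 4 * w ^ 3 * N ^ (2 * s.re) := by rw [h3]; gcongr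
      · simp only [norm_zero, zero_mul]; positivity)
  refine le_trans (le_of_eq ?_) (key.trans ?_)
  · refine congrArg norm ?_
    refine Finset.sum_congr rfl fun n₁ h₁ => Finset.sum_congr rfl fun n₂ h₂ => ?_
    refine congrArg (fun z => β n₁ * conj (β n₂) * z) ?_
    rw [Finset.sum_filter]
    refine Finset.sum_congr rfl fun a ha => ?_
    split_ifs
    · exact dual_eval (mulF_cpow s) (hB.1 n₁ h₁).1 (hB.1 n₂ h₂).1 (ne_zero_of_mem_sqf ha)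
    · simp
  · calc _ ≤ 4 * w ^ 3 * N ^ (2 * s.re) * D * (w ^ 2 * ∑ n ∈ S, ‖β n‖ ^ 2) :=
          mul_le_mul_of_nonneg_left (Bnd_fin hw β) (by positivity)
      _ = _ := by ring

theorem bnd_hi {ξ V N D w : ℝ} (hξ : 1 ≤ ξ) (hV : 1 ≤ V) (hS : Sieve ξ V N D) (hD : 0 ≤ D)
    {S : Finset O} (hB : Blk N S) (hw : ∀ n ∈ S, 2 ^ (pf n).card ≤ w) (β : O → ℂ) {s : ℂ}
    (hs : 0 ≤ s.re) (hs' : s.re ≤ 1 / 2) :
    ‖∑ n₁ ∈ S, ∑ n₂ ∈ S, β n₁ * conj (β n₂) *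
        ∑ a ∈ (sqf V).filter (fun a => ¬ nr a ^ ξ ≤ N / nP (pf n₁ ∩ pf n₂)),
          dualA n₁ n₂ a (fun y => (y : ℂ) ^ (-s))‖ ≤
      2 * w ^ 5 * V ^ (ξ - s.re) * D * ∑ n ∈ S, ‖β n‖ ^ 2 := by
  rcases S.eq_empty_or_nonempty with rfl | hne
  · simp
  obtain ⟨hw1, hN1⟩ := Bnd_basic hB hw hne
  have hV0 : 0 ≤ V := by linarith
  have hVs : 0 ≤ V ^ (ξ - s.re) := by positivity
  have key := bil (Λ := 2 * w ^ 3 * V ^ (ξ - s.re)) hS hD (by positivity)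
    (fun n hn => ⟨(hB.1 n hn).1, (hB.1 n hn).2.2⟩) β
    (fun G a => if ¬ nr a ^ ξ ≤ N / nP G then ((nr a : ℝ) : ℂ) ^ (-s) *
      ∏ p ∈ G, (1 - (if p ∣ a then ((((nr p)⁻¹ : ℝ) : ℂ) ^ (-s)) ^ 2 else 1) / (nr p : ℂ)) else 0)
    (fun m => (((nr m)⁻¹ : ℝ) : ℂ) ^ (-s) / (Real.sqrt (nr m) : ℂ) *
      eu (fun y => (y : ℂ) ^ (-s)) (pf m)) (fun _ => w)
    (fun n hn G _ => by
      have hm := ne_zero_of_SP (SP_cof (hB.1 n hn).1 G)
      refine (Bnd_eta hs hm (Bnd_pf_cof G n) (hw n hn)).trans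
        (mul_le_of_le_one_left (by linarith) ?_)
      exact Real.rpow_le_one_of_one_le_of_nonpos (one_le_nr hm) (by linarith))
    (fun n hn G hG a ha => by
      have ha0 := ne_zero_of_mem_sqf ha
      have hP := nP_pos (ne_zero_of_subset_pf hG)
      have ha1 := nr_pos ha0
      by_cases hc : nr a ^ ξ ≤ N / nP G
      · rw [if_neg (not_not.2 hc)]
        simp only [norm_zero, zero_mul]; positivity
      · rw [if_pos hc]
        have h1 : ‖((nr a : ℝ) : ℂ) ^ (-s) * ∏ p ∈ G, (1 - (if p ∣ a then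
            ((((nr p)⁻¹ : ℝ) : ℂ) ^ (-s)) ^ 2 else 1) / (nr p : ℂ))‖ ≤ nr a ^ (-s.re) * w := by
          rw [norm_mul, Bnd_norm_psi s ha1]
          exact mul_le_mul_of_nonneg_left (Bnd_dual_c hs' hG (hw n hn) a) (by positivity)
        have h3 : nr a ^ (-s.re) * nr a ^ ξ = nr a ^ (ξ - s.re) := by
          rw [← Real.rpow_add ha1]; congr 1; ring
        have h4 : nr a ^ (ξ - s.re) ≤ V ^ (ξ - s.re) :=
          Real.rpow_le_rpow ha1.le ((mem_sqf hV0).1 ha).2 (by linarith)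
        have h5 : 0 ≤ N / nP G := by positivity
        have h6 : N / nP G + nr a ^ ξ ≤ 2 * nr a ^ ξ := by linarith [not_le.1 hc]
        calc _ ≤ nr a ^ (-s.re) * w * w ^ 2 * (2 * nr a ^ ξ) := by gcongr
          _ = 2 * w ^ 3 * (nr a ^ (-s.re) * nr a ^ ξ) := by ring
          _ ≤ 2 * w ^ 3 * V ^ (ξ - s.re) := by rw [h3]; gcongr)
  refine le_trans (le_of_eq ?_) (key.trans ?_)
  · refine congrArg norm ?_
    refine Finset.sum_congr rfl fun n₁ h₁ => Finset.sum_congr rfl fun n₂ h₂ => ?_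
    refine congrArg (fun z => β n₁ * conj (β n₂) * z) ?_
    rw [Finset.sum_filter]
    refine Finset.sum_congr rfl fun a ha => ?_
    by_cases hc : nr a ^ ξ ≤ N / nP (pf n₁ ∩ pf n₂)
    · rw [if_neg (not_not.2 hc), if_neg (not_not.2 hc)]; simp
    · rw [if_pos hc, if_pos hc]
      exact dual_eval (mulF_cpow s) (hB.1 n₁ h₁).1 (hB.1 n₂ h₂).1 (ne_zero_of_mem_sqf ha)
  · calc _ ≤ 2 * w ^ 3 * V ^ (ξ - s.re) * D * (w ^ 2 * ∑ n ∈ S, ‖β n‖ ^ 2) :=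
          mul_le_mul_of_nonneg_left (Bnd_fin hw β) (by positivity)
      _ = _ := by ring

end Crest.Agent.R17.LS2
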