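import Crest.Agent.R17.LS2Pois
import Crest.Agent.R17.LS2Eval

/-!
# Row 17, module M7 (quadratic large sieve): the sum over the rows with large kernel for a pair of columns
-/

set_option autoImplicit false

noncomputable section

namespace Crest.Agent.R17.LS2

open scoped ComplexConjugate
open Classical

theorem pair_summable {X : ℝ} (hX : 0 < X) (n₁ n₂ : O) :
    Summable fun k : O => (gw (nr k / X) : ℂ) * (quad n₁ k * quad n₂ k) := by
  refine Summable.of_norm_bounded (summable_gw' hX) fun k => ?_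
  rw [norm_mul, norm_mul, Complex.norm_real, Real.norm_of_nonneg (gw_pos _).le]
  exact mul_le_of_le_one_right (gw_pos _).le
    (mul_le_one₀ (norm_quad_le _ _) (norm_nonneg _) (norm_quad_le _ _))

theorem pair_quad_sq {n : O} (h : SP 6 n) (a c : O) :
    quad n (a * c ^ 2) = if ∀ p ∈ pf n, ¬ p ∣ c then quad n a else 0 := by
  rw [quad_mul_right (PO_of_SP h), sq, quad_mul_right (PO_of_SP h), ← sq]
  split_ifs with hc
  · rw [quad_sq h.1 ((isCoprime_iff_pf h.1 c).2 hc), mul_one]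
  · rw [(Symbol_quad_eq_zero_iff h.1).2 fun h' => hc ((isCoprime_iff_pf h.1 c).1 h')]
    simp

theorem pair_row {X : ℝ} (hX : 0 < X) {n₁ n₂ a : O} (h₁ : SP 6 n₁) (h₂ : SP 6 n₂) (ha : a ≠ 0) :
    (∑' c : O, if c = 0 then 0 else
        (gw (nr (a * c ^ 2) / X) : ℂ) * (quad n₁ (a * c ^ 2) * quad n₂ (a * c ^ 2))) =
      origA n₁ n₂ a (fun y => (th2 (y / X) : ℂ)) := by
  have hS : ∀ p ∈ pf n₁ ∪ pf n₂, Prime p ∧ Primary p := fun p hp => by
    rcases Finset.mem_union.1 hp with h | h <;> exact BasicB.pf_sub h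
  have hg : Summable fun c : O =>
      (((if c = 0 then (0 : ℝ) else gw (nr a / X * nr c ^ 2)) : ℝ) : ℂ) :=
    Complex.summable_ofReal.2 (summable_th2 (div_pos (nr_pos ha) hX))
  have hs := tsum_sieve hS hg
  have e1 : ∀ c : O, (if c = 0 then 0 else
      (gw (nr (a * c ^ 2) / X) : ℂ) * (quad n₁ (a * c ^ 2) * quad n₂ (a * c ^ 2))) =
      quad n₁ a * quad n₂ a * (if ∀ p ∈ pf n₁ ∪ pf n₂, ¬ p ∣ c then
        (((if c = 0 then (0 : ℝ) else gw (nr a / X * nr c ^ 2)) : ℝ) : ℂ) else 0) := by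
    intro c
    have e : nr (a * c ^ 2) / X = nr a / X * nr c ^ 2 := by rw [nr_mul, nr_pow]; ring
    rw [pair_quad_sq h₁, pair_quad_sq h₂, e]
    simp only [Finset.forall_mem_union]
    by_cases hc : c = 0
    · simp [hc]
    · by_cases k₁ : ∀ p ∈ pf n₁, ¬ p ∣ c <;> by_cases k₂ : ∀ p ∈ pf n₂, ¬ p ∣ c
      · rw [if_neg hc, if_pos k₁, if_pos k₂, if_pos ⟨k₁, k₂⟩, if_neg hc]; ring
      · rw [if_neg hc, if_neg k₂, if_neg (c := _ ∧ _) fun h => k₂ h.2]; ring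
      · rw [if_neg hc, if_neg k₁, if_neg (c := _ ∧ _) fun h => k₁ h.1]; ring
      · rw [if_neg hc, if_neg k₁, if_neg (c := _ ∧ _) fun h => k₁ h.1]; ring
  rw [tsum_congr e1, tsum_mul_left, hs, origA]
  congr 1
  refine Finset.sum_congr rfl fun T hT => ?_
  have hT0 : (∏ p ∈ T, p) ≠ 0 :=
    Finset.prod_ne_zero_iff.2 fun p hp => (hS p (Finset.mem_powerset.1 hT hp)).1.ne_zero
  rw [th2, Complex.ofReal_tsum]
  congr 1
  refine tsum_congr fun c => ?_
  have e : nr a / X * nr ((∏ p ∈ T, p) * c) ^ 2 = nr a * nP T ^ 2 / X * nr c ^ 2 := by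
    rw [nr_mul, nr_prod]; ring
  rw [e]
  simp only [mul_eq_zero, hT0, false_or]

theorem pair_origA_sub (n₁ n₂ a : O) (f g : ℝ → ℂ) :
    origA n₁ n₂ a (fun y => f y - g y) = origA n₁ n₂ a f - origA n₁ n₂ a g := by
  simp only [origA, mul_sub, Finset.sum_sub_distrib]

theorem pair_dualA_sub (n₁ n₂ a : O) (f g : ℝ → ℂ) :
    dualA n₁ n₂ a (fun y => f y - g y) = dualA n₁ n₂ a f - dualA n₁ n₂ a g := by
  simp only [dualA, dualB, mul_sub, Finset.sum_sub_distrib]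

/-- Original side. -/
theorem orig_eq (V : ℝ) {X : ℝ} (hX : 0 < X) {n₁ n₂ : O} (h₁ : SP 6 n₁) (h₂ : SP 6 n₂) :
    6 * (∑' k : O, if k ∈ PP V then (gw (nr k / X) : ℂ) * (quad n₁ k * quad n₂ k) else 0) =
      ∑ a ∈ sqf V, origA n₁ n₂ a (fun y => (th2 (y / X) : ℂ)) := by
  rw [← tsum_kernel V (pair_summable hX n₁ n₂)]
  exact Finset.sum_congr rfl fun a ha => pair_row hX h₁ h₂ (ne_zero_of_mem_sqf ha)

theorem pair_est (κ V : ℝ) {X : ℝ} (hX : 0 < X) {n₁ n₂ : O} (h₁ : SP 6 n₁) (h₂ : SP 6 n₂)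
    (h4 : (4 : O) ∣ n₁ - n₂) :
    ‖6 * (∑' k : O, if k ∈ PP V then 0 else (gw (nr k / X) : ℂ) * (quad n₁ k * quad n₂ k)) -
        ∑ a ∈ sqf V, ((X : ℂ) * dualA n₁ n₂ a (fun y => (Er κ (y * X) : ℂ)) -
          origA n₁ n₂ a (fun y => (Er κ (y / X) : ℂ)))‖ ≤
      6 * 2 ^ (pf n₁).card * X * ((if n₁ = n₂ then 1 else 0) +
        ∑' h : O, if V < nr h then gw (X * nr h / (nr n₁ * nr n₂)) else 0) := by
  have hF := pair_summable hX n₁ n₂
  have hP : Summable fun k : O =>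
      if k ∈ PP V then (gw (nr k / X) : ℂ) * (quad n₁ k * quad n₂ k) else 0 :=
    (hF.indicator (PP V)).congr fun k => by rw [Set.indicator_apply]
  have e1 : (∑' k : O, if k ∈ PP V then 0 else (gw (nr k / X) : ℂ) * (quad n₁ k * quad n₂ k)) =
      (∑' k : O, (gw (nr k / X) : ℂ) * (quad n₁ k * quad n₂ k)) -
        ∑' k : O, if k ∈ PP V then (gw (nr k / X) : ℂ) * (quad n₁ k * quad n₂ k) else 0 := by
    rw [← hF.tsum_sub hP]
    refine tsum_congr fun k => ?_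
    split_ifs <;> simp
  have e2 : ∀ a ∈ sqf V, (X : ℂ) * dualA n₁ n₂ a (fun y => (Er κ (y * X) : ℂ)) -
      origA n₁ n₂ a (fun y => (Er κ (y / X) : ℂ)) =
      (X : ℂ) * dualA n₁ n₂ a (fun y => (th2 (y * X) : ℂ)) -
        origA n₁ n₂ a (fun y => (th2 (y / X) : ℂ)) := by
    intro a ha
    have h := main_cancel κ hX h₁ h₂ (ne_zero_of_mem_sqf ha)
    simp only [Er, Complex.ofReal_sub]
    rw [pair_origA_sub, pair_dualA_sub, ← h]
    ring
  rw [e1, Finset.sum_congr rfl e2, Finset.sum_sub_distrib, ← orig_eq V hX h₁ h₂, ← Finset.mul_sum]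
  convert dual_est V hX h₁ h₂ h4 using 2
  ring

end Crest.Agent.R17.LS2
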