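import Mathlib

/-! Theta inversion for complex binary quadratic forms. -/

set_option autoImplicit false

noncomputable section

namespace Crest.Agent.R17.RecipB

open Complex
open scoped Real

def tm (α β γ : ℂ) (x y : ℤ) : ℂ := cexp (-π * (α * x ^ 2 + 2 * β * x * y + γ * y ^ 2))

def PD (α β γ : ℂ) : Prop := 0 < α.re ∧ β.re ^ 2 < α.re * γ.re

def Th (α β γ : ℂ) : ℂ := ∑' p : ℤ × ℤ, tm α β γ p.1 p.2

theorem PD.swap {α β γ : ℂ} (h : PD α β γ) : PD γ β α := by
  refine ⟨?_, by rw [mul_comm]; exact h.2⟩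
  by_contra h0
  nlinarith [h.1, h.2, sq_nonneg β.re]

theorem summable_gauss {c : ℝ} (hc : 0 < c) : Summable fun x : ℤ => Real.exp (-π * c * x ^ 2) := by
  have h := ((summable_jacobiTheta₂_term_iff 0 (I * c)).2 (by simpa using hc)).norm
  refine h.congr fun x => ?_
  rw [jacobiTheta₂_term, Complex.norm_exp]
  congr 1
  have : 2 * π * I * x * 0 + π * I * x ^ 2 * (I * c) = ((-π * c * x ^ 2 : ℝ) : ℂ) := by
    push_cast
    linear_combination (π * x ^ 2 * c : ℂ) * I_mul_I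
  rw [this, ofReal_re]

theorem norm_tm (α β γ : ℂ) (x y : ℤ) :
    ‖tm α β γ x y‖ = Real.exp (-π * (α.re * x ^ 2 + 2 * β.re * x * y + γ.re * y ^ 2)) := by
  rw [tm, Complex.norm_exp]
  congr 1
  simp [sq]

theorem PD.summable {α β γ : ℂ} (h : PD α β γ) :
    Summable fun p : ℤ × ℤ => tm α β γ p.1 p.2 := by
  have h1 := h.1
  have h2 := h.swap.1
  have h3 := h.2
  set c := (α.re * γ.re - β.re ^ 2) / (α.re + γ.re) with hc
  have hc0 : 0 < c := div_pos (by linarith) (by linarith)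
  have hs := (summable_gauss hc0).mul_of_nonneg (summable_gauss hc0) (fun _ => (Real.exp_pos _).le)
    (fun _ => (Real.exp_pos _).le)
  refine hs.of_norm_bounded fun p => ?_
  rw [norm_tm, ← Real.exp_add, Real.exp_le_exp]
  have key : c * ((p.1 : ℝ) ^ 2 + p.2 ^ 2) ≤
      α.re * p.1 ^ 2 + 2 * β.re * p.1 * p.2 + γ.re * p.2 ^ 2 := by
    rw [hc, div_mul_eq_mul_div, div_le_iff₀ (by linarith)]
    nlinarith [sq_nonneg (α.re * p.1 + β.re * p.2), sq_nonneg (β.re * p.1 + γ.re * p.2)]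
  nlinarith [Real.pi_pos]

theorem Th_swap (α β γ : ℂ) : Th α β γ = Th γ β α := by
  rw [Th, Th, ← (Equiv.prodComm ℤ ℤ).tsum_eq]
  refine tsum_congr fun p => ?_
  simp only [tm, Equiv.prodComm_apply, Prod.fst_swap, Prod.snd_swap]
  congr 1
  ring

theorem Th_neg (α β γ : ℂ) : Th α (-β) γ = Th α β γ := by
  rw [Th, Th, ← ((Equiv.neg ℤ).prodCongr (Equiv.refl ℤ)).tsum_eq]
  refine tsum_congr fun p => ?_
  simp only [tm, Equiv.prodCongr_apply, Prod.map_fst, Prod.map_snd, Equiv.neg_apply,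
    Equiv.refl_apply]
  congr 1
  push_cast
  ring

theorem PD.step {α β γ : ℂ} (h : PD α β γ) : PD (1 / α) (-I * β / α) (γ - β ^ 2 / α) := by
  have h1 := h.1
  have h3 := h.2
  have hn : 0 < normSq α := normSq_pos.2 fun h0 => by simp [h0] at h1
  have e1 : (1 / α).re = α.re / normSq α := by simp
  have e2 : (-I * β / α).re = (β.im * α.re - β.re * α.im) / normSq α := by
    simp [div_re]; ring
  have e3 : (γ - β ^ 2 / α).re = γ.re -
      ((β.re ^ 2 - β.im ^ 2) * α.re + 2 * β.re * β.im * α.im) / normSq α := by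
    simp [div_re, sq]; ring
  refine ⟨by rw [e1]; positivity, ?_⟩
  rw [e1, e2, e3, ← sub_pos]
  have e4 : α.re / normSq α * (γ.re -
      ((β.re ^ 2 - β.im ^ 2) * α.re + 2 * β.re * β.im * α.im) / normSq α) -
      ((β.im * α.re - β.re * α.im) / normSq α) ^ 2 = (α.re * γ.re - β.re ^ 2) / normSq α := by
    field_simp
    rw [normSq_apply]
    ring
  rw [e4]
  exact div_pos (by linarith) hn

theorem PD.th_eq {α β γ : ℂ} (h : PD α β γ) : Th α β γ = ∑' y : ℤ, ∑' x : ℤ, tm α β γ x y := by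
  rw [Th, h.summable.tsum_prod]
  exact (Summable.tsum_comm (f := tm α β γ) h.summable).symm

theorem PD.th_step {α β γ : ℂ} (h : PD α β γ) :
    Th α β γ = 1 / α ^ (1 / 2 : ℂ) * Th (1 / α) (-I * β / α) (γ - β ^ 2 / α) := by
  have hα : α ≠ 0 := fun h0 => by simpa [h0] using h.1
  rw [h.th_eq, h.step.th_eq, ← tsum_mul_left]
  refine tsum_congr fun y => ?_
  have h1 : ∀ x : ℤ, tm α β γ x y =
      cexp (-π * γ * y ^ 2) * cexp (-π * α * x ^ 2 + 2 * π * (-β * y) * x) := fun x => by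
    rw [tm, ← Complex.exp_add]
    congr 1
    ring
  have h2 : ∀ x : ℤ, tm (1 / α) (-I * β / α) (γ - β ^ 2 / α) x y =
      cexp (-π * γ * y ^ 2) * cexp (-π / α * (x + I * (-β * y)) ^ 2) := fun x => by
    rw [tm, ← Complex.exp_add]
    congr 1
    field_simp
    linear_combination (β ^ 2 * y ^ 2) * I_mul_I
  simp only [h1, h2, tsum_mul_left]
  rw [Complex.tsum_exp_neg_quadratic h.1]
  ring

theorem sqrt_branch {α : ℂ} (h : 0 < α.re) {D : ℝ} (hD : 0 < D) :
    α ^ (1 / 2 : ℂ) * (D / α) ^ (1 / 2 : ℂ) = (Real.sqrt D : ℂ) := by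
  have hα : α ≠ 0 := fun h0 => by simp [h0] at h
  have harg : α.arg ≠ π := fun h0 => by
    have := (Complex.arg_eq_pi_iff.1 h0).1
    linarith
  have hD' : (D : ℂ) ≠ 0 := by exact_mod_cast hD.ne'
  rw [cpow_def_of_ne_zero hα, cpow_def_of_ne_zero (div_ne_zero hD' hα), div_eq_mul_inv (D : ℂ),
    log_ofReal_mul hD (inv_ne_zero hα), log_inv _ harg, ← Complex.exp_add, Real.sqrt_eq_rpow,
    Real.rpow_def_of_pos hD]
  push_cast
  congr 1
  ring

/-- Theta inversion for a binary form with positive real determinant. -/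
theorem PD.th_inv {α β γ : ℂ} (h : PD α β γ) {D : ℝ} (hD : 0 < D) (hd : α * γ - β ^ 2 = D) :
    Th α β γ = (Real.sqrt D : ℂ)⁻¹ * Th (α / D) (β / D) (γ / D) := by
  have hα : α ≠ 0 := fun h0 => by simpa [h0] using h.1
  have hD' : (D : ℂ) ≠ 0 := by exact_mod_cast hD.ne'
  have e1 : γ - β ^ 2 / α = D / α := by rw [← hd]; field_simp
  rw [h.th_step, Th_swap, h.step.swap.th_step, e1, ← sqrt_branch h.1 hD, ← Th_neg (α / D)]
  have e2 : 1 / (D / α) = α / D := by field_simp
  have e3 : -I * (-I * β / α) / (D / α) = -(β / D) := by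
    field_simp
    linear_combination β * I_mul_I
  have e4 : 1 / α - (-I * β / α) ^ 2 / (D / α) = γ / D := by
    field_simp
    linear_combination (-β ^ 2) * I_mul_I - hd
  rw [e2, e3, e4]
  ring

end Crest.Agent.R17.RecipB
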