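import Crest.Agent.R17.LS2Defs
import Crest.Agent.R17.RecipTheta

/-!
# Row 17, module M7 (quadratic large sieve): the sum `th2`
-/

set_option autoImplicit false

noncomputable section

namespace Crest.Agent.R17.LS2

open scoped ComplexConjugate
open Classical MeasureTheory

theorem Theta_le {y : ℝ} (hy : 0 ≤ y) (c : O) :
    (if c = 0 then (0 : ℝ) else gw (y * nr c ^ 2)) ≤ if c = 0 then 0 else gw (y * nr c) := by
  split_ifs with h
  · exact le_rfl
  · have := one_le_nr h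
    exact gw_antitone (mul_le_mul_of_nonneg_left (by nlinarith) hy)

theorem Theta_nonneg (x : O → ℝ) (c : O) : 0 ≤ if c = 0 then (0 : ℝ) else gw (x c) := by
  split_ifs
  · exact le_rfl
  · exact (gw_pos _).le

theorem Theta_summable {y : ℝ} (hy : 0 < y) :
    Summable (fun c : O => if c = 0 then (0 : ℝ) else gw (y * nr c)) := by
  refine Summable.of_nonneg_of_le (Theta_nonneg _) (fun c => ?_) (summable_gw' (inv_pos.2 hy))
  rw [div_inv_eq_mul, mul_comm]
  split_ifs
  · exact (gw_pos _).le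
  · exact le_rfl

theorem summable_th2 {y : ℝ} (hy : 0 < y) :
    Summable (fun c : O => if c = 0 then (0 : ℝ) else gw (y * nr c ^ 2)) := by
  exact Summable.of_nonneg_of_le (Theta_nonneg _) (Theta_le hy.le) (Theta_summable hy)

theorem measurable_Er (κ : ℝ) : Measurable (fun x : ℝ => Er κ (Real.exp x)) := by
  have h : Antitone fun x : ℝ => th2 (Real.exp x) := by
    intro x y hxy
    refine (summable_th2 (Real.exp_pos y)).tsum_le_tsum (fun c => ?_)
      (summable_th2 (Real.exp_pos x))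
    split_ifs
    · exact le_rfl
    · exact gw_antitone (mul_le_mul_of_nonneg_right (Real.exp_le_exp.2 hxy) (sq_nonneg _))
  exact h.measurable.sub (by fun_prop)

/-- the constant `2π/√3` -/
def Theta_c : ℝ := 2 * Real.pi / Real.sqrt 3

theorem Theta_c_ge : 3 ≤ Theta_c := pois_three_le

theorem Theta_c_pos : 0 < Theta_c := lt_of_lt_of_le (by norm_num) Theta_c_ge

/-- the terms of the theta series -/
def Theta_t (z : ℂ) (c : O) : ℂ := if c = 0 then 0 else Complex.exp (-z * (nr c : ℝ))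

theorem Theta_t_norm (z : ℂ) (c : O) :
    ‖Theta_t z c‖ = if c = 0 then 0 else gw (z.re / Theta_c * nr c) := by
  have := Theta_c_pos
  rw [Theta_t]
  split_ifs
  · exact norm_zero
  · rw [Complex.norm_exp, gw]
    congr 1
    change _ = -Theta_c * _
    simp only [Complex.mul_re, Complex.neg_re, Complex.ofReal_re, Complex.ofReal_im, mul_zero,
      sub_zero]
    field_simp

theorem Theta_t_summable {z : ℂ} (hz : 0 < z.re) : Summable fun c => ‖Theta_t z c‖ := by
  simp only [Theta_t_norm]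
  exact Theta_summable (div_pos hz Theta_c_pos)

theorem Theta_S_le {z : ℂ} (hz : 0 < z.re) : ‖∑' c, Theta_t z c‖ ≤ 7 / z.re := by
  refine (norm_tsum_le_tsum_norm (Theta_t_summable hz)).trans ?_
  simp only [Theta_t_norm]
  refine (pois_tsum_ne_zero_le (div_pos hz Theta_c_pos)).trans ?_
  have e : gw (z.re / Theta_c) = Real.exp (-z.re) := by
    have := Theta_c_pos
    rw [gw]
    congr 1
    change -Theta_c * _ = _
    field_simp
  have h1 : Real.exp (-z.re) < 1 := Real.exp_lt_one_iff.2 (by linarith)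
  have h2 : Real.exp (-z.re) * (z.re + 1) ≤ 1 := by
    calc Real.exp (-z.re) * (z.re + 1) ≤ Real.exp (-z.re) * Real.exp z.re :=
          mul_le_mul_of_nonneg_left (Real.add_one_le_exp _) (Real.exp_pos _).le
      _ = 1 := by rw [← Real.exp_add, neg_add_cancel, Real.exp_zero]
  rw [e, div_eq_mul_one_div 7]
  refine mul_le_mul_of_nonneg_left ?_ (by norm_num)
  rw [div_le_div_iff₀ (by linarith) hz]
  linarith

theorem Theta_Th {z : ℂ} (hz : 0 < z.re) :
    RecipB.Th (z / Real.pi) (-(z / Real.pi / 2)) (z / Real.pi) = 1 + ∑' c, Theta_t z c := by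
  have hπ : (Real.pi : ℂ) ≠ 0 := Complex.ofReal_ne_zero.2 Real.pi_ne_zero
  have e : ∀ p : ℤ × ℤ, RecipB.tm (z / Real.pi) (-(z / Real.pi / 2)) (z / Real.pi) p.1 p.2 =
      Complex.exp (-z * (nr (poisE p) : ℝ)) := by
    intro p
    have h : ((nr (poisE p) : ℝ) : ℂ) = (p.1 : ℂ) ^ 2 - p.1 * p.2 + (p.2 : ℂ) ^ 2 := by
      have := nm_cast (poisE p)
      change (nm (poisE p) : ℤ) = p.1 ^ 2 - p.1 * p.2 + p.2 ^ 2 at this
      rw [nr, Complex.ofReal_natCast]
      exact_mod_cast this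
    rw [RecipB.tm, h]
    congr 1
    field_simp
    ring
  have hs : Summable fun c : O => Complex.exp (-z * (nr c : ℝ)) := by
    refine ((hasSum_ite_eq (0 : O) (1 : ℂ)).summable.add (Theta_t_summable hz).of_norm).congr
      fun c => ?_
    rw [Theta_t]
    split_ifs with h
    · simp [h]
    · rw [zero_add]
  rw [RecipB.Th, tsum_congr e, poisE.tsum_eq fun c => Complex.exp (-z * (nr c : ℝ)),
    hs.tsum_eq_add_tsum_ite 0]
  congr 1
  simp

theorem Theta_inv0 {a : ℂ} (ha : 0 < a.re) :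
    RecipB.Th a (-(a / 2)) a =
      2 / (Real.sqrt 3 * a) * RecipB.Th (4 / (3 * a)) (-(4 / (3 * a) / 2)) (4 / (3 * a)) := by
  have h0 : a ≠ 0 := fun h => by simp [h] at ha
  have h : RecipB.PD a (-(a / 2)) a := ⟨ha, by simp; nlinarith⟩
  have e1 : a - (-(a / 2)) ^ 2 / a = ((3 / 4 : ℝ) : ℂ) * a := by
    push_cast
    field_simp
    ring
  have e5 : a ^ (1 / 2 : ℂ) * (((3 / 4 : ℝ) : ℂ) * a) ^ (1 / 2 : ℂ) = Real.sqrt 3 * a / 2 := by
    have h34 : Real.sqrt 3 / 2 = Real.exp (Real.log (3 / 4) * (1 / 2)) := by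
      rw [← Real.rpow_def_of_pos (by norm_num), ← Real.sqrt_eq_rpow, Real.sqrt_div (by norm_num),
        show (4 : ℝ) = 2 ^ 2 by norm_num, Real.sqrt_sq (by norm_num)]
    rw [Complex.cpow_def_of_ne_zero h0, Complex.cpow_def_of_ne_zero (mul_ne_zero (by norm_num) h0),
      Complex.log_ofReal_mul (by norm_num) h0, ← Complex.exp_add,
      show (Real.sqrt 3 : ℂ) * a / 2 = ((Real.sqrt 3 / 2 : ℝ) : ℂ) * a by push_cast; ring, h34,
      Complex.ofReal_exp]
    conv_rhs => rw [← Complex.exp_log h0, ← Complex.exp_add]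
    congr 1
    push_cast
    ring
  rw [h.th_step, RecipB.Th_swap, h.step.swap.th_step, e1, RecipB.Th_neg (4 / (3 * a))]
  have e2 : 1 / (((3 / 4 : ℝ) : ℂ) * a) = 4 / (3 * a) := by
    push_cast
    field_simp
  have e3 : -Complex.I * (-Complex.I * -(a / 2) / a) / (((3 / 4 : ℝ) : ℂ) * a) =
      4 / (3 * a) / 2 := by
    push_cast
    field_simp
    linear_combination (-1) * Complex.I_mul_I
  have e4 : 1 / a - (-Complex.I * -(a / 2) / a) ^ 2 / (((3 / 4 : ℝ) : ℂ) * a) = 4 / (3 * a) := by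
    push_cast
    field_simp
    linear_combination (-4) * Complex.I_mul_I
  rw [e2, e3, e4, ← mul_assoc, one_div_mul_one_div, e5, one_div_div]

theorem Theta_re (z : ℂ) :
    ((Theta_c : ℂ) ^ 2 / z).re = Theta_c ^ 2 * z.re / ‖z‖ ^ 2 := by
  rw [← Complex.ofReal_pow, div_eq_mul_inv, Complex.re_ofReal_mul, Complex.inv_re,
    Complex.normSq_eq_norm_sq, mul_div_assoc]

theorem Theta_inv {z : ℂ} (hz : 0 < z.re) :
    1 + ∑' c, Theta_t z c = Theta_c / z * (1 + ∑' c, Theta_t ((Theta_c : ℂ) ^ 2 / z) c) := by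
  have h0 : z ≠ 0 := fun h => by simp [h] at hz
  have hn : 0 < ‖z‖ := norm_pos_iff.2 h0
  have hc := Theta_c_pos
  have hπ : (Real.pi : ℂ) ≠ 0 := Complex.ofReal_ne_zero.2 Real.pi_ne_zero
  have h3 : ((Real.sqrt 3 : ℝ) : ℂ) ≠ 0 := Complex.ofReal_ne_zero.2 (by positivity)
  have h33 : ((Real.sqrt 3 : ℝ) : ℂ) ^ 2 = 3 := by
    rw [← Complex.ofReal_pow, Real.sq_sqrt (by norm_num)]
    norm_num
  have e : (Theta_c : ℂ) ^ 2 / z / Real.pi = 4 / (3 * (z / Real.pi)) := by
    rw [Theta_c]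
    push_cast
    rw [div_pow, h33]
    field_simp
    ring
  rw [← Theta_Th hz, ← Theta_Th (by rw [Theta_re z]; positivity), e,
    Theta_inv0 (by rw [Complex.div_ofReal_re]; exact div_pos hz Real.pi_pos), Theta_c]
  congr 1
  push_cast
  field_simp

theorem Theta_main {z : ℂ} (hz : 0 < z.re) :
    ‖∑' c, Theta_t z c - Theta_c / z‖ ≤ 1 + 3 * (‖z‖ / z.re) := by
  have h0 : z ≠ 0 := fun h => by simp [h] at hz
  have hn : 0 < ‖z‖ := norm_pos_iff.2 h0
  have hc := Theta_c_pos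
  have e : ∑' c, Theta_t z c - Theta_c / z =
      -1 + Theta_c / z * ∑' c, Theta_t ((Theta_c : ℂ) ^ 2 / z) c := by
    linear_combination Theta_inv hz
  have h1 := Theta_S_le (z := (Theta_c : ℂ) ^ 2 / z) (by rw [Theta_re z]; positivity)
  rw [e]
  refine (norm_add_le _ _).trans (add_le_add (by simp) ?_)
  rw [norm_mul, norm_div, Complex.norm_real, Real.norm_of_nonneg hc.le]
  rw [Theta_re z] at h1
  calc _ ≤ Theta_c / ‖z‖ * (7 / (Theta_c ^ 2 * z.re / ‖z‖ ^ 2)) := by gcongr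
    _ = 7 / Theta_c * (‖z‖ / z.re) := by field_simp
    _ ≤ _ := by
        gcongr
        rw [div_le_iff₀ hc]
        linarith [Theta_c_ge]

theorem Theta_Wm_cont : Continuous fun u : ℝ => Wm (((1 : ℝ) : ℂ) + u * Complex.I) :=
  differentiable_Wm.continuous.comp (by fun_prop)

theorem Theta_Wm_int : Integrable fun u : ℝ => Wm (((1 : ℝ) : ℂ) + u * Complex.I) := by
  rw [← integrable_norm_iff Theta_Wm_cont.aestronglyMeasurable]
  simpa using integrable_Wm_mul_pow 1 0

theorem Theta_zre (ρ u : ℝ) : ((ρ : ℂ) * (((1 : ℝ) : ℂ) + u * Complex.I)).re = ρ := by simp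

theorem Theta_t_cont (ρ : ℝ) (c : O) :
    Continuous fun u : ℝ => Theta_t (ρ * (((1 : ℝ) : ℂ) + u * Complex.I)) c := by
  unfold Theta_t
  split_ifs <;> fun_prop

theorem Theta_repr {y : ℝ} (hy : 0 < y) :
    (th2 y : ℂ) = (1 / (2 * Real.pi) : ℂ) * ∫ u : ℝ, Wm (((1 : ℝ) : ℂ) + u * Complex.I) *
      ∑' c, Theta_t (Real.sqrt (Theta_c * y) * (((1 : ℝ) : ℂ) + u * Complex.I)) c := by
  have hc := Theta_c_pos
  set ρ := Real.sqrt (Theta_c * y) with hρ
  have hρ0 : 0 < ρ := Real.sqrt_pos.2 (by positivity)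
  have hi : ∀ c : O, Integrable fun u : ℝ => Wm (((1 : ℝ) : ℂ) + u * Complex.I) *
      Theta_t (ρ * (((1 : ℝ) : ℂ) + u * Complex.I)) c := fun c =>
    Theta_Wm_int.mul_bdd (Theta_t_cont ρ c).aestronglyMeasurable
      (Filter.Eventually.of_forall fun u => by rw [Theta_t_norm, Theta_zre])
  have hs : Summable fun c : O => ∫ u : ℝ, ‖Wm (((1 : ℝ) : ℂ) + u * Complex.I) *
      Theta_t (ρ * (((1 : ℝ) : ℂ) + u * Complex.I)) c‖ := by
    simp only [norm_mul, Theta_t_norm, Theta_zre, integral_mul_const]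
    exact (Theta_summable (div_pos hρ0 hc)).mul_left _
  simp only [← tsum_mul_left]
  rw [← integral_tsum_of_summable_integral_norm hi hs, ← tsum_mul_left, th2, Complex.ofReal_tsum]
  refine tsum_congr fun c => ?_
  simp only [Theta_t]
  split_ifs
  · simp
  have h1 := Wc_eq_integral (Real.exp_pos (ρ * nr c)) 1 0
  have e1 : Wc (Real.exp (ρ * nr c)) 0 = (gw (y * nr c ^ 2) : ℝ) := by
    rw [Wc, Real.log_exp, zero_mul, add_zero, gw, Complex.ofReal_exp]
    congr 1
    rw [← Complex.ofReal_pow, ← Complex.ofReal_neg, mul_pow, hρ, Real.sq_sqrt (by positivity),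
      Theta_c]
    congr 1
    ring
  rw [← e1, h1]
  congr 1
  refine integral_congr_ae (Filter.Eventually.of_forall fun u => ?_)
  simp only [add_zero]
  rw [WA.cpow_eq (Real.exp_pos _), Real.log_exp]
  congr 2
  push_cast
  ring

theorem Theta_unif : ∃ (K : ℂ) (C : ℝ), 0 ≤ C ∧ ∀ y : ℝ, 0 < y →
    ‖(th2 y : ℂ) - K / Real.sqrt (Theta_c * y)‖ ≤ C := by
  have hc := Theta_c_pos
  have hw : ∀ u : ℝ, ((1 : ℝ) : ℂ) + u * Complex.I ≠ 0 := fun u h => by
    simpa using congrArg Complex.re h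
  refine ⟨(1 / (2 * Real.pi) : ℂ) * ∫ u : ℝ, Wm (((1 : ℝ) : ℂ) + u * Complex.I) *
      (Theta_c / (((1 : ℝ) : ℂ) + u * Complex.I)),
    ‖(1 / (2 * Real.pi) : ℂ)‖ * ∫ u : ℝ, 4 * (‖Wm (((1 : ℝ) : ℂ) + u * Complex.I)‖ * (1 + |u|) ^ 1),
    mul_nonneg (norm_nonneg _) (integral_nonneg fun u => by positivity), fun y hy => ?_⟩
  rw [Theta_repr hy]
  set ρ := Real.sqrt (Theta_c * y) with hρ
  have hρ0 : 0 < ρ := Real.sqrt_pos.2 (by positivity)
  have hρ1 : (ρ : ℂ) ≠ 0 := Complex.ofReal_ne_zero.2 hρ0.ne'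
  have i1 : Integrable fun u : ℝ => Wm (((1 : ℝ) : ℂ) + u * Complex.I) *
      ∑' c, Theta_t (ρ * (((1 : ℝ) : ℂ) + u * Complex.I)) c :=
    Theta_Wm_int.mul_bdd (c := 7 / ρ) (continuous_tsum (Theta_t_cont ρ)
      (Theta_summable (div_pos hρ0 hc))
      fun c u => by rw [Theta_t_norm, Theta_zre]).aestronglyMeasurable
      (Filter.Eventually.of_forall fun u => by
        simpa only [Theta_zre] using Theta_S_le
          (z := ρ * (((1 : ℝ) : ℂ) + u * Complex.I)) (by rwa [Theta_zre]))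
  have i2 : Integrable fun u : ℝ => Wm (((1 : ℝ) : ℂ) + u * Complex.I) *
      (Theta_c / (((1 : ℝ) : ℂ) + u * Complex.I)) / ρ := by
    refine (Theta_Wm_int.mul_bdd (c := Theta_c)
      (Continuous.div continuous_const (by fun_prop) hw).aestronglyMeasurable
      (Filter.Eventually.of_forall fun u => ?_)).div_const _
    rw [Pi.div_apply, norm_div, Complex.norm_real, Real.norm_of_nonneg hc.le]
    refine div_le_self hc.le ?_
    simpa using Complex.re_le_norm (((1 : ℝ) : ℂ) + u * Complex.I)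
  rw [mul_div_assoc, ← mul_sub, norm_mul, ← integral_div, ← integral_sub i1 i2]
  refine mul_le_mul_of_nonneg_left (norm_integral_le_of_norm_le
    ((integrable_Wm_mul_pow 1 1).const_mul 4) (Filter.Eventually.of_forall fun u => ?_))
    (norm_nonneg _)
  have h1 := Theta_main (z := ρ * (((1 : ℝ) : ℂ) + u * Complex.I)) (by rwa [Theta_zre])
  rw [Theta_zre, norm_mul, Complex.norm_real, Real.norm_of_nonneg hρ0.le,
    mul_div_cancel_left₀ _ hρ0.ne'] at h1
  have h2 : ‖((1 : ℝ) : ℂ) + u * Complex.I‖ ≤ 1 + |u| :=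
    (norm_add_le _ _).trans (by simp)
  rw [mul_div_assoc, ← mul_sub, norm_mul, div_div, mul_comm _ (ρ : ℂ), pow_one, mul_left_comm]
  refine mul_le_mul_of_nonneg_left ?_ (norm_nonneg _)
  linarith [abs_nonneg u]

/-- `∑_{c ≠ 0} gw (y N(c)²) = κ / √y + O(min 1 (1/√y))`. -/
theorem exists_Er : ∃ κ C : ℝ, 0 < C ∧ ∀ y : ℝ, 0 < y → |Er κ y| ≤ C * min 1 (Real.sqrt y)⁻¹ := by
  obtain ⟨K, C1, hC1, h1⟩ := Theta_unif
  obtain ⟨C2, hC2, h2⟩ := tsum_gw_ne_zero_le (1 / 2)
  have hc := Theta_c_pos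
  refine ⟨K.re / Real.sqrt Theta_c, C1 + (C2 + |K.re / Real.sqrt Theta_c|), by positivity,
    fun y hy => ?_⟩
  have hs : 0 < Real.sqrt y := Real.sqrt_pos.2 hy
  rcases le_total y 1 with h | h
  · rw [min_eq_left ((one_le_inv₀ hs).2 (Real.sqrt_le_one.2 h)), mul_one]
    have e : Er (K.re / Real.sqrt Theta_c) y = ((th2 y : ℂ) - K / Real.sqrt (Theta_c * y)).re := by
      rw [Er, Complex.sub_re, Complex.ofReal_re, Complex.div_ofReal_re, Real.sqrt_mul hc.le,
        div_div]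
    rw [e]
    exact (Complex.abs_re_le_norm _).trans ((h1 y hy).trans (le_add_of_nonneg_right (by positivity)))
  · rw [min_eq_right (inv_le_one_of_one_le₀ (Real.one_le_sqrt.2 h))]
    have h3 : th2 y ≤ C2 * (Real.sqrt y)⁻¹ := by
      have := h2 y h
      rw [Real.rpow_neg hy.le, ← Real.sqrt_eq_rpow] at this
      refine le_trans ?_ this
      convert (summable_th2 hy).tsum_le_tsum (Theta_le hy.le) (Theta_summable hy) using 1
      · rfl
    have h4 : 0 ≤ th2 y := tsum_nonneg (Theta_nonneg _)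
    rw [Er]
    refine (abs_sub _ _).trans ?_
    rw [abs_of_nonneg h4, abs_div _ (Real.sqrt y), abs_of_pos hs, div_eq_mul_inv _ (Real.sqrt y)]
    have : 0 ≤ C1 * (Real.sqrt y)⁻¹ := by positivity
    linarith

end Crest.Agent.R17.LS2
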