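import Crest.Agent.R17.LS2Ker
import Crest.Agent.R17.LS2Theta
import Crest.Agent.R17.Gauss

/-!
# Row 17, module M7 (quadratic large sieve): Poisson summation for a pair of columns
-/

set_option autoImplicit false

noncomputable section

namespace Crest.Agent.R17.LS2

open scoped ComplexConjugate
open Classical

theorem Pois_ft {q : O} (hq : PO q) (hs : Squarefree q) (hg : g4 q = 1) (h : O) :
    ft q (quad q) h = quad q h * (Real.sqrt (nr q) : ℂ) := by
  have h1 : ft q (quad q) h = gs 3 q h := by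
    refine Finset.sum_congr rfl fun x _ => ?_
    rw [sym_pow_add_six hq.1 x (by norm_num), sym_pow_three hq.1]
  have h2 : (Real.sqrt (nr q) : ℂ) ≠ 0 := by
    exact_mod_cast (Real.sqrt_pos.2 (nr_pos hq.1.ne_zero)).ne'
  have h3 := gam_three hq hs
  rw [hg, gam, div_eq_one_iff_eq h2] at h3
  rw [h1, gs_sqfree (by norm_num) hq hs, sym_pow_three hq.1, conj_quad, h3]

theorem Pois_norm_le (q k : O) (x : ℝ) : ‖quad q k * (gw x : ℂ)‖ ≤ gw x := by
  rw [norm_mul, Complex.norm_real, Real.norm_of_nonneg (gw_pos x).le]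
  exact mul_le_of_le_one_left (gw_pos x).le (norm_quad_le q k)

theorem Pois_summable_gw {X W : ℝ} (hX : 0 < X) (hW : 0 < W) :
    Summable (fun k : O => gw (X * nr k / W)) := by
  refine (summable_gw' (div_pos hW hX)).congr fun k => ?_
  congr 1
  field_simp

theorem Pois_step {q e : O} (hq : PO q) (hs : Squarefree q) (hg : g4 q = 1) (he : e ≠ 0) {X : ℝ}
    (hX : 0 < X) :
    ∑' c : O, quad q (e * c) * (gw (nr (e * c) / X) : ℂ) =
      ((X / (nr e * Real.sqrt (nr q)) : ℝ) : ℂ) * ∑' k : O,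
        if e ∣ k then quad q k * (gw (X * nr k / (nr e ^ 2 * nr q)) : ℂ) else 0 := by
  have hNe := nr_pos he
  have hNq := nr_pos hq.1.ne_zero
  have h1 := poisson hq.1.ne_zero (quad q) (fun x y h => quad_congr ((rad_dvd q).trans h))
    (div_pos hX hNe)
  have h2 : ∀ c : O, quad q (e * c) * (gw (nr (e * c) / X) : ℂ) =
      quad q e * (quad q c * (gw (nr c / (X / nr e)) : ℂ)) := fun c => by
    rw [quad_mul_right hq, nr_mul, mul_assoc]
    congr 4
    field_simp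
  have h3 : ∀ c : O, quad q (e * c) * (gw (X * nr (e * c) / (nr e ^ 2 * nr q)) : ℂ) =
      quad q e * (Real.sqrt (nr q) : ℂ)⁻¹ *
        (ft q (quad q) c * (gw (X / nr e * nr c / nr q) : ℂ)) := fun c => by
    have h4 : (Real.sqrt (nr q) : ℂ) ≠ 0 := by exact_mod_cast (Real.sqrt_pos.2 hNq).ne'
    have h5 : X * nr (e * c) / (nr e ^ 2 * nr q) = X / nr e * nr c / nr q := by
      rw [nr_mul]
      field_simp
    rw [Pois_ft hq hs hg, quad_mul_right hq, h5]
    field_simp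
  rw [tsum_dvd he]
  simp only [h2, h3]
  rw [tsum_mul_left, tsum_mul_left, h1, ← mul_assoc, ← mul_assoc]
  congr 1
  have h6 : X / nr e / nr q = X / (nr e * Real.sqrt (nr q)) * (Real.sqrt (nr q))⁻¹ := by
    have h7 := Real.sqrt_pos.2 hNq
    conv_lhs => rw [← Real.mul_self_sqrt hNq.le]
    field_simp
  rw [h6]
  push_cast
  ring

theorem Pois_quad_sq {q : O} (hq : Primary q) (c : O) :
    quad q c ^ 2 = if ∀ p ∈ pf q, ¬ p ∣ c then 1 else 0 := by
  split_ifs with h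
  · exact quad_sq hq ((isCoprime_iff_pf hq c).2 h)
  · rw [(Symbol_quad_eq_zero_iff hq).2 fun h' => h ((isCoprime_iff_pf hq c).1 h')]
    norm_num

theorem Pois_kernel {q a : O} (hq : PO q) {E : Finset O} (hE : ∀ p ∈ E, Prime p ∧ Primary p)
    (hd : Disjoint E (pf q)) (ha : a ≠ 0) {X : ℝ} (hX : 0 < X) :
    ∑' c : O, (if c = 0 then 0 else if (∏ p ∈ E, p) ∣ a * c ^ 2 then quad q (a * c ^ 2) *
      (gw (X * nr (a * c ^ 2) / (nr (∏ p ∈ E, p) ^ 2 * nr q)) : ℂ) else 0) =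
      quad q a * ∑ D ∈ (pf q).powerset, (-1) ^ D.card *
        (th2 (nr a * nP D ^ 2 / (nP (E.filter (· ∣ a)) ^ 2 * nr q) * X) : ℂ) := by
  set E₂ := E.filter (fun p => ¬ p ∣ a) with hE₂
  have hE₂' : ∀ p ∈ E₂, Prime p ∧ Primary p := fun p hp => hE p (Finset.filter_subset _ _ hp)
  obtain ⟨-, hp₂, hpf₂⟩ := squarefree_prod_primes hE₂'
  have hN₁ : 0 < nP (E.filter (· ∣ a)) :=
    nP_pos fun p hp => (hE p (Finset.filter_subset _ _ hp)).1.ne_zero
  have hN₂ : 0 < nP E₂ := nP_pos fun p hp => (hE₂' p hp).1.ne_zero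
  have hNE : nr (∏ p ∈ E, p) = nP (E.filter (· ∣ a)) * nP E₂ := by
    rw [nr_prod, nP, nP, nP, Finset.prod_filter_mul_prod_filter_not]
  have hNq := nr_pos hq.1.ne_zero
  have hNa := nr_pos ha
  set Y : ℝ := nr a / (nP (E.filter (· ∣ a)) ^ 2 * nr q) * X with hY
  have hY0 : 0 < Y := by positivity
  let χ : O → ℂ := fun c => ((if c = 0 then (0 : ℝ) else gw (Y * nr c ^ 2) : ℝ) : ℂ)
  have hχ : Summable χ := Complex.summable_ofReal.2 (summable_th2 hY0)
  have h1 : ∀ c : O, (if c = 0 then 0 else if (∏ p ∈ E, p) ∣ a * c ^ 2 then quad q (a * c ^ 2) *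
      (gw (X * nr (a * c ^ 2) / (nr (∏ p ∈ E, p) ^ 2 * nr q)) : ℂ) else 0) =
      if (∏ p ∈ E₂, p) ∣ c then (if c = 0 then 0 else quad q (a * c ^ 2) *
        (gw (X * nr (a * c ^ 2) / (nr (∏ p ∈ E, p) ^ 2 * nr q)) : ℂ)) else 0 := fun c => by
    rw [if_congr (prod_dvd_mul_sq_iff hE a c) rfl rfl]
    split_ifs <;> rfl
  have h2 : ∀ c : O, (if (∏ p ∈ E₂, p) * c = 0 then 0 else
      quad q (a * ((∏ p ∈ E₂, p) * c) ^ 2) * (gw (X * nr (a * ((∏ p ∈ E₂, p) * c) ^ 2) /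
        (nr (∏ p ∈ E, p) ^ 2 * nr q)) : ℂ)) =
      quad q a * if ∀ p ∈ pf q, ¬ p ∣ c then χ c else 0 := fun c => by
    by_cases hc : c = 0
    · simp [hc, χ]
    have h3 : quad q (∏ p ∈ E₂, p) ^ 2 = 1 := by
      refine quad_sq hq.1 (isCoprime_of_disjoint_pf hq.1 hp₂.ne_zero ?_)
      rw [hpf₂]
      exact (hd.mono_left (Finset.filter_subset _ _)).symm
    have h4 : X * nr (a * ((∏ p ∈ E₂, p) * c) ^ 2) / (nr (∏ p ∈ E, p) ^ 2 * nr q) =
        Y * nr c ^ 2 := by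
      rw [nr_mul, nr_pow, nr_mul, nr_prod E₂, hNE, hY]
      field_simp
    rw [if_neg (mul_ne_zero hp₂.ne_zero hc), h4, quad_mul_right hq, sq, quad_mul_right hq, ← sq,
      quad_mul_right hq, mul_pow, h3, one_mul, Pois_quad_sq hq.1]
    simp only [χ, if_neg hc]
    split_ifs <;> simp
  simp only [h1]
  rw [tsum_dvd hp₂.ne_zero]
  simp only [h2]
  rw [tsum_mul_left, tsum_sieve (fun p hp => BasicB.pf_sub hp) hχ]
  congr 1
  refine Finset.sum_congr rfl fun D hD => ?_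
  have hD' : (∏ p ∈ D, p) ≠ 0 :=
    Finset.prod_ne_zero_iff.2 (ne_zero_of_subset_pf (Finset.mem_powerset.1 hD))
  rw [th2, Complex.ofReal_tsum]
  congr 1
  refine tsum_congr fun c => ?_
  simp only [χ, mul_eq_zero, hD', false_or]
  congr 3
  rw [nr_mul, nr_prod, hY]
  ring

/-- Dual side: Poisson summation modulo `q = m₁ m₂`. -/
theorem dual_est (V : ℝ) {X : ℝ} (hX : 0 < X) {n₁ n₂ : O} (h₁ : SP 6 n₁) (h₂ : SP 6 n₂)
    (h4 : (4 : O) ∣ n₁ - n₂) :
    ‖6 * (∑' k : O, (gw (nr k / X) : ℂ) * (quad n₁ k * quad n₂ k)) -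
        (X : ℂ) * ∑ a ∈ sqf V, dualA n₁ n₂ a (fun y => (th2 (y * X) : ℂ))‖ ≤
      6 * 2 ^ (pf n₁).card * X * ((if n₁ = n₂ then 1 else 0) +
        ∑' h : O, if V < nr h then gw (X * nr h / (nr n₁ * nr n₂)) else 0) := by
  simp only [dualA]
  set G := pf n₁ ∩ pf n₂ with hG
  set m₁ := cof G n₁ with hm₁
  set m₂ := cof G n₂ with hm₂
  have hG₁ : G ⊆ pf n₁ := Finset.inter_subset_left
  have hG₂ : G ⊆ pf n₂ := Finset.inter_subset_right
  have hGp : ∀ p ∈ G, Prime p ∧ Primary p := fun p hp => BasicB.pf_sub (hG₁ hp)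
  have e₁ : (∏ p ∈ G, p) * m₁ = n₁ := prod_mul_cof h₁.1 h₁.2.1 hG₁
  have e₂ : (∏ p ∈ G, p) * m₂ = n₂ := prod_mul_cof h₂.1 h₂.2.1 hG₂
  have s₁ : SP 6 m₁ := SP_cof h₁ G
  have s₂ : SP 6 m₂ := SP_cof h₂ G
  have sg : SP 6 (∏ p ∈ G, p) := SP_prod h₁ hG₁
  have hz₁ := ne_zero_of_SP s₁
  have hz₂ := ne_zero_of_SP s₂
  have hzg := ne_zero_of_SP sg
  have hN₁ := one_le_nr hz₁
  have hN₂ := one_le_nr hz₂
  have hcop : IsCoprime m₁ m₂ := by
    refine isCoprime_of_disjoint_pf s₁.1 hz₂ ?_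
    rw [hm₁, hm₂, pf_cof, pf_cof, Finset.disjoint_left]
    intro p hp hp'
    exact (Finset.mem_sdiff.1 hp).2
      (Finset.mem_inter.2 ⟨(Finset.mem_sdiff.1 hp).1, (Finset.mem_sdiff.1 hp').1⟩)
  have hq : PO (m₁ * m₂) := (PO_of_SP s₁).mul (PO_of_SP s₂)
  have hqs : Squarefree (m₁ * m₂) := (squarefree_mul_iff).2 ⟨hcop.isRelPrime, s₁.2.1, s₂.2.1⟩
  have hpq : pf (m₁ * m₂) = pf m₁ ∪ pf m₂ := pf_mul hz₁ hz₂
  have hdis : Disjoint G (pf (m₁ * m₂)) := by
    rw [hpq, hm₁, hm₂, pf_cof, pf_cof, Finset.disjoint_union_right]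
    exact ⟨Finset.disjoint_sdiff, Finset.disjoint_sdiff⟩
  have hg4 : g4 (m₁ * m₂) = 1 := by
    have h1 : IsCoprime (4 : O) (∏ p ∈ G, p) := by
      have := (PO_of_SP sg).2.symm.pow_left (m := 2)
      norm_num at this ⊢
      exact this
    have h2 : (4 : O) ∣ m₁ - m₂ := h1.dvd_of_dvd_mul_left (by rwa [mul_sub, e₁, e₂])
    have h3 : (4 : O) ∣ m₁ * m₂ - 1 * m₁ ^ 2 := by
      have : m₁ * m₂ - 1 * m₁ ^ 2 = (m₁ - m₂) * (-m₁) := by ring
      rw [this]
      exact h2.mul_right _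
    rw [g4_congr h3, g4_mul_sq (PO_of_SP s₁).2, g4_one]
  have hNq : nr (m₁ * m₂) = nr m₁ * nr m₂ := nr_mul _ _
  have hNq1 : 1 ≤ nr (m₁ * m₂) := one_le_nr hq.1.ne_zero
  -- the sieve and Poisson summation
  let φ : Finset O → O → ℂ := fun E k => if (∏ p ∈ E, p) ∣ k then quad (m₁ * m₂) k *
    (gw (X * nr k / (nr (∏ p ∈ E, p) ^ 2 * nr (m₁ * m₂))) : ℂ) else 0
  let w : Finset O → ℝ := fun E => X / (nr (∏ p ∈ E, p) * Real.sqrt (nr (m₁ * m₂)))
  have hE0 : ∀ E ∈ G.powerset, (∏ p ∈ E, p) ≠ 0 := fun E hE =>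
    Finset.prod_ne_zero_iff.2 (ne_zero_of_subset_pf ((Finset.mem_powerset.1 hE).trans hG₁))
  have hφ : ∀ E k, ‖φ E k‖ ≤ gw (X * nr k / (nr (∏ p ∈ E, p) ^ 2 * nr (m₁ * m₂))) :=
    fun E k => by
      simp only [φ]
      split_ifs
      · exact Pois_norm_le _ _ _
      · rw [norm_zero]
        exact (gw_pos _).le
  have hφs : ∀ E ∈ G.powerset, Summable (φ E) := fun E hE => by
    have := nr_pos (hE0 E hE)
    exact Summable.of_norm_bounded (Pois_summable_gw hX (by positivity)) (hφ E)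
  have hA : ∑' k : O, (gw (nr k / X) : ℂ) * (quad n₁ k * quad n₂ k) =
      ∑ E ∈ G.powerset, (-1) ^ E.card * ((w E : ℂ) * ∑' k : O, φ E k) := by
    have h1 : ∀ k : O, (gw (nr k / X) : ℂ) * (quad n₁ k * quad n₂ k) =
        if ∀ p ∈ G, ¬ p ∣ k then quad (m₁ * m₂) k * (gw (nr k / X) : ℂ) else 0 := fun k => by
      have h2 := Pois_quad_sq sg.1 k
      rw [pf_prod hG₁] at h2
      have h3 : quad n₁ k * quad n₂ k = quad (∏ p ∈ G, p) k ^ 2 * quad (m₁ * m₂) k := by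
        conv_lhs => rw [← e₁, ← e₂]
        rw [quad_mul_left hzg hz₁, quad_mul_left hzg hz₂, quad_mul_left hz₁ hz₂]
        ring
      rw [h3, h2]
      split_ifs <;> simp [mul_comm]
    simp only [h1]
    rw [tsum_sieve hGp (Summable.of_norm_bounded (summable_gw' hX) fun k => Pois_norm_le _ _ _)]
    exact Finset.sum_congr rfl fun E hE => by rw [Pois_step hq hqs hg4 (hE0 E hE) hX]
  have hB : (X : ℂ) * ∑ a ∈ sqf V, dualB G m₁ m₂ a (fun y => (th2 (y * X) : ℂ)) =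
      ∑ E ∈ G.powerset, (-1) ^ E.card * ((w E : ℂ) *
        (6 * ∑' k : O, if k ∈ PP V then φ E k else 0)) := by
    simp only [dualB]
    rw [Finset.sum_comm, Finset.mul_sum]
    refine Finset.sum_congr rfl fun E hE => ?_
    have hE' := Finset.mem_powerset.1 hE
    rw [← tsum_kernel V (hφs E hE), Finset.mul_sum, Finset.mul_sum, Finset.mul_sum]
    refine Finset.sum_congr rfl fun a ha => ?_
    simp only [φ]
    rw [Pois_kernel hq (fun p hp => hGp p (hE' hp)) (hdis.mono_left hE') (ne_zero_of_mem_sqf ha) hX,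
      hpq, quad_mul_left hz₁ hz₂]
    simp only [w, nr_prod, hNq, Real.sqrt_mul (zero_le_one.trans hN₁), mul_assoc]
    push_cast
    ring
  set R : ℝ := (if n₁ = n₂ then 1 else 0) +
    ∑' h : O, if V < nr h then gw (X * nr h / (nr n₁ * nr n₂)) else 0 with hR
  have hNn : 0 < nr n₁ * nr n₂ := mul_pos (nr_pos h₁.1.ne_zero) (nr_pos h₂.1.ne_zero)
  have hrest : ∀ E ∈ G.powerset, ‖∑' k : O, if k ∈ PP V then 0 else φ E k‖ ≤ R := fun E hE => by
    have h1 : Summable fun h : O => if V < nr h then gw (X * nr h / (nr n₁ * nr n₂)) else 0 := by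
      refine Summable.of_nonneg_of_le (fun h => ?_) (fun h => ?_) (Pois_summable_gw hX hNn)
      · split_ifs
        · exact (gw_pos _).le
        · exact le_rfl
      · split_ifs
        · exact le_rfl
        · exact (gw_pos _).le
    refine tsum_of_norm_bounded ((hasSum_ite_eq (0 : O)
      (if n₁ = n₂ then (1 : ℝ) else 0)).add h1.hasSum) fun k => ?_
    have h2 : (0 : ℝ) ≤ if V < nr k then gw (X * nr k / (nr n₁ * nr n₂)) else 0 := by
      split_ifs
      · exact (gw_pos _).le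
      · exact le_rfl
    have h3 : (0 : ℝ) ≤ if k = 0 then (if n₁ = n₂ then (1 : ℝ) else 0) else 0 := by
      split_ifs <;> norm_num
    by_cases hk : k ∈ PP V
    · rw [if_pos hk, norm_zero]
      exact add_nonneg h3 h2
    rw [if_neg hk]
    by_cases hk0 : k = 0
    · refine le_add_of_le_of_nonneg ?_ h2
      rw [if_pos hk0]
      split_ifs with hn
      · refine (hφ E k).trans (gw_le_one ?_)
        positivity
      · have h5 : quad (m₁ * m₂) k = 0 := by
          refine (Symbol_quad_eq_zero_iff hq.1).2 fun h => hn ?_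
          rw [hk0, isCoprime_zero_right] at h
          rw [← e₁, ← e₂, s₁.1.eq_one_of_isUnit (isUnit_of_mul_isUnit_left h),
            s₂.1.eq_one_of_isUnit (isUnit_of_mul_isUnit_right h)]
        simp [φ, h5]
    · refine le_add_of_nonneg_of_le h3 ?_
      rw [if_pos (lt_nr_of_not_mem_PP hk0 hk)]
      refine (hφ E k).trans (gw_antitone ?_)
      have h5 := nr_pos (hE0 E hE)
      have h6 : nr (∏ p ∈ E, p) ≤ nr (∏ p ∈ G, p) := by
        rw [nr_prod, nr_prod]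
        exact nP_mono (Finset.mem_powerset.1 hE) (ne_zero_of_subset_pf hG₁)
      refine div_le_div_of_nonneg_left (by positivity) (by positivity) ?_
      conv_rhs => rw [← e₁, ← e₂]
      rw [nr_mul (∏ p ∈ G, p), nr_mul (∏ p ∈ G, p), hNq]
      calc nr (∏ p ∈ E, p) ^ 2 * (nr m₁ * nr m₂) ≤ nr (∏ p ∈ G, p) ^ 2 * (nr m₁ * nr m₂) := by
            gcongr
        _ = _ := by ring
  have hsplit : ∀ E ∈ G.powerset, ∑' k : O, φ E k = (∑' k : O, if k ∈ PP V then φ E k else 0) +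
      ∑' k : O, if k ∈ PP V then 0 else φ E k := fun E hE => by
    rw [← Summable.tsum_add]
    · refine tsum_congr fun k => ?_
      split_ifs <;> simp
    · refine Summable.of_norm_bounded (hφs E hE).norm fun k => ?_
      split_ifs <;> simp
    · refine Summable.of_norm_bounded (hφs E hE).norm fun k => ?_
      split_ifs <;> simp
  have hR0 : 0 ≤ R := (norm_nonneg _).trans (hrest ∅ (Finset.empty_mem_powerset G))
  rw [hA, hB, Finset.mul_sum, ← Finset.sum_sub_distrib]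
  have hterm : ∀ E ∈ G.powerset, ‖6 * ((-1) ^ E.card * ((w E : ℂ) * ∑' k : O, φ E k)) -
      (-1) ^ E.card * ((w E : ℂ) * (6 * ∑' k : O, if k ∈ PP V then φ E k else 0))‖ ≤
      6 * X * R := fun E hE => by
    have h1 : 6 * ((-1) ^ E.card * ((w E : ℂ) * ∑' k : O, φ E k)) -
        (-1) ^ E.card * ((w E : ℂ) * (6 * ∑' k : O, if k ∈ PP V then φ E k else 0)) =
        6 * (-1) ^ E.card * (w E : ℂ) * ∑' k : O, if k ∈ PP V then 0 else φ E k := by
      rw [hsplit E hE]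
      ring
    have h2 := one_le_nr (hE0 E hE)
    have h3 : 1 ≤ Real.sqrt (nr (m₁ * m₂)) := Real.one_le_sqrt.2 hNq1
    have h5 : 0 ≤ w E := by positivity
    have h6 : w E ≤ X := div_le_self hX.le (one_le_mul_of_one_le_of_one_le h2 h3)
    rw [h1, norm_mul, norm_mul, norm_mul, norm_pow, norm_neg, norm_one, one_pow, mul_one,
      Complex.norm_real, Real.norm_of_nonneg h5, Complex.norm_ofNat]
    gcongr
    exact hrest E hE
  refine (norm_sum_le _ _).trans ((Finset.sum_le_card_nsmul _ _ _ hterm).trans ?_)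
  rw [Finset.card_powerset, nsmul_eq_mul, Nat.cast_pow, Nat.cast_ofNat]
  calc (2 : ℝ) ^ G.card * (6 * X * R) ≤ 2 ^ (pf n₁).card * (6 * X * R) := by
        gcongr
        norm_num
    _ = _ := by ring

end Crest.Agent.R17.LS2
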