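import Mathlib

/-!
# Row 17, module M10 (auxiliary): holomorphic logarithms, three circles, Borel–Carathéodory
-/

set_option autoImplicit false

noncomputable section

namespace Crest.Agent.R17.LZA

open Complex Metric Set

/-- A continuous logarithm of a holomorphic function is holomorphic. -/
theorem differentiableOn_of_exp_eq {U : Set ℂ} (hU : IsOpen U) {l L : ℂ → ℂ}
    (hl : ContinuousOn l U) (hL : DifferentiableOn ℂ L U) (h : ∀ z ∈ U, exp (l z) = L z) :
    DifferentiableOn ℂ l U := by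
  intro z hz
  have hzU : U ∈ nhds z := hU.mem_nhds hz
  have hc : ContinuousAt l z := hl.continuousAt hzU
  have h1 : ∀ᶠ w in nhds z, ‖l w - l z‖ < 1 := by
    have := (Metric.continuousAt_iff'.1 hc) 1 one_pos
    simpa only [dist_eq_norm] using this
  have h2 : l =ᶠ[nhds z] fun w => l z + log (L w * exp (-l z)) := by
    filter_upwards [h1, hzU] with w hw hwU
    have h3 : L w * exp (-l z) = exp (l w - l z) := by
      rw [← h w hwU, ← exp_add, sub_eq_add_neg]
    have h4 : |(l w - l z).im| < 1 := (abs_im_le_norm _).trans_lt hw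
    have h5 := abs_lt.1 h4
    rw [h3, log_exp (by linarith [Real.pi_gt_three]) (by linarith [Real.pi_gt_three])]
    ring
  have h6 : DifferentiableAt ℂ (fun w => l z + log (L w * exp (-l z))) z := by
    refine DifferentiableAt.const_add _ (DifferentiableAt.clog ?_ ?_)
    · exact (hL.differentiableAt hzU).mul_const _
    · rw [← h z hz, ← exp_add, add_neg_cancel, exp_zero]; exact one_mem_slitPlane
  exact (h6.congr_of_eventuallyEq h2).differentiableWithinAt

/-- A non-vanishing holomorphic function on a convex open set has a holomorphic logarithm, which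
can be chosen to extend a given continuous logarithm on a preconnected subset. -/
theorem exists_log {U V : Set ℂ} (hU : IsOpen U) (hUc : Convex ℝ U) (hVU : V ⊆ U)
    (hV : IsPreconnected V) {L E : ℂ → ℂ} (hL : DifferentiableOn ℂ L U) (h0 : ∀ z ∈ U, L z ≠ 0)
    (hE : ContinuousOn E V) (hEL : ∀ z ∈ V, exp (E z) = L z) :
    ∃ l : ℂ → ℂ, DifferentiableOn ℂ l U ∧ (∀ z ∈ U, exp (l z) = L z) ∧ ∀ z ∈ V, l z = E z := by
  rcases U.eq_empty_or_nonempty with rfl | hne
  · exact ⟨fun _ => 0, differentiableOn_empty, fun z hz => hz.elim, fun z hz => (hVU hz).elim⟩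
  have hsc : IsSimplyConnected U := by
    have := hUc.contractibleSpace hne
    exact (inferInstance : SimplyConnectedSpace U)
  obtain ⟨f, hf, hf'⟩ := exists_continuousOn_eqOn_exp_comp hsc hU hL.continuousOn
    (by rintro ⟨z, hz, h⟩; exact h0 z hz h)
  have hf2 : ∀ z ∈ U, exp (f z) = L z := fun z hz => hf' hz
  have hfd := differentiableOn_of_exp_eq hU hf hL hf2
  rcases V.eq_empty_or_nonempty with rfl | ⟨z₀, hz₀⟩
  · exact ⟨f, hfd, hf2, fun z hz => hz.elim⟩
  have hd : ∀ z ∈ V, exp (f z - E z) = 1 := fun z hz => by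
    rw [exp_sub, hf2 z (hVU hz), hEL z hz, div_self (h0 z (hVU hz))]
  have hconst : ∀ z ∈ V, f z - E z = f z₀ - E z₀ := fun z hz =>
    isCoveringMap_exp.constOn_of_comp (g := fun z => f z - E z) hV ((hf.mono hVU).sub hE)
      (fun a ha a' ha' => Subtype.ext (by simp only [hd a ha, hd a' ha'])) hz hz₀
  refine ⟨fun z => f z - (f z₀ - E z₀), hfd.sub_const _, fun z hz => ?_, fun z hz => ?_⟩
  · rw [exp_sub, hd z₀ hz₀, div_one, hf2 z hz]
  · rw [← hconst z hz]; ring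

/-- Hadamard's three circles theorem. -/
theorem three_circles {f : ℂ → ℂ} {ρ r₁ r₂ a b : ℝ} (h₁ : 0 < r₁) (h₁₂ : r₁ < r₂) (h₂ : r₂ < ρ)
    (hf : DifferentiableOn ℂ f (ball 0 ρ)) (ha : ∀ z, ‖z‖ = r₁ → ‖f z‖ ≤ a)
    (hb : ∀ z, ‖z‖ ≤ r₂ → ‖f z‖ ≤ b) {z : ℂ} (hz₁ : r₁ ≤ ‖z‖) (hz₂ : ‖z‖ ≤ r₂) :
    ‖f z‖ ≤ a ^ (1 - (Real.log ‖z‖ - Real.log r₁) / (Real.log r₂ - Real.log r₁)) *
      b ^ ((Real.log ‖z‖ - Real.log r₁) / (Real.log r₂ - Real.log r₁)) := by
  have hz0 : 0 < ‖z‖ := h₁.trans_le hz₁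
  have hr₂ : 0 < r₂ := h₁.trans h₁₂
  have hle : ∀ w : ℂ, w.re ≤ Real.log r₂ → ‖exp w‖ ≤ r₂ := fun w hw => by
    rw [norm_exp]; exact (Real.exp_le_exp.2 hw).trans (Real.exp_log hr₂).le
  have hd : DifferentiableOn ℂ (fun w => f (exp w)) {w : ℂ | w.re ≤ Real.log r₂} :=
    hf.comp differentiable_exp.differentiableOn fun w hw =>
      mem_ball_zero_iff.2 ((hle w hw).trans_lt h₂)
  have key := HadamardThreeLines.norm_le_interp_of_mem_verticalClosedStrip'
    (f := fun w => f (exp w)) (z := log z) (a := a) (b := b) (l := Real.log r₁)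
    (u := Real.log r₂) (Real.log_lt_log h₁ h₁₂)
    (by
      change (log z).re ∈ Icc _ _
      rw [log_re]
      exact ⟨Real.log_le_log h₁ hz₁, Real.log_le_log hz0 hz₂⟩)
    (by
      refine DifferentiableOn.diffContOnCl (hd.mono ?_)
      refine closure_minimal (fun w hw => le_of_lt hw.2) ?_
      exact isClosed_le continuous_re continuous_const)
    ⟨b, by rintro _ ⟨w, hw, rfl⟩; exact hb _ (hle w hw.2)⟩
    (fun w hw => ha _ (by
      have : w.re = Real.log r₁ := hw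
      rw [norm_exp, this, Real.exp_log h₁]))
    (fun w hw => hb _ (hle w (le_of_eq hw)))
  rwa [exp_log (norm_pos_iff.1 hz0), log_re] at key

/-- `A^{1-θ} B^θ ≤ η B + C` uniformly for `0 ≤ θ ≤ 1 - κ`. -/
theorem interp_le {A κ η : ℝ} (hA : 0 < A) (hκ : 0 < κ) (hη : 0 < η) : ∃ C : ℝ, 0 < C ∧
    ∀ B θ : ℝ, 0 < B → 0 ≤ θ → θ ≤ 1 - κ → A ^ (1 - θ) * B ^ θ ≤ η * B + C := by
  set lam : ℝ := min η 1 with hlam
  have hl0 : 0 < lam := lt_min hη one_pos
  have hl1 : lam ≤ 1 := min_le_right _ _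
  set L : ℝ := lam ^ (-1 / κ) with hL
  have hL1 : 1 ≤ L := Real.one_le_rpow_of_pos_of_le_one_of_nonpos hl0 hl1
    (by rw [neg_div]; exact neg_nonpos.2 (by positivity))
  have hL0 : 0 < L := one_pos.trans_le hL1
  refine ⟨A * L, by positivity, fun B θ hB h0 h1 => ?_⟩
  have hθ1 : θ ≤ 1 := by linarith
  rcases le_total B (A * L) with h | h
  · have h2 : B ^ θ ≤ A ^ θ * L := by
      calc B ^ θ ≤ (A * L) ^ θ := Real.rpow_le_rpow hB.le h h0
        _ = A ^ θ * L ^ θ := Real.mul_rpow hA.le hL0.le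
        _ ≤ A ^ θ * L ^ (1 : ℝ) := by gcongr
        _ = A ^ θ * L := by rw [Real.rpow_one]
    calc A ^ (1 - θ) * B ^ θ ≤ A ^ (1 - θ) * (A ^ θ * L) := by gcongr
      _ = A * L := by rw [← mul_assoc, ← Real.rpow_add hA, sub_add_cancel, Real.rpow_one]
      _ ≤ η * B + A * L := le_add_of_nonneg_left (by positivity)
  · have h2 : A ≤ B * L⁻¹ := by rw [← div_eq_mul_inv, le_div_iff₀ hL0]; exact h
    have h3 : (L⁻¹) ^ (1 - θ) ≤ lam := by
      calc (L⁻¹) ^ (1 - θ) ≤ (L⁻¹) ^ κ :=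
            Real.rpow_le_rpow_of_exponent_ge (by positivity) (inv_le_one_of_one_le₀ hL1)
              (by linarith)
        _ = lam := by
            rw [hL, ← Real.rpow_neg hl0.le, ← Real.rpow_mul hl0.le]
            have : -(-1 / κ) * κ = 1 := by field_simp
            rw [this, Real.rpow_one]
    calc A ^ (1 - θ) * B ^ θ ≤ (B * L⁻¹) ^ (1 - θ) * B ^ θ := by gcongr
      _ = (B ^ (1 - θ) * B ^ θ) * (L⁻¹) ^ (1 - θ) := by
          rw [Real.mul_rpow hB.le (by positivity)]; ring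
      _ = B * (L⁻¹) ^ (1 - θ) := by rw [← Real.rpow_add hB, sub_add_cancel, Real.rpow_one]
      _ ≤ B * η := by gcongr; exact h3.trans (min_le_left _ _)
      _ ≤ η * B + A * L := by rw [mul_comm]; exact le_add_of_nonneg_right (by positivity)

/-- The core estimate: a holomorphic function on a disc of radius `ρ ≤ 3/2`, with real part at most
`Mx` and bounded by `A` on the disc of radius `1/2`, is at most `η Mx + C` on the disc of radius
`ρ - δ`. -/
theorem core {δ η A : ℝ} (hδ : 0 < δ) (hη : 0 < η) (hA : 0 < A) : ∃ C : ℝ, 0 < C ∧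
    ∀ (f : ℂ → ℂ) (ρ Mx : ℝ), ρ ≤ 3 / 2 → 0 < Mx → DifferentiableOn ℂ f (ball 0 ρ) →
      (∀ z ∈ ball (0 : ℂ) ρ, (f z).re ≤ Mx) → (∀ z : ℂ, ‖z‖ ≤ 1 / 2 → ‖f z‖ ≤ A) →
      ∀ z : ℂ, ‖z‖ + δ ≤ ρ → ‖f z‖ ≤ η * Mx + C := by
  obtain ⟨C, hC, hCb⟩ := interp_le (κ := δ / 6) (η := η * δ / 6) hA (by positivity)
    (by positivity)
  refine ⟨η * A + C + A, by positivity, fun f ρ Mx hρ hMx hf hre hsm z hz => ?_⟩
  rcases le_total ‖z‖ (1 / 2) with h | h
  · exact (hsm z h).trans (by nlinarith [mul_pos hη hMx, mul_pos hη hA])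
  set r₂ : ℝ := ρ - δ / 2 with hr₂
  have h12 : 1 / 2 < r₂ := by linarith
  have hρ0 : 0 < ρ := by linarith
  set B : ℝ := 6 * (Mx + A) / δ with hB
  have hB0 : 0 < B := by positivity
  have hb : ∀ w : ℂ, ‖w‖ ≤ r₂ → ‖f w‖ ≤ B := fun w hw => by
    have h1 := borelCaratheodory hMx hf (fun w hw => hre w hw) hρ0
      (mem_ball_zero_iff.2 (show ‖w‖ < ρ by linarith))
    have h2 : ‖f 0‖ ≤ A := hsm 0 (by simp)
    have h3 : δ / 2 ≤ ρ - ‖w‖ := by linarith
    have h4 : ‖w‖ ≤ 3 / 2 := by linarith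
    calc ‖f w‖ ≤ 2 * Mx * ‖w‖ / (ρ - ‖w‖) + ‖f 0‖ * (ρ + ‖w‖) / (ρ - ‖w‖) := h1
      _ ≤ 2 * Mx * (3 / 2) / (δ / 2) + A * (3 / 2 + 3 / 2) / (δ / 2) := by gcongr
      _ = B := by rw [hB]; field_simp; ring
  have h3 := three_circles (r₁ := 1 / 2) (by norm_num) h12 (by linarith) hf
    (fun w hw => hsm w hw.le) hb h (by linarith)
  have hz0 : 0 < ‖z‖ := by linarith
  have hden : 0 < Real.log r₂ - Real.log (1 / 2) := sub_pos.2 (Real.log_lt_log (by norm_num) h12)
  have hden2 : Real.log r₂ - Real.log (1 / 2) ≤ 2 := by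
    rw [← Real.log_div (by linarith) (by norm_num)]
    have := Real.log_le_sub_one_of_pos (show 0 < r₂ / (1 / 2) by positivity)
    linarith
  have hnum : δ / 3 ≤ Real.log r₂ - Real.log ‖z‖ := by
    have h5 := Real.log_le_sub_one_of_pos (show 0 < ‖z‖ / r₂ by positivity)
    rw [Real.log_div hz0.ne' (by linarith)] at h5
    have h6 : ‖z‖ / r₂ ≤ 1 - δ / 3 := by
      rw [div_le_iff₀ (by linarith)]; nlinarith
    linarith
  have h4 := hCb B ((Real.log ‖z‖ - Real.log (1 / 2)) / (Real.log r₂ - Real.log (1 / 2))) hB0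
    (div_nonneg (sub_nonneg.2 (Real.log_le_log (by norm_num) h)) hden.le)
    (by rw [div_le_iff₀ hden]; nlinarith)
  have h5 : η * δ / 6 * B = η * Mx + η * A := by rw [hB]; field_simp
  linarith

end Crest.Agent.R17.LZA
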