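import Crest.Agent.R17.LBasic
import Crest.Agent.R17.LZeroAuxA

/-!
# Row 17, module M10 (auxiliary): the Euler-product logarithm and `log L` in a zero-free window
-/

set_option autoImplicit false

noncomputable section

namespace Crest.Agent.R17

open Complex Metric Set

open Classical in
/-- One term of the Euler-product logarithm. -/
def LZA.term {M : O} (ν : Chr M) (a p : O) (s : ℂ) : ℂ :=
  if Prime p then -Complex.log (1 - rc ν a p * (nr p : ℂ) ^ (-s)) else 0

theorem LZA.two_le_nr {p : O} (hp : Prime p) : 2 ≤ nr p := by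
  have h0 : nm p ≠ 0 := fun h => hp.ne_zero (nm_eq_zero.1 h)
  have h1 : nm p ≠ 1 := fun h => hp.not_isUnit (isUnit_iff_nm.2 h)
  have : 2 ≤ nm p := by omega
  exact_mod_cast this

theorem LZA.norm_le {M : O} (hM : Adm M) (ν : Chr M) (a : O) {p : O} (hp : Prime p) (s : ℂ) :
    ‖rc ν a p * (nr p : ℂ) ^ (-s)‖ ≤ nr p ^ (-s.re) := by
  have h2 := LZA.two_le_nr hp
  rw [norm_mul, norm_cpow_eq_rpow_re_of_pos (by linarith), neg_re]
  exact mul_le_of_le_one_left (Real.rpow_nonneg (by linarith) _) (norm_rc_le hM ν a p)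

theorem LZA.norm_le_half {M : O} (hM : Adm M) (ν : Chr M) (a : O) {p : O} (hp : Prime p) {s : ℂ}
    (hs : 1 ≤ s.re) : ‖rc ν a p * (nr p : ℂ) ^ (-s)‖ ≤ 1 / 2 := by
  have h2 := LZA.two_le_nr hp
  refine (LZA.norm_le hM ν a hp s).trans ?_
  calc nr p ^ (-s.re) ≤ nr p ^ (-1 : ℝ) :=
        Real.rpow_le_rpow_of_exponent_le (by linarith) (by linarith)
    _ = (nr p)⁻¹ := Real.rpow_neg_one _
    _ ≤ 1 / 2 := by rw [one_div]; exact inv_anti₀ (by norm_num) h2

theorem LZA.norm_term_le {M : O} (hM : Adm M) (ν : Chr M) (a p : O) {σ : ℝ} (hσ : 1 ≤ σ) {s : ℂ}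
    (hs : σ ≤ s.re) : ‖LZA.term ν a p s‖ ≤ 3 / 2 * nr p ^ (-σ) := by
  unfold LZA.term
  split_ifs with hp
  · have h2 := LZA.two_le_nr hp
    have h3 := norm_log_one_add_half_le_self (z := -(rc ν a p * (nr p : ℂ) ^ (-s)))
      (by rw [norm_neg]; exact LZA.norm_le_half hM ν a hp (hσ.trans hs))
    rw [norm_neg, sub_eq_add_neg]
    refine h3.trans ?_
    rw [norm_neg]
    gcongr
    exact (LZA.norm_le hM ν a hp s).trans
      (Real.rpow_le_rpow_of_exponent_le (by linarith) (by linarith))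
  · rw [norm_zero]
    exact mul_nonneg (by norm_num) (Real.rpow_nonneg (Nat.cast_nonneg _) _)

theorem LZA.differentiableOn_term {M : O} (hM : Adm M) (ν : Chr M) (a p : O) :
    DifferentiableOn ℂ (LZA.term ν a p) {s | 1 ≤ s.re} := by
  unfold LZA.term
  split_ifs with hp
  · have h2 := LZA.two_le_nr hp
    intro s hs
    refine DifferentiableAt.differentiableWithinAt (DifferentiableAt.neg
      (DifferentiableAt.clog ?_ ?_))
    · refine DifferentiableAt.const_sub (DifferentiableAt.const_mul ?_ _) _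
      refine DifferentiableAt.const_cpow differentiableAt_id.neg (Or.inl ?_)
      exact ofReal_ne_zero.2 (by linarith)
    · rw [sub_eq_add_neg]
      refine mem_slitPlane_of_norm_lt_one ?_
      rw [norm_neg]
      exact (LZA.norm_le_half hM ν a hp hs).trans_lt (by norm_num)
  · exact differentiableOn_const _

theorem LZA.differentiableOn_euler {M : O} (hM : Adm M) (ν : Chr M) (a : O) :
    DifferentiableOn ℂ (fun s => ∑' p : O, LZA.term ν a p s) {s | 1 < s.re} := by
  intro s hs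
  have hs' : 1 < s.re := hs
  have ho : IsOpen {w : ℂ | (1 + s.re) / 2 < w.re} := isOpen_lt continuous_const continuous_re
  have h := differentiableOn_tsum_of_summable_norm (F := fun p => LZA.term ν a p)
    ((summable_nr_rpow (σ := (1 + s.re) / 2) (by linarith)).mul_left (3 / 2))
    (fun p => (LZA.differentiableOn_term hM ν a p).mono fun w (hw : (1 + s.re) / 2 < w.re) =>
      show 1 ≤ w.re by linarith) ho
    (fun p w (hw : (1 + s.re) / 2 < w.re) => LZA.norm_term_le hM ν a p (by linarith) hw.le)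
  exact (h.differentiableAt (ho.mem_nhds (show (1 + s.re) / 2 < s.re by linarith))
    ).differentiableWithinAt

theorem LZA.norm_euler_le {M : O} (hM : Adm M) (ν : Chr M) (a : O) {σ : ℝ} (hσ : 1 < σ) {s : ℂ}
    (hs : σ ≤ s.re) : ‖∑' p : O, LZA.term ν a p s‖ ≤ ∑' p : O, 3 / 2 * nr p ^ (-σ) :=
  tsum_of_norm_bounded ((summable_nr_rpow hσ).mul_left (3 / 2)).hasSum
    fun p => LZA.norm_term_le hM ν a p hσ.le hs

theorem LZA.log_class {M : O} (hM : Adm M) {ε δ : ℝ} (hε : 0 < ε) (hδ : 0 < δ) :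
    ∃ C : ℝ, 0 < C ∧
    ∀ (R σ T : ℝ) (ν : Chr M) (a : O), 1 ≤ R → ¬ Exc M a → nr a ≤ R → 1 / 2 ≤ σ → σ ≤ 1 →
      (∀ s : ℂ, σ < s.re → |s.im| ≤ T → Lc ν a s ≠ 0) →
      ∃ ℓ : ℂ → ℂ, DifferentiableOn ℂ ℓ {s | σ < s.re ∧ |s.im| < T} ∧
        (∀ s : ℂ, σ < s.re → |s.im| < T → Complex.exp (ℓ s) = Lc ν a s) ∧
        (∀ s : ℂ, 1 < s.re → |s.im| < T → ℓ s = ∑' p : O, LZA.term ν a p s) ∧
        ∀ s : ℂ, σ + δ ≤ s.re → |s.im| + 2 ≤ T → |s.im| ≤ 3 * R →
          ‖ℓ s‖ ≤ ε * Real.log R + C := by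
  obtain ⟨C₀, J, hC₀, hgr⟩ := Lc_growth hM
  set A : ℝ := (∑' p : O, 3 / 2 * nr p ^ (-(3 / 2 : ℝ))) + 1 with hAdef
  have hA : 0 < A := by
    have : 0 ≤ ∑' p : O, 3 / 2 * nr p ^ (-(3 / 2 : ℝ)) :=
      tsum_nonneg fun p => mul_nonneg (by norm_num) (Real.rpow_nonneg (Nat.cast_nonneg _) _)
    linarith
  set η : ℝ := ε / (2 * J + 1) with hη
  have hη0 : 0 < η := by positivity
  obtain ⟨C, hC, hcore⟩ := LZA.core hδ hη0 hA
  set K : ℝ := A + |Real.log C₀| + J * Real.log 6 with hK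
  have hl6 : 0 < Real.log 6 := Real.log_pos (by norm_num)
  have hK0 : 0 < K := by positivity
  refine ⟨η * K + C + A, by positivity, fun R σ T ν a hR hexc haR hσ hσ1 hZ => ?_⟩
  have ha : a ≠ 0 := ne_zero_of_not_exc hexc
  have hnp : ¬ Princ ν a := not_princ_of_not_exc hM ν hexc
  have hL := isL_Lc hM ν ha
  have hconv : ∀ x : ℝ, Convex ℝ {s : ℂ | x < s.re ∧ |s.im| < T} := fun x => by
    have := (convex_halfSpace_re_gt x).inter
      ((convex_halfSpace_im_gt (-T)).inter (convex_halfSpace_im_lt T))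
    convert this using 1
    ext s
    simp only [mem_ofPred_eq, mem_inter_iff, abs_lt]
  have hopen : IsOpen {s : ℂ | σ < s.re ∧ |s.im| < T} :=
    (isOpen_lt continuous_const continuous_re).inter
      (isOpen_lt continuous_im.abs continuous_const)
  obtain ⟨ℓ, hℓd, hℓe, hℓE⟩ := LZA.exists_log (V := {s : ℂ | 1 < s.re ∧ |s.im| < T})
    (L := Lc ν a) (E := fun s => ∑' p : O, LZA.term ν a p s) hopen (hconv σ)
    (fun s hs => ⟨hσ1.trans_lt hs.1, hs.2⟩) (hconv 1).isPreconnected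
    (hL.2.2 hnp).differentiableOn (fun s hs => hZ s hs.1 hs.2.le)
    ((LZA.differentiableOn_euler hM ν a).continuousOn.mono fun s hs => hs.1)
    (fun s hs => by rw [hL.2.1 s hs.1, Lser_eq_exp hM ν a hs.1]; rfl)
  refine ⟨ℓ, hℓd, fun s h1 h2 => hℓe s ⟨h1, h2⟩, fun s h1 h2 => hℓE s ⟨h1, h2⟩,
    fun s hs1 hs2 hs3 => ?_⟩
  have hlogR : 0 ≤ Real.log R := Real.log_nonneg hR
  have hsm : ∀ w : ℂ, 3 / 2 ≤ w.re → |w.im| < T → ‖ℓ w‖ ≤ A := fun w h1 h2 => by
    rw [hℓE w ⟨by linarith, h2⟩]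
    exact (LZA.norm_euler_le hM ν a (by norm_num) h1).trans (by linarith)
  rcases le_total (3 / 2) s.re with h | h
  · exact (hsm s h (by linarith)).trans
      (by nlinarith [mul_pos hη0 hK0, mul_nonneg hε.le hlogR])
  set c : ℂ := 2 + s.im * I with hc
  have hcre : ∀ z : ℂ, (c + z).re = 2 + z.re := fun z => by simp [hc]
  have hcim : ∀ z : ℂ, (c + z).im = s.im + z.im := fun z => by simp [hc]
  have him : ∀ z : ℂ, ‖z‖ ≤ 3 / 2 → |(c + z).im| ≤ |s.im| + 3 / 2 := fun z hz => by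
    rw [hcim]
    exact (abs_add_le _ _).trans (by linarith [abs_im_le_norm z])
  have hmem : ∀ z ∈ Metric.ball (0 : ℂ) (2 - σ), c + z ∈ {s : ℂ | σ < s.re ∧ |s.im| < T} := by
    intro z hz
    have hz' := mem_ball_zero_iff.1 hz
    refine ⟨?_, ?_⟩
    · rw [hcre]
      linarith [(abs_le.1 (abs_re_le_norm z)).1]
    · linarith [him z (by linarith)]
  have key := hcore (fun z => ℓ (c + z)) (2 - σ) (K + 2 * J * Real.log R) (by linarith)
    (by positivity) (hℓd.comp (differentiable_id.const_add c).differentiableOn hmem)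
    (fun z hz => ?_) (fun z hz => hsm _ (by
      rw [hcre]; linarith [(abs_le.1 (abs_re_le_norm z)).1]) (by linarith [him z (by linarith)]))
    ((s.re - 2 : ℝ) : ℂ) (by rw [norm_real, Real.norm_eq_abs, abs_of_nonpos (by linarith)]; linarith)
  · have h1 : c + ((s.re - 2 : ℝ) : ℂ) = s := by
      apply Complex.ext
      · rw [hcre]; simp
      · rw [hcim]; simp
    simp only [h1] at key
    have h2 : η * (2 * J) ≤ ε := by
      rw [hη, div_mul_eq_mul_div, div_le_iff₀ (by positivity)]; nlinarith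
    have h3 : η * (2 * J) * Real.log R ≤ ε * Real.log R := mul_le_mul_of_nonneg_right h2 hlogR
    nlinarith
  · have hz' := mem_ball_zero_iff.1 hz
    have hJ : 0 ≤ (J : ℝ) * Real.log 6 := by positivity
    have hJR : 0 ≤ 2 * (J : ℝ) * Real.log R := by positivity
    rcases le_total 3 (c + z).re with h3 | h3
    · have := (re_le_norm _).trans (hsm _ (by linarith) (hmem z hz).2)
      linarith [abs_nonneg (Real.log C₀)]
    · have h4 := (hgr ν a (c + z) ha (by linarith [(hmem z hz).1]) h3).2 hnp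
      have h5 : 1 + |(c + z).im| ≤ 6 * R := by linarith [him z (by linarith)]
      have h6 : Real.exp (ℓ (c + z)).re ≤ C₀ * R ^ J * (6 * R) ^ J := by
        rw [← norm_exp, hℓe _ (hmem z hz)]
        refine h4.trans ?_
        gcongr
      have hR0 : 0 < R := by linarith
      have h7 := (Real.le_log_iff_exp_le (by positivity)).2 h6
      rw [Real.log_mul (by positivity) (by positivity), Real.log_mul (by positivity)
        (by positivity), Real.log_pow, Real.log_pow, Real.log_mul (by norm_num) hR0.ne'] at h7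
      linarith [le_abs_self (Real.log C₀)]

end Crest.Agent.R17
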