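import Crest.Agent.R17.LZeroAuxP
import Crest.Agent.R17.LBasic
import Crest.Agent.R17.LZeroAuxB
import Crest.Agent.R17.LZeroAuxA2
import Crest.Agent.R17.LZeroAuxC

/-!
# Row 17, module M10: consequences of a zero-free window, and the zero detector
-/

set_option autoImplicit false

noncomputable section

namespace Crest.Agent.R17

open scoped ComplexConjugate

/-- All L-functions of the (non-exceptional) row `a` are zero-free in `Re s > σ`, `|Im s| ≤ T`. -/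
def ZF (M a : O) (σ T : ℝ) : Prop :=
  ∀ (ν : Chr M) (s : ℂ), σ < s.re → |s.im| ≤ T → Lc ν a s ≠ 0

theorem ZF.mono {M a : O} {σ σ' T T' : ℝ} (h : ZF M a σ T) (hσ : σ ≤ σ') (hT : T' ≤ T) :
    ZF M a σ' T' := fun ν s hs ht => h ν s (hσ.trans_lt hs) (ht.trans hT)

theorem ZeroFree.zf {β : ℝ} (h : ZeroFree β) {M a : O} (hM : Adm M) (ha : ¬ Exc M a) (T : ℝ) :
    ZF M a β T := fun ν s hs _ =>
  h M hM ν a (ne_zero_of_not_exc ha) s hs (Or.inr (not_princ_of_not_exc hM ν ha))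

/-! ## A. `log L` in a zero-free window (Borel–Carathéodory and three circles/lines) -/

/-- In the window `L = exp ℓ` with `ℓ` holomorphic, equal to the Euler-product logarithm for
`Re s > 1`, and `|ℓ| ≤ ε log R + C` for `Re s ≥ σ + δ`.  (Discs centred at `2 + it` of radius
`< 2 - σ`; `Lc_growth` gives `Re ℓ ≤ C log R`; Borel–Carathéodory; Hadamard three circles gives
`|ℓ| ≤ C (log R)^θ`, `θ < 1`.  A general lemma about a holomorphic function on a disc is the core.) -/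
theorem log_class {M : O} (hM : Adm M) {ε δ : ℝ} (hε : 0 < ε) (hδ : 0 < δ) : ∃ C : ℝ, 0 < C ∧
    ∀ (R σ T : ℝ) (ν : Chr M) (a : O), 1 ≤ R → ¬ Exc M a → nr a ≤ R → 1 / 2 ≤ σ → σ ≤ 1 →
      ZF M a σ T → ∃ ℓ : ℂ → ℂ, DifferentiableOn ℂ ℓ {s | σ < s.re ∧ |s.im| < T} ∧
        (∀ s : ℂ, σ < s.re → |s.im| < T → Complex.exp (ℓ s) = Lc ν a s) ∧
        (∀ s : ℂ, 1 < s.re → |s.im| < T → ℓ s = ∑' p : O, by
          classical exact if Prime p then -Complex.log (1 - rc ν a p * (nr p : ℂ) ^ (-s)) else 0) ∧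
        ∀ s : ℂ, σ + δ ≤ s.re → |s.im| + 2 ≤ T → |s.im| ≤ 3 * R →
          ‖ℓ s‖ ≤ ε * Real.log R + C := by
  obtain ⟨C, hC, h⟩ := LZA.log_class hM hε hδ
  exact ⟨C, hC, fun R σ T ν a hR hexc haR hσ hσ1 hZ => h R σ T ν a hR hexc haR hσ hσ1 (hZ ν)⟩

/-! ## B. class bounds (`Sm_eq_integral`, shift the segment `|Im w + τ| ≤ log R` of the contour to
`Re w = σ + δ`; everything else is `O(R^{-J})` because `|Wm| ≪ exp(-(Im)²/4)`; for scales `≤ 1` the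
trivial bound `tsum_norm_Sm_le` is enough) -/

/-- `log_class` on the window used by `Sm_class_gen`. -/
theorem log_window {M : O} (hM : Adm M) {ε : ℝ} (hε : 0 < ε) (k : ℕ) : ∃ C δ : ℝ, 0 < C ∧ 0 < δ ∧
    δ ≤ 1 ∧ k * δ ≤ ε / 2 ∧
    ∀ (R τ σ T : ℝ) (ν : Chr M) (a : O), 1 ≤ R → ¬ Exc M a → nr a ≤ R → 1 / 2 ≤ σ → σ ≤ 1 →
      ZF M a σ T → |τ| + Real.log R + 3 ≤ T → |τ| ≤ R → ∃ ℓ : ℂ → ℂ,
        DifferentiableOn ℂ ℓ {w | σ + δ ≤ w.re ∧ w.re ≤ 2 ∧ |w.im + τ| ≤ Real.log R} ∧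
        (∀ w : ℂ, w.re = 2 → |w.im + τ| ≤ Real.log R → Complex.exp (ℓ w) = Lser ν a w) ∧
        ∀ w : ℂ, σ + δ ≤ w.re → w.re ≤ 2 → |w.im + τ| ≤ Real.log R →
          ‖ℓ w‖ ≤ ε / 2 * Real.log R + C := by
  have hδ : 0 < min 1 (ε / 2 / (k + 1)) := lt_min one_pos (by positivity)
  obtain ⟨C, hC, h⟩ := log_class hM (half_pos hε) hδ
  refine ⟨C, _, hC, hδ, min_le_left _ _, ?_, fun R τ σ T ν a hR ha haR hσ0 hσ1 hz hT hτ => ?_⟩
  · have := (le_div_iff₀ (by positivity)).1 (min_le_right 1 (ε / 2 / (k + 1)))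
    linarith
  obtain ⟨ℓ, h1, h2, -, h4⟩ := h R σ T ν a hR ha haR hσ0 hσ1 hz
  have him : ∀ w : ℂ, |w.im + τ| ≤ Real.log R → |w.im| ≤ |τ| + Real.log R := fun w hw => by
    have := abs_sub (w.im + τ) τ
    rw [add_sub_cancel_right] at this
    linarith
  have hL := Real.log_le_sub_one_of_pos (one_pos.trans_le hR)
  refine ⟨ℓ, h1.mono fun w hw => ⟨by linarith [hw.1], by linarith [him w hw.2.2]⟩,
    fun w hw hw' => ?_,
    fun w hw _ hw' => h4 w hw (by linarith [him w hw']) (by linarith [him w hw'])⟩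
  rw [h2 w (by linarith) (by linarith [him w hw']),
    (isL_Lc hM ν (ne_zero_of_not_exc ha)).2.1 w (by linarith)]

theorem class_aux {C C' ε δ R X σ x : ℝ} (hC : 0 < C) (hδ : δ ≤ ε / 2) (hR : 1 ≤ R) (hX : 0 < X)
    (h : x ≤ C * Real.exp (ε / 2 * Real.log R + C') * R ^ δ * X ^ σ) :
    x ≤ C * Real.exp C' * R ^ ε * X ^ σ := by
  have hR0 : 0 < R := one_pos.trans_le hR
  refine h.trans (mul_le_mul_of_nonneg_right ?_ (by positivity))
  rw [mul_assoc, mul_assoc, Real.rpow_def_of_pos hR0, Real.rpow_def_of_pos hR0, ← Real.exp_add,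
    ← Real.exp_add]
  refine mul_le_mul_of_nonneg_left (Real.exp_le_exp.2 ?_) hC.le
  nlinarith [mul_le_mul_of_nonneg_left hδ (Real.log_nonneg hR)]

/-- `Mob_class` for scales up to `R ^ k` (same window). -/
theorem Mob_class_gen {M : O} (hM : Adm M) {ε : ℝ} (hε : 0 < ε) (k : ℕ) : ∃ C : ℝ, 0 < C ∧
    ∀ (R D τ σ T : ℝ) (ν : Chr M) (a : O), 1 ≤ R → ¬ Exc M a → nr a ≤ R → 1 / 2 ≤ σ → σ ≤ 1 →
      ZF M a σ T → |τ| + Real.log R + 3 ≤ T → |τ| ≤ R → 0 < D → D ≤ R ^ k →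
      ‖Mob ν a D (τ * Complex.I)‖ ≤ C * R ^ ε * D ^ σ := by
  obtain ⟨C₁, hC₁, h₁⟩ := Sm_class_gen k
  obtain ⟨C₂, δ, hC₂, hδ0, hδ1, hδ2, h₂⟩ := log_window hM hε k
  refine ⟨C₁ * Real.exp C₂, by positivity,
    fun R D τ σ T ν a hR ha haR hσ0 hσ1 hz hT hτ hD hDR => ?_⟩
  obtain ⟨ℓ, h1, h2, h4⟩ := h₂ R τ σ T ν a hR ha haR hσ0 hσ1 hz hT hτ
  have hL := Real.log_nonneg hR
  refine class_aux hC₁ hδ2 hR hD (h₁ _ (fun w => Complex.exp (-ℓ w)) R D τ σ δ _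
    (polyB_mu_rc hM ν a) hR hD hDR (by linarith) hσ1 hδ0.le hδ1
    (Real.one_le_exp (by positivity)) h1.neg.cexp (fun w hw hw' => ?_) fun w hw hw' hw'' => ?_)
  · rw [Complex.exp_neg, h2 w hw hw']
    exact (eq_inv_of_mul_eq_one_right (Lser_mul_mob hM ν a (by linarith))).symm
  · refine (Complex.norm_exp_le_exp_norm _).trans (Real.exp_le_exp.2 ?_)
    rw [norm_neg]
    exact h4 w hw hw' hw''

/-- `Pln_class` for scales up to `R ^ k` (same window). -/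
theorem Pln_class_gen {M : O} (hM : Adm M) {ε : ℝ} (hε : 0 < ε) (k : ℕ) : ∃ C : ℝ, 0 < C ∧
    ∀ (R N τ σ T : ℝ) (ν : Chr M) (a : O), 1 ≤ R → ¬ Exc M a → nr a ≤ R → 1 / 2 ≤ σ → σ ≤ 1 →
      ZF M a σ T → |τ| + Real.log R + 3 ≤ T → |τ| ≤ R → 0 < N → N ≤ R ^ k →
      ‖Pln ν a N (τ * Complex.I)‖ ≤ C * R ^ ε * N ^ σ := by
  obtain ⟨C₁, hC₁, h₁⟩ := Sm_class_gen k
  obtain ⟨C₂, δ, hC₂, hδ0, hδ1, hδ2, h₂⟩ := log_window hM hε k
  refine ⟨C₁ * Real.exp C₂, by positivity,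
    fun R D τ σ T ν a hR ha haR hσ0 hσ1 hz hT hτ hD hDR => ?_⟩
  obtain ⟨ℓ, h1, h2, h4⟩ := h₂ R τ σ T ν a hR ha haR hσ0 hσ1 hz hT hτ
  have hL := Real.log_nonneg hR
  exact class_aux hC₁ hδ2 hR hD (h₁ _ (fun w => Complex.exp (ℓ w)) R D τ σ δ _
    (polyB_rc hM ν a) hR hD hDR (by linarith) hσ1 hδ0.le hδ1
    (Real.one_le_exp (by positivity)) h1.cexp h2 fun w hw hw' hw'' =>
      (Complex.norm_exp_le_exp_norm _).trans (Real.exp_le_exp.2 (h4 w hw hw' hw'')))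

theorem Mob_class {M : O} (hM : Adm M) {ε : ℝ} (hε : 0 < ε) : ∃ C : ℝ, 0 < C ∧
    ∀ (R D τ σ T : ℝ) (ν : Chr M) (a : O), 1 ≤ R → ¬ Exc M a → nr a ≤ R → 1 / 2 ≤ σ → σ ≤ 1 →
      ZF M a σ T → |τ| + Real.log R + 3 ≤ T → |τ| ≤ R → 0 < D → D ≤ R →
      ‖Mob ν a D (τ * Complex.I)‖ ≤ C * R ^ ε * D ^ σ := by
  simpa only [pow_one] using Mob_class_gen hM hε 1

theorem Pln_class {M : O} (hM : Adm M) {ε : ℝ} (hε : 0 < ε) : ∃ C : ℝ, 0 < C ∧
    ∀ (R N τ σ T : ℝ) (ν : Chr M) (a : O), 1 ≤ R → ¬ Exc M a → nr a ≤ R → 1 / 2 ≤ σ → σ ≤ 1 →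
      ZF M a σ T → |τ| + Real.log R + 3 ≤ T → |τ| ≤ R → 0 < N → N ≤ R →
      ‖Pln ν a N (τ * Complex.I)‖ ≤ C * R ^ ε * N ^ σ := by
  simpa only [pow_one] using Pln_class_gen hM hε 1

/-- (the prime powers `k ≥ 2` of `ℓ` converge absolutely for `Re w > 1/2`) -/
theorem Prm_class {M : O} (hM : Adm M) {ε : ℝ} (hε : 0 < ε) : ∃ C : ℝ, 0 < C ∧
    ∀ (R P τ σ T : ℝ) (ν : Chr M) (a : O), 1 ≤ R → ¬ Exc M a → nr a ≤ R → 1 / 2 ≤ σ → σ ≤ 1 →
      ZF M a σ T → |τ| + Real.log R + 3 ≤ T → |τ| ≤ R → 0 < P → P ≤ R →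
      ‖Prm ν a P (τ * Complex.I)‖ ≤ C * R ^ ε * P ^ σ := by
  obtain ⟨δ, hδ, hδ1, hδε⟩ : ∃ δ : ℝ, 0 < δ ∧ δ ≤ 1 ∧ δ + δ ≤ ε :=
    ⟨min 1 (ε / 2), lt_min one_pos (by positivity), min_le_left _ _,
      by linarith [min_le_right 1 (ε / 2)]⟩
  obtain ⟨C₁, hC₁, h₁⟩ := log_class hM hδ hδ
  obtain ⟨C₂, hC₂, h₂⟩ := B2.Sm_pr hδ hδ1
  refine ⟨C₂ * (1 + C₁), by positivity,
    fun R P τ σ T ν a hR ha haR hσ hσ1 hZ hT hτ hP hPR => ?_⟩
  obtain ⟨ℓ, hd, -, he, hb⟩ := h₁ R σ T ν a hR ha haR hσ hσ1 hZ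
  have hR0 : 0 < R := by linarith
  have him : ∀ w : ℂ, |w.im + τ| ≤ Real.log R → |w.im| ≤ |τ| + Real.log R := fun w hw => by
    have := abs_sub_abs_le_abs_sub w.im (-τ)
    rw [abs_neg, sub_neg_eq_add] at this
    linarith
  have hRδ : 1 ≤ R ^ δ := Real.one_le_rpow hR hδ.le
  have hl : δ * Real.log R ≤ R ^ δ := by
    rw [← Real.log_rpow hR0]
    linarith [Real.log_le_sub_one_of_pos (show 0 < R ^ δ by linarith)]
  rw [B2.Prm_eq_Sm]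
  refine (h₂ (rc ν a) ℓ R P τ σ ((1 + C₁) * R ^ δ) (polyB_rc hM ν a) hR hP hPR hσ hσ1
    (by nlinarith) (hd.mono fun w hw => ⟨by linarith [hw.1], by linarith [him w hw.2.2]⟩)
    (fun w h1 h2 => he w (by linarith) (by linarith [him w h2])) fun w h1 _ h3 => ?_).trans ?_
  · refine (hb w h1 (by linarith [him w h3]) ?_).trans (by nlinarith)
    linarith [him w h3, Real.log_le_sub_one_of_pos hR0]
  · have : R ^ δ * R ^ δ ≤ R ^ ε := by
      rw [← Real.rpow_add hR0]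
      exact Real.rpow_le_rpow_of_exponent_le hR hδε
    calc C₂ * ((1 + C₁) * R ^ δ) * R ^ δ * P ^ σ = C₂ * (1 + C₁) * (R ^ δ * R ^ δ) * P ^ σ := by ring
      _ ≤ _ := by gcongr

/-- `Pln_class'` for scales up to `R ^ k`. -/
theorem Pln_class'_gen {M : O} (hM : Adm M) {ε : ℝ} (hε : 0 < ε) (k : ℕ) (hk : 1 ≤ k) :
    ∃ C : ℝ, 0 < C ∧
    ∀ (R N τ σ T : ℝ) (ν : Chr M) (a : O), 1 ≤ R → ¬ Exc M a → nr a ≤ R → 1 / 2 ≤ σ → σ ≤ 1 →
      ZF M a σ T → |τ| + (k + 2) * Real.log R + 3 ≤ T → |τ| ≤ R → 0 < N → N ≤ R ^ k →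
      ‖Pln ν a N (τ * Complex.I)‖ ≤
        C * R ^ ε * N ^ (1 - σ) * (cond M a * (1 + |τ|) ^ 2) ^ (σ - 1 / 2) := by
  have hk1 : (1 : ℝ) ≤ k := by exact_mod_cast hk
  obtain ⟨η, hη, hη1, hη2⟩ : ∃ η : ℝ, 0 < η ∧ k * η ≤ 1 ∧ k * η ≤ ε / 4 := by
    refine ⟨min 1 (ε / 4) / k, by positivity, ?_⟩
    rw [mul_div_cancel₀ _ (by positivity)]
    exact ⟨min_le_left _ _, min_le_right _ _⟩
  obtain ⟨C₁, hC₁, h₁⟩ := Pln_reflect hM hη 0
  obtain ⟨C₂, hC₂, h₂⟩ := Pln_class_gen hM hη 3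
  obtain ⟨C₃, hC₃, h₃⟩ := tsum_norm_Sm_le 0 0 0 le_rfl
  have hB : (1 : ℝ) ≤ (k + 1) ^ k := one_le_pow₀ (by linarith)
  refine ⟨C₁ * C₂ + C₁ + C₃ * (k + 1) ^ k, by positivity,
    fun R N τ σ T ν a hR ha haR hσ0 hσ1 hz hT hτ hN hNR => ?_⟩
  have hR0 : 0 < R := one_pos.trans_le hR
  have hq := one_le_cond M a
  have hτ1 : 1 ≤ (1 + |τ|) ^ 2 := one_le_pow₀ (by linarith [abs_nonneg τ])
  have hq1 : 1 ≤ (cond M a * (1 + |τ|) ^ 2) ^ (σ - 1 / 2) :=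
    Real.one_le_rpow (one_le_mul_of_one_le_of_one_le hq hτ1) (by linarith)
  have hR1 : 1 ≤ R ^ ε := Real.one_le_rpow hR hε.le
  have hC₁₂ := mul_pos hC₁ hC₂
  rcases le_or_gt N ((k + 1) ^ k) with h1 | h1
  · have h3 := h₃ _ 1 N (τ * Complex.I) (polyB_rc hM ν a) hN (by simp)
    refine ((norm_tsum_le_tsum_norm (summable_Sm (polyB_rc hM ν a) hN _)).trans h3).trans ?_
    have h5 : N ^ σ ≤ (k + 1) ^ k :=
      (Real.rpow_le_rpow hN.le h1 (by linarith)).trans (Real.rpow_le_self_of_one_le hB hσ1)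
    have h4 : min (N ^ ((0 : ℝ) + 1)) (N ^ ((0 : ℝ) + 1 + |0|)) ≤ (k + 1) ^ k * N ^ (1 - σ) := by
      refine (min_le_left _ _).trans ?_
      rw [show (0 : ℝ) + 1 = σ + (1 - σ) by ring, Real.rpow_add hN]
      gcongr
    calc _ ≤ C₃ * 1 * ((k + 1) ^ k * N ^ (1 - σ)) := by gcongr
      _ = C₃ * (k + 1) ^ k * 1 * N ^ (1 - σ) * 1 := by ring
      _ ≤ _ := by gcongr; linarith
  have hkR : (k + 1 : ℝ) < R := lt_of_pow_lt_pow_left₀ k hR0.le (h1.trans_le hNR)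
  have hN1 : 1 ≤ N := hB.trans h1.le
  have hRk : R ≤ R ^ k := le_self_pow₀ hR (by omega)
  obtain ⟨ν', e, Y, t, he, hqe, hY0, hY1, ht, hP⟩ := h₁ (R ^ k) N τ ν a (hR.trans hRk) ha
    (haR.trans hRk) ((inv_le_one_of_one_le₀ (hR.trans hRk)).trans hN1) hNR (hτ.trans hRk)
  rw [Real.log_pow] at ht
  rw [← Real.rpow_natCast_mul hR0.le] at hY1 hP
  have hL := Real.log_le_sub_one_of_pos hR0
  have hY : 0 < Y := (inv_pos.2 (pow_pos hR0 k)).trans_le hY0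
  have he0 : 0 < e := one_pos.trans_le he
  have hq0 : 0 < cond M a := one_pos.trans_le hq
  have hRη : R ^ (k * η) ≤ R := Real.rpow_le_self_of_one_le hR hη1
  have hYR : Y ≤ (R ^ 2) ^ 3 := by
    refine hY1.trans ((div_le_self (by positivity) hN1).trans ?_)
    have h4 : 1 + |τ| ≤ R ^ 2 := by nlinarith
    calc _ ≤ R * R * (R ^ 2) ^ 2 := by gcongr; exact hqe.trans haR
      _ = _ := by ring
  have h2 := h₂ (R ^ 2) Y t σ T ν' a (one_le_pow₀ hR) ha (haR.trans (by nlinarith)) hσ0 hσ1 hz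
    (by rw [Real.log_pow]; push_cast; linarith) (by nlinarith) hY hYR
  have h5 : R ^ (k * η) * Real.sqrt (N / (e * Y)) * ((R ^ 2) ^ η * Y ^ σ) ≤
      R ^ ε * N ^ (1 - σ) * (cond M a * (1 + |τ|) ^ 2) ^ (σ - 1 / 2) := by
    have h6 := Real.log_le_log hY (hY1.trans_eq (by ring :
      _ = cond M a * (1 + |τ|) ^ 2 * e * R ^ (k * η) / N))
    have hQ : 0 < cond M a * (1 + |τ|) ^ 2 := by positivity
    rw [Real.log_div (by positivity) hN.ne', Real.log_mul (by positivity) (by positivity),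
      Real.log_mul hQ.ne' he0.ne', Real.log_rpow hR0] at h6
    rw [Real.sqrt_eq_rpow, Real.rpow_def_of_pos hR0, Real.rpow_def_of_pos hR0,
      Real.rpow_def_of_pos (by positivity : 0 < N / (e * Y)), Real.rpow_def_of_pos hY,
      Real.rpow_def_of_pos hN, Real.rpow_def_of_pos hQ,
      Real.rpow_def_of_pos (by positivity : 0 < R ^ 2), Real.log_div hN.ne' (by positivity),
      Real.log_mul he0.ne' hY.ne', Real.log_pow]
    simp only [← Real.exp_add]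
    refine Real.exp_le_exp.2 ?_
    have h7 := mul_le_mul_of_nonneg_left h6 (sub_nonneg.2 hσ0)
    have h8 := mul_nonneg (sub_nonneg.2 hσ1) (Real.log_nonneg he)
    have h9 := mul_nonneg (mul_nonneg (zero_le_one.trans hk1) hη.le) (Real.log_nonneg hR)
    have h10 := mul_le_mul_of_nonneg_right hη2 (Real.log_nonneg hR)
    have h11 := mul_nonneg (sub_nonneg.2 hσ1) h9
    have h12 := mul_le_mul_of_nonneg_right hk1 (mul_nonneg hη.le (Real.log_nonneg hR))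
    push_cast
    nlinarith
  have h6 : 1 ≤ R ^ ε * N ^ (1 - σ) * (cond M a * (1 + |τ|) ^ 2) ^ (σ - 1 / 2) :=
    one_le_mul_of_one_le_of_one_le (one_le_mul_of_one_le_of_one_le hR1
      (Real.one_le_rpow hN1 (by linarith))) hq1
  rw [neg_zero, Real.rpow_zero, mul_one] at hP
  refine hP.trans ?_
  set W := R ^ ε * N ^ (1 - σ) * (cond M a * (1 + |τ|) ^ 2) ^ (σ - 1 / 2) with hW
  calc _ ≤ C₁ * R ^ (k * η) * Real.sqrt (N / (e * Y)) * (C₂ * (R ^ 2) ^ η * Y ^ σ) + C₁ := by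
        gcongr
    _ = C₁ * C₂ * (R ^ (k * η) * Real.sqrt (N / (e * Y)) * ((R ^ 2) ^ η * Y ^ σ)) + C₁ * 1 +
        0 := by ring
    _ ≤ C₁ * C₂ * W + C₁ * W + C₃ * (k + 1) ^ k * W := by gcongr; positivity
    _ = _ := by rw [hW]; ring

/-- From `Pln_reflect` and `Pln_class` (analytic conductor `cond · (1 + |τ|)²`). -/
theorem Pln_class' {M : O} (hM : Adm M) {ε : ℝ} (hε : 0 < ε) : ∃ C : ℝ, 0 < C ∧
    ∀ (R N τ σ T : ℝ) (ν : Chr M) (a : O), 1 ≤ R → ¬ Exc M a → nr a ≤ R → 1 / 2 ≤ σ → σ ≤ 1 →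
      ZF M a σ T → |τ| + 3 * Real.log R + 3 ≤ T → |τ| ≤ R → 0 < N → N ≤ R →
      ‖Pln ν a N (τ * Complex.I)‖ ≤
        C * R ^ ε * N ^ (1 - σ) * (cond M a * (1 + |τ|) ^ 2) ^ (σ - 1 / 2) := by
  simpa only [pow_one, Nat.cast_one, show (1 : ℝ) + 2 = 3 by norm_num] using
    Pln_class'_gen hM hε 1 le_rfl

/-- Möbius sums of a fixed character under a global zero-free half-plane (the character may be
principal: use `princ_pole`, `1/L = (s-1)/G`). -/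
theorem Mob_of_zeroFree {β : ℝ} (hβ : 1 / 2 ≤ β) (hβ1 : β ≤ 1) (h : ZeroFree β) {M : O}
    (hM : Adm M) (ψ : Chr M) {ε : ℝ} (hε : 0 < ε) : ∃ (C : ℝ) (J : ℕ), 0 < C ∧
      ∀ (D : ℝ) (s : ℂ), 0 < D → |s.re| ≤ 3 →
        ‖Mob ψ 1 D s‖ ≤ C * (1 + |s.im|) ^ J * D ^ (β + ε) :=
  have _ := hβ1
  B2.Mob_of_zeroFree hβ h hM ψ hε

/-! ## C. zero detector -/

/-- With `π^{-1/2} ∫ Wc(y/e^v) dv = 1`: `L(ρ) = π^{-1/2} ∫ e^{-vρ} Pln(e^v, -ρ) dv` (both sides are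
entire; or directly by Mellin inversion), so
`0 = ∫∫_{v₂ ≤ log D₀} e^{-(v₁+v₂)ρ} Pln(e^{v₁},-ρ) Mob(e^{v₂},-ρ)`.  The integral over the region
`v₁ + v₂ ≤ V := log D₀ - (ε/2) log R` equals `∑_{m,d} μ(d) rc(dm) N(dm)^{-ρ} G(log N(dm) - V)`
with `G(x) = ∫∫_{y₁+y₂ ≥ x} e^{-y₁²-y₂²}`, i.e. `G(-V)` (only `dm = 1` survives), which is
`≥ π/2` if `V ≥ 0` (if `V < 0` take `V = 0`, i.e. `D₀ R^{-ε} ≤ 1`...); the part of that region with
`v₂ > log D₀` is negligible.  Finally `Sm_shift` removes the real part of the twist. -/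
theorem detector_raw {M : O} (hM : Adm M) {ε : ℝ} (hε : 0 < ε) : ∃ R₀ : ℝ,
    ∀ (R D₀ : ℝ) (ν : Chr M) (a : O) (ρ : ℂ), R₀ ≤ R → ¬ Exc M a → nr a ≤ R → R ^ ε ≤ D₀ →
      D₀ ≤ R → Lc ν a ρ = 0 → 1 / 2 ≤ ρ.re → ρ.re ≤ 1 → |ρ.im| ≤ R →
      ∃ D N : ℝ, R ^ (-ε) ≤ D ∧ D ≤ D₀ ∧ D₀ * R ^ (-ε) ≤ D * N ∧ R ^ (-ε) ≤ N ∧
        N ≤ nr a * R ^ ε * (1 + |ρ.im|) ^ 2 ∧
        R ^ (-ε) * (D * N) ^ ρ.re ≤
          ‖Mob ν a D ((-ρ.im : ℝ) * Complex.I)‖ * ‖Pln ν a N ((-ρ.im : ℝ) * Complex.I)‖ :=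
  LZC.detector_raw hM hε

theorem detector_log_le {u C R e D σ : ℝ} (hu : 0 < u) (hC : 0 < C) (hR : 0 < R) (hD : 0 < D)
    (hCR : C ≤ R ^ e) {k : ℝ} (h : u ≤ C * R ^ k * D ^ σ) :
    Real.log u ≤ (e + k) * Real.log R + σ * Real.log D := by
  have h1 := Real.log_le_log hu h
  rw [Real.log_mul (by positivity) (by positivity), Real.log_mul hC.ne' (by positivity),
    Real.log_rpow hR, Real.log_rpow hD] at h1
  have h2 := Real.log_le_log hC hCR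
  rw [Real.log_rpow hR] at h2
  linarith

theorem detector_le_of_log {u R e D σ : ℝ} (hu : 0 < u) (hR : 0 < R) (hD : 0 < D)
    (h : e * Real.log R + σ * Real.log D ≤ Real.log u) : R ^ e * D ^ σ ≤ u := by
  rw [← Real.log_le_log_iff (by positivity) hu, Real.log_mul (by positivity) (by positivity),
    Real.log_rpow hR, Real.log_rpow hD]
  exact h

theorem detector_const {C η : ℝ} (hη : 0 < η) : ∃ R₀ : ℝ, ∀ R, R₀ ≤ R → C ≤ R ^ η :=
  Filter.eventually_atTop.1 ((tendsto_rpow_atTop hη).eventually_ge_atTop C)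

/-- **Detector.**  A zero near the edge of the zero-free window makes a Möbius sum and a plain sum
extremal (`detector_raw`, `Mob_class`, `Pln_class`, `Pln_class'`). -/
theorem detector {M : O} (hM : Adm M) {ε : ℝ} (hε : 0 < ε) : ∃ ε₁ R₀ : ℝ, 0 < ε₁ ∧
    ∀ (R D₀ σ T : ℝ) (ν : Chr M) (a : O) (ρ : ℂ), R₀ ≤ R → ¬ Exc M a → nr a ≤ R → R ^ ε ≤ D₀ →
      D₀ ≤ R → 51 / 100 ≤ σ → σ ≤ 1 → ZF M a σ T → Lc ν a ρ = 0 → σ - ε₁ ≤ ρ.re →
      |ρ.im| + 7 * Real.log R + 7 ≤ T → |ρ.im| ≤ R →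
      ∃ D N : ℝ, R ^ (-ε) ≤ D ∧ D ≤ D₀ ∧ D₀ * R ^ (-ε) ≤ D * N ∧ R ^ (-ε) ≤ N ∧
        N ≤ Real.sqrt (nr a) * R ^ ε * (1 + |ρ.im|) ∧
        R ^ (-ε) * D ^ σ ≤ ‖Mob ν a D ((-ρ.im : ℝ) * Complex.I)‖ ∧
        R ^ (-ε) * N ^ σ ≤ ‖Pln ν a N ((-ρ.im : ℝ) * Complex.I)‖ := by
  obtain ⟨η, hη, hη1, hη2⟩ : ∃ η : ℝ, 0 < η ∧ 600 * η ≤ ε ∧ η ≤ 1 / 100 :=
    ⟨min (ε / 600) (1 / 100), lt_min (by positivity) (by norm_num),
      by linarith [min_le_left (ε / 600) (1 / 100)], min_le_right _ _⟩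
  obtain ⟨R₁, h₁⟩ := detector_raw hM hη
  obtain ⟨C₁, hC₁, hMob⟩ := Mob_class hM hη
  obtain ⟨C₂, hC₂, hPln⟩ := Pln_class_gen hM hη 5
  obtain ⟨C₃, hC₃, hPln'⟩ := Pln_class'_gen hM hη 5 (by norm_num)
  obtain ⟨Q₁, hQ₁⟩ := detector_const (C := C₁) hη
  obtain ⟨Q₂, hQ₂⟩ := detector_const (C := C₂) hη
  obtain ⟨Q₃, hQ₃⟩ := detector_const (C := C₃) hη
  refine ⟨η, max (max 4 R₁) (max Q₁ (max Q₂ Q₃)), hη, ?_⟩
  intro R D₀ σ T ν a ρ hR ha haR hD₀ hD₀R hσ hσ1 hZ hρ hρσ hT hρR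
  simp only [max_le_iff] at hR
  obtain ⟨⟨hR4, hRR₁⟩, hRQ₁, hRQ₂, hRQ₃⟩ := hR
  have hR1 : 1 ≤ R := by linarith
  have hR0 : 0 < R := by linarith
  have hL : 0 ≤ Real.log R := Real.log_nonneg hR1
  have ha0 := ne_zero_of_not_exc ha
  have ha1 := one_le_nr ha0
  have hρ1 : ρ.re ≤ σ := by
    by_contra h
    exact hZ ν ρ (not_le.1 h) (by linarith) hρ
  have hηε : R ^ η ≤ R ^ ε := Real.rpow_le_rpow_of_exponent_le hR1 (by linarith)
  have hεη : R ^ (-ε) ≤ R ^ (-η) := Real.rpow_le_rpow_of_exponent_le hR1 (by linarith)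
  obtain ⟨D, N, e1, e2, e3, e4, e5, e6⟩ := h₁ R D₀ ν a ρ hRR₁ ha haR (hηε.trans hD₀) hD₀R hρ
    (by linarith) (by linarith) hρR
  have hD : 0 < D := lt_of_lt_of_le (by positivity) e1
  have hN : 0 < N := lt_of_lt_of_le (by positivity) e4
  have hD₀0 : 0 < D₀ := lt_of_lt_of_le hD e2
  have hRη : R ^ η ≤ R := by
    calc R ^ η ≤ R ^ (1 : ℝ) := Real.rpow_le_rpow_of_exponent_le hR1 (by linarith)
      _ = R := Real.rpow_one R
  have hγ : 0 < 1 + |ρ.im| := by positivity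
  have hNR : N ≤ R ^ 5 := by
    calc N ≤ nr a * R ^ η * (1 + |ρ.im|) ^ 2 := e5
      _ ≤ R * R * (2 * R) ^ 2 := by gcongr; linarith
      _ = 4 * R ^ 4 := by ring
      _ ≤ R * R ^ 4 := by gcongr
      _ = R ^ 5 := by ring
  have habs : |(-ρ.im)| = |ρ.im| := abs_neg _
  have b1 := hMob R D (-ρ.im) σ T ν a hR1 ha haR (by linarith) hσ1 hZ (by rw [habs]; linarith)
    (by rw [habs]; exact hρR) hD (e2.trans hD₀R)
  have b2 := hPln R N (-ρ.im) σ T ν a hR1 ha haR (by linarith) hσ1 hZ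
    (by rw [habs]; linarith) (by rw [habs]; linarith) hN hNR
  have b3 := hPln' R N (-ρ.im) σ T ν a hR1 ha haR (by linarith) hσ1 hZ
    (by rw [habs]; push_cast; linarith) (by rw [habs]; linarith) hN hNR
  rw [habs] at b3
  set m := ‖Mob ν a D ((-ρ.im : ℝ) * Complex.I)‖ with hm
  set p := ‖Pln ν a N ((-ρ.im : ℝ) * Complex.I)‖ with hp
  have hmp : 0 < m * p := lt_of_lt_of_le (by positivity) e6
  have hm0 : 0 < m := by
    have hm' : 0 ≤ m := norm_nonneg _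
    rcases hm'.eq_or_lt with h | h
    · rw [← h, zero_mul] at hmp; exact absurd hmp (lt_irrefl _)
    · exact h
  have hp0 : 0 < p := (pos_iff_pos_of_mul_pos hmp).1 hm0
  have l1 := detector_log_le hm0 hC₁ hR0 hD (hQ₁ R hRQ₁) b1
  have l2 := detector_log_le hp0 hC₂ hR0 hN (hQ₂ R hRQ₂) b2
  have hc1 := one_le_cond M a
  have hc2 := cond_le M ha0
  have l3 : Real.log p ≤ (η + η) * Real.log R + (1 - σ) * Real.log N +
      (σ - 1 / 2) * (Real.log (nr a) + 2 * Real.log (1 + |ρ.im|)) := by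
    have h1 : (cond M a * (1 + |ρ.im|) ^ 2) ^ (σ - 1 / 2) ≤
        (nr a * (1 + |ρ.im|) ^ 2) ^ (σ - 1 / 2) :=
      Real.rpow_le_rpow (by positivity) (by gcongr) (by linarith)
    have h2 : p / (nr a * (1 + |ρ.im|) ^ 2) ^ (σ - 1 / 2) ≤ C₃ * R ^ η * N ^ (1 - σ) := by
      rw [div_le_iff₀ (by positivity)]
      exact b3.trans (mul_le_mul_of_nonneg_left h1 (by positivity))
    have h3 := detector_log_le (by positivity) hC₃ hR0 hN (hQ₃ R hRQ₃) h2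
    rw [Real.log_div hp0.ne' (by positivity), Real.log_rpow (by positivity),
      Real.log_mul (by positivity) (by positivity), Real.log_pow] at h3
    push_cast at h3
    linarith
  have l4 := Real.log_le_log (by positivity) e6
  rw [Real.log_mul (by positivity) (by positivity), Real.log_rpow hR0,
    Real.log_rpow (by positivity), Real.log_mul hD.ne' hN.ne', Real.log_mul hm0.ne' hp0.ne'] at l4
  have l5 : Real.log D ≤ Real.log R := Real.log_le_log hD (e2.trans hD₀R)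
  have l6 : Real.log N ≤ 5 * Real.log R := by
    simpa only [Real.log_pow, Nat.cast_ofNat] using Real.log_le_log hN hNR
  have l7 : 0 ≤ Real.log D + Real.log N := by
    rw [← Real.log_mul hD.ne' hN.ne']
    refine Real.log_nonneg (le_trans ?_ e3)
    calc (1 : ℝ) = R ^ η * R ^ (-η) := by rw [← Real.rpow_add hR0]; simp
      _ ≤ D₀ * R ^ (-η) := by gcongr; exact hηε.trans hD₀
  set L := Real.log R
  set x := Real.log D
  set y := Real.log N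
  have l8 : σ * (x + y) - 6 * η * L ≤ ρ.re * (x + y) := by
    have h1 : (σ - η) * (x + y) ≤ ρ.re * (x + y) := mul_le_mul_of_nonneg_right hρσ l7
    have h2 : η * (x + y) ≤ η * (6 * L) := mul_le_mul_of_nonneg_left (by linarith) hη.le
    linarith
  have hεL : 600 * η * L ≤ ε * L := mul_le_mul_of_nonneg_right hη1 hL
  have hηL : 0 ≤ η * L := mul_nonneg hη.le hL
  refine ⟨D, N, hεη.trans e1, e2, le_trans (by gcongr) e3, hεη.trans e4, ?_,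
    detector_le_of_log hm0 hR0 hD (by linarith), detector_le_of_log hp0 hR0 hN (by linarith)⟩
  rw [← Real.log_le_log_iff hN (by positivity), Real.log_mul (by positivity) (by positivity),
    Real.log_mul (by positivity) (by positivity), Real.log_rpow hR0, Real.log_sqrt (by linarith)]
  set A := Real.log (nr a)
  set B := Real.log (1 + |ρ.im|)
  have h1 : (2 * σ - 1) * (y - A / 2 - B) ≤ 11 * (η * L) := by linarith
  by_contra h
  have h2 : 600 * η * L < y - A / 2 - B := by linarith [not_le.1 h]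
  have h3 : 1 / 50 * (y - A / 2 - B) ≤ (2 * σ - 1) * (y - A / 2 - B) :=
    mul_le_mul_of_nonneg_right (by linarith) (by linarith)
  linarith

end Crest.Agent.R17
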