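import Crest.Agent.R17.LBasic
import Crest.Agent.R17.Contour
import Crest.Agent.R17.LZeroAuxB

/-!
# Row 17, module M10, part B2: auxiliary lemmas for `Prm_class` and `Mob_of_zeroFree`
-/

set_option autoImplicit false

noncomputable section

namespace Crest.Agent.R17

namespace B2

open Complex Metric MeasureTheory

/-- A zero-free holomorphic function on a disc is `f(c) exp g`. -/
theorem exists_log {f : ℂ → ℂ} {c : ℂ} {R : ℝ} (hR : 0 < R) (hf : DifferentiableOn ℂ f (Metric.ball c R))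
    (h0 : ∀ z ∈ Metric.ball c R, f z ≠ 0) :
    ∃ g : ℂ → ℂ, DifferentiableOn ℂ g (Metric.ball c R) ∧ g c = 0 ∧
      ∀ z ∈ Metric.ball c R, f z = f c * Complex.exp (g z) := by
  have hd : DifferentiableOn ℂ (fun z => deriv f z / f z) (Metric.ball c R) :=
    (hf.deriv isOpen_ball).div hf h0
  obtain ⟨g, hg0, hg⟩ := hd.isExactOn_ball.with_val_at c 0
  have hgd : DifferentiableOn ℂ g (Metric.ball c R) := fun z hz =>
    (hg z hz).differentiableAt.differentiableWithinAt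
  refine ⟨g, hgd, hg0, fun z hz => ?_⟩
  have hq : ∀ w ∈ Metric.ball c R, HasDerivAt (fun w => f w * Complex.exp (-g w)) 0 w := fun w hw => by
    have h1 : HasDerivAt f (deriv f w) w :=
      ((hf w hw).differentiableAt (isOpen_ball.mem_nhds hw)).hasDerivAt
    have h2 := (hg w hw).neg.cexp
    refine (h1.mul h2).congr_deriv ?_
    have := h0 w hw
    simp only [Pi.neg_apply]
    field_simp
    ring
  have hc := isOpen_ball.is_const_of_deriv_eq_zero (convex_ball c R).isPreconnected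
    (fun w hw => (hq w hw).differentiableAt.differentiableWithinAt)
    (fun w hw => (hq w hw).deriv) hz (mem_ball_self hR)
  simp only [hg0, neg_zero, Complex.exp_zero, mul_one] at hc
  rw [← hc, mul_assoc, ← Complex.exp_add, neg_add_cancel, Complex.exp_zero, mul_one]

/-- Lower bound for a zero-free function in a smaller disc (Borel–Carathéodory). -/
theorem inv_le_of_disc {f : ℂ → ℂ} {c z : ℂ} {R r B b : ℝ} {n : ℕ} (hrR : r < R)
    (hn : 2 * r ≤ n * (R - r)) (hf : DifferentiableOn ℂ f (Metric.ball c R))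
    (h0 : ∀ z ∈ Metric.ball c R, f z ≠ 0) (hB : ∀ z ∈ Metric.ball c R, ‖f z‖ ≤ B) (hb : 0 < b) (hbc : b ≤ ‖f c‖)
    (hz : ‖z - c‖ ≤ r) : ‖f z‖⁻¹ ≤ b⁻¹ * (Real.exp 1 * B / b) ^ n := by
  have hr : 0 ≤ r := (norm_nonneg _).trans hz
  have hR : 0 < R := hr.trans_lt hrR
  obtain ⟨g, hg, hg0, hfg⟩ := exists_log hR hf h0
  have hbB : b ≤ B := hbc.trans (hB c (mem_ball_self hR))
  have hB0 : 0 < B := hb.trans_le hbB
  have hq : 1 ≤ B / b := (one_le_div hb).2 hbB
  set M := Real.log (B / b) + 1 with hM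
  have hM0 : 0 < M := by linarith [Real.log_nonneg hq]
  have hmem : ∀ w ∈ Metric.ball (0 : ℂ) R, c + w ∈ Metric.ball c R := fun w hw => by
    simpa [Metric.mem_ball, dist_eq_norm] using hw
  have hre : ∀ w ∈ Metric.ball c R, (g w).re ≤ M := fun w hw => by
    have h1 := hB w hw
    rw [hfg w hw, norm_mul, Complex.norm_exp] at h1
    have h2 : Real.exp (g w).re ≤ B / b := by
      rw [le_div_iff₀ hb]
      nlinarith [Real.exp_pos (g w).re]
    have h3 := (Real.le_log_iff_exp_le (by positivity)).2 h2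
    linarith
  have hzc : z - c ∈ Metric.ball (0 : ℂ) R := by simpa [Metric.mem_ball] using hz.trans_lt hrR
  have hbc' := Complex.borelCaratheodory_zero (f := fun w => g (c + w)) hM0
    (hg.comp (by fun_prop) hmem) (fun w hw => hre _ (hmem w hw)) hR hzc (by simpa using hg0)
  simp only [add_sub_cancel] at hbc'
  have h4 : 2 * M * ‖z - c‖ / (R - ‖z - c‖) ≤ n * M := by
    rw [div_le_iff₀ (by linarith)]
    have : 2 * ‖z - c‖ ≤ n * (R - ‖z - c‖) := by
      have : (n : ℝ) * (R - r) ≤ n * (R - ‖z - c‖) := by gcongr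
      linarith
    nlinarith
  have h5 : -(g z).re ≤ n * M := ((neg_le_abs _).trans (abs_re_le_norm _)).trans (hbc'.trans h4)
  have hzb : z ∈ Metric.ball c R := by simpa [Metric.mem_ball, dist_eq_norm] using hz.trans_lt hrR
  have h6 : Real.exp (n * M) = (Real.exp 1 * B / b) ^ n := by
    rw [Real.exp_nat_mul, hM, Real.exp_add, Real.exp_log (by positivity)]
    congr 1
    ring
  rw [hfg z hzb, norm_mul, Complex.norm_exp, mul_inv, ← Real.exp_neg, ← h6]
  gcongr

/-- The Dirichlet series of a bounded sequence. -/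
theorem norm_term_le {b : O → ℂ} (hb : PolyB b 1 0) (w : ℂ) (n : O) :
    ‖b n * (nr n : ℂ) ^ (-w)‖ ≤ nr n ^ (-w.re) := by
  by_cases h0 : n = 0
  · rw [h0, hb.1, zero_mul, norm_zero]
    positivity
  · rw [norm_mul, Complex.norm_cpow_eq_rpow_re_of_pos (nr_pos h0), neg_re]
    have := hb.2 n
    rw [Real.rpow_zero, mul_one] at this
    exact mul_le_of_le_one_left (by positivity) this

theorem summable_D {b : O → ℂ} (hb : PolyB b 1 0) {w : ℂ} (hw : 1 < w.re) :
    Summable fun n => ‖b n * (nr n : ℂ) ^ (-w)‖ :=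
  Summable.of_nonneg_of_le (fun _ => norm_nonneg _) (norm_term_le hb w) (summable_nr_rpow hw)

theorem norm_D_le {b : O → ℂ} (hb : PolyB b 1 0) {w : ℂ} (hw : 1 < w.re) :
    ‖∑' n, b n * (nr n : ℂ) ^ (-w)‖ ≤ ∑' n : O, nr n ^ (-w.re) :=
  (norm_tsum_le_tsum_norm (summable_D hb hw)).trans
    ((summable_D hb hw).tsum_le_tsum (norm_term_le hb w) (summable_nr_rpow hw))

/-- `1/L = h/G` with `G` entire of polynomial growth and zero-free in `Re s > β`. -/
theorem exists_G {β : ℝ} (h : ZeroFree β) {M : O} (hM : Adm M) (ψ : Chr M) :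
    ∃ (G k : ℂ → ℂ) (C : ℝ) (J : ℕ), 0 < C ∧ Differentiable ℂ G ∧ Differentiable ℂ k ∧
      (∀ w : ℂ, β < w.re → G w ≠ 0) ∧
      (∀ w : ℂ, -1 ≤ w.re → w.re ≤ 3 → ‖G w‖ ≤ C * (1 + |w.im|) ^ J) ∧
      (∀ w : ℂ, 1 < w.re → G w = k w * Lser ψ 1 w) ∧
      (∀ w : ℂ, w.re = 7 / 4 → 1 / 2 ≤ ‖k w‖) ∧
      (∀ w : ℂ, 0 ≤ w.re → w.re ≤ 2 → ‖k w‖ ≤ 1 + |w.im|) := by
  obtain ⟨C, J, hC, hg⟩ := Lc_growth hM
  have hL := isL_Lc hM ψ one_ne_zero
  by_cases hp : Princ ψ 1
  · obtain ⟨κ, G, hκ, hG, hG1, hGe⟩ := princ_pole hM ψ one_ne_zero hp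
    refine ⟨G, fun w => w - 1, C + κ, J, by positivity, hG, by fun_prop, fun w hw => ?_,
      fun w h1 h2 => ?_, fun w hw => ?_, fun w hw => ?_, fun w h1 h2 => ?_⟩
    · by_cases h1 : w = 1
      · rw [h1, hG1]
        exact_mod_cast hκ.ne'
      · rw [hGe w h1]
        exact mul_ne_zero (sub_ne_zero.2 h1) (h M hM ψ 1 one_ne_zero w hw (Or.inl h1))
    · have h4 : 1 ≤ (1 + |w.im|) ^ J := one_le_pow₀ (by linarith [abs_nonneg w.im])
      by_cases h3 : w = 1
      · rw [h3, hG1, Complex.norm_real, Real.norm_of_nonneg hκ.le]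
        rw [h3] at h4
        nlinarith
      · have := (hg ψ 1 w one_ne_zero h1 h2).1 h3
        rw [hGe w h3]
        simp only [nr, nm_one, Nat.cast_one, one_pow, mul_one] at this
        nlinarith
    · have h1 : w ≠ 1 := by
        rintro rfl
        simp at hw
      rw [hGe w h1, hL.2.1 w hw]
    · have := abs_re_le_norm (w - 1)
      rw [sub_re, hw, one_re] at this
      exact le_trans (by norm_num) this
    · refine (norm_le_abs_re_add_abs_im _).trans ?_
      rw [sub_re, sub_im, one_re, one_im, sub_zero]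
      gcongr
      rw [abs_le]
      constructor <;> linarith
  · refine ⟨Lc ψ 1, fun _ => 1, C, J, hC, hL.2.2 hp, by fun_prop,
      fun w hw => h M hM ψ 1 one_ne_zero w hw (Or.inr hp), fun w h1 h2 => ?_, fun w hw => ?_,
      fun w _ => ?_, fun w _ _ => ?_⟩
    · simpa [nr] using (hg ψ 1 w one_ne_zero h1 h2).2 hp
    · rw [hL.2.1 w hw, one_mul]
    · norm_num
    · simp

/-- `1/L` has polynomial growth in `Re s ≥ β + ε`. -/
theorem exists_invL {β : ℝ} (hβ : 1 / 2 ≤ β) (h : ZeroFree β) {M : O} (hM : Adm M) (ψ : Chr M)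
    {ε : ℝ} (hε : 0 < ε) (hβε : β + ε ≤ 1) :
    ∃ (F : ℂ → ℂ) (C : ℝ) (J : ℕ), 0 < C ∧ DifferentiableOn ℂ F (strip (β + ε) 2) ∧
      (∀ w : ℂ, 1 < w.re → F w = ∑' n : O, mu n * rc ψ 1 n * (nr n : ℂ) ^ (-w)) ∧
      ∀ w ∈ strip (β + ε) 2, ‖F w‖ ≤ C * (1 + |w.im|) ^ J := by
  obtain ⟨G, k, C, J, hC, hG, hk, hG0, hGb, hGe, hk1, hk2⟩ := exists_G h hM ψ
  set S : ℝ := ∑' n : O, nr n ^ (-(7 / 4 : ℝ)) + 1 with hS
  have hS0 : 0 < S := by
    have : 0 ≤ ∑' n : O, nr n ^ (-(7 / 4 : ℝ)) := tsum_nonneg fun n => by positivity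
    linarith
  obtain ⟨n, hn⟩ := exists_nat_ge (3 / ε)
  set b : ℝ := 1 / (2 * S) with hb
  have hb0 : 0 < b := by positivity
  refine ⟨fun w => k w / G w, b⁻¹ * (Real.exp 1 * C * 3 ^ J / b) ^ n, J * n + 1, by positivity,
    hk.differentiableOn.div hG.differentiableOn fun w hw => hG0 w (by linarith [hw.1]),
    fun w hw => ?_, fun w hw => ?_⟩
  · have h1 := Lser_mul_mob hM ψ 1 hw
    have h2 := hG0 w (by linarith)
    rw [div_eq_iff h2, hGe w hw]
    linear_combination (-k w) * h1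
  · set c : ℂ := ⟨7 / 4, w.im⟩ with hc
    have hcre : c.re = 7 / 4 := rfl
    have hball : ∀ z ∈ Metric.ball c (7 / 4 - β), β < z.re ∧ z.re ≤ 3 ∧ |z.im| ≤ |w.im| + 2 := by
      intro z hz
      rw [Metric.mem_ball, dist_eq_norm] at hz
      have h1 := (abs_re_le_norm (z - c)).trans_lt hz
      have h2 := (abs_im_le_norm (z - c)).trans_lt hz
      rw [sub_re, hcre, abs_lt] at h1
      rw [sub_im, show c.im = w.im from rfl] at h2
      refine ⟨by linarith [h1.1], by linarith [h1.2], ?_⟩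
      linarith [abs_sub_abs_le_abs_sub z.im w.im]
    have hcb : b ≤ ‖G c‖ := by
      have h1 := Lser_mul_mob hM ψ 1 (s := c) (by rw [hcre]; norm_num)
      have h2 := norm_D_le (polyB_mu_rc hM ψ 1) (w := c) (by rw [hcre]; norm_num)
      rw [hcre] at h2
      have h3 := congrArg norm h1
      rw [norm_mul, norm_one] at h3
      have h4 : 1 ≤ ‖Lser ψ 1 c‖ * S := by
        rw [← h3]
        gcongr
        linarith
      rw [hGe c (by rw [hcre]; norm_num), norm_mul, hb, div_le_iff₀ (by positivity)]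
      have h5 := hk1 c hcre
      nlinarith [norm_nonneg (Lser ψ 1 c)]
    have hinv := inv_le_of_disc (f := G) (c := c) (z := w) (R := 7 / 4 - β) (r := 7 / 4 - β - ε)
      (B := C * (3 * (1 + |w.im|)) ^ J) (n := n) (by linarith)
      (by rw [div_le_iff₀ hε] at hn; nlinarith) hG.differentiableOn
      (fun z hz => hG0 z (hball z hz).1)
      (fun z hz => (hGb z (by linarith [(hball z hz).1]) (hball z hz).2.1).trans (by
        gcongr
        linarith [(hball z hz).2.2, abs_nonneg w.im])) hb0 hcb (by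
        have e : w - c = ((w.re - 7 / 4 : ℝ) : ℂ) := by
          apply Complex.ext <;> simp [hc]
        rw [e, Complex.norm_real, Real.norm_eq_abs, abs_le]
        constructor <;> linarith [hw.1, hw.2])
    have h6 := hk2 w (by linarith [hw.1]) hw.2
    rw [norm_div, div_eq_mul_inv]
    calc ‖k w‖ * ‖G w‖⁻¹
        ≤ (1 + |w.im|) * (b⁻¹ * (Real.exp 1 * (C * (3 * (1 + |w.im|)) ^ J) / b) ^ n) := by gcongr
      _ = _ := by
        rw [pow_succ, pow_mul, mul_pow 3]
        ring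

theorem Mob_of_zeroFree {β : ℝ} (hβ : 1 / 2 ≤ β) (h : ZeroFree β) {M : O}
    (hM : Adm M) (ψ : Chr M) {ε : ℝ} (hε : 0 < ε) : ∃ (C : ℝ) (J : ℕ), 0 < C ∧
      ∀ (D : ℝ) (s : ℂ), 0 < D → |s.re| ≤ 3 →
        ‖Mob ψ 1 D s‖ ≤ C * (1 + |s.im|) ^ J * D ^ (β + ε) := by
  have hb := polyB_mu_rc hM ψ 1
  have hπ : ‖(1 / (2 * Real.pi) : ℂ)‖ ≤ 1 := by
    rw [norm_div, norm_one, norm_mul, Complex.norm_real, Real.norm_of_nonneg Real.pi_pos.le,
      Complex.norm_ofNat, div_le_one (by positivity)]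
    linarith [Real.pi_gt_three]
  have hB : ∀ s : ℂ, |s.re| ≤ 3 → |β + ε + s.re| ≤ β + ε + 3 := fun s hs => by
    rw [abs_le] at hs ⊢
    constructor <;> linarith [hs.1, hs.2]
  rcases lt_or_ge 1 (β + ε) with h1 | h1
  · obtain ⟨A, hA, hI⟩ := norm_integral_Wm_le (β + ε + 3) 0
    set S : ℝ := ∑' n : O, nr n ^ (-(β + ε)) + 1 with hS
    have hS0 : 0 < S := by
      have : 0 ≤ ∑' n : O, nr n ^ (-(β + ε)) := tsum_nonneg fun n => by positivity
      linarith
    refine ⟨A * S, 0, by positivity, fun D s hD hs => ?_⟩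
    rw [Mob_eq_Sm, Sm_eq_integral hb hD (σ := β + ε) (by linarith), norm_mul]
    refine (mul_le_of_le_one_left (norm_nonneg _) hπ).trans (hI _ _ S D s hD (hB s hs) fun u => ?_)
    have := norm_D_le hb (w := ((β + ε : ℝ) : ℂ) + u * I) (by simpa using h1)
    simp only [add_re, ofReal_re, mul_re, I_re, mul_zero, ofReal_im, I_im, mul_one, sub_self,
      add_zero] at this
    rw [pow_zero, mul_one]
    linarith
  · obtain ⟨F, C, J, hC, hF, hFe, hFb⟩ := exists_invL hβ h hM ψ hε h1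
    obtain ⟨A, hA, hI⟩ := norm_integral_Wm_le (β + ε + 3) J
    refine ⟨A * C, J, by positivity, fun D s hD hs => ?_⟩
    rw [Mob_eq_Sm, Sm_eq_integral hb hD (σ := 2) (by norm_num), norm_mul]
    refine (mul_le_of_le_one_left (norm_nonneg _) hπ).trans ?_
    have e : ∀ u : ℝ, ∑' n : O, mu n * rc ψ 1 n * (nr n : ℂ) ^ (-(((2 : ℝ) : ℂ) + u * I)) =
        F (((2 : ℝ) : ℂ) + u * I) := fun u => (hFe _ (by simp)).symm
    simp only [e]
    rw [Wm_shift (G := F) (σ₀ := β + ε) (σ₁ := 2) (T := 0) (by linarith) hD s hF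
      fun w hw _ => hFb w hw]
    refine hI _ _ C D s hD (hB s hs) fun u => ?_
    simpa using hFb _ (Contour.line_mem le_rfl (by linarith) u)

/-! ### primes -/

open Classical in
/-- Restriction of a sequence to the primes. -/
def pr (b : O → ℂ) (p : O) : ℂ := if Prime p then b p else 0

open Classical in
/-- The contribution of the higher powers of `p` to the logarithm of the Euler product. -/
def qt (b : O → ℂ) (p : O) (w : ℂ) : ℂ :=
  if Prime p then -Complex.log (1 - b p * (nr p : ℂ) ^ (-w)) - b p * (nr p : ℂ) ^ (-w) else 0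

theorem polyB_pr {b : O → ℂ} (hb : PolyB b 1 0) : PolyB (pr b) 1 0 := by
  refine ⟨by simp [pr], fun n => ?_⟩
  unfold pr
  split_ifs
  · exact hb.2 n
  · simp

theorem norm_z_le {b : O → ℂ} (hb : PolyB b 1 0) {p : O} (hp : Prime p) {w : ℂ}
    (hw : 1 / 2 ≤ w.re) : ‖b p * (nr p : ℂ) ^ (-w)‖ ≤ 3 / 4 := by
  have h2 : (2 : ℝ) ≤ nr p := by exact_mod_cast CountAux.two_le_nm hp
  refine (norm_term_le hb w p).trans ?_
  calc nr p ^ (-w.re) ≤ nr p ^ (-(1 / 2) : ℝ) :=
        Real.rpow_le_rpow_of_exponent_le (by linarith) (by linarith)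
    _ ≤ (2 : ℝ) ^ (-(1 / 2) : ℝ) := Real.rpow_le_rpow_of_nonpos two_pos h2 (by norm_num)
    _ ≤ 3 / 4 := by
        refine le_of_sq_le_sq ?_ (by norm_num)
        rw [← Real.rpow_natCast, ← Real.rpow_mul (by norm_num)]
        norm_num

theorem norm_qt_le {b : O → ℂ} (hb : PolyB b 1 0) {δ : ℝ} (hδ : 0 ≤ δ) (p : O) {w : ℂ}
    (hw : 1 / 2 + δ ≤ w.re) : ‖qt b p w‖ ≤ 2 * nr p ^ (-(1 + 2 * δ)) := by
  unfold qt
  split_ifs with hp
  · have h1 := norm_z_le hb hp (w := w) (by linarith)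
    have h2 := norm_term_le hb w p
    have h0 := nr_pos hp.ne_zero
    set z := b p * (nr p : ℂ) ^ (-w) with hz
    have h3 := Complex.norm_log_one_add_sub_self_le (z := -z) (by rw [norm_neg]; linarith)
    rw [norm_neg] at h3
    have h4 : (1 - ‖z‖)⁻¹ ≤ 4 := by
      rw [inv_le_comm₀ (by linarith) (by norm_num)]
      linarith
    have h5 : ‖z‖ ^ 2 ≤ nr p ^ (-(1 + 2 * δ)) := by
      calc ‖z‖ ^ 2 ≤ (nr p ^ (-w.re)) ^ 2 := by gcongr
        _ = nr p ^ (-w.re * 2) := by rw [← Real.rpow_natCast, ← Real.rpow_mul h0.le]; norm_num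
        _ ≤ _ := Real.rpow_le_rpow_of_exponent_le (one_le_nr hp.ne_zero) (by linarith)
    calc ‖-Complex.log (1 - z) - z‖ = ‖Complex.log (1 + -z) - -z‖ := by
          rw [← norm_neg, sub_eq_add_neg 1 z]
          congr 1
          ring
      _ ≤ ‖z‖ ^ 2 * (1 - ‖z‖)⁻¹ / 2 := h3
      _ ≤ nr p ^ (-(1 + 2 * δ)) * 4 / 2 := by
          have : 0 ≤ (1 - ‖z‖)⁻¹ := inv_nonneg.2 (by linarith)
          gcongr
      _ = _ := by ring
  · rw [norm_zero]
    positivity

theorem differentiableOn_qt {b : O → ℂ} (hb : PolyB b 1 0) (p : O) :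
    DifferentiableOn ℂ (qt b p) {w | 1 / 2 ≤ w.re} := by
  unfold qt
  split_ifs with hp
  · have h0 : (nr p : ℂ) ≠ 0 := by exact_mod_cast (nr_pos hp.ne_zero).ne'
    have hz : Differentiable ℂ fun w : ℂ => b p * (nr p : ℂ) ^ (-w) :=
      (differentiable_neg.const_cpow (Or.inl h0)).const_mul _
    refine (DifferentiableOn.clog (hz.const_sub 1).differentiableOn fun w hw => ?_).neg.sub
      hz.differentiableOn
    rw [sub_eq_add_neg]
    refine Complex.mem_slitPlane_of_norm_lt_one ?_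
    rw [norm_neg]
    linarith [norm_z_le hb hp hw]
  · exact differentiableOn_const _

/-- The class bound for prime sums from a bound for the logarithm of the Euler product. -/
theorem Sm_pr {δ : ℝ} (hδ : 0 < δ) (hδ1 : δ ≤ 1) : ∃ C : ℝ, 0 < C ∧
    ∀ (b : O → ℂ) (ℓ : ℂ → ℂ) (R X τ σ K : ℝ), PolyB b 1 0 → 1 ≤ R → 0 < X → X ≤ R → 1 / 2 ≤ σ →
      σ ≤ 1 → 1 ≤ K →
      DifferentiableOn ℂ ℓ {w | σ + δ ≤ w.re ∧ w.re ≤ 2 ∧ |w.im + τ| ≤ Real.log R} →
      (∀ w : ℂ, w.re = 2 → |w.im + τ| ≤ Real.log R → ℓ w = ∑' p : O, by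
        classical exact if Prime p then -Complex.log (1 - b p * (nr p : ℂ) ^ (-w)) else 0) →
      (∀ w : ℂ, σ + δ ≤ w.re → w.re ≤ 2 → |w.im + τ| ≤ Real.log R → ‖ℓ w‖ ≤ K) →
      ‖Sm (pr b) X (τ * Complex.I)‖ ≤ C * K * R ^ δ * X ^ σ := by
  obtain ⟨C, hC, h⟩ := Sm_class
  have hs : Summable fun p : O => 2 * nr p ^ (-(1 + 2 * (δ / 2))) :=
    (summable_nr_rpow (by linarith)).mul_left 2
  set S : ℝ := ∑' p : O, 2 * nr p ^ (-(1 + 2 * (δ / 2))) with hS
  have hS0 : 0 ≤ S := tsum_nonneg fun n => by positivity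
  refine ⟨C * (1 + S), by positivity, fun b ℓ R X τ σ K hb hR hX hXR hσ hσ1 hK hd he hB => ?_⟩
  have hq : ∀ (p : O) (w : ℂ), w ∈ {w : ℂ | 1 / 2 + δ / 2 < w.re} →
      ‖qt b p w‖ ≤ 2 * nr p ^ (-(1 + 2 * (δ / 2))) := fun p w hw =>
    norm_qt_le hb (by linarith) p (le_of_lt hw)
  have hQ : DifferentiableOn ℂ (fun w => ∑' p : O, qt b p w) {w : ℂ | 1 / 2 + δ / 2 < w.re} :=
    Complex.differentiableOn_tsum_of_summable_norm hs
      (fun p => (differentiableOn_qt hb p).mono fun w hw => by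
        simp only [Set.mem_ofPred_eq] at hw ⊢
        linarith) (isOpen_lt continuous_const continuous_re) hq
  refine (h (pr b) (fun w => ℓ w - ∑' p : O, qt b p w) R X τ σ δ (K * (1 + S)) (polyB_pr hb) hR hX
    hXR (by linarith) hσ1 hδ.le hδ1 (by nlinarith) (hd.sub (hQ.mono fun w hw => ?_))
    (fun w h1 h2 => ?_) fun w h1 h2 h3 => ?_).trans_eq (by ring)
  · simp only [Set.mem_ofPred_eq] at hw ⊢
    linarith [hw.1]
  · have s1 : Summable fun p : O => qt b p w :=
      .of_norm_bounded hs fun p => hq p w (by simp only [Set.mem_ofPred_eq]; linarith)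
    have s2 := (summable_D (polyB_pr hb) (w := w) (by linarith)).of_norm
    rw [sub_eq_iff_eq_add', ← s1.tsum_add s2, he w h1 h2]
    refine tsum_congr fun p => ?_
    unfold qt pr
    split_ifs
    · ring
    · simp
  · have h4 : ‖∑' p : O, qt b p w‖ ≤ S :=
      tsum_of_norm_bounded hs.hasSum fun p => hq p w (by simp only [Set.mem_ofPred_eq]; linarith)
    have h5 := hB w h1 h2 h3
    refine (norm_sub_le _ _).trans ?_
    nlinarith

theorem Prm_eq_Sm {M : O} (ν : Chr M) (a : O) (P : ℝ) (s : ℂ) :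
    Prm ν a P s = Sm (pr (rc ν a)) P s := by
  refine tsum_congr fun p => ?_
  unfold pr
  split_ifs
  · rfl
  · simp

end B2

end Crest.Agent.R17
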