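import Crest.Agent.R17.Count

/-!
# Row 17, module M4: Möbius expansion in two variables (Euler product form)
-/

set_option autoImplicit false

noncomputable section

namespace Crest.Agent.R17

/-- exponents of the first variable in the local factor -/
def MBb_e1 (b : Bool) : Fin 6 → ℕ := if b then ![0, 1, 0, 1, 0, 0] else ![0, 2, 1, 0, 2, 1]

/-- exponents of the second variable in the local factor -/
def MBb_e2 (b : Bool) : Fin 6 → ℕ := if b then ![0, 0, 1, 1, 0, 0] else ![0, 0, 1, 2, 1, 2]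

/-- coefficients of the local factor -/
def MBb_g (b : Bool) : Fin 6 → ℝ := if b then ![1, -1, -1, 1, 0, 0] else ![1, -1, -1, -1, 1, 1]

theorem MBb_loc (b : Bool) (x y : ℕ) :
    ∑ k : Fin 6, (if MBb_e1 b k ≤ x ∧ MBb_e2 b k ≤ y then MBb_g b k else 0) =
      if x + y ≤ 1 ∧ (b = true → x + y = 0) then 1 else 0 := by
  rw [Fin.sum_univ_six]
  cases b <;> rcases x with _ | _ | x <;> rcases y with _ | _ | y <;>
    simp [MBb_e1, MBb_e2, MBb_g] <;> omega

theorem MBb_loc2 (b : Bool) {x : ℝ} (h0 : 0 ≤ x) (h1 : x ≤ 1) :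
    ∑ k : Fin 6, |MBb_g b k| * x ^ (MBb_e1 b k + MBb_e2 b k) ≤
      Real.exp (5 * x ^ 2) * (if b = true then 4 else 1) := by
  rw [Fin.sum_univ_six]
  have h2 := Real.add_one_le_exp (5 * x ^ 2)
  have h3 : x ^ 2 ≤ 1 := pow_le_one₀ h0 h1
  have h4 : x ^ 3 ≤ x ^ 2 := pow_le_pow_of_le_one h0 h1 (by norm_num)
  cases b
  · simp [MBb_e1, MBb_e2, MBb_g]
    nlinarith
  · simp [MBb_e1, MBb_e2, MBb_g]
    nlinarith [sq_nonneg x]

theorem MBb_prod_dvd {P : Finset O} (hP : ∀ p ∈ P, Prime p ∧ Primary p) (e : P → ℕ) {n : O}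
    (hn : n ≠ 0) : ∏ p : P, (p : O) ^ e p ∣ n ↔ ∀ p : P, e p ≤ vp p n := by
  constructor
  · intro h p
    rw [← pow_dvd_iff_le_vp (hP p p.2).1 hn]
    exact (Finset.dvd_prod_of_mem (fun p : P => (p : O) ^ e p) (Finset.mem_univ p)).trans h
  · intro h
    refine Finset.prod_dvd_of_coprime (fun p _ q _ hpq => ?_) fun p _ =>
      (pow_dvd_iff_le_vp (hP p p.2).1 hn).2 (h p)
    refine IsCoprime.pow ((hP p p.2).1.coprime_iff_not_dvd.2 fun hd => hpq ?_)
    exact Subtype.ext (BasicB.eq_of_dvd (hP p p.2).1 (hP q q.2).1 (hP p p.2).2 (hP q q.2).2 hd)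

open Classical in
theorem MBb_good {P : Finset O} (hP : ∀ p ∈ P, Prime p ∧ Primary p) {T n₁ n₂ : O} (hT : T ≠ 0)
    (h₁ : Primary n₁) (h₂ : Primary n₂) (k₁ : pf n₁ ⊆ P) (k₂ : pf n₂ ⊆ P) :
    (Squarefree (n₁ * n₂) ∧ IsCoprime (n₁ * n₂) T) ↔
      ∀ p : P, vp p n₁ + vp p n₂ ≤ 1 ∧ (decide ((p : O) ∣ T) = true → vp p n₁ + vp p n₂ = 0) := by
  have h0 := (h₁.mul h₂).ne_zero
  constructor
  · rintro ⟨a, b⟩ p
    have hp := hP p p.2
    rw [← vp_mul hp.1 h₁.ne_zero h₂.ne_zero]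
    refine ⟨BasicB.vp_le_one a hp.1, fun hd => ?_⟩
    rw [decide_eq_true_eq] at hd
    rw [vp_eq_zero_iff hp.1 h0]
    exact fun h => hp.1.not_isUnit (b.isUnit_of_dvd' h hd)
  · intro h
    have key : ∀ p ∈ pf (n₁ * n₂), p ∈ P := by
      intro p hp
      rw [pf_mul h₁.ne_zero h₂.ne_zero, Finset.mem_union] at hp
      exact hp.elim (fun h => k₁ h) (fun h => k₂ h)
    constructor
    · rw [(h₁.mul h₂).squarefree_iff]
      intro p hp
      have a := (h ⟨p, key p hp⟩).1
      have b := BasicB.vp_ne_zero hp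
      rw [vp_mul (BasicB.pf_sub hp).1 h₁.ne_zero h₂.ne_zero] at b ⊢
      simp only at a
      omega
    · refine isCoprime_of_disjoint_pf (h₁.mul h₂) hT (Finset.disjoint_left.2 fun p hp hp' => ?_)
      have a := (h ⟨p, key p hp⟩).2 (by simpa using (BasicB.of_mem_pf hp').2.2)
      have b := BasicB.vp_ne_zero hp
      rw [vp_mul (BasicB.pf_sub hp).1 h₁.ne_zero h₂.ne_zero] at b
      exact b a

open Classical in
/-- Möbius expansion indexed by a finite type. -/
theorem MBb_moeb {ε : ℝ} (hε : 0 < ε) : ∃ C : ℝ, 0 < C ∧ ∀ (T : O) (R : ℝ), 1 ≤ R → T ≠ 0 →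
    ∃ (I : Type) (_ : Fintype I) (D₁ D₂ : I → O) (γ : I → ℝ),
      (∀ i, Primary (D₁ i) ∧ Primary (D₂ i)) ∧
      (∀ n₁ n₂, Primary n₁ → Primary n₂ → nr n₁ ≤ R → nr n₂ ≤ R →
        (if Squarefree (n₁ * n₂) ∧ IsCoprime (n₁ * n₂) T then 1 else 0 : ℝ) =
          ∑ i, if D₁ i ∣ n₁ ∧ D₂ i ∣ n₂ then γ i else 0) ∧
      ∑ i, (if nr (D₁ i) ≤ R ∧ nr (D₂ i) ≤ R then |γ i| / Real.sqrt (nr (D₁ i) * nr (D₂ i))
        else 0) ≤ C * (R * nr T) ^ ε := by
  obtain ⟨C₁, hC₁, h₁⟩ := CountAux.sum_all (show 1 < 1 + ε by linarith)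
  obtain ⟨C₂, hC₂, h₂⟩ := pow_card_pf_le hε 4
  refine ⟨Real.exp (5 * C₁) * C₂, by positivity, fun T R hR hT => ?_⟩
  have hR0 : 0 ≤ R := by linarith
  obtain ⟨P, hP, hsub⟩ : ∃ P : Finset O, (∀ p ∈ P, Prime p ∧ Primary p) ∧
      ∀ n, Primary n → nr n ≤ R → pf n ⊆ P := by
    refine ⟨(ball ⌊R⌋₊).filter (fun p => Prime p ∧ Primary p),
      fun p hp => (Finset.mem_filter.1 hp).2, fun n hn hle p hp => ?_⟩
    have a := BasicB.of_mem_pf hp
    rw [Finset.mem_filter, mem_ball, Nat.le_floor_iff hR0]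
    refine ⟨le_trans ?_ hle, a.1, a.2.1⟩
    exact_mod_cast nm_le_of_dvd a.2.2 hn.ne_zero
  obtain ⟨b, hb⟩ : ∃ b : P → Bool, b = fun p : P => decide ((p : O) ∣ T) := ⟨_, rfl⟩
  refine ⟨P → Fin 6, inferInstance, fun φ => ∏ p : P, (p : O) ^ MBb_e1 (b p) (φ p),
    fun φ => ∏ p : P, (p : O) ^ MBb_e2 (b p) (φ p), fun φ => ∏ p : P, MBb_g (b p) (φ p),
    fun φ => ⟨Primary.prod fun p _ => (hP p p.2).2.pow _, Primary.prod fun p _ => (hP p p.2).2.pow _⟩,
    fun n₁ n₂ a₁ a₂ l₁ l₂ => ?_, ?_⟩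
  · have e1 : (if Squarefree (n₁ * n₂) ∧ IsCoprime (n₁ * n₂) T then 1 else 0 : ℝ) =
        ∏ p : P, ∑ k : Fin 6, (if MBb_e1 (b p) k ≤ vp p n₁ ∧ MBb_e2 (b p) k ≤ vp p n₂ then
          MBb_g (b p) k else 0) := by
      simp only [MBb_loc]
      rw [Finset.prod_boole]
      have e2 := MBb_good hP hT a₁ a₂ (hsub _ a₁ l₁) (hsub _ a₂ l₂)
      by_cases hc : Squarefree (n₁ * n₂) ∧ IsCoprime (n₁ * n₂) T
      · rw [if_pos hc, if_pos]
        intro p _
        simpa only [hb] using e2.1 hc p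
      · rw [if_neg hc, if_neg]
        exact fun h => hc (e2.2 fun p => by simpa only [hb] using h p (Finset.mem_univ p))
    rw [e1, Finset.prod_univ_sum, Fintype.piFinset_univ]
    refine Finset.sum_congr rfl fun φ _ => ?_
    rw [Finset.prod_ite_zero]
    by_cases hc : ∀ p : P, MBb_e1 (b p) (φ p) ≤ vp p n₁ ∧ MBb_e2 (b p) (φ p) ≤ vp p n₂
    · rw [if_pos (fun p _ => hc p), if_pos ⟨(MBb_prod_dvd hP _ a₁.ne_zero).2 fun p => (hc p).1,
        (MBb_prod_dvd hP _ a₂.ne_zero).2 fun p => (hc p).2⟩]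
    · rw [if_neg (fun h => hc fun p => h p (Finset.mem_univ p)), if_neg]
      exact fun h => hc fun p => ⟨(MBb_prod_dvd hP _ a₁.ne_zero).1 h.1 p,
        (MBb_prod_dvd hP _ a₂.ne_zero).1 h.2 p⟩
  · obtain ⟨x, hx⟩ : ∃ x : P → ℝ, x = fun p : P => nr p ^ (-((1 + ε) / 2)) := ⟨_, rfl⟩
    have hx0 : ∀ p, 0 ≤ x p := fun p => by simp only [hx]; positivity
    have hx1 : ∀ p, x p ≤ 1 := fun p => by
      simp only [hx]
      exact Real.rpow_le_one_of_one_le_of_nonpos (one_le_nr (hP p p.2).1.ne_zero) (by linarith)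
    have hx2 : ∀ p, x p ^ 2 = nr p ^ (-(1 + ε)) := fun p => by
      simp only [hx]
      rw [← Real.rpow_natCast, ← Real.rpow_mul (by positivity)]
      congr 1; push_cast; ring
    have hD : ∀ e : P → ℕ, nr (∏ p : P, (p : O) ^ e p) ^ (-((1 + ε) / 2)) = ∏ p : P, x p ^ e p := by
      intro e
      have : nr (∏ p : P, (p : O) ^ e p) = ∏ p : P, nr p ^ e p := by
        simp only [nr, nm_prod, nm_pow]; push_cast; rfl
      rw [this, ← Real.finsetProd_rpow _ _ (fun p _ => by positivity)]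
      refine Finset.prod_congr rfl fun p _ => ?_
      simp only [hx]
      rw [← Real.rpow_natCast, ← Real.rpow_natCast, ← Real.rpow_mul (by positivity),
        ← Real.rpow_mul (by positivity), mul_comm]
    calc _ ≤ ∑ φ : P → Fin 6, R ^ ε * ∏ p : P, (|MBb_g (b p) (φ p)| *
            x p ^ (MBb_e1 (b p) (φ p) + MBb_e2 (b p) (φ p))) := by
          refine Finset.sum_le_sum fun φ _ => ?_
          split_ifs with hc
          · set A₁ := nr (∏ p : P, (p : O) ^ MBb_e1 (b p) (φ p)) with hA₁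
            set A₂ := nr (∏ p : P, (p : O) ^ MBb_e2 (b p) (φ p)) with hA₂
            have p₁ : 0 < A₁ := nr_pos (Primary.prod fun (p : P) _ => (hP p p.2).2.pow _).ne_zero
            have p₂ : 0 < A₂ := nr_pos (Primary.prod fun (p : P) _ => (hP p p.2).2.pow _).ne_zero
            simp only [pow_add, Finset.prod_mul_distrib]
            rw [← hD, ← hD, ← hA₁, ← hA₂, ← Finset.abs_prod, ← Real.mul_rpow p₁.le p₂.le,
              Real.sqrt_eq_rpow, div_eq_mul_inv, ← Real.rpow_neg (by positivity),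
              show -(1 / 2 : ℝ) = ε / 2 + -((1 + ε) / 2) by ring, Real.rpow_add (by positivity)]
            have k : (A₁ * A₂) ^ (ε / 2) ≤ R ^ ε := by
              calc (A₁ * A₂) ^ (ε / 2) ≤ (R ^ (2 : ℝ)) ^ (ε / 2) := by
                    refine Real.rpow_le_rpow (by positivity) ?_ (by positivity)
                    rw [Real.rpow_two, sq]
                    exact mul_le_mul hc.1 hc.2 p₂.le hR0
                _ = R ^ ε := by rw [← Real.rpow_mul hR0]; congr 1; ring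
            calc _ = (A₁ * A₂) ^ (ε / 2) * (|∏ p : P, MBb_g (b p) (φ p)| *
                  (A₁ * A₂) ^ (-((1 + ε) / 2))) := by ring
              _ ≤ _ := by gcongr
          · exact mul_nonneg (by positivity) (Finset.prod_nonneg fun p _ => by
              have := hx0 p; positivity)
      _ = R ^ ε * ∏ p : P, ∑ k : Fin 6, |MBb_g (b p) k| *
            x p ^ (MBb_e1 (b p) k + MBb_e2 (b p) k) := by
          rw [← Finset.mul_sum, Finset.prod_univ_sum, Fintype.piFinset_univ]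
      _ ≤ R ^ ε * ∏ p : P, (Real.exp (5 * x p ^ 2) * (if b p = true then 4 else 1)) := by
          refine mul_le_mul_of_nonneg_left (Finset.prod_le_prod (fun p _ =>
            Finset.sum_nonneg fun k _ => by have := hx0 p; positivity)
            fun p _ => MBb_loc2 _ (hx0 p) (hx1 p)) (by positivity)
      _ ≤ R ^ ε * (Real.exp (5 * C₁) * (C₂ * nr T ^ ε)) := by
          refine mul_le_mul_of_nonneg_left ?_ (by positivity)
          rw [Finset.prod_mul_distrib, ← Real.exp_sum]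
          refine mul_le_mul (Real.exp_le_exp.2 ?_) (le_trans ?_ (h₂ T hT))
            (Finset.prod_nonneg fun p _ => by split_ifs <;> norm_num) (by positivity)
          · rw [← Finset.mul_sum]
            refine mul_le_mul_of_nonneg_left ?_ (by norm_num)
            simp only [hx2]
            rw [Finset.sum_coe_sort P (fun p => nr p ^ (-(1 + ε)))]
            exact h₁ P
          · rw [Finset.prod_ite, Finset.prod_const_one, mul_one, Finset.prod_const]
            refine pow_le_pow_right₀ (by norm_num) ?_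
            refine Finset.card_le_card_of_injOn (fun p => (p : O)) (fun p hp => ?_)
              (fun p _ q _ h => Subtype.ext h)
            rw [Finset.mem_coe, Finset.mem_filter] at hp
            rw [Finset.mem_coe, mem_pf hT]
            exact ⟨(hP p p.2).1, (hP p p.2).2, by simpa [hb] using hp.2⟩
      _ = _ := by rw [Real.mul_rpow hR0 (by positivity)]; ring

end Crest.Agent.R17
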