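import Crest.Agent.R17.M4Core
import Crest.Agent.R17.LBasic
import Crest.Agent.R17.M4BilAuxM

/-!
# Row 17, module M4, part Bil: from products of plain sums to squarefree indices and back
-/

set_option autoImplicit false

noncomputable section

namespace Crest.Agent.R17

open Crest.Agent.R17.M4

open scoped ComplexConjugate

open Classical in
/-- Primary elements coprime to `M` of norm at most `X`. -/
def pr (M : O) (X : ℝ) : Finset O := (ball ⌊X⌋₊).filter fun n => Primary n ∧ IsCoprime n M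

/-- A bilinear row sum. -/
def bilS (M : O) (R : ℝ) (B : O → O → ℂ) (a : O) : ℂ :=
  ∑ n₁ ∈ pr M R, ∑ n₂ ∈ pr M R, B n₁ n₂ * conj (sym (n₁ * n₂) a)

open Classical in
/-- The squarefree part of a bilinear coefficient after removing `f₁`, `f₂`; `f` is the powerful
part of the full index. -/
def sqB (M : O) (R : ℝ) (B : O → O → ℂ) (f₁ f₂ f s : O) : ℂ :=
  if Squarefree s ∧ IsCoprime s f then
    ∑ v ∈ (sp M R ×ˢ sp M R).filter (fun v => v.1 * v.2 = s), B (f₁ * v.1) (f₂ * v.2)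
  else 0

open Classical in
/-- The same for a mark. -/
def sqC (c : O → ℂ) (t f z : O) : ℂ := if IsCoprime z f then c (t * z) else 0

/-- Support of a bilinear coefficient. -/
def SuppB (M : O) (Q : ℝ) (B : O → O → ℂ) : Prop :=
  ∀ n₁ n₂, B n₁ n₂ ≠ 0 → Primary n₁ ∧ IsCoprime n₁ M ∧ Primary n₂ ∧ IsCoprime n₂ M ∧
    nr n₁ * nr n₂ ≤ Q

theorem MBa_sp {M n : O} {X : ℝ} (h : n ∈ sp M X) : SP M n := by
  classical
  rw [sp, Finset.mem_filter] at h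
  exact h.2

theorem MBa_mem_pr {M n : O} {X : ℝ} (hX : 0 ≤ X) :
    n ∈ pr M X ↔ Primary n ∧ IsCoprime n M ∧ nr n ≤ X := by
  classical
  rw [pr, Finset.mem_filter, mem_ball, Nat.le_floor_iff hX]
  tauto

theorem supp_sqB {M : O} {R Q : ℝ} {B : O → O → ℂ} (h : SuppB M Q B) {f₁ f₂ : O} (h1 : Primary f₁)
    (h2 : Primary f₂) (f : O) : Supp M (Q / (nr f₁ * nr f₂)) (sqB M R B f₁ f₂ f) := by
  classical
  intro s hs
  unfold sqB at hs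
  split_ifs at hs with hc
  · obtain ⟨v, hv, hB⟩ := Finset.exists_ne_zero_of_sum_ne_zero hs
    rw [Finset.mem_filter, Finset.mem_product] at hv
    obtain ⟨⟨hv1, hv2⟩, rfl⟩ := hv
    have a1 := MBa_sp hv1
    have a2 := MBa_sp hv2
    obtain ⟨-, -, -, -, hQ⟩ := h _ _ hB
    refine ⟨⟨a1.1.mul a2.1, hc.1, a1.2.2.mul_left a2.2.2⟩, ?_⟩
    rw [le_div_iff₀ (mul_pos (nr_pos h1.ne_zero) (nr_pos h2.ne_zero))]
    rw [nr_mul, nr_mul] at hQ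
    rw [nr_mul]
    linarith
  · exact absurd rfl hs

theorem supp_sqC {M : O} {L : ℝ} {c : O → ℂ} (h : Supp M L c) {t : O} (ht : Primary t) (f : O) :
    Supp M (L / nr t) (sqC c t f) := by
  classical
  intro z hz
  unfold sqC at hz
  split_ifs at hz with hc
  · obtain ⟨h1, h2⟩ := h _ hz
    refine ⟨LS2.SP_of_dvd h1 (ht.of_mul h1.1) (Dvd.intro_left t rfl), ?_⟩
    rw [le_div_iff₀ (nr_pos ht.ne_zero), mul_comm, ← nr_mul]
    exact h2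
  · exact absurd rfl hz

theorem norm_sqB_le {ε : ℝ} (hε : 0 < ε) : ∃ C : ℝ, 0 < C ∧ ∀ (M : O) (R Q b : ℝ) (B : O → O → ℂ)
    (f₁ f₂ f s : O), 1 ≤ R → 0 ≤ b → (∀ x y, ‖B x y‖ ≤ b) → ‖sqB M R B f₁ f₂ f s‖ ≤ C * R ^ ε * b := by
  classical
  obtain ⟨C, hC, h⟩ := card_pdiv_le (half_pos hε)
  refine ⟨C, hC, fun M R Q b B f₁ f₂ f s hR hb hB => ?_⟩
  have hR0 : 0 ≤ R := by linarith
  unfold sqB
  split_ifs with hc
  · set S := (sp M R ×ˢ sp M R).filter (fun v => v.1 * v.2 = s) with hS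
    have hs0 : s ≠ 0 := hc.1.ne_zero
    have h1 : ‖∑ v ∈ S, B (f₁ * v.1) (f₂ * v.2)‖ ≤ S.card * b := by
      refine (norm_sum_le _ _).trans ?_
      rw [← nsmul_eq_mul]
      exact Finset.sum_le_card_nsmul _ _ _ fun v _ => hB _ _
    refine h1.trans (mul_le_mul_of_nonneg_right ?_ hb)
    rcases S.eq_empty_or_nonempty with he | ⟨v, hv⟩
    · rw [he]; simp only [Finset.card_empty, Nat.cast_zero]; positivity
    · have h2 : S.card ≤ (pdiv s).card := by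
        refine Finset.card_le_card_of_injOn Prod.fst (fun v hv => ?_) (fun v hv w hw hvw => ?_)
        · rw [Finset.mem_coe, hS, Finset.mem_filter, Finset.mem_product] at hv
          rw [Finset.mem_coe, mem_pdiv hs0]
          exact ⟨(MBa_sp hv.1.1).1, Dvd.intro _ hv.2⟩
        · rw [Finset.mem_coe, hS, Finset.mem_filter, Finset.mem_product] at hv hw
          refine Prod.ext hvw ?_
          have h3 : v.1 * v.2 = v.1 * w.2 := by rw [hv.2, hvw, hw.2]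
          exact mul_left_cancel₀ (MBa_sp hv.1.1).1.ne_zero h3
      rw [hS, Finset.mem_filter, Finset.mem_product, LS2.mem_sp hR0, LS2.mem_sp hR0] at hv
      have h3 : nr s ≤ R ^ (2 : ℝ) := by
        rw [← hv.2, nr_mul, Real.rpow_two, sq]
        exact mul_le_mul hv.1.1.2 hv.1.2.2 (by positivity) hR0
      have h4 : nr s ^ (ε / 2) ≤ R ^ ε := by
        refine (Real.rpow_le_rpow (by positivity) h3 (by positivity)).trans_eq ?_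
        rw [← Real.rpow_mul hR0]; congr 1; ring
      calc (S.card : ℝ) ≤ (pdiv s).card := by exact_mod_cast h2
        _ ≤ C * nr s ^ (ε / 2) := h s hs0
        _ ≤ C * R ^ ε := by gcongr
  · rw [norm_zero]; positivity

/-! ### arithmetic of the decomposition -/

theorem MBa_vp_cases {k h p : O} (hk : Primary k) (hks : Squarefree k) (hh : Powerful h)
    (hc : IsCoprime k h) (hp : Prime p) (hp' : Primary p) :
    (vp p k = 0 ∧ vp p h = 0) ∨ (vp p k = 1 ∧ vp p h = 0) ∨ (vp p k = 0 ∧ 2 ≤ vp p h) := by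
  have h1 := BasicB.vp_le_one hks hp
  by_cases h2 : vp p h = 0
  · omega
  · have h3 : p ∈ pf h := (BasicB.mem_pf_iff hh.1.ne_zero hp hp').2 h2
    have h4 := hh.2 p h3
    have h5 : vp p k = 0 := by
      by_contra h6
      exact Finset.disjoint_left.1 (disjoint_pf hc)
        ((BasicB.mem_pf_iff hk.ne_zero hp hp').2 h6) h3
    omega

theorem MBa_unique {k h k' h' : O} (hk : Primary k) (hks : Squarefree k) (hh : Powerful h)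
    (hc : IsCoprime k h) (hk' : Primary k') (hks' : Squarefree k') (hh' : Powerful h')
    (hc' : IsCoprime k' h') (e : h * k = h' * k') : h = h' := by
  refine hh.1.ext_vp hh'.1 fun p hp hp' => ?_
  have e1 := congrArg (vp p) e
  rw [vp_mul hp hh.1.ne_zero hk.ne_zero, vp_mul hp hh'.1.ne_zero hk'.ne_zero] at e1
  have a := MBa_vp_cases hk hks hh hc hp hp'
  have b := MBa_vp_cases hk' hks' hh' hc' hp hp'
  omega

theorem MBa_split {n k h : O} (hn : Primary n) (hd : n ∣ h * k) :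
    ∃ f s : O, Primary f ∧ Primary s ∧ f ∣ h ∧ s ∣ k ∧ n = f * s := by
  obtain ⟨f, s, hf, hs, e⟩ := exists_dvd_and_dvd_of_dvd_mul hd
  have h1 : ¬ lam ∣ f := fun h2 => hn.not_lam_dvd (e ▸ h2.mul_right s)
  obtain ⟨u, hu, hp⟩ := exists_unit_primary h1
  obtain ⟨u, rfl⟩ := hu
  have e2 : n = (u * f) * (↑u⁻¹ * s) := by
    rw [e, mul_mul_mul_comm, Units.mul_inv, one_mul]
  exact ⟨u * f, ↑u⁻¹ * s, hp, hp.of_mul (e2 ▸ hn), Units.mul_left_dvd.2 hf,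
    Units.mul_left_dvd.2 hs, e2⟩

theorem MBa_cancel {f y f' y' F : O} (hf : Primary f) (hf' : Primary f') (h1 : f ∣ F) (h1' : f' ∣ F)
    (h2 : IsCoprime y F) (h2' : IsCoprime y' F) (e : f * y = f' * y') : f = f' ∧ y = y' := by
  have a : f ∣ f' := (h2'.symm.of_isCoprime_of_dvd_left h1).dvd_of_dvd_mul_right ⟨y, e.symm⟩
  have b : f' ∣ f := (h2.symm.of_isCoprime_of_dvd_left h1').dvd_of_dvd_mul_right ⟨y', e⟩
  have c : f = f' := hf.eq_of_associated hf' (associated_of_dvd_dvd a b)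
  subst c
  exact ⟨rfl, mul_left_cancel₀ hf.ne_zero e⟩

/-- the product of the four entries -/
def MBa_p (x : O × O × O × O) : O := x.1 * x.2.1 * x.2.2.1 * x.2.2.2

/-- all four entries are primary -/
def MBa_P (x : O × O × O × O) : Prop :=
  Primary x.1 ∧ Primary x.2.1 ∧ Primary x.2.2.1 ∧ Primary x.2.2.2

theorem MBa_P.p {x : O × O × O × O} (h : MBa_P x) : Primary (MBa_p x) :=
  ((h.1.mul h.2.1).mul h.2.2.1).mul h.2.2.2

theorem MBa_p_mul (x y : O × O × O × O) : MBa_p (x * y) = MBa_p x * MBa_p y := by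
  simp only [MBa_p, Prod.fst_mul, Prod.snd_mul]; ring

theorem MBa_d1 (x : O × O × O × O) : x.1 ∣ MBa_p x := ⟨x.2.1 * x.2.2.1 * x.2.2.2, by rw [MBa_p]; ring⟩
theorem MBa_d2 (x : O × O × O × O) : x.2.1 ∣ MBa_p x := ⟨x.1 * x.2.2.1 * x.2.2.2, by rw [MBa_p]; ring⟩
theorem MBa_d3 (x : O × O × O × O) : x.2.2.1 ∣ MBa_p x := ⟨x.1 * x.2.1 * x.2.2.2, by rw [MBa_p]; ring⟩
theorem MBa_d4 (x : O × O × O × O) : x.2.2.2 ∣ MBa_p x := ⟨x.1 * x.2.1 * x.2.2.1, by rw [MBa_p]; ring⟩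

theorem MBa_exists {x : O × O × O × O} (hx : MBa_P x) : ∃ q y : O × O × O × O, MBa_P q ∧ MBa_P y ∧
    Powerful (MBa_p q) ∧ Squarefree (MBa_p y) ∧ IsCoprime (MBa_p y) (MBa_p q) ∧ q * y = x := by
  obtain ⟨k, h, hk, hks, hh, hc, e⟩ := exists_sqfree_powerful hx.p
  rw [mul_comm] at e
  obtain ⟨f₁, s₁, a1, b1, c1, d1, e1⟩ := MBa_split hx.1 (e ▸ MBa_d1 x)
  obtain ⟨f₂, s₂, a2, b2, c2, d2, e2⟩ := MBa_split hx.2.1 (e ▸ MBa_d2 x)
  obtain ⟨f₃, s₃, a3, b3, c3, d3, e3⟩ := MBa_split hx.2.2.1 (e ▸ MBa_d3 x)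
  obtain ⟨f₄, s₄, a4, b4, c4, d4, e4⟩ := MBa_split hx.2.2.2 (e ▸ MBa_d4 x)
  have hq : MBa_P (f₁, f₂, f₃, f₄) := ⟨a1, a2, a3, a4⟩
  have hy : MBa_P (s₁, s₂, s₃, s₄) := ⟨b1, b2, b3, b4⟩
  have em : (f₁, f₂, f₃, f₄) * (s₁, s₂, s₃, s₄) = x :=
    Prod.ext e1.symm (Prod.ext e2.symm (Prod.ext e3.symm e4.symm))
  have e5 : MBa_p (f₁, f₂, f₃, f₄) * MBa_p (s₁, s₂, s₃, s₄) = h * k := by
    rw [← MBa_p_mul, em, e]
  have k1 : IsCoprime (MBa_p (f₁, f₂, f₃, f₄)) k :=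
    (((hc.symm.of_isCoprime_of_dvd_left c1).mul_left
      (hc.symm.of_isCoprime_of_dvd_left c2)).mul_left
      (hc.symm.of_isCoprime_of_dvd_left c3)).mul_left (hc.symm.of_isCoprime_of_dvd_left c4)
  have k2 : IsCoprime (MBa_p (s₁, s₂, s₃, s₄)) h :=
    (((hc.of_isCoprime_of_dvd_left d1).mul_left
      (hc.of_isCoprime_of_dvd_left d2)).mul_left
      (hc.of_isCoprime_of_dvd_left d3)).mul_left (hc.of_isCoprime_of_dvd_left d4)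
  have k3 : MBa_p (f₁, f₂, f₃, f₄) = h :=
    hq.p.eq_of_associated hh.1 (associated_of_dvd_dvd
      (k1.dvd_of_dvd_mul_right ⟨_, e5.symm⟩) (k2.symm.dvd_of_dvd_mul_right ⟨_, e5⟩))
  have k4 : MBa_p (s₁, s₂, s₃, s₄) = k := by
    rw [k3] at e5
    exact mul_left_cancel₀ hh.1.ne_zero e5
  exact ⟨_, _, hq, hy, k3 ▸ hh, k4 ▸ hks, by rw [k3, k4]; exact hc, em⟩

theorem MBa_inj {q y q' y' : O × O × O × O} (hq : MBa_P q) (hy : MBa_P y) (h1 : Powerful (MBa_p q))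
    (h2 : Squarefree (MBa_p y)) (h3 : IsCoprime (MBa_p y) (MBa_p q)) (hq' : MBa_P q')
    (hy' : MBa_P y') (h1' : Powerful (MBa_p q')) (h2' : Squarefree (MBa_p y'))
    (h3' : IsCoprime (MBa_p y') (MBa_p q')) (e : q * y = q' * y') : q = q' ∧ y = y' := by
  have e1 : MBa_p q = MBa_p q' :=
    MBa_unique hy.p h2 h1 h3 hy'.p h2' h1' h3' (by rw [← MBa_p_mul, ← MBa_p_mul, e])
  rw [← e1] at h3'
  have a1 := MBa_cancel hq.1 hq'.1 (MBa_d1 q) (e1 ▸ MBa_d1 q')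
    (h3.of_isCoprime_of_dvd_left (MBa_d1 y)) (h3'.of_isCoprime_of_dvd_left (MBa_d1 y'))
    (congrArg (·.1) e)
  have a2 := MBa_cancel hq.2.1 hq'.2.1 (MBa_d2 q) (e1 ▸ MBa_d2 q')
    (h3.of_isCoprime_of_dvd_left (MBa_d2 y)) (h3'.of_isCoprime_of_dvd_left (MBa_d2 y'))
    (congrArg (·.2.1) e)
  have a3 := MBa_cancel hq.2.2.1 hq'.2.2.1 (MBa_d3 q) (e1 ▸ MBa_d3 q')
    (h3.of_isCoprime_of_dvd_left (MBa_d3 y)) (h3'.of_isCoprime_of_dvd_left (MBa_d3 y'))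
    (congrArg (·.2.2.1) e)
  have a4 := MBa_cancel hq.2.2.2 hq'.2.2.2 (MBa_d4 q) (e1 ▸ MBa_d4 q')
    (h3.of_isCoprime_of_dvd_left (MBa_d4 y)) (h3'.of_isCoprime_of_dvd_left (MBa_d4 y'))
    (congrArg (·.2.2.2) e)
  exact ⟨Prod.ext a1.1 (Prod.ext a2.1 (Prod.ext a3.1 a4.1)),
    Prod.ext a1.2 (Prod.ext a2.2 (Prod.ext a3.2 a4.2))⟩

/-! ### expansion of the sums -/

theorem MBa_fib {ι κ : Type*} [DecidableEq κ] (S : Finset ι) (t : Finset κ) (g : ι → κ) (F : ι → ℂ)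
    (H : κ → ℂ) : ∑ n ∈ t, (∑ v ∈ S.filter (fun v => g v = n), F v) * H n =
      ∑ v ∈ S, if g v ∈ t then F v * H (g v) else 0 := by
  rw [← Finset.sum_filter, ← Finset.sum_fiberwise_eq_sum_filter]
  refine Finset.sum_congr rfl fun n _ => ?_
  rw [Finset.sum_mul]
  exact Finset.sum_congr rfl fun v hv => by rw [(Finset.mem_filter.1 hv).2]

/-- the summand -/
def MBa_T (B : O → O → ℂ) (c₁ c₂ : O → ℂ) (a : O) (x : O × O × O × O) : ℂ :=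
  B x.1 x.2.1 * c₁ x.2.2.1 * c₂ x.2.2.2 * conj (sym (MBa_p x) a)

theorem MBa_stepA {M : O} {R : ℝ} (hR : 0 ≤ R) (B : O → O → ℂ) (c₁ c₂ : O → ℂ) (a : O) :
    bilS M R B a * slot (sp M R) c₁ a * slot (sp M R) c₂ a =
      ∑ x ∈ pr M R ×ˢ pr M R ×ˢ sp M R ×ˢ sp M R, MBa_T B c₁ c₂ a x := by
  simp only [Finset.sum_product]
  rw [bilS, Finset.sum_mul, Finset.sum_mul]
  refine Finset.sum_congr rfl fun n₁ h₁ => ?_
  rw [Finset.sum_mul, Finset.sum_mul]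
  refine Finset.sum_congr rfl fun n₂ h₂ => ?_
  rw [slot, slot, mul_assoc, Finset.sum_mul_sum, Finset.mul_sum]
  refine Finset.sum_congr rfl fun z₁ h₃ => ?_
  rw [Finset.mul_sum]
  refine Finset.sum_congr rfl fun z₂ h₄ => ?_
  have a1 := ((MBa_mem_pr hR).1 h₁).1.ne_zero
  have a2 := ((MBa_mem_pr hR).1 h₂).1.ne_zero
  have a3 := (MBa_sp h₃).1.ne_zero
  have a4 := (MBa_sp h₄).1.ne_zero
  simp only [MBa_T, MBa_p]
  rw [sym_mul_left (mul_ne_zero (mul_ne_zero a1 a2) a3) a4, sym_mul_left (mul_ne_zero a1 a2) a3,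
    map_mul, map_mul]
  ring

/-- the condition on the squarefree parts -/
def MBa_C (M : O) (R : ℝ) (q y : O × O × O × O) : Prop :=
  y.1 * y.2.1 ∈ sp M R ∧ MBa_p y ∈ sp M R ∧ IsCoprime (MBa_p y) (MBa_p q)

open Classical in
theorem MBa_stepB (M : O) (R : ℝ) (B : O → O → ℂ) (c₁ c₂ : O → ℂ) (a : O) {q : O × O × O × O}
    (hq : MBa_P q) :
    conj (sym (MBa_p q) a) * rowS M R 5 (tri M R (sqB M R B q.1 q.2.1 (MBa_p q))
      (sqC c₁ q.2.2.1 (MBa_p q)) (sqC c₂ q.2.2.2 (MBa_p q))) a =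
      ∑ y ∈ sp M R ×ˢ sp M R ×ˢ sp M R ×ˢ sp M R,
        if MBa_C M R q y then MBa_T B c₁ c₂ a (q * y) else 0 := by
  set f := MBa_p q with hf
  have e1 : rowS M R 5 (tri M R (sqB M R B q.1 q.2.1 f) (sqC c₁ q.2.2.1 f) (sqC c₂ q.2.2.2 f)) a =
      ∑ v ∈ sp M R ×ˢ sp M R ×ˢ sp M R, if v.1 * v.2.1 * v.2.2 ∈ sp M R then
        sqB M R B q.1 q.2.1 f v.1 * sqC c₁ q.2.2.1 f v.2.1 * sqC c₂ q.2.2.2 f v.2.2 *
          conj (sym (v.1 * v.2.1 * v.2.2) a) else 0 := by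
    rw [← MBa_fib (sp M R ×ˢ sp M R ×ˢ sp M R) (sp M R) (fun v => v.1 * v.2.1 * v.2.2)
      (fun v => sqB M R B q.1 q.2.1 f v.1 * sqC c₁ q.2.2.1 f v.2.1 * sqC c₂ q.2.2.2 f v.2.2)
      (fun n => conj (sym n a)), rowS]
    refine Finset.sum_congr rfl fun n hn => ?_
    rw [tri, if_pos (MBa_sp hn).2.1, conj_sym (MBa_sp hn).1]
  set H : O → ℂ := fun s => if IsCoprime s f then ∑ z ∈ sp M R ×ˢ sp M R,
    if s * z.1 * z.2 ∈ sp M R then sqC c₁ q.2.2.1 f z.1 * sqC c₂ q.2.2.2 f z.2 *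
      conj (sym (s * z.1 * z.2) a) else 0 else 0 with hH
  have e2 : (∑ v ∈ sp M R ×ˢ sp M R ×ˢ sp M R, if v.1 * v.2.1 * v.2.2 ∈ sp M R then
        sqB M R B q.1 q.2.1 f v.1 * sqC c₁ q.2.2.1 f v.2.1 * sqC c₂ q.2.2.2 f v.2.2 *
          conj (sym (v.1 * v.2.1 * v.2.2) a) else 0) =
      ∑ s ∈ sp M R, (∑ v ∈ (sp M R ×ˢ sp M R).filter (fun v => v.1 * v.2 = s),
        B (q.1 * v.1) (q.2.1 * v.2)) * H s := by
    rw [Finset.sum_product]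
    refine Finset.sum_congr rfl fun s hs => ?_
    simp only [hH]
    by_cases hc : IsCoprime s f
    · rw [if_pos hc, Finset.mul_sum, sqB, if_pos ⟨(MBa_sp hs).2.1, hc⟩]
      refine Finset.sum_congr rfl fun z _ => ?_
      split_ifs
      · ring
      · rw [mul_zero]
    · rw [if_neg hc, mul_zero, sqB, if_neg (fun h => hc h.2)]
      simp
  rw [e1, e2, MBa_fib (sp M R ×ˢ sp M R) (sp M R) (fun v => v.1 * v.2)
    (fun v => B (q.1 * v.1) (q.2.1 * v.2)) H, Finset.mul_sum, Finset.sum_product,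
    Finset.sum_product]
  refine Finset.sum_congr rfl fun y₁ h₁ => ?_
  rw [Finset.sum_product]
  refine Finset.sum_congr rfl fun y₂ h₂ => ?_
  simp only [hH]
  by_cases k1 : y₁ * y₂ ∈ sp M R
  · rw [if_pos k1]
    by_cases k2 : IsCoprime (y₁ * y₂) f
    · rw [if_pos k2, Finset.mul_sum, Finset.mul_sum]
      refine Finset.sum_congr rfl fun z hz => ?_
      by_cases k3 : y₁ * y₂ * z.1 * z.2 ∈ sp M R
      · rw [if_pos k3]
        by_cases k4 : IsCoprime z.1 f ∧ IsCoprime z.2 f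
        · rw [if_pos ⟨k1, k3, (k2.mul_left k4.1).mul_left k4.2⟩, sqC, sqC, if_pos k4.1,
            if_pos k4.2, MBa_T, MBa_p_mul, ← hf,
            sym_mul_left hq.p.ne_zero (show MBa_p (y₁, y₂, z) ≠ 0 from (MBa_sp k3).1.ne_zero),
            map_mul]
          rw [← hf]
          simp only [Prod.fst_mul, Prod.snd_mul, MBa_p]
          ring
        · rw [if_neg (fun h => k4 ⟨h.2.2.of_isCoprime_of_dvd_left (MBa_d3 (y₁, y₂, z)),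
            h.2.2.of_isCoprime_of_dvd_left (MBa_d4 (y₁, y₂, z))⟩)]
          rcases not_and_or.1 k4 with k5 | k5
          · rw [sqC, if_neg k5]; simp
          · rw [sqC.eq_1 c₂, if_neg k5]; simp
      · rw [if_neg k3, if_neg (fun h => k3 h.2.1)]; simp
    · rw [if_neg k2, mul_zero, mul_zero]
      refine (Finset.sum_eq_zero fun z _ => if_neg fun h => k2 ?_).symm
      exact h.2.2.of_isCoprime_of_dvd_left ⟨z.1 * z.2, by simp only [MBa_p]; ring⟩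
  · rw [if_neg k1, mul_zero]
    exact (Finset.sum_eq_zero fun z _ => if_neg fun h => k1 h.1).symm

open Classical in
/-- the index set of the powerful parts -/
def MBa_Q (R Q L₁ L₂ : ℝ) : Finset (O × O × O × O) :=
  (ball ⌊R⌋₊ ×ˢ ball ⌊R⌋₊ ×ˢ ball ⌊R⌋₊ ×ˢ ball ⌊R⌋₊).filter fun q =>
    MBa_P q ∧ Powerful (MBa_p q) ∧ nr q.1 * nr q.2.1 ≤ Q ∧ nr q.2.2.1 ≤ L₁ ∧ nr q.2.2.2 ≤ L₂

theorem MBa_le_left {x y : O} (hy : y ≠ 0) : nr x ≤ nr (x * y) := by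
  rw [nr_mul]; exact le_mul_of_one_le_right (by positivity) (one_le_nr hy)

theorem MBa_le_right {x y : O} (hx : x ≠ 0) : nr y ≤ nr (x * y) := by
  rw [mul_comm]; exact MBa_le_left hx

theorem MBa_nr_p (x : O × O × O × O) :
    nr (MBa_p x) = nr x.1 * nr x.2.1 * nr x.2.2.1 * nr x.2.2.2 := by
  simp only [MBa_p, nr_mul]

theorem MBa_nr_le {x y : O} (h : x ∣ y) (hy : y ≠ 0) : nr x ≤ nr y := by
  exact_mod_cast nm_le_of_dvd h hy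

open Classical in
theorem MBa_stepC {M : O} {R Q L₁ L₂ : ℝ} {B : O → O → ℂ} {c₁ c₂ : O → ℂ} (hQ : 1 ≤ Q)
    (hL₁ : 1 ≤ L₁) (hL₂ : 1 ≤ L₂) (hR : Q * L₁ * L₂ ≤ R) (hB : SuppB M Q B) (h₁ : Supp M L₁ c₁)
    (h₂ : Supp M L₂ c₂) (a : O) :
    ∑ q ∈ MBa_Q R Q L₁ L₂, (∑ y ∈ sp M R ×ˢ sp M R ×ˢ sp M R ×ˢ sp M R,
        if MBa_C M R q y then MBa_T B c₁ c₂ a (q * y) else 0) =
      ∑ x ∈ pr M R ×ˢ pr M R ×ˢ sp M R ×ˢ sp M R, MBa_T B c₁ c₂ a x := by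
  have hR0 : 0 ≤ R := le_trans (by positivity) hR
  have supp : ∀ x, MBa_T B c₁ c₂ a x ≠ 0 → MBa_P x ∧ IsCoprime (MBa_p x) M ∧
      nr x.1 * nr x.2.1 ≤ Q ∧ nr x.2.2.1 ≤ L₁ ∧ nr x.2.2.2 ≤ L₂ ∧ nr (MBa_p x) ≤ R ∧
      Squarefree x.2.2.1 ∧ Squarefree x.2.2.2 := by
    intro x hx
    have k := left_ne_zero_of_mul hx
    obtain ⟨a1, a2, a3, a4, a5⟩ := hB _ _ (left_ne_zero_of_mul (left_ne_zero_of_mul k))
    obtain ⟨b1, b2⟩ := h₁ _ (right_ne_zero_of_mul (left_ne_zero_of_mul k))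
    obtain ⟨d1, d2⟩ := h₂ _ (right_ne_zero_of_mul k)
    refine ⟨⟨a1, a3, b1.1, d1.1⟩, ((a2.mul_left a4).mul_left b1.2.2).mul_left d1.2.2, a5, b2, d2,
      le_trans ?_ hR, b1.2.1, d1.2.1⟩
    rw [MBa_nr_p]
    gcongr
  rw [← Finset.sum_product', ← Finset.sum_filter]
  refine Finset.sum_bij_ne_zero (fun v _ _ => v.1 * v.2) (fun v _ hv => ?_)
    (fun v hv _ w hw _ e => ?_) (fun x _ hx => ?_) (fun _ _ _ => rfl)
  · obtain ⟨a1, a2, -, -, -, a3, a4, a5⟩ := supp _ hv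
    have h0 := a1.p.ne_zero
    simp only [Finset.mem_product, MBa_mem_pr hR0, LS2.mem_sp hR0]
    exact ⟨⟨a1.1, a2.of_isCoprime_of_dvd_left (MBa_d1 _), (MBa_nr_le (MBa_d1 _) h0).trans a3⟩,
      ⟨a1.2.1, a2.of_isCoprime_of_dvd_left (MBa_d2 _), (MBa_nr_le (MBa_d2 _) h0).trans a3⟩,
      ⟨⟨a1.2.2.1, a4, a2.of_isCoprime_of_dvd_left (MBa_d3 _)⟩,
        (MBa_nr_le (MBa_d3 _) h0).trans a3⟩,
      ⟨⟨a1.2.2.2, a5, a2.of_isCoprime_of_dvd_left (MBa_d4 _)⟩,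
        (MBa_nr_le (MBa_d4 _) h0).trans a3⟩⟩
  · simp only [Finset.mem_filter, Finset.mem_product, MBa_Q] at hv hw
    obtain ⟨⟨⟨-, a1, a2, -⟩, b1, b2, b3, b4⟩, -, d1, d2⟩ := hv
    obtain ⟨⟨⟨-, a1', a2', -⟩, b1', b2', b3', b4'⟩, -, d1', d2'⟩ := hw
    have := MBa_inj a1 ⟨(MBa_sp b1).1, (MBa_sp b2).1, (MBa_sp b3).1, (MBa_sp b4).1⟩ a2
      (MBa_sp d1).2.1 d2 a1' ⟨(MBa_sp b1').1, (MBa_sp b2').1, (MBa_sp b3').1, (MBa_sp b4').1⟩ a2'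
      (MBa_sp d1').2.1 d2' e
    exact Prod.ext this.1 this.2
  · obtain ⟨a1, a2, a3, a4, a5, a6, -, -⟩ := supp _ hx
    obtain ⟨q, y, hq, hy, b1, b2, b3, rfl⟩ := MBa_exists a1
    have h0 := a1.p.ne_zero
    rw [MBa_p_mul] at a2 a6 h0
    have hy0 := hy.p.ne_zero
    have hq0 := hq.p.ne_zero
    have hyR : nr (MBa_p y) ≤ R := (MBa_le_right hq0).trans a6
    have hqR : nr (MBa_p q) ≤ R := (MBa_le_left hy0).trans a6
    have hys : SP M (MBa_p y) := ⟨hy.p, b2, a2.of_mul_left_right⟩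
    have key : ∀ d, Primary d → d ∣ MBa_p y → d ∈ sp M R := fun d hd hdd =>
      (LS2.mem_sp hR0).2 ⟨LS2.SP_of_dvd hys hd hdd, (MBa_nr_le hdd hy0).trans hyR⟩
    have key2 : ∀ d, d ∣ MBa_p q → d ∈ ball ⌊R⌋₊ := fun d hdd => by
      rw [mem_ball, Nat.le_floor_iff hR0]
      exact (MBa_nr_le hdd hq0).trans hqR
    refine ⟨(q, y), ?_, hx, rfl⟩
    simp only [Finset.mem_filter, Finset.mem_product, MBa_Q]
    refine ⟨⟨⟨⟨key2 _ (MBa_d1 _), key2 _ (MBa_d2 _), key2 _ (MBa_d3 _), key2 _ (MBa_d4 _)⟩, hq, b1,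
      le_trans ?_ a3, le_trans (MBa_le_left hy.2.2.1.ne_zero) a4,
      le_trans (MBa_le_left hy.2.2.2.ne_zero) a5⟩, key _ hy.1 (MBa_d1 _), key _ hy.2.1 (MBa_d2 _),
      key _ hy.2.2.1 (MBa_d3 _), key _ hy.2.2.2 (MBa_d4 _)⟩,
      key _ (hy.1.mul hy.2.1) ⟨y.2.2.1 * y.2.2.2, by simp only [MBa_p]; ring⟩,
      key _ hy.p dvd_rfl, b3⟩
    exact mul_le_mul (MBa_le_left hy.1.ne_zero) (MBa_le_left hy.2.1.ne_zero) (by positivity)
      (by positivity)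

theorem MBa_W {ε : ℝ} (hε : 0 < ε) : ∃ C : ℝ, 0 < C ∧ ∀ R Q L₁ L₂ : ℝ, 1 ≤ Q → 1 ≤ L₁ → 1 ≤ L₂ →
    Q * L₁ * L₂ ≤ R → ∑ q ∈ MBa_Q R Q L₁ L₂, nr (MBa_p q) ^ (-(1 / 2 : ℝ)) ≤ C * R ^ ε := by
  classical
  obtain ⟨C₁, hC₁, h₁⟩ := card_pdiv_le (show 0 < ε / 8 by positivity)
  obtain ⟨C₂, hC₂, h₂⟩ := sum_powerful_le (half_pos hε)
  refine ⟨C₁ ^ 4 * C₂, by positivity, fun R Q L₁ L₂ hQ hL₁ hL₂ hR => ?_⟩
  have hR1 : 1 ≤ R := le_trans (one_le_mul_of_one_le_of_one_le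
    (one_le_mul_of_one_le_of_one_le hQ hL₁) hL₂) hR
  have hR0 : 0 ≤ R := by linarith
  have hmaps : ∀ q ∈ MBa_Q R Q L₁ L₂, MBa_p q ∈ (ball ⌊R⌋₊).filter Powerful := by
    intro q hq
    simp only [MBa_Q, Finset.mem_filter] at hq
    obtain ⟨-, -, a1, a2, a3, a4⟩ := hq
    rw [Finset.mem_filter, mem_ball, Nat.le_floor_iff hR0]
    refine ⟨le_trans ?_ hR, a1⟩
    change nr _ ≤ _
    rw [MBa_nr_p]
    gcongr
  rw [← Finset.sum_fiberwise_of_maps_to hmaps]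
  have h3 := h₂ ⌊R⌋₊ (Nat.le_floor (by simpa using hR1))
  have h4 : ((⌊R⌋₊ : ℕ) : ℝ) ^ (ε / 2) ≤ R ^ (ε / 2) :=
    Real.rpow_le_rpow (by positivity) (Nat.floor_le hR0) (by positivity)
  calc _ ≤ ∑ f ∈ (ball ⌊R⌋₊).filter Powerful, (C₁ ^ 4 * R ^ (ε / 2)) * nr f ^ (-(1 / 2 : ℝ)) := by
        refine Finset.sum_le_sum fun f hf => ?_
        rw [Finset.mem_filter, mem_ball, Nat.le_floor_iff hR0] at hf
        have hf0 := hf.2.1.ne_zero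
        rw [Finset.sum_congr rfl (g := fun _ => nr f ^ (-(1 / 2 : ℝ)))
          fun q hq => by rw [(Finset.mem_filter.1 hq).2], Finset.sum_const, nsmul_eq_mul]
        refine mul_le_mul_of_nonneg_right ?_ (by positivity)
        have k1 : (MBa_Q R Q L₁ L₂).filter (fun q => MBa_p q = f) ⊆
            pdiv f ×ˢ pdiv f ×ˢ pdiv f ×ˢ pdiv f := by
          intro q hq
          simp only [MBa_Q, Finset.mem_filter] at hq
          obtain ⟨⟨-, a1, -⟩, rfl⟩ := hq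
          simp only [Finset.mem_product, mem_pdiv hf0]
          exact ⟨⟨a1.1, MBa_d1 _⟩, ⟨a1.2.1, MBa_d2 _⟩, ⟨a1.2.2.1, MBa_d3 _⟩, a1.2.2.2, MBa_d4 _⟩
        have k2 := Finset.card_le_card k1
        simp only [Finset.card_product] at k2
        have k3 : ((pdiv f).card : ℝ) ≤ C₁ * R ^ (ε / 8) :=
          (h₁ f hf0).trans (by have := hf.1; gcongr)
        have k4 : (R ^ (ε / 8)) ^ 4 = R ^ (ε / 2) := by
          rw [← Real.rpow_natCast, ← Real.rpow_mul hR0]; congr 1; push_cast; ring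
        calc _ ≤ ((pdiv f).card : ℝ) ^ 4 := by
              have : (((MBa_Q R Q L₁ L₂).filter (fun q => MBa_p q = f)).card : ℝ) ≤
                  (pdiv f).card * ((pdiv f).card * ((pdiv f).card * (pdiv f).card)) := by
                exact_mod_cast k2
              exact this.trans_eq (by ring)
          _ ≤ (C₁ * R ^ (ε / 8)) ^ 4 := by gcongr
          _ = _ := by rw [mul_pow, k4]
    _ = (C₁ ^ 4 * R ^ (ε / 2)) * ∑ f ∈ (ball ⌊R⌋₊).filter Powerful, nr f ^ (-(1 / 2 : ℝ)) := by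
        rw [Finset.mul_sum]
    _ ≤ (C₁ ^ 4 * R ^ (ε / 2)) * (C₂ * R ^ (ε / 2)) := by
        gcongr
        exact le_trans (by convert h3) (by gcongr)
    _ = C₁ ^ 4 * C₂ * (R ^ (ε / 2) * R ^ (ε / 2)) := by ring
    _ = _ := by rw [← Real.rpow_add (by linarith), add_halves]

theorem MBa_summable (M : O) (R : ℝ) (j : ℕ) (β : O → ℂ) {X : ℝ} (hX : 0 < X) :
    Summable fun m : O => gw (nr m / X) * ‖rowS M R j β m‖ ^ 2 := by
  refine Summable.of_nonneg_of_le (fun m => by have := gw_pos (nr m / X); positivity)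
    (fun m => ?_) ((summable_gw' hX).mul_right ((∑ n ∈ sp M R, ‖β n‖) ^ 2))
  refine mul_le_mul_of_nonneg_left (pow_le_pow_left₀ (norm_nonneg _) ?_ 2) (gw_pos _).le
  refine (norm_sum_le _ _).trans (Finset.sum_le_sum fun n _ => ?_)
  rw [norm_mul, norm_pow]
  exact mul_le_of_le_one_right (norm_nonneg _) (pow_le_one₀ (norm_nonneg _) (norm_sym_le _ _))

/-- **Extraction of the powerful part** (Minkowski's inequality).  The full index `n₁ n₂ z₁ z₂` is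
`f · s` with `f` powerful, `s` squarefree and coprime to `f`; `f = f₁ f₂ t₁ t₂`. -/
theorem extract_powerful {M : O} (hM : Adm M) {ε : ℝ} (hε : 0 < ε) : ∃ C : ℝ, 0 < C ∧
    ∀ (R A Q L₁ L₂ E : ℝ) (B : O → O → ℂ) (c₁ c₂ : O → ℂ), 0 < A → 1 ≤ Q → 1 ≤ L₁ → 1 ≤ L₂ → 0 ≤ E →
      Q * L₁ * L₂ ≤ R → SuppB M Q B → Supp M L₁ c₁ → Supp M L₂ c₂ →
      (∀ f₁ f₂ t₁ t₂ : O, Primary f₁ → Primary f₂ → Primary t₁ → Primary t₂ →
        nr f₁ * nr f₂ ≤ Q → nr t₁ ≤ L₁ → nr t₂ ≤ L₂ →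
        Dq M R 5 (tri M R (sqB M R B f₁ f₂ (f₁ * f₂ * t₁ * t₂)) (sqC c₁ t₁ (f₁ * f₂ * t₁ * t₂))
          (sqC c₂ t₂ (f₁ * f₂ * t₁ * t₂))) A ≤ E / nr (f₁ * f₂ * t₁ * t₂)) →
      ∑' a : O, gw (nr a / A) *
        ‖bilS M R B a * slot (sp M R) c₁ a * slot (sp M R) c₂ a‖ ^ 2 ≤ C * R ^ ε * E := by
  classical
  have _ := hM
  obtain ⟨C, hC, hW⟩ := MBa_W (half_pos hε)
  refine ⟨C ^ 2, by positivity, fun R A Q L₁ L₂ E B c₁ c₂ hA hQ hL₁ hL₂ hE hR hB h₁ h₂ hD => ?_⟩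
  have hR1 : 1 ≤ R := le_trans (one_le_mul_of_one_le_of_one_le
    (one_le_mul_of_one_le_of_one_le hQ hL₁) hL₂) hR
  have hR0 : 0 ≤ R := by linarith
  set 𝒬 := MBa_Q R Q L₁ L₂ with h𝒬
  set w : O × O × O × O → ℝ := fun q => nr (MBa_p q) ^ (-(1 / 2 : ℝ)) with hw
  set β : O × O × O × O → O → ℂ := fun q => tri M R (sqB M R B q.1 q.2.1 (MBa_p q))
      (sqC c₁ q.2.2.1 (MBa_p q)) (sqC c₂ q.2.2.2 (MBa_p q)) with hβ
  set W := ∑ q ∈ 𝒬, w q with hWdef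
  have hW1 : W ≤ C * R ^ (ε / 2) := hW R Q L₁ L₂ hQ hL₁ hL₂ hR
  have hmem : ∀ q ∈ 𝒬, MBa_P q ∧ nr q.1 * nr q.2.1 ≤ Q ∧ nr q.2.2.1 ≤ L₁ ∧ nr q.2.2.2 ≤ L₂ := by
    intro q hq
    simp only [h𝒬, MBa_Q, Finset.mem_filter] at hq
    exact ⟨hq.2.1, hq.2.2.2⟩
  have hwpos : ∀ q ∈ 𝒬, 0 < w q := fun q hq =>
    Real.rpow_pos_of_pos (nr_pos (hmem q hq).1.p.ne_zero) _
  have hW0 : 0 ≤ W := Finset.sum_nonneg fun q hq => (hwpos q hq).le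
  have hpt : ∀ a, ‖bilS M R B a * slot (sp M R) c₁ a * slot (sp M R) c₂ a‖ ^ 2 ≤
      W * ∑ q ∈ 𝒬, (w q)⁻¹ * ‖rowS M R 5 (β q) a‖ ^ 2 := by
    intro a
    rw [MBa_stepA hR0, ← MBa_stepC hQ hL₁ hL₂ hR hB h₁ h₂ a,
      ← Finset.sum_congr rfl fun q hq => MBa_stepB M R B c₁ c₂ a (hmem q hq).1]
    refine le_trans (pow_le_pow_left₀ (norm_nonneg _) (norm_sum_le _ _) 2) ?_
    refine Finset.sum_sq_le_sum_mul_sum_of_sq_le_mul _ (fun q hq => (hwpos q hq).le)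
      (fun q hq => by have := hwpos q hq; positivity) fun q hq => ?_
    rw [← mul_assoc, mul_inv_cancel₀ (hwpos q hq).ne', one_mul, norm_mul, RCLike.norm_conj]
    exact pow_le_pow_left₀ (by positivity)
      (mul_le_of_le_one_left (norm_nonneg _) (norm_sym_le _ _)) 2
  have hs : ∀ q ∈ 𝒬, Summable fun a : O =>
      W * ((w q)⁻¹ * (gw (nr a / A) * ‖rowS M R 5 (β q) a‖ ^ 2)) := fun q _ =>
    ((MBa_summable M R 5 (β q) hA).mul_left _).mul_left _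
  have hpt' : ∀ a, gw (nr a / A) * ‖bilS M R B a * slot (sp M R) c₁ a * slot (sp M R) c₂ a‖ ^ 2 ≤
      ∑ q ∈ 𝒬, W * ((w q)⁻¹ * (gw (nr a / A) * ‖rowS M R 5 (β q) a‖ ^ 2)) := by
    intro a
    refine (mul_le_mul_of_nonneg_left (hpt a) (gw_pos _).le).trans_eq ?_
    rw [Finset.mul_sum, Finset.mul_sum]
    exact Finset.sum_congr rfl fun q _ => by ring
  have hs2 := summable_sum hs
  refine (Summable.tsum_le_tsum hpt' (Summable.of_nonneg_of_le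
    (fun a => by have := gw_pos (nr a / A); positivity) hpt' hs2) hs2).trans ?_
  rw [Summable.tsum_finsetSum hs]
  calc _ ≤ ∑ q ∈ 𝒬, W * (E * w q) := by
        refine Finset.sum_le_sum fun q hq => ?_
        rw [tsum_mul_left, tsum_mul_left]
        refine mul_le_mul_of_nonneg_left ?_ hW0
        obtain ⟨a1, a2, a3, a4⟩ := hmem q hq
        have k1 : Dq M R 5 (β q) A ≤ E / nr (MBa_p q) :=
          hD _ _ _ _ a1.1 a1.2.1 a1.2.2.1 a1.2.2.2 a2 a3 a4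
        have k2 := nr_pos a1.p.ne_zero
        have k3 : w q * w q = (nr (MBa_p q))⁻¹ := by
          simp only [hw]
          rw [← Real.rpow_add k2, ← Real.rpow_neg_one]; norm_num
        have k4 := hwpos q hq
        refine (mul_le_mul_of_nonneg_left k1 (inv_nonneg.2 k4.le)).trans_eq ?_
        rw [div_eq_mul_inv, ← k3]
        field_simp
    _ = W * W * E := by rw [← Finset.mul_sum, ← Finset.mul_sum, ← hWdef]; ring
    _ ≤ (C * R ^ (ε / 2)) * (C * R ^ (ε / 2)) * E := by gcongr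
    _ = C ^ 2 * (R ^ (ε / 2) * R ^ (ε / 2)) * E := by ring
    _ = _ := by rw [← Real.rpow_add (by linarith), add_halves]

open Classical in
/-- The truncated weight of a plain sum. -/
def wT {M : O} (ν : Chr M) (N τ Λ : ℝ) (n : O) : ℂ :=
  if Primary n ∧ nr n ≤ N * Λ then ev ν n * Wc (nr n / N) (τ * Complex.I) else 0

/-- The (possibly centred) bilinear coefficient, `N₁ N₂ = N₃ N₄`, `κ ∈ {0, 1}`. -/
def cenB {M : O} (ν : Chr M) (N₁ N₂ N₃ N₄ τ Λ : ℝ) (κ : ℂ) (n₁ n₂ : O) : ℂ :=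
  wT ν N₁ τ Λ n₁ * wT ν N₂ τ Λ n₂ - κ * (wT ν N₃ τ Λ n₁ * wT ν N₄ τ Λ n₂)

/-- The (possibly centred) product of plain sums. -/
def cenP {M : O} (ν : Chr M) (a : O) (N₁ N₂ N₃ N₄ : ℝ) (κ s : ℂ) : ℂ :=
  Pln ν a N₁ s * Pln ν a N₂ s - κ * (Pln ν a N₃ s * Pln ν a N₄ s)

theorem MBa_wT_supp {M : O} {ν : Chr M} {N τ Λ : ℝ} {n : O} (h : wT ν N τ Λ n ≠ 0) :
    Primary n ∧ IsCoprime n M ∧ nr n ≤ N * Λ := by
  classical
  unfold wT at h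
  split_ifs at h with hc
  · refine ⟨hc.1, ?_, hc.2⟩
    by_contra h1
    exact h (by rw [ev_eq_zero ν h1, zero_mul])
  · exact absurd rfl h

theorem MBa_norm_wT {M : O} (hM : M ≠ 0) (ν : Chr M) (N τ Λ : ℝ) (n : O) :
    ‖wT ν N τ Λ n‖ ≤ 1 := by
  classical
  unfold wT
  split_ifs with hc
  · rw [norm_mul]
    have h1 := norm_Wc_le (nr n / N) (τ * Complex.I)
    have h2 : ((τ : ℂ) * Complex.I).re = 0 := by simp
    rw [h2] at h1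
    simp only [ne_eq, OfNat.ofNat_ne_zero, not_false_eq_true, zero_pow, zero_div,
      Real.exp_zero] at h1
    exact mul_le_one₀ (norm_ev_le hM ν n) (norm_nonneg _) h1
  · simp

theorem suppB_cenB {M : O} (ν : Chr M) {N₁ N₂ N₃ N₄ Λ : ℝ} (h : N₁ * N₂ = N₃ * N₄) (τ : ℝ) (κ : ℂ) :
    SuppB M (N₁ * N₂ * Λ ^ 2) (cenB ν N₁ N₂ N₃ N₄ τ Λ κ) := by
  intro n₁ n₂ hn
  have key : ∀ N N' : ℝ, wT ν N τ Λ n₁ * wT ν N' τ Λ n₂ ≠ 0 → Primary n₁ ∧ IsCoprime n₁ M ∧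
      Primary n₂ ∧ IsCoprime n₂ M ∧ nr n₁ * nr n₂ ≤ N * N' * Λ ^ 2 := by
    intro N N' h0
    obtain ⟨a1, a2, a3⟩ := MBa_wT_supp (left_ne_zero_of_mul h0)
    obtain ⟨b1, b2, b3⟩ := MBa_wT_supp (right_ne_zero_of_mul h0)
    refine ⟨a1, a2, b1, b2, ?_⟩
    calc nr n₁ * nr n₂ ≤ (N * Λ) * (N' * Λ) :=
          mul_le_mul a3 b3 (by positivity) (le_trans (by positivity) a3)
      _ = _ := by ring
  by_cases h1 : wT ν N₁ τ Λ n₁ * wT ν N₂ τ Λ n₂ = 0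
  · rw [h]
    refine key _ _ fun h2 => hn ?_
    rw [cenB, h1, h2]; simp
  · exact key _ _ h1

theorem norm_cenB_le {M : O} (hM : Adm M) (ν : Chr M) (N₁ N₂ N₃ N₄ τ Λ : ℝ) {κ : ℂ} (hκ : ‖κ‖ ≤ 1)
    (x y : O) : ‖cenB ν N₁ N₂ N₃ N₄ τ Λ κ x y‖ ≤ 2 := by
  have h := MBa_norm_wT hM.1 ν
  have h1 : ∀ N N' : ℝ, ‖wT ν N τ Λ x * wT ν N' τ Λ y‖ ≤ 1 := fun N N' => by
    rw [norm_mul]; exact mul_le_one₀ (h _ _ _ _) (norm_nonneg _) (h _ _ _ _)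
  have h2 : ‖κ * (wT ν N₃ τ Λ x * wT ν N₄ τ Λ y)‖ ≤ 1 := by
    rw [norm_mul]; exact mul_le_one₀ hκ (norm_nonneg _) (h1 _ _)
  unfold cenB
  linarith [norm_sub_le (wT ν N₁ τ Λ x * wT ν N₂ τ Λ y) (κ * (wT ν N₃ τ Λ x * wT ν N₄ τ Λ y)),
    h1 N₁ N₂]

open Classical in
theorem MBa_trunc (B σ : ℝ) : ∃ C : ℝ, 0 < C ∧ ∀ (b : O → ℂ) (X Λ : ℝ) (s : ℂ) (S : Finset O),
    PolyB b 1 0 → 0 < X → 1 ≤ Λ → |s.re| ≤ σ → (∀ n, b n ≠ 0 → nr n ≤ X * Λ → n ∈ S) →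
    ‖∑ n ∈ S, (if nr n ≤ X * Λ then b n * Wc (nr n / X) s else 0) - Sm b X s‖ ≤
      C * X * Λ ^ (-B) := by
  obtain ⟨C, hC, h⟩ := tsum_norm_Sm_tail_le B 0 σ le_rfl
  refine ⟨C, hC, fun b X Λ s S hb hX hΛ hs hS => ?_⟩
  have h1 := h b 1 X Λ s hb hX hΛ hs
  rw [zero_add, Real.rpow_one, mul_one] at h1
  have hsum := summable_Sm hb hX s
  have e1 : ∑ n ∈ S, (if nr n ≤ X * Λ then b n * Wc (nr n / X) s else 0) =
      ∑' n, (if nr n ≤ X * Λ then b n * Wc (nr n / X) s else 0) := by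
    refine (tsum_eq_sum fun n hn => ?_).symm
    split_ifs with h2
    · by_cases h3 : b n = 0
      · rw [h3, zero_mul]
      · exact absurd (hS n h3 h2) hn
    · rfl
  have s1 : Summable fun n => (if nr n ≤ X * Λ then b n * Wc (nr n / X) s else 0) := by
    refine Summable.of_norm_bounded hsum fun n => ?_
    split_ifs
    · exact le_rfl
    · rw [norm_zero]; exact norm_nonneg _
  have s2 : Summable fun n =>
      (if X / Λ ≤ nr n ∧ nr n ≤ X * Λ then 0 else ‖b n * Wc (nr n / X) s‖) := by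
    refine Summable.of_nonneg_of_le (fun n => ?_) (fun n => ?_) hsum
    · split_ifs
      exacts [le_rfl, norm_nonneg _]
    · split_ifs
      exacts [norm_nonneg _, le_rfl]
  rw [e1, Sm, ← s1.tsum_sub hsum.of_norm]
  refine (tsum_of_norm_bounded s2.hasSum fun n => ?_).trans h1
  by_cases h2 : nr n ≤ X * Λ
  · rw [if_pos h2, sub_self, norm_zero]
    split_ifs
    exacts [le_rfl, norm_nonneg _]
  · rw [if_neg h2, if_neg (fun h3 => h2 h3.2), zero_sub, norm_neg]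

/-- Truncation of a plain sum restricted to the multiples of `D` (`tsum_norm_Sm_tail_le`). -/
theorem trunc_plain {M : O} (hM : Adm M) (B : ℝ) : ∃ C : ℝ, 0 < C ∧
    ∀ (R N τ Λ : ℝ) (ν ψ : Chr M) (d a : O) (w : ℂ), 1 ≤ R → 1 ≤ Λ → 0 < N → N * Λ ≤ R → Primary d →
      |w.re| ≤ 1 →
      ‖∑ n ∈ pr M R, wT ν N τ Λ (d * n) * ev ψ n * (nr n : ℂ) ^ w * conj (sym n a) -
        ev ν d * ((N / nr d : ℝ) : ℂ) ^ w * Pln (ν * ψ) a (N / nr d) (τ * Complex.I + w)‖ ≤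
        C * R ^ 3 * Λ ^ (-B) := by
  classical
  obtain ⟨C, hC, h⟩ := MBa_trunc B 1
  refine ⟨C, hC, fun R N τ Λ ν ψ d a w hR hΛ hN hNR hd hw => ?_⟩
  have hd0 := nr_pos hd.ne_zero
  have hd1 := one_le_nr hd.ne_zero
  set X := N / nr d with hXdef
  have hX : 0 < X := div_pos hN hd0
  have hXN : X ≤ N := div_le_self hN.le hd1
  have hXR : X * Λ ≤ R := (mul_le_mul_of_nonneg_right hXN (by linarith)).trans hNR
  have hXR' : X ≤ R := le_trans (le_mul_of_one_le_right hX.le hΛ) hXR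
  have hs : |((τ : ℂ) * Complex.I + w).re| ≤ 1 := by simpa using hw
  have h1 := h (rc (ν * ψ) a) X Λ (τ * Complex.I + w) (pr M R) (polyB_rc hM _ a) hX hΛ hs
    (fun n hn hle => by
      rw [MBa_mem_pr (by linarith)]
      refine ⟨?_, ?_, hle.trans hXR⟩
      · by_contra h2
        exact hn (by rw [rc, if_neg h2])
      · by_contra h2
        exact hn (rc_eq_zero _ fun h3 => h2 h3.of_mul_right_left))
  have e1 : ∑ n ∈ pr M R, wT ν N τ Λ (d * n) * ev ψ n * (nr n : ℂ) ^ w * conj (sym n a) =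
      ev ν d * (X : ℂ) ^ w * ∑ n ∈ pr M R, (if nr n ≤ X * Λ then
        rc (ν * ψ) a n * Wc (nr n / X) (τ * Complex.I + w) else 0) := by
    rw [Finset.mul_sum]
    refine Finset.sum_congr rfl fun n hn => ?_
    rw [MBa_mem_pr (by linarith)] at hn
    have hn0 := nr_pos hn.1.ne_zero
    have e2 : nr (d * n) ≤ N * Λ ↔ nr n ≤ X * Λ := by
      rw [nr_mul, hXdef, div_mul_eq_mul_div, le_div_iff₀ hd0, mul_comm]
    have e3 : nr (d * n) / N = nr n / X := by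
      rw [nr_mul, hXdef]; field_simp
    have e4 : (X : ℂ) ^ w * ((nr n / X : ℝ) : ℂ) ^ w = (nr n : ℂ) ^ w := by
      rw [← Complex.mul_cpow_ofReal_nonneg hX.le (div_pos hn0 hX).le, ← Complex.ofReal_mul,
        mul_div_cancel₀ _ hX.ne']
    unfold wT
    by_cases h2 : nr n ≤ X * Λ
    · rw [if_pos ⟨hd.mul hn.1, e2.2 h2⟩, if_pos h2, rc, if_pos hn.1, Wc_add (div_pos hn0 hX), e3,
        ev_mul, ev_mul_chr, ← e4]
      ring
    · rw [if_neg (fun h3 => h2 (e2.1 h3.2)), if_neg h2]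
      simp
  rw [e1, Pln_eq_Sm, ← mul_sub, norm_mul, norm_mul, Complex.norm_cpow_eq_rpow_re_of_pos hX]
  have h2 : X ^ w.re * X ≤ R ^ 3 := by
    have h3 := abs_le.1 hw
    rw [← Real.rpow_add_one hX.ne']
    calc X ^ (w.re + 1) ≤ R ^ (w.re + 1) := Real.rpow_le_rpow hX.le hXR' (by linarith)
      _ ≤ R ^ ((3 : ℕ) : ℝ) := Real.rpow_le_rpow_of_exponent_le hR (by push_cast; linarith)
      _ = R ^ 3 := Real.rpow_natCast _ _
  have h4 : 0 ≤ Λ ^ (-B) := by positivity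
  calc _ ≤ 1 * X ^ w.re * (C * X * Λ ^ (-B)) := by
        gcongr
        exact norm_ev_le hM.1 ν d
    _ = C * (X ^ w.re * X) * Λ ^ (-B) := by ring
    _ ≤ _ := by gcongr


theorem MBa_card_pr (M : O) {R : ℝ} (hR : 1 ≤ R) : ((pr M R).card : ℝ) ≤ 8 * R := by
  classical
  have h1 : (pr M R).card ≤ 7 * ⌊R⌋₊ + 1 := (Finset.card_filter_le _ _).trans (card_ball_le _)
  have h2 : (⌊R⌋₊ : ℝ) ≤ R := Nat.floor_le (by linarith)
  have h3 : ((pr M R).card : ℝ) ≤ 7 * ⌊R⌋₊ + 1 := by exact_mod_cast h1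
  linarith

/-- Truncation at the start. -/
theorem trunc_cen {M : O} (hM : Adm M) (B : ℝ) : ∃ C : ℝ, 0 < C ∧
    ∀ (R N₁ N₂ N₃ N₄ τ Λ : ℝ) (ν : Chr M) (κ : ℂ) (a : O), 1 ≤ R → 1 ≤ Λ → 0 < N₁ → 0 < N₂ →
      0 < N₃ → 0 < N₄ → N₁ * Λ ≤ R → N₂ * Λ ≤ R → N₃ * Λ ≤ R → N₄ * Λ ≤ R → ‖κ‖ ≤ 1 →
      ‖cenP ν a N₁ N₂ N₃ N₄ κ (τ * Complex.I) - bilS M R (cenB ν N₁ N₂ N₃ N₄ τ Λ κ) a‖ ≤
        C * R ^ 4 * Λ ^ (-B) := by
  classical
  obtain ⟨C, hC, h⟩ := MBa_trunc B 0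
  obtain ⟨C', hC', h'⟩ := tsum_norm_Sm_le 0 0 0 le_rfl
  refine ⟨2 * (C * C' + 8 * C), by positivity,
    fun R N₁ N₂ N₃ N₄ τ Λ ν κ a hR hΛ h1 h2 h3 h4 g1 g2 g3 g4 hκ => ?_⟩
  have hR0 : 0 ≤ R := by linarith
  have hs : |((τ : ℂ) * Complex.I).re| ≤ 0 := by simp
  have hL : 0 ≤ Λ ^ (-B) := by positivity
  set S : ℝ → ℂ := fun N => ∑ n ∈ pr M R, wT ν N τ Λ n * conj (sym n a) with hS
  have hNR : ∀ N : ℝ, 0 < N → N * Λ ≤ R → N ≤ R := fun N hN g =>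
    le_trans (le_mul_of_one_le_right hN.le hΛ) g
  have hSP : ∀ N : ℝ, 0 < N → N * Λ ≤ R →
      ‖S N - Pln ν a N (τ * Complex.I)‖ ≤ C * R * Λ ^ (-B) := by
    intro N hN g
    have k1 := h (rc ν a) N Λ (τ * Complex.I) (pr M R) (polyB_rc hM _ a) hN hΛ hs
      (fun n hn hle => by
        rw [MBa_mem_pr hR0]
        refine ⟨?_, ?_, hle.trans g⟩
        · by_contra h2
          exact hn (by rw [rc, if_neg h2])
        · by_contra h2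
          exact hn (rc_eq_zero _ fun h3 => h2 h3.of_mul_right_left))
    have e1 : S N = ∑ n ∈ pr M R, (if nr n ≤ N * Λ then
        rc ν a n * Wc (nr n / N) (τ * Complex.I) else 0) := by
      refine Finset.sum_congr rfl fun n hn => ?_
      rw [MBa_mem_pr hR0] at hn
      unfold wT
      by_cases h2 : nr n ≤ N * Λ
      · rw [if_pos ⟨hn.1, h2⟩, if_pos h2, rc, if_pos hn.1]; ring
      · rw [if_neg (fun h3 => h2 h3.2), if_neg h2, zero_mul]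
    rw [e1, Pln_eq_Sm]
    refine k1.trans ?_
    have := hNR N hN g
    gcongr
  have hP : ∀ N : ℝ, 0 < N → N * Λ ≤ R → ‖Pln ν a N (τ * Complex.I)‖ ≤ C' * R := by
    intro N hN g
    have k1 := h' (rc ν a) 1 N (τ * Complex.I) (polyB_rc hM _ a) hN hs
    rw [Pln_eq_Sm, Sm]
    refine (norm_tsum_le_tsum_norm (summable_Sm (polyB_rc hM _ a) hN _)).trans (k1.trans ?_)
    have k2 : min (N ^ ((0 : ℝ) + 1)) (N ^ ((0 : ℝ) + 1 + |0|)) ≤ R := by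
      refine (min_le_left _ _).trans ?_
      rw [zero_add, Real.rpow_one]; exact hNR N hN g
    rw [mul_one]
    gcongr
  have hSb : ∀ N : ℝ, ‖S N‖ ≤ 8 * R := by
    intro N
    refine (norm_sum_le _ _).trans (le_trans ?_ (MBa_card_pr M hR))
    rw [← mul_one ((pr M R).card : ℝ), ← nsmul_eq_mul]
    refine Finset.sum_le_card_nsmul _ _ _ fun n _ => ?_
    rw [norm_mul, RCLike.norm_conj]
    exact mul_le_one₀ (MBa_norm_wT hM.1 _ _ _ _ _) (norm_nonneg _) (norm_sym_le _ _)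
  have hprod : ∀ N N' : ℝ, 0 < N → N * Λ ≤ R → 0 < N' → N' * Λ ≤ R →
      ‖Pln ν a N (τ * Complex.I) * Pln ν a N' (τ * Complex.I) - S N * S N'‖ ≤
        (C * C' + 8 * C) * R ^ 4 * Λ ^ (-B) := by
    intro N N' hN g hN' g'
    have e : Pln ν a N (τ * Complex.I) * Pln ν a N' (τ * Complex.I) - S N * S N' =
        -((S N - Pln ν a N (τ * Complex.I)) * Pln ν a N' (τ * Complex.I) +
          S N * (S N' - Pln ν a N' (τ * Complex.I))) := by ring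
    rw [e, norm_neg]
    refine (norm_add_le _ _).trans ?_
    rw [norm_mul, norm_mul]
    have k : R ^ 2 ≤ R ^ 4 := pow_le_pow_right₀ hR (by norm_num)
    calc _ ≤ (C * R * Λ ^ (-B)) * (C' * R) + (8 * R) * (C * R * Λ ^ (-B)) := by
          gcongr
          exacts [hSP N hN g, hP N' hN' g', hSb N, hSP N' hN' g']
      _ = (C * C' + 8 * C) * R ^ 2 * Λ ^ (-B) := by ring
      _ ≤ _ := by gcongr
  have eb : bilS M R (cenB ν N₁ N₂ N₃ N₄ τ Λ κ) a = S N₁ * S N₂ - κ * (S N₃ * S N₄) := by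
    simp only [hS, bilS]
    rw [Finset.sum_mul_sum, Finset.sum_mul_sum, Finset.mul_sum, ← Finset.sum_sub_distrib]
    simp only [Finset.mul_sum, ← Finset.sum_sub_distrib]
    refine Finset.sum_congr rfl fun n₁ hn₁ => Finset.sum_congr rfl fun n₂ hn₂ => ?_
    rw [MBa_mem_pr hR0] at hn₁ hn₂
    rw [cenB, sym_mul_left hn₁.1.ne_zero hn₂.1.ne_zero, map_mul]
    ring
  have e2 : cenP ν a N₁ N₂ N₃ N₄ κ (τ * Complex.I) - (S N₁ * S N₂ - κ * (S N₃ * S N₄)) =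
      (Pln ν a N₁ (τ * Complex.I) * Pln ν a N₂ (τ * Complex.I) - S N₁ * S N₂) -
        κ * (Pln ν a N₃ (τ * Complex.I) * Pln ν a N₄ (τ * Complex.I) - S N₃ * S N₄) := by
    rw [cenP]; ring
  rw [eb, e2]
  refine (norm_sub_le _ _).trans ?_
  rw [norm_mul]
  have k1 := hprod N₁ N₂ h1 g1 h2 g2
  have k2 := hprod N₃ N₄ h3 g3 h4 g4
  have k3 := mul_le_mul hκ k2 (norm_nonneg _) zero_le_one
  linarith

open Classical in
/-- Möbius expansion of the squarefree and coprimality conditions in two variables. -/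
theorem exists_moebius_two {ε : ℝ} (hε : 0 < ε) : ∃ C : ℝ, 0 < C ∧ ∀ (M T : O) (R : ℝ), 1 ≤ R →
    T ≠ 0 → ∃ c : O → O → ℂ,
      (∀ n₁ ∈ pr M R, ∀ n₂ ∈ pr M R,
        (if Squarefree (n₁ * n₂) ∧ IsCoprime (n₁ * n₂) T then 1 else 0 : ℂ) =
          ∑ d₁ ∈ pr M R, ∑ d₂ ∈ pr M R, if d₁ ∣ n₁ ∧ d₂ ∣ n₂ then c d₁ d₂ else 0) ∧
      ∑ d₁ ∈ pr M R, ∑ d₂ ∈ pr M R, ‖c d₁ d₂‖ / Real.sqrt (nr d₁ * nr d₂) ≤
        C * (R * nr T) ^ ε := by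
  obtain ⟨C, hC, h⟩ := MBb_moeb hε
  refine ⟨C, hC, fun M T R hR hT => ?_⟩
  obtain ⟨I, _, D₁, D₂, γ, hD, h1, h2⟩ := h T R hR hT
  have hR0 : 0 ≤ R := by linarith
  refine ⟨fun d₁ d₂ => ∑ i ∈ Finset.univ.filter (fun i => (D₁ i, D₂ i) = (d₁, d₂)), (γ i : ℂ),
    fun n₁ hn₁ n₂ hn₂ => ?_, le_trans ?_ h2⟩
  · rw [MBa_mem_pr hR0] at hn₁ hn₂
    have e := congrArg (fun x : ℝ => (x : ℂ)) (h1 n₁ n₂ hn₁.1 hn₂.1 hn₁.2.2 hn₂.2.2)
    simp only [apply_ite (fun x : ℝ => (x : ℂ)), Complex.ofReal_sum, Complex.ofReal_one,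
      Complex.ofReal_zero] at e
    have e2 := MBa_fib Finset.univ (pr M R ×ˢ pr M R) (fun i => (D₁ i, D₂ i)) (fun i => (γ i : ℂ))
      (fun d => if d.1 ∣ n₁ ∧ d.2 ∣ n₂ then 1 else 0)
    rw [e, ← Finset.sum_product']
    refine Eq.trans ?_ (e2.symm.trans (Finset.sum_congr rfl fun d _ => ?_))
    · refine Finset.sum_congr rfl fun i _ => ?_
      by_cases hc : D₁ i ∣ n₁ ∧ D₂ i ∣ n₂
      · rw [if_pos hc, if_pos, if_pos hc, mul_one]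
        rw [Finset.mem_product, MBa_mem_pr hR0, MBa_mem_pr hR0]
        exact ⟨⟨(hD i).1, hn₁.2.1.of_isCoprime_of_dvd_left hc.1,
          (MBa_nr_le hc.1 hn₁.1.ne_zero).trans hn₁.2.2⟩, (hD i).2,
          hn₂.2.1.of_isCoprime_of_dvd_left hc.2, (MBa_nr_le hc.2 hn₂.1.ne_zero).trans hn₂.2.2⟩
      · rw [if_neg hc, if_neg hc, mul_zero, ite_self]
    · split_ifs
      · rw [mul_one]
      · rw [mul_zero]
  · rw [← Finset.sum_product']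
    calc _ ≤ ∑ d ∈ pr M R ×ˢ pr M R, ∑ i ∈ Finset.univ.filter (fun i => (D₁ i, D₂ i) = d),
            |γ i| / Real.sqrt (nr (D₁ i) * nr (D₂ i)) := by
          refine Finset.sum_le_sum fun d _ => ?_
          refine (div_le_div_of_nonneg_right (norm_sum_le _ _) (Real.sqrt_nonneg _)).trans_eq ?_
          rw [Finset.sum_div]
          refine Finset.sum_congr rfl fun i hi => ?_
          rw [Finset.mem_filter] at hi
          rw [← hi.2, Complex.norm_real, Real.norm_eq_abs]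
      _ ≤ _ := by
          rw [Finset.sum_fiberwise_eq_sum_filter, Finset.sum_filter]
          refine Finset.sum_le_sum fun i _ => ?_
          by_cases hc : (D₁ i, D₂ i) ∈ pr M R ×ˢ pr M R
          · rw [if_pos hc]
            rw [Finset.mem_product, MBa_mem_pr hR0, MBa_mem_pr hR0] at hc
            rw [if_pos ⟨hc.1.2.2, hc.2.2.2⟩]
          · rw [if_neg hc]
            split_ifs
            · positivity
            · exact le_rfl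

/-- the completely multiplicative twist -/
def MBb_u {M : O} (ψ : Chr M) (w : ℂ) (a n : O) : ℂ := ev ψ n * (nr n : ℂ) ^ w * conj (sym n a)

theorem MBb_u_mul {M : O} (ψ : Chr M) (w : ℂ) (a : O) {m n : O} (hm : m ≠ 0) (hn : n ≠ 0) :
    MBb_u ψ w a (m * n) = MBb_u ψ w a m * MBb_u ψ w a n := by
  unfold MBb_u
  rw [ev_mul, sym_mul_left hm hn, map_mul, nr_mul, Complex.ofReal_mul,
    Complex.mul_cpow_ofReal_nonneg (by positivity) (by positivity)]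
  ring

theorem MBb_norm_u {M : O} (hM : M ≠ 0) (ψ : Chr M) (w : ℂ) (a : O) {n : O} (hn : n ≠ 0) :
    ‖MBb_u ψ w a n‖ ≤ nr n ^ w.re := by
  unfold MBb_u
  rw [norm_mul, norm_mul, RCLike.norm_conj, Complex.norm_cpow_eq_rpow_re_of_pos (nr_pos hn)]
  have h1 := norm_ev_le hM ψ n
  have h2 := norm_sym_le n a
  calc _ ≤ 1 * nr n ^ w.re * 1 := by gcongr
    _ = _ := by ring

open Classical in
theorem MBb_rewrite {M : O} {R Q : ℝ} {B : O → O → ℂ} (hB : SuppB M Q B) (hQ : Q ≤ R) (hR : 0 ≤ R)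
    (ψ : Chr M) (w : ℂ) (a : O) {f₁ f₂ f t T : O} (h₁ : Primary f₁) (h₂ : Primary f₂)
    (ht : Primary t) (htT : t ∣ T) (hts : Squarefree t) (htf : IsCoprime t f) :
    back M R (sqB M R B f₁ f₂ f) t T ψ w a =
      ∑ u ∈ (pdiv t ×ˢ pdiv t).filter (fun u => u.1 * u.2 = t), ∑ s₁ ∈ pr M R, ∑ s₂ ∈ pr M R,
        (if Squarefree (s₁ * s₂) ∧ IsCoprime (s₁ * s₂) (T * f) then 1 else 0 : ℂ) *
          (B (f₁ * u.1 * s₁) (f₂ * u.2 * s₂) * (MBb_u ψ w a s₁ * MBb_u ψ w a s₂)) := by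
  have ht0 := ht.ne_zero
  have e1 : back M R (sqB M R B f₁ f₂ f) t T ψ w a =
      ∑ x ∈ (sp M R ×ˢ sp M R ×ˢ sp M R).filter (fun x => IsCoprime x.1 T ∧
        (Squarefree (t * x.1) ∧ IsCoprime (t * x.1) f) ∧ x.2.1 * x.2.2 = t * x.1),
        B (f₁ * x.2.1) (f₂ * x.2.2) * MBb_u ψ w a x.1 := by
    rw [back, Finset.sum_filter, Finset.sum_product]
    refine Finset.sum_congr rfl fun s _ => ?_
    by_cases k1 : IsCoprime s T
    · rw [if_pos k1, sqB]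
      by_cases k2 : Squarefree (t * s) ∧ IsCoprime (t * s) f
      · rw [if_pos k2, Finset.sum_filter, mul_assoc, mul_assoc, Finset.sum_mul]
        refine Finset.sum_congr rfl fun v _ => ?_
        by_cases k3 : v.1 * v.2 = t * s
        · rw [if_pos k3, if_pos ⟨k1, k2, k3⟩, MBb_u]; ring
        · rw [if_neg k3, if_neg fun h => k3 h.2.2, zero_mul]
      · rw [if_neg k2, zero_mul, zero_mul, zero_mul]
        exact (Finset.sum_eq_zero fun v _ => if_neg fun h => k2 h.2.1).symm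
    · rw [if_neg k1]
      exact (Finset.sum_eq_zero fun v _ => if_neg fun h => k1 h.1).symm
  have e2 : ∑ u ∈ (pdiv t ×ˢ pdiv t).filter (fun u => u.1 * u.2 = t), ∑ s₁ ∈ pr M R, ∑ s₂ ∈ pr M R,
        (if Squarefree (s₁ * s₂) ∧ IsCoprime (s₁ * s₂) (T * f) then 1 else 0 : ℂ) *
          (B (f₁ * u.1 * s₁) (f₂ * u.2 * s₂) * (MBb_u ψ w a s₁ * MBb_u ψ w a s₂)) =
      ∑ y ∈ (((pdiv t ×ˢ pdiv t).filter (fun u => u.1 * u.2 = t)) ×ˢ pr M R ×ˢ pr M R).filter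
        (fun y => Squarefree (y.2.1 * y.2.2) ∧ IsCoprime (y.2.1 * y.2.2) (T * f)),
        B (f₁ * y.1.1 * y.2.1) (f₂ * y.1.2 * y.2.2) * (MBb_u ψ w a y.2.1 * MBb_u ψ w a y.2.2) := by
    rw [Finset.sum_filter (s := _ ×ˢ pr M R ×ˢ pr M R), Finset.sum_product]
    refine Finset.sum_congr rfl fun u _ => ?_
    rw [Finset.sum_product]
    refine Finset.sum_congr rfl fun s₁ _ => Finset.sum_congr rfl fun s₂ _ => ?_
    split_ifs
    · rw [one_mul]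
    · rw [zero_mul]
  rw [e1, e2]
  symm
  refine Finset.sum_bij_ne_zero (fun y _ _ => (y.2.1 * y.2.2, y.1.1 * y.2.1, y.1.2 * y.2.2))
    (fun y hy hne => ?_) (fun y hy _ z hz _ e => ?_) (fun x hx hne => ?_) (fun y hy _ => ?_)
  · obtain ⟨⟨t₁, t₂⟩, s₁, s₂⟩ := y
    simp only [Finset.mem_filter, Finset.mem_product, mem_pdiv ht0, MBa_mem_pr hR] at hy
    obtain ⟨⟨⟨⟨⟨a1, -⟩, a2, -⟩, a3⟩, ⟨b1, b2, -⟩, b3, b4, -⟩, c1, c2⟩ := hy
    obtain ⟨-, d1, -, d2, d3⟩ := hB _ _ (left_ne_zero_of_mul hne)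
    simp only at d1 d2 d3
    have c3 : IsCoprime (s₁ * s₂) T := c2.of_mul_right_left
    have c4 : Squarefree (t * (s₁ * s₂)) :=
      squarefree_mul_iff.2 ⟨(c3.symm.of_isCoprime_of_dvd_left htT).isRelPrime, hts, c1⟩
    have e3 : t₁ * s₁ * (t₂ * s₂) = t * (s₁ * s₂) := by rw [← a3]; ring
    have g0 : f₁ * t₁ * s₁ * (f₂ * t₂ * s₂) ≠ 0 :=
      (((h₁.mul a1).mul b1).mul ((h₂.mul a2).mul b3)).ne_zero
    have g1 : ∀ d, d ∣ f₁ * t₁ * s₁ * (f₂ * t₂ * s₂) → nr d ≤ R := fun d hd =>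
      (MBa_nr_le hd g0).trans (by rw [nr_mul]; exact d3.trans hQ)
    simp only [Finset.mem_filter, Finset.mem_product, LS2.mem_sp hR]
    refine ⟨⟨⟨⟨b1.mul b3, c1, b2.mul_left b4⟩, g1 _ ⟨f₁ * t₁ * (f₂ * t₂), by ring⟩⟩,
      ⟨⟨a1.mul b1, c4.squarefree_of_dvd ⟨_, e3.symm⟩,
        d1.of_isCoprime_of_dvd_left ⟨f₁, by ring⟩⟩, g1 _ ⟨f₁ * (f₂ * t₂ * s₂), by ring⟩⟩,
      ⟨⟨a2.mul b3, c4.squarefree_of_dvd ⟨t₁ * s₁, by rw [← e3]; ring⟩,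
        d2.of_isCoprime_of_dvd_left ⟨f₂, by ring⟩⟩, g1 _ ⟨f₁ * t₁ * s₁ * f₂, by ring⟩⟩⟩,
      c3, ⟨c4, htf.mul_left c2.of_mul_right_right⟩, e3⟩
  · obtain ⟨⟨t₁, t₂⟩, s₁, s₂⟩ := y
    obtain ⟨⟨t₁', t₂'⟩, s₁', s₂'⟩ := z
    simp only [Finset.mem_filter, Finset.mem_product, mem_pdiv ht0] at hy hz
    obtain ⟨⟨⟨⟨⟨a1, a2⟩, a3, a4⟩, -⟩, -⟩, -, c2⟩ := hy
    obtain ⟨⟨⟨⟨⟨a1', a2'⟩, a3', a4'⟩, -⟩, -⟩, -, c2'⟩ := hz
    simp only [Prod.mk.injEq] at e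
    have k1 := MBa_cancel a1 a1' (a2.trans htT) (a2'.trans htT)
      c2.of_mul_right_left.of_mul_left_left c2'.of_mul_right_left.of_mul_left_left e.2.1
    have k2 := MBa_cancel a3 a3' (a4.trans htT) (a4'.trans htT)
      c2.of_mul_right_left.of_mul_left_right c2'.of_mul_right_left.of_mul_left_right e.2.2
    rw [k1.1, k1.2, k2.1, k2.2]
  · obtain ⟨s, v₁, v₂⟩ := x
    simp only [Finset.mem_filter, Finset.mem_product, LS2.mem_sp hR] at hx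
    obtain ⟨⟨⟨a1, a2⟩, ⟨b1, -⟩, b2, -⟩, c1, ⟨c2, c3⟩, c4⟩ := hx
    obtain ⟨t₁, s₁, p1, q1, r1, u1, rfl⟩ := MBa_split b1.1 (show v₁ ∣ t * s from ⟨_, c4.symm⟩)
    obtain ⟨t₂, s₂, p2, q2, r2, u2, rfl⟩ := MBa_split b2.1
      (show v₂ ∣ t * s from ⟨t₁ * s₁, by rw [← c4]; ring⟩)
    have hst : IsCoprime s t := (c1.symm.of_isCoprime_of_dvd_left htT).symm
    have e3 : t₁ * t₂ * (s₁ * s₂) = t * s := by rw [← c4]; ring
    have k1 : IsCoprime (t₁ * t₂) s :=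
      (hst.symm.of_isCoprime_of_dvd_left r1).mul_left (hst.symm.of_isCoprime_of_dvd_left r2)
    have k2 : IsCoprime (s₁ * s₂) t :=
      (hst.of_isCoprime_of_dvd_left u1).mul_left (hst.of_isCoprime_of_dvd_left u2)
    have k3 : t₁ * t₂ = t := (p1.mul p2).eq_of_associated ht (associated_of_dvd_dvd
      (k1.dvd_of_dvd_mul_right ⟨_, e3.symm⟩) (k2.symm.dvd_of_dvd_mul_right ⟨_, e3⟩))
    have k4 : s₁ * s₂ = s := by
      rw [k3] at e3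
      exact mul_left_cancel₀ ht0 e3
    subst k4
    refine ⟨((t₁, t₂), s₁, s₂), ?_, ?_, rfl⟩
    · simp only [Finset.mem_filter, Finset.mem_product, mem_pdiv ht0, MBa_mem_pr hR]
      exact ⟨⟨⟨⟨⟨p1, r1⟩, p2, r2⟩, k3⟩, ⟨q1, a1.2.2.of_mul_left_left,
        (MBa_le_left q2.ne_zero).trans a2⟩, q2, a1.2.2.of_mul_left_right,
        (MBa_le_right q1.ne_zero).trans a2⟩, a1.2.1, c1.mul_right c3.of_mul_left_right⟩
    · simp only at hne ⊢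
      rwa [mul_assoc f₁, mul_assoc f₂, ← MBb_u_mul ψ w a q1.ne_zero q2.ne_zero]
  · obtain ⟨⟨t₁, t₂⟩, s₁, s₂⟩ := y
    simp only [Finset.mem_filter, Finset.mem_product, MBa_mem_pr hR] at hy
    simp only
    rw [mul_assoc f₁, mul_assoc f₂, MBb_u_mul ψ w a hy.1.2.1.1.ne_zero hy.1.2.2.1.ne_zero]

/-- the plain sum over the multiples of `D` -/
def MBb_S {M : O} (R : ℝ) (ν ψ : Chr M) (τ Λ : ℝ) (w : ℂ) (a : O) (N : ℝ) (D : O) : ℂ :=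
  ∑ n ∈ pr M R, wT ν N τ Λ (D * n) * MBb_u ψ w a n

open Classical in
theorem MBb_subst {M : O} {R : ℝ} (hR : 0 ≤ R) (ν ψ : Chr M) (τ Λ : ℝ) (w : ℂ) (a : O) {N : ℝ}
    (hN : N * Λ ≤ R) {g d : O} (hg : Primary g) (hd : d ∈ pr M R) :
    ∑ s ∈ pr M R, (if d ∣ s then wT ν N τ Λ (g * s) * MBb_u ψ w a s else 0) =
      MBb_u ψ w a d * MBb_S R ν ψ τ Λ w a N (g * d) := by
  rw [MBa_mem_pr hR] at hd
  rw [MBb_S, Finset.mul_sum, ← Finset.sum_filter]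
  symm
  refine Finset.sum_bij_ne_zero (fun n _ _ => d * n) (fun n hn hne => ?_)
    (fun n _ _ m _ _ e => mul_left_cancel₀ hd.1.ne_zero e) (fun s hs hne => ?_) (fun n hn _ => ?_)
  · rw [MBa_mem_pr hR] at hn
    obtain ⟨-, -, a3⟩ := MBa_wT_supp (left_ne_zero_of_mul (right_ne_zero_of_mul hne))
    rw [Finset.mem_filter, MBa_mem_pr hR]
    refine ⟨⟨hd.1.mul hn.1, hd.2.1.mul_left hn.2.1, le_trans ?_ (a3.trans hN)⟩, dvd_mul_right _ _⟩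
    rw [mul_assoc]
    exact MBa_le_right hg.ne_zero
  · rw [Finset.mem_filter, MBa_mem_pr hR] at hs
    obtain ⟨⟨a1, a2, a3⟩, n, rfl⟩ := hs
    have hn := hd.1.of_mul a1
    refine ⟨n, (MBa_mem_pr hR).2 ⟨hn, a2.of_mul_left_right,
      (MBa_le_right hd.1.ne_zero).trans a3⟩, ?_, rfl⟩
    rw [MBb_u_mul ψ w a hd.1.ne_zero hn.ne_zero, ← mul_assoc g] at hne
    exact fun h => hne (by rw [← h]; ring)
  · rw [MBa_mem_pr hR] at hn
    rw [MBb_u_mul ψ w a hd.1.ne_zero hn.1.ne_zero, ← mul_assoc g]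
    ring

theorem MBb_norm_S {M : O} (hM : M ≠ 0) {R : ℝ} (hR : 1 ≤ R) (ν ψ : Chr M) (τ Λ : ℝ) {w : ℂ}
    (hw : w.re ≤ 0) (a : O) (N : ℝ) (D : O) : ‖MBb_S R ν ψ τ Λ w a N D‖ ≤ 8 * R := by
  refine (norm_sum_le _ _).trans (le_trans ?_ (MBa_card_pr M hR))
  rw [← mul_one ((pr M R).card : ℝ), ← nsmul_eq_mul]
  refine Finset.sum_le_card_nsmul _ _ _ fun n hn => ?_
  rw [MBa_mem_pr (by linarith)] at hn
  rw [norm_mul]
  exact mul_le_one₀ (MBa_norm_wT hM _ _ _ _ _) (norm_nonneg _) ((MBb_norm_u hM ψ w a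
    hn.1.ne_zero).trans (Real.rpow_le_one_of_one_le_of_nonpos (one_le_nr hn.1.ne_zero) hw))

theorem MBb_cen {M : O} (hM : Adm M) (B : ℝ) : ∃ C : ℝ, 0 < C ∧
    ∀ (R N₁ N₂ N₃ N₄ τ Λ p : ℝ) (ν ψ : Chr M) (κ w : ℂ) (D₁ D₂ a : O), 1 ≤ R → 1 ≤ Λ →
      0 < N₁ → 0 < N₂ → 0 < N₃ → 0 < N₄ → N₁ * N₂ = N₃ * N₄ → N₁ * Λ ≤ R → N₂ * Λ ≤ R →
      N₃ * Λ ≤ R → N₄ * Λ ≤ R → ‖κ‖ ≤ 1 → Primary D₁ → Primary D₂ →
      -1 ≤ w.re → w.re ≤ -(1 / 2) →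
      ‖cenP (ν * ψ) a (N₁ / nr D₁) (N₂ / nr D₂) (N₃ / nr D₁) (N₄ / nr D₂) κ
        (τ * Complex.I + w)‖ ≤ p * Real.sqrt (N₁ * N₂ / (nr D₁ * nr D₂)) →
      ‖MBb_S R ν ψ τ Λ w a N₁ D₁ * MBb_S R ν ψ τ Λ w a N₂ D₂ -
        κ * (MBb_S R ν ψ τ Λ w a N₃ D₁ * MBb_S R ν ψ τ Λ w a N₄ D₂)‖ ≤
        p * (N₁ * N₂ / (nr D₁ * nr D₂)) ^ (1 / 2 + w.re) + C * R ^ 6 * Λ ^ (-B) := by
  obtain ⟨C, hC, h⟩ := trunc_plain hM (max B 0)
  refine ⟨2 * (16 * C + C ^ 2), by positivity,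
    fun R N₁ N₂ N₃ N₄ τ Λ p ν ψ κ w D₁ D₂ a hR hΛ h1 h2 h3 h4 hN g1 g2 g3 g4 hκ hD₁ hD₂ hw hw' hp => ?_⟩
  have hR0 : 0 ≤ R := by linarith
  have hw1 : |w.re| ≤ 1 := abs_le.2 ⟨hw, by linarith⟩
  have hL0 : 0 ≤ Λ ^ (-B) := by positivity
  have hL1 : Λ ^ (-max B 0) ≤ Λ ^ (-B) :=
    Real.rpow_le_rpow_of_exponent_le hΛ (neg_le_neg (le_max_left _ _))
  have hL2 : Λ ^ (-max B 0) ≤ 1 :=
    Real.rpow_le_one_of_one_le_of_nonpos hΛ (neg_nonpos.2 (le_max_right _ _))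
  obtain ⟨S, hS⟩ : ∃ S : ℝ → O → ℂ, S = MBb_S R ν ψ τ Λ w a := ⟨_, rfl⟩
  obtain ⟨m, hm⟩ : ∃ m : ℝ → O → ℂ, m = fun N D => ev ν D * ((N / nr D : ℝ) : ℂ) ^ w *
    Pln (ν * ψ) a (N / nr D) (τ * Complex.I + w) := ⟨_, rfl⟩
  rw [← hS]
  have hSm : ∀ N D, 0 < N → N * Λ ≤ R → Primary D →
      ‖S N D - m N D‖ ≤ C * R ^ 3 * Λ ^ (-max B 0) := by
    intro N D hN g hD
    have k := h R N τ Λ ν ψ D a w hR hΛ hN g hD hw1
    rw [hS, hm, MBb_S]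
    simp only [MBb_u, ← mul_assoc]
    exact k
  have hSb : ∀ N D, ‖S N D‖ ≤ 8 * R := fun N D => by
    rw [hS]; exact MBb_norm_S hM.1 hR ν ψ τ Λ (by linarith) a N D
  have hprod : ∀ N D N' D', 0 < N → N * Λ ≤ R → Primary D → 0 < N' → N' * Λ ≤ R → Primary D' →
      ‖S N D * S N' D' - m N D * m N' D'‖ ≤ (16 * C + C ^ 2) * R ^ 6 * Λ ^ (-B) := by
    intro N D N' D' a1 a2 a3 b1 b2 b3
    have k1 := hSm N D a1 a2 a3
    have k2 := hSm N' D' b1 b2 b3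
    have e : S N D * S N' D' - m N D * m N' D' = (S N D - m N D) * S N' D' +
        S N D * (S N' D' - m N' D') - (S N D - m N D) * (S N' D' - m N' D') := by ring
    rw [e]
    refine (norm_sub_le _ _).trans ((add_le_add (norm_add_le _ _) le_rfl).trans ?_)
    rw [norm_mul, norm_mul, norm_mul]
    have k3 : R ^ 4 ≤ R ^ 6 := pow_le_pow_right₀ hR (by norm_num)
    have k4 : ‖S N D - m N D‖ ≤ C * R ^ 3 * Λ ^ (-B) := k1.trans (by gcongr)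
    have k5 : ‖S N' D' - m N' D'‖ ≤ C * R ^ 3 * Λ ^ (-B) := k2.trans (by gcongr)
    have k6 : ‖S N' D' - m N' D'‖ ≤ C * R ^ 3 * 1 := k2.trans (by gcongr)
    calc _ ≤ (C * R ^ 3 * Λ ^ (-B)) * (8 * R) + (8 * R) * (C * R ^ 3 * Λ ^ (-B)) +
          (C * R ^ 3 * Λ ^ (-B)) * (C * R ^ 3 * 1) := by
          gcongr
          exacts [hSb _ _, hSb _ _]
      _ = (16 * C * R ^ 4 + C ^ 2 * R ^ 6) * Λ ^ (-B) := by ring
      _ ≤ (16 * C * R ^ 6 + C ^ 2 * R ^ 6) * Λ ^ (-B) := by gcongr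
      _ = _ := by ring
  have p₁ := nr_pos hD₁.ne_zero
  have p₂ := nr_pos hD₂.ne_zero
  have hX : 0 < N₁ * N₂ / (nr D₁ * nr D₂) := by positivity
  have c1 : ((N₁ / nr D₁ : ℝ) : ℂ) ^ w * ((N₂ / nr D₂ : ℝ) : ℂ) ^ w =
      ((N₁ * N₂ / (nr D₁ * nr D₂) : ℝ) : ℂ) ^ w := by
    rw [← Complex.mul_cpow_ofReal_nonneg (by positivity) (by positivity), ← Complex.ofReal_mul,
      div_mul_div_comm]
  have c2 : ((N₃ / nr D₁ : ℝ) : ℂ) ^ w * ((N₄ / nr D₂ : ℝ) : ℂ) ^ w =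
      ((N₁ * N₂ / (nr D₁ * nr D₂) : ℝ) : ℂ) ^ w := by
    rw [← Complex.mul_cpow_ofReal_nonneg (by positivity) (by positivity), ← Complex.ofReal_mul,
      div_mul_div_comm, hN]
  have e1 : m N₁ D₁ * m N₂ D₂ - κ * (m N₃ D₁ * m N₄ D₂) = ev ν D₁ * ev ν D₂ *
      ((N₁ * N₂ / (nr D₁ * nr D₂) : ℝ) : ℂ) ^ w * cenP (ν * ψ) a (N₁ / nr D₁) (N₂ / nr D₂)
        (N₃ / nr D₁) (N₄ / nr D₂) κ (τ * Complex.I + w) := by
    simp only [hm, cenP]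
    linear_combination (ev ν D₁ * ev ν D₂ * Pln (ν * ψ) a (N₁ / nr D₁) (τ * Complex.I + w) *
      Pln (ν * ψ) a (N₂ / nr D₂) (τ * Complex.I + w)) * c1 - κ * (ev ν D₁ * ev ν D₂ *
      Pln (ν * ψ) a (N₃ / nr D₁) (τ * Complex.I + w) *
      Pln (ν * ψ) a (N₄ / nr D₂) (τ * Complex.I + w)) * c2
  have e2 : ‖m N₁ D₁ * m N₂ D₂ - κ * (m N₃ D₁ * m N₄ D₂)‖ ≤
      p * (N₁ * N₂ / (nr D₁ * nr D₂)) ^ (1 / 2 + w.re) := by
    rw [e1, norm_mul, norm_mul, norm_mul, Complex.norm_cpow_eq_rpow_re_of_pos hX,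
      Real.rpow_add hX, ← Real.sqrt_eq_rpow]
    have k1 := norm_ev_le hM.1 ν D₁
    have k2 := norm_ev_le hM.1 ν D₂
    calc _ ≤ 1 * 1 * (N₁ * N₂ / (nr D₁ * nr D₂)) ^ w.re *
          (p * Real.sqrt (N₁ * N₂ / (nr D₁ * nr D₂))) := by gcongr
      _ = _ := by ring
  have e3 : S N₁ D₁ * S N₂ D₂ - κ * (S N₃ D₁ * S N₄ D₂) =
      (m N₁ D₁ * m N₂ D₂ - κ * (m N₃ D₁ * m N₄ D₂)) + ((S N₁ D₁ * S N₂ D₂ - m N₁ D₁ * m N₂ D₂) -
        κ * (S N₃ D₁ * S N₄ D₂ - m N₃ D₁ * m N₄ D₂)) := by ring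
  rw [e3]
  refine (norm_add_le _ _).trans (add_le_add e2 ((norm_sub_le _ _).trans ?_))
  rw [norm_mul]
  have k1 := hprod N₁ D₁ N₂ D₂ h1 g1 hD₁ h2 g2 hD₂
  have k2 := hprod N₃ D₁ N₄ D₂ h3 g3 hD₁ h4 g4 hD₂
  have k3 := mul_le_mul hκ k2 (norm_nonneg _) zero_le_one
  linarith

open Classical in
theorem MBb_inner {M : O} {R : ℝ} (hR : 0 ≤ R) (ν ψ : Chr M) (τ Λ : ℝ) (κ w : ℂ) (a : O)
    {N₁ N₂ N₃ N₄ : ℝ} (g1 : N₁ * Λ ≤ R) (g2 : N₂ * Λ ≤ R) (g3 : N₃ * Λ ≤ R) (g4 : N₄ * Λ ≤ R)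
    {g₁ g₂ : O} (hg₁ : Primary g₁) (hg₂ : Primary g₂) (I c : O → O → ℂ)
    (hc : ∀ n₁ ∈ pr M R, ∀ n₂ ∈ pr M R, I n₁ n₂ =
      ∑ d₁ ∈ pr M R, ∑ d₂ ∈ pr M R, if d₁ ∣ n₁ ∧ d₂ ∣ n₂ then c d₁ d₂ else 0) :
    ∑ s₁ ∈ pr M R, ∑ s₂ ∈ pr M R, I s₁ s₂ *
        (cenB ν N₁ N₂ N₃ N₄ τ Λ κ (g₁ * s₁) (g₂ * s₂) * (MBb_u ψ w a s₁ * MBb_u ψ w a s₂)) =
      ∑ d₁ ∈ pr M R, ∑ d₂ ∈ pr M R, c d₁ d₂ * (MBb_u ψ w a d₁ * MBb_u ψ w a d₂) *
        (MBb_S R ν ψ τ Λ w a N₁ (g₁ * d₁) * MBb_S R ν ψ τ Λ w a N₂ (g₂ * d₂) -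
          κ * (MBb_S R ν ψ τ Λ w a N₃ (g₁ * d₁) * MBb_S R ν ψ τ Λ w a N₄ (g₂ * d₂))) := by
  have e1 : ∑ s₁ ∈ pr M R, ∑ s₂ ∈ pr M R, I s₁ s₂ *
        (cenB ν N₁ N₂ N₃ N₄ τ Λ κ (g₁ * s₁) (g₂ * s₂) * (MBb_u ψ w a s₁ * MBb_u ψ w a s₂)) =
      ∑ s ∈ pr M R ×ˢ pr M R, ∑ d ∈ pr M R ×ˢ pr M R, (if d.1 ∣ s.1 ∧ d.2 ∣ s.2 then c d.1 d.2 else 0) *
        (cenB ν N₁ N₂ N₃ N₄ τ Λ κ (g₁ * s.1) (g₂ * s.2) * (MBb_u ψ w a s.1 * MBb_u ψ w a s.2)) := by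
    rw [Finset.sum_product]
    refine Finset.sum_congr rfl fun s₁ h₁ => Finset.sum_congr rfl fun s₂ h₂ => ?_
    rw [hc s₁ h₁ s₂ h₂, ← Finset.sum_mul, Finset.sum_product]
  rw [e1, Finset.sum_comm, Finset.sum_product]
  refine Finset.sum_congr rfl fun d₁ h₁ => Finset.sum_congr rfl fun d₂ h₂ => ?_
  have k1 := MBb_subst hR ν ψ τ Λ w a g1 hg₁ h₁
  have k2 := MBb_subst hR ν ψ τ Λ w a g2 hg₂ h₂
  have k3 := MBb_subst hR ν ψ τ Λ w a g3 hg₁ h₁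
  have k4 := MBb_subst hR ν ψ τ Λ w a g4 hg₂ h₂
  have e2 : c d₁ d₂ * (MBb_u ψ w a d₁ * MBb_u ψ w a d₂) *
        (MBb_S R ν ψ τ Λ w a N₁ (g₁ * d₁) * MBb_S R ν ψ τ Λ w a N₂ (g₂ * d₂) -
          κ * (MBb_S R ν ψ τ Λ w a N₃ (g₁ * d₁) * MBb_S R ν ψ τ Λ w a N₄ (g₂ * d₂))) =
      c d₁ d₂ * ((MBb_u ψ w a d₁ * MBb_S R ν ψ τ Λ w a N₁ (g₁ * d₁)) *
        (MBb_u ψ w a d₂ * MBb_S R ν ψ τ Λ w a N₂ (g₂ * d₂)) -
          κ * ((MBb_u ψ w a d₁ * MBb_S R ν ψ τ Λ w a N₃ (g₁ * d₁)) *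
            (MBb_u ψ w a d₂ * MBb_S R ν ψ τ Λ w a N₄ (g₂ * d₂)))) := by ring
  rw [e2, ← k1, ← k2, ← k3, ← k4, Finset.sum_mul_sum, Finset.sum_mul_sum, Finset.sum_product]
  simp only [Finset.mul_sum, ← Finset.sum_sub_distrib]
  refine Finset.sum_congr rfl fun s₁ _ => Finset.sum_congr rfl fun s₂ _ => ?_
  by_cases a1 : d₁ ∣ s₁ <;> by_cases a2 : d₂ ∣ s₂ <;> simp only [a1, a2, cenB, if_true, if_false,
    and_true, and_false, mul_zero, zero_mul, sub_zero]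
  ring

/-- **Return to plain sums.** -/
theorem back_sqB_le {M : O} (hM : Adm M) {ε : ℝ} (hε : 0 < ε) (B : ℝ) : ∃ C : ℝ, 0 < C ∧
    ∀ (R N₁ N₂ N₃ N₄ τ Λ p : ℝ) (ν ψ : Chr M) (κ w : ℂ) (f₁ f₂ f t T a : O), 1 ≤ R → 1 ≤ Λ →
      0 < N₁ → 0 < N₂ → 0 < N₃ → 0 < N₄ → N₁ * N₂ = N₃ * N₄ → N₁ * Λ ≤ R → N₂ * Λ ≤ R →
      N₃ * Λ ≤ R → N₄ * Λ ≤ R → N₁ * N₂ * Λ ^ 2 ≤ R → ‖κ‖ ≤ 1 → 0 ≤ p → Primary f₁ → Primary f₂ →
      Primary f → Primary t → Primary T → t ∣ T → nr f ≤ R → nr T ≤ R ^ 4 →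
      -1 ≤ w.re → w.re ≤ -(1 / 2) →
      (∀ ρ₁ ρ₂ : ℝ, 1 ≤ ρ₁ → 1 ≤ ρ₂ →
        ‖cenP (ν * ψ) a (N₁ / ρ₁) (N₂ / ρ₂) (N₃ / ρ₁) (N₄ / ρ₂) κ (τ * Complex.I + w)‖ ≤
          p * Real.sqrt (N₁ * N₂ / (ρ₁ * ρ₂))) →
      ‖back M R (sqB M R (cenB ν N₁ N₂ N₃ N₄ τ Λ κ) f₁ f₂ f) t T ψ w a‖ ≤
        C * R ^ ε * p * (N₁ * N₂ / (nr f₁ * nr f₂ * nr t)) ^ (1 / 2 + w.re) +
          C * R ^ (9 : ℝ) * Λ ^ (-B) := by
  classical
  obtain ⟨δ, hδ, hδ1, hδ2⟩ : ∃ δ : ℝ, 0 < δ ∧ 10 * δ ≤ ε ∧ 10 * δ ≤ 1 :=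
    ⟨min ε 1 / 10, by positivity, by linarith [min_le_left ε 1], by linarith [min_le_right ε 1]⟩
  obtain ⟨C₁, hC₁, h₁⟩ := exists_moebius_two hδ
  obtain ⟨C₂, hC₂, h₂⟩ := card_pdiv_le hδ
  obtain ⟨C₃, hC₃, h₃⟩ := MBb_cen hM B
  refine ⟨C₂ * C₁ * (1 + C₃), by positivity, fun R N₁ N₂ N₃ N₄ τ Λ p ν ψ κ w f₁ f₂ f t T a hR hΛ
    n1 n2 n3 n4 hN g1 g2 g3 g4 hQ hκ hp hf₁ hf₂ hf ht hT htT hfR hTR hw hw' hyp => ?_⟩
  have hR0 : 0 ≤ R := by linarith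
  have hRp : 0 < R := by linarith
  have q₁ := nr_pos hf₁.ne_zero
  have q₂ := nr_pos hf₂.ne_zero
  have q₃ := nr_pos ht.ne_zero
  obtain ⟨Y, hY⟩ : ∃ Y : ℝ, Y = N₁ * N₂ / (nr f₁ * nr f₂ * nr t) := ⟨_, rfl⟩
  have hY0 : 0 < Y := by rw [hY]; positivity
  rw [← hY]
  by_cases hc : Squarefree t ∧ IsCoprime t f
  swap
  · have : back M R (sqB M R (cenB ν N₁ N₂ N₃ N₄ τ Λ κ) f₁ f₂ f) t T ψ w a = 0 := by
      refine Finset.sum_eq_zero fun s _ => ?_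
      rw [sqB, if_neg (fun h : Squarefree (t * s) ∧ IsCoprime (t * s) f =>
        hc ⟨h.1.of_mul_left, h.2.of_mul_left_left⟩)]
      simp
    rw [this, norm_zero]
    positivity
  obtain ⟨c, hc1, hc2⟩ := h₁ M (T * f) R hR (hT.mul hf).ne_zero
  obtain ⟨E, hE⟩ : ∃ E : ℝ, E = p * Y ^ (1 / 2 + w.re) + C₃ * R ^ 6 * Λ ^ (-B) := ⟨_, rfl⟩
  have hE0 : 0 ≤ E := by rw [hE]; positivity
  have k1 : (R * nr (T * f)) ^ δ ≤ R ^ (6 * δ) := by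
    rw [Real.rpow_mul hR0]
    refine Real.rpow_le_rpow (by positivity) ?_ hδ.le
    rw [nr_mul, show (6 : ℝ) = (6 : ℕ) by norm_num, Real.rpow_natCast]
    calc R * (nr T * nr f) ≤ R * (R ^ 4 * R) := by gcongr
      _ = _ := by ring
  have k2 : ((pdiv t).card : ℝ) ≤ C₂ * R ^ (4 * δ) := by
    refine (h₂ t ht.ne_zero).trans (mul_le_mul_of_nonneg_left ?_ hC₂.le)
    rw [Real.rpow_mul hR0]
    refine Real.rpow_le_rpow (by positivity) ?_ hδ.le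
    rw [show (4 : ℝ) = (4 : ℕ) by norm_num, Real.rpow_natCast]
    exact (MBa_nr_le htT hT.ne_zero).trans hTR
  rw [MBb_rewrite (suppB_cenB ν hN τ κ) hQ hR0 ψ w a hf₁ hf₂ ht htT hc.1 hc.2]
  have k3 : (((pdiv t ×ˢ pdiv t).filter (fun u => u.1 * u.2 = t)).card : ℝ) ≤ (pdiv t).card := by
    refine Nat.cast_le.2 (Finset.card_le_card_of_injOn Prod.fst (fun v hv => ?_)
      (fun v hv v' hv' e => ?_))
    · rw [Finset.mem_coe, Finset.mem_filter, Finset.mem_product] at hv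
      exact hv.1.1
    · rw [Finset.mem_coe, Finset.mem_filter, Finset.mem_product, mem_pdiv ht.ne_zero] at hv hv'
      refine Prod.ext e (mul_left_cancel₀ hv.1.1.1.ne_zero ?_)
      rw [hv.2, e, hv'.2]
  have k4 : ∀ u ∈ (pdiv t ×ˢ pdiv t).filter (fun u => u.1 * u.2 = t),
      ‖∑ s₁ ∈ pr M R, ∑ s₂ ∈ pr M R,
        (if Squarefree (s₁ * s₂) ∧ IsCoprime (s₁ * s₂) (T * f) then 1 else 0 : ℂ) *
          (cenB ν N₁ N₂ N₃ N₄ τ Λ κ (f₁ * u.1 * s₁) (f₂ * u.2 * s₂) *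
            (MBb_u ψ w a s₁ * MBb_u ψ w a s₂))‖ ≤ C₁ * R ^ (6 * δ) * E := by
    rintro ⟨t₁, t₂⟩ hu
    simp only [Finset.mem_filter, Finset.mem_product, mem_pdiv ht.ne_zero] at hu
    obtain ⟨⟨⟨a1, -⟩, a2, -⟩, a3⟩ := hu
    rw [MBb_inner hR0 ν ψ τ Λ κ w a g1 g2 g3 g4 (hf₁.mul a1) (hf₂.mul a2) _ c hc1]
    calc _ ≤ ∑ d₁ ∈ pr M R, ∑ d₂ ∈ pr M R, ‖c d₁ d₂‖ / Real.sqrt (nr d₁ * nr d₂) * E := by
          refine (norm_sum_le _ _).trans (Finset.sum_le_sum fun d₁ hd₁ =>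
            (norm_sum_le _ _).trans (Finset.sum_le_sum fun d₂ hd₂ => ?_))
          rw [MBa_mem_pr hR0] at hd₁ hd₂
          have b1 := (hf₁.mul a1).mul hd₁.1
          have b2 := (hf₂.mul a2).mul hd₂.1
          have j1 := h₃ R N₁ N₂ N₃ N₄ τ Λ p ν ψ κ w _ _ a hR hΛ n1 n2 n3 n4 hN g1 g2 g3 g4 hκ b1 b2
            hw hw' (hyp _ _ (one_le_nr b1.ne_zero) (one_le_nr b2.ne_zero))
          have r₁ := nr_pos hd₁.1.ne_zero
          have r₂ := nr_pos hd₂.1.ne_zero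
          obtain ⟨Z, hZ⟩ : ∃ Z : ℝ, Z = nr d₁ * nr d₂ := ⟨_, rfl⟩
          have hZ1 : 1 ≤ Z := by
            rw [hZ]
            exact one_le_mul_of_one_le_of_one_le (one_le_nr hd₁.1.ne_zero) (one_le_nr hd₂.1.ne_zero)
          have hZ0 : 0 < Z := by linarith
          have j2 : N₁ * N₂ / (nr (f₁ * t₁ * d₁) * nr (f₂ * t₂ * d₂)) = Y / Z := by
            rw [hY, hZ, ← a3, div_div]
            simp only [nr_mul]
            congr 1; ring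
          rw [j2, Real.div_rpow hY0.le hZ0.le] at j1
          have j3 : ‖MBb_u ψ w a d₁ * MBb_u ψ w a d₂‖ ≤ Z ^ w.re := by
            rw [norm_mul, hZ, Real.mul_rpow r₁.le r₂.le]
            exact mul_le_mul (MBb_norm_u hM.1 ψ w a hd₁.1.ne_zero)
              (MBb_norm_u hM.1 ψ w a hd₂.1.ne_zero) (norm_nonneg _) (by positivity)
          have j4 : Z ^ w.re ≤ Z ^ (-(1 / 2) : ℝ) := Real.rpow_le_rpow_of_exponent_le hZ1 hw'
          have j5 : Z ^ w.re / Z ^ (1 / 2 + w.re) = Z ^ (-(1 / 2) : ℝ) := by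
            rw [← Real.rpow_sub hZ0]; congr 1; ring
          rw [norm_mul, norm_mul, ← hZ, Real.sqrt_eq_rpow, div_eq_mul_inv, ← Real.rpow_neg hZ0.le,
            mul_assoc ‖c d₁ d₂‖, mul_assoc ‖c d₁ d₂‖]
          refine mul_le_mul_of_nonneg_left ?_ (norm_nonneg _)
          calc _ ≤ Z ^ w.re * (p * (Y ^ (1 / 2 + w.re) / Z ^ (1 / 2 + w.re)) +
                C₃ * R ^ 6 * Λ ^ (-B)) := by
                refine mul_le_mul j3 j1 ?_ (by positivity)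
                exact norm_nonneg _
            _ = Z ^ w.re / Z ^ (1 / 2 + w.re) * (p * Y ^ (1 / 2 + w.re)) +
                Z ^ w.re * (C₃ * R ^ 6 * Λ ^ (-B)) := by ring
            _ ≤ Z ^ (-(1 / 2) : ℝ) * (p * Y ^ (1 / 2 + w.re)) +
                Z ^ (-(1 / 2) : ℝ) * (C₃ * R ^ 6 * Λ ^ (-B)) := by
                rw [j5]; gcongr
            _ = _ := by rw [hE]; ring
      _ ≤ C₁ * R ^ (6 * δ) * E := by
          simp only [← Finset.sum_mul]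
          exact mul_le_mul_of_nonneg_right (hc2.trans (by gcongr)) hE0
  refine (norm_sum_le _ _).trans ((Finset.sum_le_card_nsmul _ _ _ k4).trans ?_)
  rw [nsmul_eq_mul]
  have k5 : R ^ (4 * δ) * R ^ (6 * δ) ≤ R ^ ε := by
    rw [← Real.rpow_add hRp]
    exact Real.rpow_le_rpow_of_exponent_le hR (by linarith)
  have k6 : R ^ (4 * δ) * R ^ (6 * δ) * R ^ 6 ≤ R ^ (9 : ℝ) := by
    rw [← Real.rpow_add hRp, ← Real.rpow_natCast, ← Real.rpow_add hRp]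
    exact Real.rpow_le_rpow_of_exponent_le hR (by push_cast; linarith)
  have k7 : C₂ * C₁ ≤ C₂ * C₁ * (1 + C₃) := le_mul_of_one_le_right (by positivity) (by linarith)
  have k8 : C₂ * C₁ * C₃ ≤ C₂ * C₁ * (1 + C₃) := by gcongr; linarith
  calc _ ≤ C₂ * R ^ (4 * δ) * (C₁ * R ^ (6 * δ) * E) := by
        gcongr
        exact k3.trans k2
    _ = C₂ * C₁ * (R ^ (4 * δ) * R ^ (6 * δ)) * p * Y ^ (1 / 2 + w.re) +
        C₂ * C₁ * C₃ * (R ^ (4 * δ) * R ^ (6 * δ) * R ^ 6) * Λ ^ (-B) := by rw [hE]; ring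
    _ ≤ _ := by gcongr

end Crest.Agent.R17
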