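import Crest.Agent.R17.M4CoreAuxA2

/-!
# Row 17, module M4, part Core: the splitting lemmas (auxiliary file C)

Splitting of a dual row sum of `tri` (`M4CA.dual_tri_le`).
-/

set_option autoImplicit false

noncomputable section

namespace Crest.Agent.R17

namespace M4CA

open scoped ComplexConjugate

open Classical in
/-- The admissible factorisations `t = u₀ u₁ u₂`. -/
def U (t : O) (Q L₁ L₂ : ℝ) : Finset (O × O × O) :=
  (pdiv t ×ˢ pdiv t ×ˢ pdiv t).filter (fun u =>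
    u.1 * u.2.1 * u.2.2 = t ∧ nr u.1 ≤ Q ∧ nr u.2.1 ≤ L₁ ∧ nr u.2.2 ≤ L₂)

theorem mem_U {t : O} (ht : t ≠ 0) {Q L₁ L₂ : ℝ} {u : O × O × O} : u ∈ U t Q L₁ L₂ ↔
    Primary u.1 ∧ Primary u.2.1 ∧ Primary u.2.2 ∧ u.1 * u.2.1 * u.2.2 = t ∧ nr u.1 ≤ Q ∧
      nr u.2.1 ≤ L₁ ∧ nr u.2.2 ≤ L₂ := by
  classical
  rw [U, Finset.mem_filter, Finset.mem_product, Finset.mem_product, mem_pdiv ht, mem_pdiv ht,
    mem_pdiv ht]
  constructor
  · rintro ⟨⟨a, b, c⟩, d⟩; exact ⟨a.1, b.1, c.1, d⟩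
  · rintro ⟨a, b, c, d⟩
    exact ⟨⟨⟨a, u.2.1 * u.2.2, by rw [← d.1]; ring⟩, ⟨b, u.1 * u.2.2, by rw [← d.1]; ring⟩,
      ⟨c, u.1 * u.2.1, by rw [← d.1]; ring⟩⟩, d⟩

theorem pgcd_eq {u r s : O} (hu : Primary u) (hr : r ≠ 0) (hs : Primary s)
    (h : IsCoprime s (u * r)) : pgcd (u * s) (u * r) = u := by
  rw [pgcd_mul_left hu hs.ne_zero hr, (pgcd_eq_one_iff hs hr).2 h.of_mul_right_right, mul_one]

theorem pgcd_three {s z₁ z₂ t n : O} (hs : Primary s) (h1 : Primary z₁) (h2 : Primary z₂)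
    (ht : Primary t) (hn : Primary n) (hsq : Squarefree (t * n)) (h : s * z₁ * z₂ = t * n) :
    pgcd s t * pgcd z₁ t * pgcd z₂ t = t := by
  refine Primary.ext_vp (((primary_pgcd _ _).mul (primary_pgcd _ _)).mul (primary_pgcd _ _)) ht
    fun p hp hp' => ?_
  have e1 := BasicB.vp_le_one hsq hp
  have e2 := congrArg (vp p) h
  rw [vp_mul hp ht.ne_zero hn.ne_zero] at e1
  rw [vp_mul hp ht.ne_zero hn.ne_zero, vp_mul hp (hs.mul h1).ne_zero h2.ne_zero,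
    vp_mul hp hs.ne_zero h1.ne_zero] at e2
  rw [vp_mul hp ((primary_pgcd _ _).mul (primary_pgcd _ _)).ne_zero (primary_pgcd _ _).ne_zero,
    vp_mul hp (primary_pgcd _ _).ne_zero (primary_pgcd _ _).ne_zero,
    BasicB.vp_pgcd hs.ne_zero ht.ne_zero hp hp', BasicB.vp_pgcd h1.ne_zero ht.ne_zero hp hp',
    BasicB.vp_pgcd h2.ne_zero ht.ne_zero hp hp']
  omega

theorem pgcd_dvd {s t : O} (hs : s ≠ 0) (ht : t ≠ 0) : pgcd s t ∣ s :=
  ((dvd_pgcd_iff hs ht (primary_pgcd s t)).1 dvd_rfl).1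

theorem nr_le_mul_left {u s : O} (hu : u ≠ 0) : nr s ≤ nr (u * s) := by
  rw [nr_mul]
  exact le_mul_of_one_le_left (Nat.cast_nonneg _) (one_le_nr hu)

theorem nr_le_mul_right {u s : O} (hs : s ≠ 0) : nr u ≤ nr (u * s) := by
  rw [mul_comm]; exact nr_le_mul_left hs

open Classical in
theorem tri_expand {M : O} {R Q L₁ L₂ : ℝ} {β c₁ c₂ : O → ℂ} (hβ : Supp M Q β)
    (h1 : Supp M L₁ c₁) (h2 : Supp M L₂ c₂) (hR : Q * L₁ * L₂ ≤ R) (hQ : 1 ≤ Q) (hL1 : 1 ≤ L₁)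
    (hL2 : 1 ≤ L₂) {t : O} (ht : Primary t) (F : O → ℂ) :
    ∑ n ∈ sp M R, tri M R β c₁ c₂ (t * n) * F n =
      ∑ u ∈ U t Q L₁ L₂, ∑ z₁ ∈ sp M R, ∑ z₂ ∈ sp M R, ∑ s ∈ sp M R,
        if Squarefree (t * (z₁ * z₂ * s)) then
          β (u.1 * s) * (c₁ (u.2.1 * z₁) * c₂ (u.2.2 * z₂)) * F (z₁ * z₂ * s) else 0 := by
  have ht0 := ht.ne_zero
  have hQL : 1 ≤ Q * L₁ := one_le_mul_of_one_le_of_one_le hQ hL1
  have hQR : Q ≤ R := by nlinarith
  have hL1R : L₁ ≤ R := by nlinarith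
  have hL2R : L₂ ≤ R := by nlinarith
  have hR0 : 0 ≤ R := by linarith
  have eL : ∑ n ∈ sp M R, tri M R β c₁ c₂ (t * n) * F n =
      ∑ x ∈ sp M R ×ˢ (sp M R ×ˢ sp M R ×ˢ sp M R),
        if Squarefree (t * x.1) ∧ x.2.1 * x.2.2.1 * x.2.2.2 = t * x.1 then
          β x.2.1 * c₁ x.2.2.1 * c₂ x.2.2.2 * F x.1 else 0 := by
    rw [Finset.sum_product]
    refine Finset.sum_congr rfl fun n _ => ?_
    unfold tri
    by_cases hs : Squarefree (t * n)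
    · simp only [hs, true_and, if_true]
      rw [Finset.sum_filter, Finset.sum_mul]
      refine Finset.sum_congr rfl fun v _ => ?_
      split_ifs <;> simp
    · simp [hs]
  have eR : (∑ u ∈ U t Q L₁ L₂, ∑ z₁ ∈ sp M R, ∑ z₂ ∈ sp M R, ∑ s ∈ sp M R,
        if Squarefree (t * (z₁ * z₂ * s)) then
          β (u.1 * s) * (c₁ (u.2.1 * z₁) * c₂ (u.2.2 * z₂)) * F (z₁ * z₂ * s) else 0) =
      ∑ y ∈ U t Q L₁ L₂ ×ˢ (sp M R ×ˢ sp M R ×ˢ sp M R),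
        if Squarefree (t * (y.2.1 * y.2.2.1 * y.2.2.2)) then
          β (y.1.1 * y.2.2.2) * (c₁ (y.1.2.1 * y.2.1) * c₂ (y.1.2.2 * y.2.2.1)) *
            F (y.2.1 * y.2.2.1 * y.2.2.2) else 0 := by
    simp only [Finset.sum_product]
  rw [eL, eR]
  symm
  refine Finset.sum_bij_ne_zero (fun y _ _ => (y.2.1 * y.2.2.1 * y.2.2.2,
    (y.1.1 * y.2.2.2, y.1.2.1 * y.2.1, y.1.2.2 * y.2.2.1))) ?_ ?_ ?_ ?_
  · rintro ⟨u, z₁, z₂, s⟩ hy hne
    simp only [Finset.mem_product] at hy ⊢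
    obtain ⟨hu, hz1, hz2, hs⟩ := hy
    rw [mem_U ht0] at hu
    dsimp only at hne
    split_ifs at hne with hsq
    swap
    · exact absurd rfl hne
    have n1 := left_ne_zero_of_mul hne
    obtain ⟨a1, a2⟩ := hβ _ (left_ne_zero_of_mul n1)
    obtain ⟨b1, b2⟩ := h1 _ (left_ne_zero_of_mul (right_ne_zero_of_mul n1))
    obtain ⟨d1, d2⟩ := h2 _ (right_ne_zero_of_mul (right_ne_zero_of_mul n1))
    have hz1' := SP_of_mem hz1
    have hz2' := SP_of_mem hz2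
    have hs' := SP_of_mem hs
    simp only [LS2.mem_sp hR0]
    refine ⟨⟨⟨(hz1'.1.mul hz2'.1).mul hs'.1, hsq.of_mul_right,
      (hz1'.2.2.mul_left hz2'.2.2).mul_left hs'.2.2⟩, ?_⟩, ⟨a1, a2.trans hQR⟩,
      ⟨b1, b2.trans hL1R⟩, ⟨d1, d2.trans hL2R⟩⟩
    have a3 := (nr_le_mul_left (s := s) hu.1.ne_zero).trans a2
    have b3 := (nr_le_mul_left (s := z₁) hu.2.1.ne_zero).trans b2
    have d3 := (nr_le_mul_left (s := z₂) hu.2.2.1.ne_zero).trans d2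
    rw [nr_mul, nr_mul]
    refine le_trans ?_ hR
    have e1 : 0 ≤ nr s := Nat.cast_nonneg _
    have e2 : 0 ≤ nr z₁ := Nat.cast_nonneg _
    have e3 : 0 ≤ nr z₂ := Nat.cast_nonneg _
    calc nr z₁ * nr z₂ * nr s ≤ L₁ * L₂ * Q := by gcongr
      _ = _ := by ring
  · rintro ⟨u, z₁, z₂, s⟩ hy hne ⟨u', z₁', z₂', s'⟩ hy' hne' heq
    simp only [Finset.mem_product] at hy hy'
    obtain ⟨hu, hz1, hz2, hs⟩ := hy
    obtain ⟨hu', hz1', hz2', hs'⟩ := hy'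
    rw [mem_U ht0] at hu hu'
    dsimp only at hne hne'
    have hsq : Squarefree (t * (z₁ * z₂ * s)) := by
      by_contra h; exact hne (if_neg h)
    have hsq' : Squarefree (t * (z₁' * z₂' * s')) := by
      by_contra h; exact hne' (if_neg h)
    simp only [Prod.mk.injEq] at heq
    obtain ⟨-, q0, q1, q2⟩ := heq
    have hc := (IsRelPrime.of_squarefree_mul hsq).isCoprime.symm
    have hc' := (IsRelPrime.of_squarefree_mul hsq').isCoprime.symm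
    have key : ∀ {a a' r r' x x' : O}, Primary a → Primary a' → Primary x → Primary x' →
        a * r = t → a' * r' = t → IsCoprime x t → IsCoprime x' t → a * x = a' * x' →
        a = a' ∧ x = x' := by
      intro a a' r r' x x' ha ha' hx hx' hr hr' hxt hxt' he
      have r0 : r ≠ 0 := by rintro rfl; exact ht0 (by rw [← hr, mul_zero])
      have r0' : r' ≠ 0 := by rintro rfl; exact ht0 (by rw [← hr', mul_zero])
      have e1 := pgcd_eq ha r0 hx (by rwa [hr])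
      have e2 := pgcd_eq ha' r0' hx' (by rwa [hr'])
      rw [hr] at e1
      rw [hr', ← he, e1] at e2
      refine ⟨e2, ?_⟩
      rw [← e2] at he
      exact mul_left_cancel₀ ha.ne_zero he
    obtain ⟨k0, k0'⟩ := key (r := u.2.1 * u.2.2) (r' := u'.2.1 * u'.2.2) hu.1 hu'.1
      (SP_of_mem hs).1 (SP_of_mem hs').1 (by rw [← hu.2.2.2.1]; ring)
      (by rw [← hu'.2.2.2.1]; ring) hc.of_mul_left_right hc'.of_mul_left_right q0
    obtain ⟨k1, k1'⟩ := key (r := u.1 * u.2.2) (r' := u'.1 * u'.2.2) hu.2.1 hu'.2.1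
      (SP_of_mem hz1).1 (SP_of_mem hz1').1 (by rw [← hu.2.2.2.1]; ring)
      (by rw [← hu'.2.2.2.1]; ring) hc.of_mul_left_left.of_mul_left_left
      hc'.of_mul_left_left.of_mul_left_left q1
    obtain ⟨k2, k2'⟩ := key (r := u.1 * u.2.1) (r' := u'.1 * u'.2.1) hu.2.2.1 hu'.2.2.1
      (SP_of_mem hz2).1 (SP_of_mem hz2').1 (by rw [← hu.2.2.2.1]; ring)
      (by rw [← hu'.2.2.2.1]; ring) hc.of_mul_left_left.of_mul_left_right
      hc'.of_mul_left_left.of_mul_left_right q2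
    rw [k0', k1', k2', show u = u' from Prod.ext k0 (Prod.ext k1 k2)]
  · rintro ⟨n, s, z₁, z₂⟩ hx hne
    simp only [Finset.mem_product] at hx
    obtain ⟨hn, hs, hz1, hz2⟩ := hx
    dsimp only at hne
    have hcond : Squarefree (t * n) ∧ s * z₁ * z₂ = t * n := by
      by_contra h; exact hne (if_neg h)
    rw [if_pos hcond] at hne
    have n1 := left_ne_zero_of_mul hne
    obtain ⟨a1, a2⟩ := hβ _ (left_ne_zero_of_mul (left_ne_zero_of_mul n1))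
    obtain ⟨b1, b2⟩ := h1 _ (right_ne_zero_of_mul (left_ne_zero_of_mul n1))
    obtain ⟨d1, d2⟩ := h2 _ (right_ne_zero_of_mul n1)
    have hn' := SP_of_mem hn
    have h3 := pgcd_three a1.1 b1.1 d1.1 ht hn'.1 hcond.1 hcond.2
    obtain ⟨s', es⟩ := pgcd_dvd a1.1.ne_zero ht0
    obtain ⟨z₁', e1⟩ := pgcd_dvd b1.1.ne_zero ht0
    obtain ⟨z₂', e2⟩ := pgcd_dvd d1.1.ne_zero ht0
    have p0 := primary_pgcd s t
    have p1 := primary_pgcd z₁ t
    have p2 := primary_pgcd z₂ t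
    generalize pgcd s t = u₀ at h3 es p0
    generalize pgcd z₁ t = u₁ at h3 e1 p1
    generalize pgcd z₂ t = u₂ at h3 e2 p2
    subst es e1 e2
    have ps : Primary s' := p0.of_mul a1.1
    have pz1 : Primary z₁' := p1.of_mul b1.1
    have pz2 : Primary z₂' := p2.of_mul d1.1
    have hnn : z₁' * z₂' * s' = n := by
      apply mul_left_cancel₀ ht0
      rw [← hcond.2, ← h3]; ring
    have hmem : ((u₀, u₁, u₂), z₁', z₂', s') ∈ U t Q L₁ L₂ ×ˢ (sp M R ×ˢ sp M R ×ˢ sp M R) := by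
      simp only [Finset.mem_product, mem_U ht0, LS2.mem_sp hR0]
      exact ⟨⟨p0, p1, p2, h3, (nr_le_mul_right ps.ne_zero).trans a2,
        (nr_le_mul_right pz1.ne_zero).trans b2, (nr_le_mul_right pz2.ne_zero).trans d2⟩,
        ⟨LS2.SP_of_dvd b1 pz1 (Dvd.intro_left _ rfl),
          (nr_le_mul_left p1.ne_zero).trans (b2.trans hL1R)⟩,
        ⟨LS2.SP_of_dvd d1 pz2 (Dvd.intro_left _ rfl),
          (nr_le_mul_left p2.ne_zero).trans (d2.trans hL2R)⟩,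
        ⟨LS2.SP_of_dvd a1 ps (Dvd.intro_left _ rfl),
          (nr_le_mul_left p0.ne_zero).trans (a2.trans hQR)⟩⟩
    refine ⟨((u₀, u₁, u₂), z₁', z₂', s'), hmem, ?_, ?_⟩
    · dsimp only
      rw [hnn, if_pos hcond.1, ← mul_assoc]
      exact hne
    · dsimp only
      rw [hnn]
  · rintro ⟨u, z₁, z₂, s⟩ hy hne
    simp only [Finset.mem_product] at hy
    obtain ⟨hu, -⟩ := hy
    rw [mem_U ht0] at hu
    dsimp only at hne ⊢
    have hsq : Squarefree (t * (z₁ * z₂ * s)) := by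
      by_contra h; exact hne (if_neg h)
    rw [if_pos hsq, if_pos ⟨hsq, by rw [← hu.2.2.2.1]; ring⟩]
    ring

open Classical in
theorem inner_le {M : O} (hM : Adm M) [Fintype (Chr M)] (R : ℝ) (β : O → ℂ) (u₀ t r z k : O)
    {a : ℂ} (ha : ‖a‖ ≤ 1) (hz : PO z) (ψ : Chr M) (w : ℂ) :
    ‖∑ s ∈ sp M R, if Squarefree (t * (z * s)) then β (u₀ * s) * a *
        (ev ψ (z * s) * gam 5 (z * s) * sym (z * s) r ^ 5 * (nr (z * s) : ℂ) ^ w *
          sym (z * s) k ^ 1) else 0‖ ≤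
      nr z ^ w.re * ∑ ν : Chr M, ‖rowS M R 1 (mid β u₀ t (r * z ^ 2) ν w) k‖ := by
  have hz0 := hz.1.ne_zero
  by_cases hsq : Squarefree (t * z)
  swap
  · rw [Finset.sum_eq_zero fun s _ => if_neg fun h => hsq (by
      rw [← mul_assoc] at h; exact h.of_mul_left), norm_zero]
    exact mul_nonneg (by positivity) (Finset.sum_nonneg fun _ _ => norm_nonneg _)
  obtain ⟨b, hb, hb'⟩ := class_expand hM (fun n => Rs z n * ev ψ n) (fun n hn => by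
      rw [norm_mul, norm_Rs hz.2 (coprime_two hM hn), norm_ev hM.1 _ hn]; norm_num)
    (fun n n' hn => by
      rw [Rs_congr (m := z) (m' := z) (by simp) (four_dvd hM hn), ev_congr ψ hn])
  set κ : ℂ := a * ev ψ z * gam 5 z * sym z r ^ 5 * sym z k * (nr z : ℂ) ^ w with hκ
  have key : (∑ s ∈ sp M R, if Squarefree (t * (z * s)) then β (u₀ * s) * a *
        (ev ψ (z * s) * gam 5 (z * s) * sym (z * s) r ^ 5 * (nr (z * s) : ℂ) ^ w *
          sym (z * s) k ^ 1) else 0) =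
      κ * ∑ ν : Chr M, b ν * rowS M R 1 (mid β u₀ t (r * z ^ 2) ν w) k := by
    unfold rowS
    simp only [Finset.mul_sum]
    rw [Finset.sum_comm]
    refine Finset.sum_congr rfl fun s hs => ?_
    have hpo := PO_of_mem hM hs
    have hsp := SP_of_mem hs
    have hs0 := hpo.1.ne_zero
    unfold mid
    by_cases h1 : IsCoprime s t
    swap
    · rw [if_neg fun h => h1
        (IsRelPrime.of_squarefree_mul h).isCoprime.symm.of_mul_left_right]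
      simp [h1]
    simp only [if_pos h1]
    have e2 : ∑ ν : Chr M, κ * (b ν * (β (u₀ * s) * ev ν s * gam 5 s * sym s (r * z ^ 2) ^ 5 *
          (nr s : ℂ) ^ w * sym s k ^ 1)) =
        κ * (β (u₀ * s) * (∑ ν : Chr M, b ν * ev ν s) * gam 5 s * sym s (r * z ^ 2) ^ 5 *
          (nr s : ℂ) ^ w * sym s k ^ 1) := by
      simp only [Finset.mul_sum, Finset.sum_mul]
      exact Finset.sum_congr rfl fun ν _ => by ring
    rw [e2, ← hb' s hsp.2.2]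
    by_cases h2 : IsCoprime z s
    · have h3 : Squarefree (t * (z * s)) := by
        rw [← mul_assoc, squarefree_mul_iff]
        exact ⟨(h1.symm.mul_left h2).isRelPrime, hsq, hsp.2.1⟩
      rw [if_pos h3, gam_mul5 hz hpo h2, ev_mul, sym_mul_left hz0 hs0, sym_mul_left hz0 hs0,
        nr_cpow_mul, sym_mul_right hpo r, hκ]
      ring
    · rw [if_neg fun h => h2 (IsRelPrime.of_squarefree_mul h.of_mul_right).isCoprime]
      have h4 : sym s z = 0 := (sym_eq_zero_iff hpo.1).2 fun h => h2 h.symm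
      rw [sym_mul_right hpo r, sym_pow_right hpo, h4]
      simp
  rw [key, norm_mul]
  have hκ1 : ‖κ‖ ≤ nr z ^ w.re := by
    rw [hκ, norm_mul, norm_nr_cpow hz0]
    refine mul_le_of_le_one_left (by positivity) ?_
    refine O3_mul_le (O3_mul_le (O3_mul_le (O3_mul_le ha (norm_ev_le hM.1 _ _)) ?_) ?_)
      (norm_sym_le _ _)
    · exact (norm_gam (by norm_num) hz hsq.of_mul_right).le
    · rw [norm_pow]; exact pow_le_one₀ (norm_nonneg _) (norm_sym_le _ _)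
  refine mul_le_mul hκ1 ((norm_sum_le _ _).trans (Finset.sum_le_sum fun ν _ => ?_))
    (norm_nonneg _) (by positivity)
  rw [norm_mul]
  exact mul_le_of_le_one_left (norm_nonneg _) (hb ν)

theorem cs_le {ι' : Type*} (s : Finset ι') (a y : ι' → ℝ) {A : ℝ} (hA : ∑ i ∈ s, a i ^ 2 ≤ A) :
    (∑ i ∈ s, a i * y i) ^ 2 ≤ A * ∑ i ∈ s, y i ^ 2 :=
  (Finset.sum_mul_sq_le_sq_mul_sq s a y).trans
    (mul_le_mul_of_nonneg_right hA (Finset.sum_nonneg fun _ _ => sq_nonneg _))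

theorem sp_subset {M : O} {X Y : ℝ} (h : X ≤ Y) : sp M X ⊆ sp M Y := by
  classical
  intro n hn
  rw [sp, Finset.mem_filter, mem_ball] at hn ⊢
  exact ⟨hn.1.trans (Nat.floor_mono h), hn.2⟩

theorem sum_restrict {M u : O} {L R : ℝ} {c : O → ℂ} (hc : Supp M L c) (hu : u ≠ 0) (hL : 0 ≤ L)
    (hLR : L ≤ R) (f : O → ℂ) (hf : ∀ z, c (u * z) = 0 → f z = 0) :
    ∑ z ∈ sp M R, f z = ∑ z ∈ sp M (L / nr u), f z := by
  symm
  refine Finset.sum_subset (sp_subset ((div_le_self hL (one_le_nr hu)).trans hLR))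
    fun z hz hz' => hf z ?_
  by_contra h
  apply hz'
  rw [LS2.mem_sp (div_nonneg hL (nr_pos hu).le), le_div_iff₀ (nr_pos hu), mul_comm, ← nr_mul]
  exact ⟨SP_of_mem hz, (hc _ h).2⟩

theorem sum_rpow_sq_le {ε : ℝ} (hε : 0 < ε) : ∃ C : ℝ, 0 < C ∧ ∀ (M : O) (X R σ : ℝ), 1 ≤ R →
    X ≤ R → σ ≤ -(1 / 2) + ε → ∑ z ∈ sp M X, (nr z ^ σ) ^ 2 ≤ C * R ^ (2 * ε) := by
  classical
  obtain ⟨C, hC, h⟩ := sum_nr_rpow_le (σ := -1 + 2 * ε) (by linarith)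
  refine ⟨C, hC, fun M X R σ hR hX hσ => ?_⟩
  have h1 : 1 ≤ ⌊R⌋₊ := Nat.le_floor (by exact_mod_cast hR)
  have h2 := h _ h1
  have h3 : (⌊R⌋₊ : ℝ) ^ (1 + (-1 + 2 * ε)) ≤ R ^ (2 * ε) := by
    rw [show 1 + (-1 + 2 * ε) = 2 * ε by ring]
    exact Real.rpow_le_rpow (Nat.cast_nonneg _) (Nat.floor_le (by linarith)) (by linarith)
  refine le_trans ?_ (h2.trans (mul_le_mul_of_nonneg_left h3 hC.le))
  calc ∑ z ∈ sp M X, (nr z ^ σ) ^ 2 ≤ ∑ z ∈ sp M X, nr z ^ (-1 + 2 * ε) := by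
        refine Finset.sum_le_sum fun z hz => ?_
        have hz0 := (SP_of_mem hz).1.ne_zero
        rw [← Real.rpow_natCast, ← Real.rpow_mul (nr_pos hz0).le]
        refine Real.rpow_le_rpow_of_exponent_le (one_le_nr hz0) ?_
        push_cast; linarith
    _ ≤ _ := by
        refine Finset.sum_le_sum_of_subset_of_nonneg (fun z hz => ?_) fun _ _ _ => by positivity
        have hz' := sp_subset hX hz
        rw [sp, Finset.mem_filter] at hz'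
        exact Finset.mem_erase.2 ⟨hz'.2.1.ne_zero, hz'.1⟩

theorem card_U_le {ε : ℝ} (hε : 0 < ε) : ∃ C : ℝ, 0 < C ∧ ∀ (t : O) (R Q L₁ L₂ : ℝ), t ≠ 0 →
    0 ≤ R → nr t ≤ R ^ 2 → ((U t Q L₁ L₂).card : ℝ) ≤ C * R ^ (6 * ε) := by
  classical
  obtain ⟨C, hC, h⟩ := card_pdiv_le hε
  refine ⟨C ^ 3, by positivity, fun t R Q L₁ L₂ ht hR htR => ?_⟩
  have h1 : (U t Q L₁ L₂).card ≤ (pdiv t).card ^ 3 := by
    refine (Finset.card_filter_le _ _).trans (le_of_eq ?_)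
    rw [Finset.card_product, Finset.card_product]; ring
  have h2 : ((pdiv t).card : ℝ) ≤ C * R ^ (2 * ε) := by
    refine (h t ht).trans (mul_le_mul_of_nonneg_left ?_ hC.le)
    rw [Real.rpow_mul hR]
    refine Real.rpow_le_rpow (Nat.cast_nonneg _) ?_ hε.le
    rw [Real.rpow_two]; exact htR
  have h3 : R ^ (6 * ε) = (R ^ (2 * ε)) ^ 3 := by
    rw [← Real.rpow_natCast, ← Real.rpow_mul hR]; congr 1; push_cast; ring
  rw [h3, ← mul_pow]
  exact le_trans (by exact_mod_cast h1) (pow_le_pow_left₀ (Nat.cast_nonneg _) h2 3)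

theorem dual_tri_le {M : O} (hM : Adm M) [Fintype (Chr M)] {ε : ℝ} (hε : 0 < ε) :
    ∃ C : ℝ, 0 < C ∧ ∀ (R Q L₁ L₂ : ℝ) (β c₁ c₂ : O → ℂ) (g e h k : O) (ψ : Chr M) (w : ℂ),
      1 ≤ R → Supp M Q β → Supp M L₁ c₁ → Supp M L₂ c₂ → Q * L₁ * L₂ ≤ R → 1 ≤ Q → 1 ≤ L₁ →
      1 ≤ L₂ → (∀ n, ‖c₁ n‖ ≤ 1) → (∀ n, ‖c₂ n‖ ≤ 1) → g ∈ sp M R → h ∈ sp M R →
      w.re ≤ -(1 / 2) + ε →
      ‖rowS M R 1 (dualC 5 (tri M R β c₁ c₂) g e h ψ w) k‖ ^ 2 ≤ C * R ^ (10 * ε) *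
        ∑ u ∈ U (g * h) Q L₁ L₂,
          ∑ ψ' : Chr M, ∑ z₁ ∈ sp M (L₁ / nr u.2.1), ∑ z₂ ∈ sp M (L₂ / nr u.2.2),
            ‖rowS M R 1 (mid β u.1 (g * h) (e * h ^ 2 * (z₁ * z₂) ^ 2) ψ' w) k‖ ^ 2 := by
  classical
  have : Nonempty (Chr M) := ⟨1⟩
  obtain ⟨C₁, hC₁, hA⟩ := sum_rpow_sq_le hε
  obtain ⟨C₂, hC₂, hU⟩ := card_U_le hε
  have hcard : (0 : ℝ) < Fintype.card (Chr M) := by exact_mod_cast Fintype.card_pos
  refine ⟨C₂ * Fintype.card (Chr M) * C₁ * C₁, by positivity, ?_⟩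
  intro R Q L₁ L₂ β c₁ c₂ g e h k ψ w hR hβ h1 h2 hQR hQ hL1 hL2 hc1 hc2 hg hh hw
  have hR0 : 0 ≤ R := by linarith
  have hQL : 1 ≤ Q * L₁ := one_le_mul_of_one_le_of_one_le hQ hL1
  have hL1R : L₁ ≤ R := by nlinarith
  have hL2R : L₂ ≤ R := by nlinarith
  have ht : Primary (g * h) := (SP_of_mem hg).1.mul (SP_of_mem hh).1
  have htR : nr (g * h) ≤ R ^ 2 := by
    rw [LS2.mem_sp hR0] at hg hh
    rw [nr_mul, sq]
    exact mul_le_mul hg.2 hh.2 (Nat.cast_nonneg _) hR0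
  set X : O × O × O → Chr M → O → O → ℝ := fun u ν z₁ z₂ =>
    ‖rowS M R 1 (mid β u.1 (g * h) (e * h ^ 2 * (z₁ * z₂) ^ 2) ν w) k‖ with hX
  have e0 : rowS M R 1 (dualC 5 (tri M R β c₁ c₂) g e h ψ w) k =
      ∑ n ∈ sp M R, tri M R β c₁ c₂ (g * h * n) *
        (ev ψ n * gam 5 n * sym n (e * h ^ 2) ^ 5 * (nr n : ℂ) ^ w * sym n k ^ 1) := by
    unfold rowS dualC
    exact Finset.sum_congr rfl fun n _ => by ring
  have e1 : ‖rowS M R 1 (dualC 5 (tri M R β c₁ c₂) g e h ψ w) k‖ ≤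
      ∑ u ∈ U (g * h) Q L₁ L₂, ∑ ν : Chr M, ∑ z₁ ∈ sp M (L₁ / nr u.2.1), nr z₁ ^ w.re *
        ∑ z₂ ∈ sp M (L₂ / nr u.2.2), nr z₂ ^ w.re * X u ν z₁ z₂ := by
    rw [e0, tri_expand hβ h1 h2 hQR hQ hL1 hL2 ht]
    refine (norm_sum_le _ _).trans (Finset.sum_le_sum fun u hu => ?_)
    rw [mem_U ht.ne_zero] at hu
    rw [sum_restrict h1 hu.2.1.ne_zero (by linarith) hL1R _ (fun z hz => by simp [hz]),
      Finset.sum_comm (s := Finset.univ)]
    refine (norm_sum_le _ _).trans (Finset.sum_le_sum fun z₁ hz1 => ?_)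
    rw [sum_restrict h2 hu.2.2.1.ne_zero (by linarith) hL2R _ (fun z hz => by simp [hz]),
      ← Finset.mul_sum, Finset.sum_comm (s := Finset.univ), Finset.mul_sum]
    refine (norm_sum_le _ _).trans (Finset.sum_le_sum fun z₂ hz2 => ?_)
    refine (inner_le hM R β u.1 (g * h) (e * h ^ 2) (z₁ * z₂) k (O3_mul_le (hc1 _) (hc2 _))
      ((PO_of_mem hM hz1).mul (PO_of_mem hM hz2)) ψ w).trans (le_of_eq ?_)
    rw [CountAux.nr_mul_rpow, ← Finset.mul_sum, mul_assoc]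
  refine (pow_le_pow_left₀ (norm_nonneg _) e1 2).trans ?_
  have e2 : ∀ u ∈ U (g * h) Q L₁ L₂, ∀ ν : Chr M,
      (∑ z₁ ∈ sp M (L₁ / nr u.2.1), nr z₁ ^ w.re *
        ∑ z₂ ∈ sp M (L₂ / nr u.2.2), nr z₂ ^ w.re * X u ν z₁ z₂) ^ 2 ≤
      C₁ * R ^ (2 * ε) * (C₁ * R ^ (2 * ε)) * ∑ z₁ ∈ sp M (L₁ / nr u.2.1),
        ∑ z₂ ∈ sp M (L₂ / nr u.2.2), X u ν z₁ z₂ ^ 2 := by
    intro u hu ν
    rw [mem_U ht.ne_zero] at hu
    have a1 := hA M (L₁ / nr u.2.1) R w.re hR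
      ((div_le_self (by linarith) (one_le_nr hu.2.1.ne_zero)).trans hL1R) hw
    have a2 := hA M (L₂ / nr u.2.2) R w.re hR
      ((div_le_self (by linarith) (one_le_nr hu.2.2.1.ne_zero)).trans hL2R) hw
    refine (cs_le _ _ _ a1).trans ?_
    rw [mul_assoc (C₁ * R ^ (2 * ε))]
    refine mul_le_mul_of_nonneg_left ?_ (by positivity)
    rw [Finset.mul_sum]
    exact Finset.sum_le_sum fun z₁ _ => cs_le _ _ _ a2
  refine sq_sum_le_card_mul_sum_sq.trans ?_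
  have e3 : ∀ u ∈ U (g * h) Q L₁ L₂,
      (∑ ν : Chr M, ∑ z₁ ∈ sp M (L₁ / nr u.2.1), nr z₁ ^ w.re *
        ∑ z₂ ∈ sp M (L₂ / nr u.2.2), nr z₂ ^ w.re * X u ν z₁ z₂) ^ 2 ≤
      Fintype.card (Chr M) * (C₁ * R ^ (2 * ε) * (C₁ * R ^ (2 * ε))) * ∑ ν : Chr M,
        ∑ z₁ ∈ sp M (L₁ / nr u.2.1), ∑ z₂ ∈ sp M (L₂ / nr u.2.2), X u ν z₁ z₂ ^ 2 := by
    intro u hu
    refine sq_sum_le_card_mul_sum_sq.trans ?_
    rw [Finset.card_univ, mul_assoc]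
    refine mul_le_mul_of_nonneg_left ?_ hcard.le
    rw [Finset.mul_sum]
    exact Finset.sum_le_sum fun ν _ => e2 u hu ν
  have e4 := Finset.sum_le_sum e3
  rw [← Finset.mul_sum] at e4
  have hS : 0 ≤ ∑ u ∈ U (g * h) Q L₁ L₂, ∑ ν : Chr M,
      ∑ z₁ ∈ sp M (L₁ / nr u.2.1), ∑ z₂ ∈ sp M (L₂ / nr u.2.2), X u ν z₁ z₂ ^ 2 := by
    positivity
  have e5 : R ^ (10 * ε) = R ^ (6 * ε) * R ^ (2 * ε) * R ^ (2 * ε) := by
    rw [← Real.rpow_add (by linarith), ← Real.rpow_add (by linarith)]; congr 1; ring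
  refine (mul_le_mul (hU _ R Q L₁ L₂ ht.ne_zero hR0 htR) e4
    (Finset.sum_nonneg fun _ _ => sq_nonneg _) (by positivity)).trans (le_of_eq ?_)
  rw [e5]; ring

end M4CA

end Crest.Agent.R17
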