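import Crest.Agent.R17.M4P1

/-!
# Row 17, module M4, counting lemmas for `gcore`
-/

set_option autoImplicit false

noncomputable section

namespace Crest.Agent.R17.GC

open Finset

theorem of_mem_sp {M n : O} {X : ℝ} (hX : 0 ≤ X) (h : n ∈ sp M X) :
    Primary n ∧ n ≠ 0 ∧ 1 ≤ nr n ∧ nr n ≤ X := by
  have h' := (LS2.mem_sp hX).1 h
  exact ⟨h'.1.1, h'.1.1.ne_zero, one_le_nr h'.1.1.ne_zero, h'.2⟩

theorem primary_of_mem_sp {M n : O} {X : ℝ} (h : n ∈ sp M X) : Primary n := by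
  classical
  rw [sp, mem_filter] at h
  exact h.2.1

theorem sp_subset (M : O) (X : ℝ) : sp M X ⊆ (ball ⌊X⌋₊).erase 0 := by
  classical
  intro n hn
  have h := primary_of_mem_sp hn
  rw [sp, mem_filter] at hn
  exact mem_erase.2 ⟨h.ne_zero, hn.1⟩

theorem card_sp_le (M : O) {X : ℝ} (hX : 0 ≤ X) : ((sp M X).card : ℝ) ≤ 7 * X := by
  have h1 : ((sp M X).card : ℝ) ≤ (((ball ⌊X⌋₊).erase 0).card : ℝ) := by
    exact_mod_cast card_le_card (sp_subset M X)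
  have h2 := CountAux.card_erase_le ⌊X⌋₊
  have h3 := Nat.floor_le hX
  linarith

theorem sum_sp_rpow_le {σ : ℝ} (hσ : 0 < σ) : ∃ C : ℝ, 0 < C ∧ ∀ (M : O) (R : ℝ), 1 ≤ R →
    ∑ n ∈ sp M R, nr n ^ (-1 + σ) ≤ C * R ^ σ := by
  obtain ⟨C, hC, h⟩ := sum_nr_rpow_le (σ := -1 + σ) (by linarith)
  refine ⟨C, hC, fun M R hR => ?_⟩
  have h1 : 1 ≤ ⌊R⌋₊ := Nat.le_floor (by simpa using hR)
  calc _ ≤ ∑ n ∈ (ball ⌊R⌋₊).erase 0, nr n ^ (-1 + σ) :=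
        sum_le_sum_of_subset_of_nonneg (sp_subset M R) fun _ _ _ => by positivity
    _ ≤ C * (⌊R⌋₊ : ℝ) ^ (1 + (-1 + σ)) := h _ h1
    _ ≤ C * R ^ σ := by
        rw [show 1 + (-1 + σ) = σ by ring]
        gcongr
        exact Nat.floor_le (by linarith)

theorem sum_sp_inv_le {σ : ℝ} (hσ : 0 < σ) : ∃ C : ℝ, 0 < C ∧ ∀ (M : O) (R : ℝ), 1 ≤ R →
    ∑ n ∈ sp M R, (nr n)⁻¹ ≤ C * R ^ σ := by
  obtain ⟨C, hC, h⟩ := sum_sp_rpow_le hσ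
  refine ⟨C, hC, fun M R hR => le_trans (sum_le_sum fun n hn => ?_) (h M R hR)⟩
  rw [← Real.rpow_neg_one]
  exact Real.rpow_le_rpow_of_exponent_le (of_mem_sp (by linarith) hn).2.2.1 (by linarith)

theorem card_pdiv_le' {σ : ℝ} (hσ : 0 < σ) : ∃ C : ℝ, 0 < C ∧ ∀ (R : ℝ) (n : O), n ≠ 0 →
    nr n ≤ R ^ 2 → 1 ≤ R → ((pdiv n).card : ℝ) ≤ C * (R ^ σ) ^ 2 := by
  obtain ⟨C, hC, h⟩ := card_pdiv_le hσ
  refine ⟨C, hC, fun R n hn hR h1 => (h n hn).trans ?_⟩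
  have h0 : 0 ≤ R := by linarith
  rw [← Real.rpow_natCast (R ^ σ), ← Real.rpow_mul h0, mul_comm σ, Real.rpow_mul h0,
    Real.rpow_natCast]
  gcongr

theorem of_mem_pdiv {n d : O} (hn : n ≠ 0) (h : d ∈ pdiv n) :
    Primary d ∧ d ≠ 0 ∧ 1 ≤ nr d ∧ nr d ≤ nr n ∧ d ∣ n := by
  have h' := (mem_pdiv hn).1 h
  exact ⟨h'.1, h'.1.ne_zero, one_le_nr h'.1.ne_zero, by exact_mod_cast nm_le_of_dvd h'.2 hn, h'.2⟩

open Classical in
/-- Indicator of divisibility. -/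
def chi (d a : O) : ℝ := if d ∣ a then 1 else 0

theorem chi_nonneg (d a : O) : 0 ≤ chi d a := by
  unfold chi; split_ifs <;> norm_num

theorem chi_of_dvd {d a : O} (h : d ∣ a) : chi d a = 1 := by
  unfold chi; rw [if_pos h]

theorem sum_chi_le (P S : Finset O) (hP : ∀ d ∈ P, Primary d) {D : ℝ}
    (hS : ∀ a ∈ S, a ≠ 0 ∧ ((pdiv a).card : ℝ) ≤ D) (G : O → ℝ) (hG : ∀ a ∈ S, 0 ≤ G a) :
    ∑ d ∈ P, ∑ a ∈ S, chi d a * G a ≤ D * ∑ a ∈ S, G a := by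
  classical
  rw [sum_comm, mul_sum]
  refine sum_le_sum fun a ha => ?_
  rw [← sum_mul]
  refine mul_le_mul_of_nonneg_right (le_trans ?_ (hS a ha).2) (hG a ha)
  have : ∑ d ∈ P, chi d a = ((P.filter fun d => d ∣ a).card : ℝ) := by
    rw [card_filter]
    push_cast
    exact sum_congr rfl fun d _ => by unfold chi; congr
  rw [this]
  exact_mod_cast card_le_card fun d hd =>
    (mem_pdiv (hS a ha).1).2 ⟨hP d (mem_filter.1 hd).1, (mem_filter.1 hd).2⟩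

theorem sum_mul_le (T S : Finset O) {y : O} (hy : y ≠ 0) (hT : ∀ m ∈ T, m * y ∈ S) (G c : O → ℝ)
    (hG : ∀ a ∈ S, 0 ≤ G a) (hc0 : ∀ a, 0 ≤ c a) (hc : ∀ a, y ∣ a → c a = 1) :
    ∑ m ∈ T, G (m * y) ≤ ∑ a ∈ S, c a * G a := by
  classical
  have h1 : ∑ m ∈ T, G (m * y) = ∑ a ∈ T.image (· * y), c a * G a := by
    rw [sum_image fun a _ b _ h => mul_right_cancel₀ hy h]
    exact sum_congr rfl fun m _ => by rw [hc _ (dvd_mul_left _ _), one_mul]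
  rw [h1]
  refine sum_le_sum_of_subset_of_nonneg (fun a ha => ?_) fun a ha _ => mul_nonneg (hc0 a) (hG a ha)
  obtain ⟨m, hm, rfl⟩ := mem_image.1 ha
  exact hT m hm

theorem summable_row (M : O) (R : ℝ) (j : ℕ) (β : O → ℂ) {X : ℝ} (hX : 0 < X) :
    Summable fun k => gw (nr k / X) * ‖rowS M R j β k‖ ^ 2 := by
  refine Summable.of_nonneg_of_le (fun k => mul_nonneg (gw_pos _).le (sq_nonneg _)) (fun k => ?_)
    ((summable_gw' hX).mul_right ((∑ n ∈ sp M R, ‖β n‖) ^ 2))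
  refine mul_le_mul_of_nonneg_left (pow_le_pow_left₀ (norm_nonneg _) ?_ 2) (gw_pos _).le
  refine (norm_sum_le _ _).trans (sum_le_sum fun n _ => ?_)
  rw [norm_mul, norm_pow]
  exact mul_le_of_le_one_right (norm_nonneg _) (pow_le_one₀ (norm_nonneg _) (norm_sym_le _ _))

theorem rows_eq_empty {K : ℝ} (hK : K < 1) : rows K = ∅ := by
  rw [eq_empty_iff_forall_notMem]
  intro k hk
  rw [rows, mem_erase, mem_ball, Nat.floor_eq_zero.2 hK, Nat.le_zero, nm_eq_zero] at hk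
  exact hk.1 hk.2

theorem of_mem_rows {K : ℝ} (hK : 0 ≤ K) {k : O} (h : k ∈ rows K) : k ≠ 0 ∧ nr k ≤ K := by
  rw [rows, mem_erase, mem_ball, Nat.le_floor_iff hK] at h
  exact h

theorem mem_rows' {K : ℝ} {k : O} (h0 : k ≠ 0) (h : nr k ≤ K) : k ∈ rows K := by
  rw [rows, mem_erase, mem_ball]
  exact ⟨h0, Nat.le_floor h⟩

theorem sum_le_card_mul {α : Type*} (s : Finset α) (f : α → ℝ) {c D : ℝ} (hc : 0 ≤ c)
    (hD : (s.card : ℝ) ≤ D) (h : ∀ x ∈ s, f x ≤ c) : ∑ x ∈ s, f x ≤ D * c := by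
  calc _ ≤ ∑ _x ∈ s, c := sum_le_sum h
    _ = s.card * c := by rw [sum_const, nsmul_eq_mul]
    _ ≤ D * c := mul_le_mul_of_nonneg_right hD hc

theorem sum_le_inv_mul (s : Finset O) (f : O → ℝ) {c H : ℝ} (hc : 0 ≤ c)
    (hH : ∑ n ∈ s, (nr n)⁻¹ ≤ H) (h : ∀ x ∈ s, f x ≤ (nr x)⁻¹ * c) : ∑ x ∈ s, f x ≤ H * c := by
  calc _ ≤ ∑ x ∈ s, (nr x)⁻¹ * c := sum_le_sum h
    _ = (∑ x ∈ s, (nr x)⁻¹) * c := by rw [sum_mul]
    _ ≤ H * c := mul_le_mul_of_nonneg_right hH hc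

open Classical in
/-- Factorisations `n = u₀ u₁ u₂` for which the first mark is the longer one. -/
def Uh (Q La Lb : ℝ) (n : O) : Finset (O × O × O) :=
  (pdiv n ×ˢ pdiv n ×ˢ pdiv n).filter fun u =>
    (u.1 * u.2.1 * u.2.2 = n ∧ nr u.1 ≤ Q ∧ nr u.2.1 ≤ La ∧ nr u.2.2 ≤ Lb) ∧
      Lb / nr u.2.2 ≤ La / nr u.2.1

theorem card_Uh_le (Q La Lb : ℝ) (n : O) {D : ℝ} (h : ((pdiv n).card : ℝ) ≤ D) :
    ((Uh Q La Lb n).card : ℝ) ≤ D ^ 3 := by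
  classical
  have h1 : (Uh Q La Lb n).card ≤ (pdiv n).card ^ 3 := by
    refine (card_filter_le _ _).trans ?_
    rw [card_product, card_product]
    exact le_of_eq (by ring)
  calc ((Uh Q La Lb n).card : ℝ) ≤ ((pdiv n).card : ℝ) ^ 3 := by exact_mod_cast h1
    _ ≤ D ^ 3 := by gcongr

theorem of_mem_Uh {Q La Lb : ℝ} {n : O} (hn : n ≠ 0) {u : O × O × O} (h : u ∈ Uh Q La Lb n) :
    Primary u.1 ∧ 1 ≤ nr u.1 ∧ 1 ≤ nr u.2.1 ∧ 1 ≤ nr u.2.2 ∧ u.1 * u.2.1 * u.2.2 = n ∧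
      nr u.1 ≤ Q ∧ nr u.2.1 ≤ La ∧ nr u.2.2 ≤ Lb ∧ Lb / nr u.2.2 ≤ La / nr u.2.1 := by
  classical
  simp only [Uh, mem_filter, mem_product] at h
  obtain ⟨⟨h1, h2, h3⟩, ⟨h4, h5, h6, h7⟩, h8⟩ := h
  exact ⟨(of_mem_pdiv hn h1).1, (of_mem_pdiv hn h1).2.2.1, (of_mem_pdiv hn h2).2.2.1,
    (of_mem_pdiv hn h3).2.2.1, h4, h5, h6, h7, h8⟩

open Classical in
theorem sum_split (Q L₁ L₂ : ℝ) (n : O) (f : O × O × O → ℝ) (hf : ∀ u, 0 ≤ f u) :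
    ∑ u ∈ (pdiv n ×ˢ pdiv n ×ˢ pdiv n).filter (fun u =>
        u.1 * u.2.1 * u.2.2 = n ∧ nr u.1 ≤ Q ∧ nr u.2.1 ≤ L₁ ∧ nr u.2.2 ≤ L₂), f u ≤
      ∑ u ∈ Uh Q L₁ L₂ n, f u + ∑ u ∈ Uh Q L₂ L₁ n, f (u.1, u.2.2, u.2.1) := by
  rw [← sum_filter_add_sum_filter_not _ (fun u : O × O × O => L₂ / nr u.2.2 ≤ L₁ / nr u.2.1),
    filter_filter, filter_filter]
  refine add_le_add (le_of_eq rfl) ?_
  have e : ∑ u ∈ Uh Q L₂ L₁ n, f (u.1, u.2.2, u.2.1) =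
      ∑ u ∈ (pdiv n ×ˢ pdiv n ×ˢ pdiv n).filter (fun u =>
        (u.1 * u.2.1 * u.2.2 = n ∧ nr u.1 ≤ Q ∧ nr u.2.1 ≤ L₁ ∧ nr u.2.2 ≤ L₂) ∧
          L₁ / nr u.2.1 ≤ L₂ / nr u.2.2), f u := by
    refine sum_nbij' (fun u => (u.1, u.2.2, u.2.1)) (fun u => (u.1, u.2.2, u.2.1)) ?_ ?_ ?_ ?_ ?_
    · rintro ⟨a, b, c⟩ h
      simp only [Uh, mem_filter, mem_product] at h ⊢
      obtain ⟨⟨h1, h2, h3⟩, ⟨h4, h5, h6, h7⟩, h8⟩ := h
      exact ⟨⟨h1, h3, h2⟩, ⟨by rw [← h4]; ring, h5, h7, h6⟩, h8⟩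
    · rintro ⟨a, b, c⟩ h
      simp only [Uh, mem_filter, mem_product] at h ⊢
      obtain ⟨⟨h1, h2, h3⟩, ⟨h4, h5, h6, h7⟩, h8⟩ := h
      exact ⟨⟨h1, h3, h2⟩, ⟨by rw [← h4]; ring, h5, h7, h6⟩, h8⟩
    · rintro ⟨a, b, c⟩ _; rfl
    · rintro ⟨a, b, c⟩ _; rfl
    · rintro ⟨a, b, c⟩ _; rfl
  rw [e]
  refine sum_le_sum_of_subset_of_nonneg (fun u hu => ?_) fun u _ _ => hf u
  rw [mem_filter] at hu ⊢
  exact ⟨hu.1, hu.2.1, (not_le.1 hu.2.2).le⟩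

/-- The length of the dual rows. -/
def K0 (Λ L A : ℝ) (g e : O) : ℝ := Λ * nr e * (L / nr g) ^ 2 / A

/-- The index type of the second Poisson step. -/
abbrev Ix (M : O) : Type := (_ : O) × (_ : O) × (_ : O) × (_ : O × O × O) × (_ : Chr M) × O

open Classical in
/-- The index set of the second Poisson step. -/
def ixs (M : O) [Fintype (Chr M)] (R Λ L A Q La Lb : ℝ) : Finset (Ix M) :=
  (sp M R).sigma fun g => ((pdiv g).filter fun e => 1 ≤ K0 Λ L A g e).sigma fun _ =>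
    (sp M R).sigma fun h => (Uh Q La Lb (g * h)).sigma fun u =>
      (univ : Finset (Chr M)).sigma fun _ => sp M (Lb / nr u.2.2)

open Classical in
theorem sum_ixs (M : O) [Fintype (Chr M)] (R Λ L A Q La Lb : ℝ) (f : Ix M → ℝ) :
    ∑ i ∈ ixs M R Λ L A Q La Lb, f i =
      ∑ g ∈ sp M R, ∑ e ∈ (pdiv g).filter (fun e => 1 ≤ K0 Λ L A g e), ∑ h ∈ sp M R,
        ∑ u ∈ Uh Q La Lb (g * h), ∑ ψ : Chr M, ∑ z ∈ sp M (Lb / nr u.2.2),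
          f ⟨g, e, h, u, ψ, z⟩ := by
  simp only [ixs, sum_sigma]

theorem of_mem_ixs {M : O} [Fintype (Chr M)] {R Λ L A Q La Lb : ℝ} {g e h z : O} {u : O × O × O}
    {ψ : Chr M} (hi : (⟨g, e, h, u, ψ, z⟩ : Ix M) ∈ ixs M R Λ L A Q La Lb) :
    g ∈ sp M R ∧ e ∈ pdiv g ∧ 1 ≤ K0 Λ L A g e ∧ h ∈ sp M R ∧ u ∈ Uh Q La Lb (g * h) ∧
      z ∈ sp M (Lb / nr u.2.2) := by
  classical
  simp only [ixs, mem_sigma, mem_filter, mem_univ, true_and] at hi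
  exact ⟨hi.1, hi.2.1.1, hi.2.1.2, hi.2.2.1, hi.2.2.2.1, hi.2.2.2.2⟩

/-- Counting for the diagonal. -/
theorem sum_ixs_diag {M : O} [Fintype (Chr M)] {R Λ L A Q La Lb D H c : ℝ} (hR : 1 ≤ R)
    (hLb : 0 ≤ Lb) (hc : 0 ≤ c) (hD : ∀ n : O, n ≠ 0 → nr n ≤ R ^ 2 → ((pdiv n).card : ℝ) ≤ D)
    (hH : ∑ n ∈ sp M R, (nr n)⁻¹ ≤ H) (f : Ix M → ℝ)
    (hf : ∀ g e h u ψ z, (⟨g, e, h, u, ψ, z⟩ : Ix M) ∈ ixs M R Λ L A Q La Lb →
      Lb / nr u.2.2 * f ⟨g, e, h, u, ψ, z⟩ ≤ (nr g)⁻¹ * ((nr h)⁻¹ * c)) :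
    ∑ i ∈ ixs M R Λ L A Q La Lb, f i ≤ H * (D * (H * (D ^ 3 * (Fintype.card (Chr M) * (7 * c))))) := by
  classical
  have hR0 : 0 ≤ R := by linarith
  have hD0 : 0 ≤ D := le_trans (Nat.cast_nonneg _) (hD 1 one_ne_zero (by
    rw [nr, nm_one, Nat.cast_one]; nlinarith))
  have hH0 : 0 ≤ H := le_trans (sum_nonneg fun _ _ => by positivity) hH
  rw [sum_ixs]
  refine sum_le_inv_mul _ _ (by positivity) hH fun g hg => ?_
  obtain ⟨-, hg0, hg1, hgR⟩ := of_mem_sp hR0 hg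
  rw [mul_left_comm]
  refine sum_le_card_mul _ _ (by positivity)
    (le_trans (by exact_mod_cast card_filter_le _ _) (hD g hg0 (by nlinarith))) fun e he => ?_
  rw [mul_left_comm]
  refine sum_le_inv_mul _ _ (by positivity) hH fun h hh => ?_
  obtain ⟨-, hh0, hh1, hhR⟩ := of_mem_sp hR0 hh
  have e1 : (nr h)⁻¹ * ((nr g)⁻¹ * (D ^ 3 * (Fintype.card (Chr M) * (7 * c)))) =
      D ^ 3 * (Fintype.card (Chr M) * (7 * ((nr g)⁻¹ * ((nr h)⁻¹ * c)))) := by ring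
  rw [e1]
  refine sum_le_card_mul _ _ (by positivity) (card_Uh_le _ _ _ _
    (hD _ (mul_ne_zero hg0 hh0) (by rw [nr_mul]; nlinarith))) fun u hu => ?_
  refine sum_le_card_mul _ _ (by positivity) (by simp) fun ψ _ => ?_
  obtain ⟨-, -, -, hu3, -, -, -, hu7, -⟩ := of_mem_Uh (mul_ne_zero hg0 hh0) hu
  have hL : 0 < Lb / nr u.2.2 := div_pos (by linarith) (by linarith)
  calc _ ≤ 7 * (Lb / nr u.2.2) * (((nr g)⁻¹ * ((nr h)⁻¹ * c)) / (Lb / nr u.2.2)) := by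
        refine sum_le_card_mul _ _ (by positivity) (card_sp_le M hL.le) fun z hz => ?_
        rw [le_div_iff₀ hL, mul_comm]
        refine hf g e h u ψ z ?_
        simp only [ixs, mem_sigma, mem_univ, true_and]
        exact ⟨hg, he, hh, hu, hz⟩
    _ = _ := by rw [mul_assoc, mul_div_cancel₀ _ hL.ne']

/-- Counting for the off-diagonal terms. -/
theorem sum_ixs_off {M : O} [Fintype (Chr M)] {R Λ L A Q La Lb D H c : ℝ} (hR : 1 ≤ R)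
    (hc : 0 ≤ c) (hD : ∀ n : O, n ≠ 0 → nr n ≤ R ^ 2 → ((pdiv n).card : ℝ) ≤ D)
    (hH : ∑ n ∈ sp M R, (nr n)⁻¹ ≤ H) (S : Finset O) (hS : ∀ a ∈ S, a ≠ 0 ∧ nr a ≤ R ^ 2)
    (G : O → ℝ) (hG : ∀ a ∈ S, 0 ≤ G a) (f : Ix M → O → O → O → ℝ)
    (hf : ∀ g e h u ψ z, (⟨g, e, h, u, ψ, z⟩ : Ix M) ∈ ixs M R Λ L A Q La Lb →
      ∀ g' ∈ sp M R, ∀ e' ∈ pdiv g', ∀ h' ∈ sp M R, f ⟨g, e, h, u, ψ, z⟩ g' e' h' ≤
        (nr h')⁻¹ * ((nr g)⁻¹ * c * ∑ a ∈ S, chi g' a * (chi z a * (chi h a * G a)))) :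
    ∑ i ∈ ixs M R Λ L A Q La Lb, ∑ g' ∈ sp M R, ∑ e' ∈ pdiv g', ∑ h' ∈ sp M R, f i g' e' h' ≤
      H ^ 2 * D ^ 8 * Fintype.card (Chr M) * c * ∑ a ∈ S, G a := by
  classical
  have hR0 : 0 ≤ R := by linarith
  have hD0 : 0 ≤ D := le_trans (Nat.cast_nonneg _) (hD 1 one_ne_zero (by
    rw [nr, nm_one, Nat.cast_one]; nlinarith))
  have hH0 : 0 ≤ H := le_trans (sum_nonneg fun _ _ => by positivity) hH
  have hS' : ∀ a ∈ S, a ≠ 0 ∧ ((pdiv a).card : ℝ) ≤ D := fun a ha =>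
    ⟨(hS a ha).1, hD a (hS a ha).1 (hS a ha).2⟩
  have hG0 : 0 ≤ ∑ a ∈ S, G a := sum_nonneg hG
  have hG1 : ∀ h, ∀ a ∈ S, 0 ≤ chi h a * G a := fun h a ha => mul_nonneg (chi_nonneg _ _) (hG a ha)
  have hG2 : ∀ z h, ∀ a ∈ S, 0 ≤ chi z a * (chi h a * G a) := fun z h a ha =>
    mul_nonneg (chi_nonneg _ _) (hG1 h a ha)
  have hG3 : ∀ g z h, ∀ a ∈ S, 0 ≤ chi g a * (chi z a * (chi h a * G a)) := fun g z h a ha =>
    mul_nonneg (chi_nonneg _ _) (hG2 z h a ha)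
  rw [sum_ixs]
  have e0 : H ^ 2 * D ^ 8 * Fintype.card (Chr M) * c * ∑ a ∈ S, G a =
      H * (D * (D ^ 3 * Fintype.card (Chr M) * D * D * H * c * D * (D * ∑ a ∈ S, G a))) := by ring
  rw [e0]
  refine sum_le_inv_mul _ _ (by positivity) hH fun g hg => ?_
  obtain ⟨-, hg0, hg1, hgR⟩ := of_mem_sp hR0 hg
  rw [mul_left_comm]
  refine sum_le_card_mul _ _ (by positivity)
    (le_trans (by exact_mod_cast card_filter_le _ _) (hD g hg0 (by nlinarith))) fun e he => ?_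
  rw [← mul_assoc]
  refine le_trans ?_ (mul_le_mul_of_nonneg_left (sum_chi_le (sp M R) S
    (fun d hd => primary_of_mem_sp hd) hS' G hG) (by positivity))
  rw [mul_sum]
  refine sum_le_sum fun h hh => ?_
  obtain ⟨-, hh0, hh1, hhR⟩ := of_mem_sp hR0 hh
  have p1 := sum_nonneg (hG1 h)
  have e1 : (nr g)⁻¹ * (D ^ 3 * Fintype.card (Chr M) * D * D * H * c * D) *
        ∑ a ∈ S, chi h a * G a = D ^ 3 * (Fintype.card (Chr M) *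
      ((D * D * H * ((nr g)⁻¹ * c)) * (D * ∑ a ∈ S, chi h a * G a))) := by ring
  rw [e1]
  refine sum_le_card_mul _ _ (by positivity) (card_Uh_le _ _ _ _
    (hD _ (mul_ne_zero hg0 hh0) (by rw [nr_mul]; nlinarith))) fun u hu => ?_
  refine sum_le_card_mul _ _ (by positivity) (by simp) fun ψ _ => ?_
  refine le_trans ?_ (mul_le_mul_of_nonneg_left (sum_chi_le (sp M (Lb / nr u.2.2)) S
    (fun d hd => primary_of_mem_sp hd) hS' _ (hG1 h)) (by positivity))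
  rw [mul_sum]
  refine sum_le_sum fun z hz => ?_
  have hi : (⟨g, e, h, u, ψ, z⟩ : Ix M) ∈ ixs M R Λ L A Q La Lb := by
    simp only [ixs, mem_sigma, mem_univ, true_and]
    exact ⟨hg, he, hh, hu, hz⟩
  have e2 : D * D * H * ((nr g)⁻¹ * c) * ∑ a ∈ S, chi z a * (chi h a * G a) =
      D * H * ((nr g)⁻¹ * c) * (D * ∑ a ∈ S, chi z a * (chi h a * G a)) := by ring
  rw [e2]
  refine le_trans ?_ (mul_le_mul_of_nonneg_left (sum_chi_le (sp M R) S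
    (fun d hd => primary_of_mem_sp hd) hS' _ (hG2 z h)) (by positivity))
  rw [mul_sum]
  refine sum_le_sum fun g' hg' => ?_
  obtain ⟨-, hg0', hg1', hgR'⟩ := of_mem_sp hR0 hg'
  have p3 := sum_nonneg (hG3 g' z h)
  rw [mul_assoc, mul_assoc]
  refine sum_le_card_mul _ _ (by positivity) (hD g' hg0' (by nlinarith)) fun e' he' => ?_
  exact sum_le_inv_mul _ _ (by positivity) hH fun h' hh' => hf g e h u ψ z hi g' hg' e' he' h' hh'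

end Crest.Agent.R17.GC
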