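import Crest.Agent.R17.M4P1
import Crest.Agent.R17.M4CoreAuxA3
import Crest.Agent.R17.M4CoreAuxB

/-!
# Row 17, module M4, part Core: double Poisson summation with two marked variables

`E(a) = ∑_{s z₁ z₂ squarefree} β(s) c₁(z₁) c₂(z₂) conj χ_{s z₁ z₂}(a)`.  First Poisson step in `a`
(`poisson_family`, `j = 5`), Cauchy–Schwarz over `z₁, z₂`, the rows `k z⁴` (`z` the longer mark) are
embedded into all rows, second Poisson step (`j = 1`); the new rows are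
`a' = m · e h² · z'² · g' (g'/e')` (`z'` the shorter mark) and are embedded into all rows.
-/

set_option autoImplicit false

noncomputable section

namespace Crest.Agent.R17

open scoped ComplexConjugate

open Classical in
/-- The coefficient of the triple product, restricted to squarefree indices. -/
def tri (M : O) (R : ℝ) (β c₁ c₂ : O → ℂ) (n : O) : ℂ :=
  if Squarefree n then
    ∑ v ∈ (sp M R ×ˢ sp M R ×ˢ sp M R).filter (fun v => v.1 * v.2.1 * v.2.2 = n),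
      β v.1 * c₁ v.2.1 * c₂ v.2.2
  else 0

namespace M4

open Classical in
/-- The sum which appears after the two Poisson steps. -/
def back (M : O) (R : ℝ) (β : O → ℂ) (t T : O) (ψ : Chr M) (w : ℂ) (a : O) : ℂ :=
  ∑ s ∈ sp M R, if IsCoprime s T then β (t * s) * ev ψ s * (nr s : ℂ) ^ w * conj (sym s a) else 0

end M4

open M4

/-- Hypothesis H1: `Φ` dominates the returning sums. -/
def H1 (M : O) (R Q A' : ℝ) (β : O → ℂ) (Φ : ℝ → O → ℝ) : Prop :=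
  ∀ (t T a : O) (ψ : Chr M) (w : ℂ), Primary t → Primary T → t ∣ T → nr t ≤ Q → nr T ≤ R ^ 4 →
    a ≠ 0 → nr a ≤ A' → -1 ≤ w.re → w.re ≤ -(1 / 2) →
    ‖back M R β t T ψ w a‖ ^ 2 ≤ Φ w.im a * (Q / nr t) ^ (1 + 2 * w.re)

/-- Hypothesis H2: mean value of `Φ`. -/
def H2 (A A' Λ₁ F : ℝ) (J : ℕ) (Φ : ℝ → O → ℝ) : Prop :=
  ∀ v : ℝ, ∑ a ∈ rows A', min (A / nr a) Λ₁ * Φ v a ≤ F * A * (1 + |v|) ^ J

theorem supp_tri {M : O} {R Q L₁ L₂ : ℝ} {β c₁ c₂ : O → ℂ} (hβ : Supp M Q β) (h1 : Supp M L₁ c₁)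
    (h2 : Supp M L₂ c₂) : Supp M (Q * L₁ * L₂) (tri M R β c₁ c₂) := M4CA.supp_tri hβ h1 h2
theorem tri_comm (M : O) (R : ℝ) (β c₁ c₂ : O → ℂ) : tri M R β c₁ c₂ = tri M R β c₂ c₁ :=
  M4CA.tri_comm M R β c₁ c₂
theorem norm_tri_le {ε : ℝ} (hε : 0 < ε) : ∃ C : ℝ, 0 < C ∧ ∀ (M : O) (R b : ℝ) (β c₁ c₂ : O → ℂ),
    (∀ n, ‖β n‖ ≤ b) → (∀ n, ‖c₁ n‖ ≤ 1) → (∀ n, ‖c₂ n‖ ≤ 1) → ∀ n, n ≠ 0 →
    ‖tri M R β c₁ c₂ n‖ ≤ C * nr n ^ ε * b := M4CA.norm_tri_le hε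

open Classical in
/-- The coefficient in the variable `s` after the first step: `u₀` is the part of `g h` which went
into `s`, `r₀ = e h² z²` is the prefix. -/
def mid {M : O} (β : O → ℂ) (u₀ T r₀ : O) (ψ : Chr M) (w : ℂ) (s : O) : ℂ :=
  if IsCoprime s T then β (u₀ * s) * ev ψ s * gam 5 s * sym s r₀ ^ 5 * (nr s : ℂ) ^ w else 0

open Classical in
/-- **Splitting** of a dual row sum of `tri`: Cauchy–Schwarz over the factorisations
`g h = u₀ u₁ u₂`, over the classes and over the marks. -/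
theorem dual_tri_le {M : O} (hM : Adm M) [Fintype (Chr M)] {ε : ℝ} (hε : 0 < ε) :
    ∃ C : ℝ, 0 < C ∧ ∀ (R Q L₁ L₂ : ℝ) (β c₁ c₂ : O → ℂ) (g e h k : O) (ψ : Chr M) (w : ℂ),
      1 ≤ R → Supp M Q β → Supp M L₁ c₁ → Supp M L₂ c₂ → Q * L₁ * L₂ ≤ R → 1 ≤ Q → 1 ≤ L₁ →
      1 ≤ L₂ → (∀ n, ‖c₁ n‖ ≤ 1) → (∀ n, ‖c₂ n‖ ≤ 1) → g ∈ sp M R → h ∈ sp M R →
      w.re ≤ -(1 / 2) + ε →
      ‖rowS M R 1 (dualC 5 (tri M R β c₁ c₂) g e h ψ w) k‖ ^ 2 ≤ C * R ^ (10 * ε) *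
        ∑ u ∈ (pdiv (g * h) ×ˢ pdiv (g * h) ×ˢ pdiv (g * h)).filter (fun u =>
            u.1 * u.2.1 * u.2.2 = g * h ∧ nr u.1 ≤ Q ∧ nr u.2.1 ≤ L₁ ∧ nr u.2.2 ≤ L₂),
          ∑ ψ' : Chr M, ∑ z₁ ∈ sp M (L₁ / nr u.2.1), ∑ z₂ ∈ sp M (L₂ / nr u.2.2),
            ‖rowS M R 1 (mid β u.1 (g * h) (e * h ^ 2 * (z₁ * z₂) ^ 2) ψ' w) k‖ ^ 2 :=
  M4CA.dual_tri_le hM hε

/-- Moving a mark from the prefix into the row. -/
theorem rowS_mid_move {M : O} (hM : Adm M) (R : ℝ) (β : O → ℂ) (u₀ T r₀ z k : O) (ψ : Chr M)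
    (w : ℂ) : rowS M R 1 (mid β u₀ T (r₀ * z ^ 2) ψ w) k =
      rowS M R 1 (mid β u₀ T r₀ ψ w) (k * z ^ 4) := M4CA.rowS_mid_move hM R β u₀ T r₀ z k ψ w

/-- Embedding the rows `k z⁴` into all rows. -/
theorem embed_rows {ε : ℝ} (hε : 0 < ε) : ∃ C : ℝ, 0 < C ∧ ∀ (M : O) (K L K' : ℝ) (f : O → ℝ),
    (∀ k, 0 ≤ f k) → 1 ≤ K → 1 ≤ L → K * L ^ 4 ≤ K' →
    (Summable fun k => gw (nr k / K') * f k) →
    ∑ z ∈ sp M L, ∑ k ∈ rows K, f (k * z ^ 4) ≤ C * K' ^ ε * ∑' k, gw (nr k / K') * f k :=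
  M4CA.embed_rows hε

/-- The second dual row sum is a returning sum. -/
theorem dual_mid_le {M : O} (hM : Adm M) [Fintype (Chr M)] :
    ∃ C : ℝ, 0 < C ∧ ∀ (R Q : ℝ) (β : O → ℂ) (u₀ T r₀ g e h m : O) (ψ ψ' : Chr M) (w w' : ℂ),
      Supp M Q β → Primary u₀ → g ∈ sp M R → h ∈ sp M R → e ∈ pdiv g →
      ‖rowS M R 5 (dualC 1 (mid β u₀ T r₀ ψ w) g e h ψ' w') m‖ ^ 2 ≤
        C * (nr g * nr h) ^ (2 * w.re) * ∑ ψ'' : Chr M,
          ‖back M R β (u₀ * g * h) (T * g * h) ψ'' (w + w') (m * r₀ * (g * (g / e)))‖ ^ 2 :=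
  M4CA.dual_mid_le hM

/-! ### Proof of the core estimate -/

namespace GC

open Finset

theorem rp {R σ : ℝ} (hR : 1 ≤ R) (hσ : 0 ≤ σ) {x : ℝ} (hx0 : 0 ≤ x) (k n : ℕ) (hx : x ≤ R ^ k) :
    x ^ (n * σ) ≤ (R ^ σ) ^ (k * n) := by
  have h0 : 0 ≤ R := by linarith
  calc x ^ (n * σ) ≤ (R ^ k) ^ (n * σ) := Real.rpow_le_rpow hx0 hx (by positivity)
    _ = (R ^ σ) ^ (k * n) := by
        rw [← Real.rpow_natCast R k, ← Real.rpow_mul h0, ← Real.rpow_mul_natCast h0]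
        congr 1
        push_cast
        ring

theorem tail_eq {R σ : ℝ} (hR : 1 ≤ R) (hσ : 0 < σ) :
    R ^ (7 : ℝ) * (R ^ σ) ^ (-(9 / σ)) = (R ^ 2)⁻¹ := by
  have h0 : 0 < R := by linarith
  rw [← Real.rpow_mul h0.le, ← Real.rpow_add h0, ← Real.rpow_natCast, ← Real.rpow_neg h0.le]
  congr 1
  field_simp
  norm_num

theorem norm_mid_le {M : O} (hM : Adm M) {R b : ℝ} (hR : 0 ≤ R) {β : O → ℂ} (hb : ∀ n, ‖β n‖ ≤ b)
    (u₀ T r₀ : O) (ψ : Chr M) (w : ℂ) {s : O} (hs : s ∈ sp M R) :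
    ‖mid β u₀ T r₀ ψ w s‖ ≤ b * nr s ^ w.re := by
  have hs' := ((LS2.mem_sp hR).1 hs).1
  have hb0 : 0 ≤ b := (norm_nonneg _).trans (hb 0)
  have hpos : 0 < nr s := nr_pos hs'.1.ne_zero
  unfold mid
  split_ifs
  · have hpo : PO s := ⟨hs'.1, hs'.2.2.of_isCoprime_of_dvd_right
      (Dvd.dvd.trans ⟨36, by norm_num⟩ hM.2)⟩
    rw [norm_mul, norm_mul, norm_mul, norm_mul, norm_gam (by norm_num) hpo hs'.2.1, norm_pow,
      Complex.norm_cpow_eq_rpow_re_of_pos hpos, mul_one]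
    refine mul_le_mul_of_nonneg_right ?_ (by positivity)
    have h1 := norm_ev_le hM.1 ψ s
    have h2 : ‖sym s r₀‖ ^ 5 ≤ 1 := pow_le_one₀ (norm_nonneg _) (norm_sym_le _ _)
    calc ‖β (u₀ * s)‖ * ‖ev ψ s‖ * ‖sym s r₀‖ ^ 5 ≤ b * 1 * 1 := by
          gcongr
          exact hb _
      _ = b := by ring
  · rw [norm_zero]; positivity

theorem supp_mid {M : O} {Q : ℝ} {β : O → ℂ} (h : Supp M Q β) {u₀ : O} (hu : Primary u₀)
    (T r₀ : O) (ψ : Chr M) (w : ℂ) : Supp M (Q / nr u₀) (mid β u₀ T r₀ ψ w) := by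
  intro s hs
  refine h.comp_mul hu s fun (h0 : β (u₀ * s) = 0) => hs ?_
  unfold mid
  split_ifs
  · rw [h0]; simp
  · rfl

theorem back_eq_zero {M : O} {R Q : ℝ} (hR : 0 ≤ R) {β : O → ℂ} (h : Supp M Q β) {t : O}
    (ht : Q < nr t) (T : O) (ψ : Chr M) (w : ℂ) (a : O) : back M R β t T ψ w a = 0 := by
  unfold back
  refine sum_eq_zero fun s hs => ?_
  have h0 : β (t * s) = 0 := by
    by_contra h0
    have h1 := (h _ h0).2
    have h2 := (of_mem_sp hR hs).2.2.1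
    rw [nr_mul] at h1
    have : 0 ≤ nr t := by positivity
    nlinarith
  split_ifs
  · rw [h0]; simp
  · rfl

/-- The second dual row sum in terms of `Φ`. -/
theorem dual_phi {M : O} (hM : Adm M) [Fintype (Chr M)] : ∃ C : ℝ, 0 < C ∧
    ∀ (R Q A' σ u u' : ℝ) (β : O → ℂ) (Φ : ℝ → O → ℝ) (u₀ T r₀ g e h m : O) (ψ ψ' : Chr M),
      1 ≤ R → 0 < σ → σ ≤ 1 / 8 → Q ≤ R → Supp M Q β → (∀ v a, 0 ≤ Φ v a) → H1 M R Q A' β Φ →
      Primary u₀ → Primary T → u₀ ∣ T → nr T ≤ R ^ 2 → nr u₀ ≤ Q → g ∈ sp M R → h ∈ sp M R →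
      e ∈ pdiv g → m * (r₀ * (g * (g / e))) ≠ 0 → nr (m * (r₀ * (g * (g / e)))) ≤ A' →
      ‖rowS M R 5 (dualC 1 (mid β u₀ T r₀ ψ (-(1 / 2) + σ + u * Complex.I)) g e h ψ'
        (-(1 / 2) + σ + u' * Complex.I)) m‖ ^ 2 ≤
        C * (R ^ σ) ^ 8 / (Q / nr u₀) * Φ (u + u') (m * (r₀ * (g * (g / e)))) := by
  obtain ⟨C, hC, hd⟩ := dual_mid_le hM
  refine ⟨C * (Fintype.card (Chr M) + 1), by positivity, ?_⟩
  intro R Q A' σ u u' β Φ u₀ T r₀ g e h m ψ ψ' hR hσ hσ8 hQR hβ hΦ h1 hu₀ hT hdvd hTR hu₀Q hg hh he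
    ha0 ha
  have hR0 : 0 ≤ R := by linarith
  obtain ⟨hgp, hg0, hg1, hgR⟩ := of_mem_sp hR0 hg
  obtain ⟨hhp, hh0, hh1, hhR⟩ := of_mem_sp hR0 hh
  have hu1 := one_le_nr hu₀.ne_zero
  set w : ℂ := -(1 / 2) + σ + u * Complex.I with hw
  set w' : ℂ := -(1 / 2) + σ + u' * Complex.I with hw'
  have hre : w.re = -(1 / 2) + σ := by simp [hw]
  have hre' : (w + w').re = -1 + 2 * σ := by simp [hw, hw']; ring
  have him' : (w + w').im = u + u' := by simp [hw, hw']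
  refine (hd R Q β u₀ T r₀ g e h m ψ ψ' w w' hβ hu₀ hg hh he).trans ?_
  rw [mul_assoc m]
  set a := m * (r₀ * (g * (g / e))) with ha'
  set P : ℝ := nr g * nr h with hP
  have hP1 : 1 ≤ P := by nlinarith
  have hq : 0 < Q / nr u₀ := div_pos (by linarith) (by linarith)
  have hΦ0 := hΦ (u + u') a
  have key : ∀ ψ'' : Chr M, P ^ (2 * w.re) * ‖back M R β (u₀ * g * h) (T * g * h) ψ'' (w + w') a‖ ^ 2
      ≤ (R ^ σ) ^ 8 / (Q / nr u₀) * Φ (u + u') a := by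
    intro ψ''
    rcases lt_or_ge Q (nr (u₀ * g * h)) with ht | ht
    · rw [back_eq_zero hR0 hβ ht]
      simp only [norm_zero, ne_eq, OfNat.ofNat_ne_zero, not_false_eq_true, zero_pow, mul_zero]
      positivity
    · have h2 := h1 (u₀ * g * h) (T * g * h) a ψ'' (w + w') ((hu₀.mul hgp).mul hhp)
        ((hT.mul hgp).mul hhp) (mul_dvd_mul_right (mul_dvd_mul_right hdvd g) h) ht
        (by
          rw [nr_mul, nr_mul]
          calc nr T * nr g * nr h ≤ R ^ 2 * R * R := by gcongr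
            _ = R ^ 4 := by ring) ha0 ha (by rw [hre']; linarith) (by rw [hre']; linarith)
      rw [him', hre'] at h2
      have et : nr (u₀ * g * h) = nr u₀ * P := by rw [nr_mul, nr_mul, mul_assoc]
      set r : ℝ := Q / nr (u₀ * g * h) with hr
      have ht0 : 0 < nr (u₀ * g * h) := by rw [et]; positivity
      have hr1 : 1 ≤ r := (one_le_div ht0).2 ht
      have hrR : r ≤ R ^ 1 := by
        rw [pow_one]
        refine le_trans (div_le_self (by linarith) ?_) hQR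
        rw [et]; nlinarith
      have hPR : P ≤ R ^ 2 := by rw [hP, sq]; gcongr
      have e1 : P ^ (2 * w.re) = P⁻¹ * P ^ (((2 : ℕ) : ℝ) * σ) := by
        rw [hre, ← Real.rpow_neg_one, ← Real.rpow_add (by linarith)]
        congr 1; push_cast; ring
      have e2 : r ^ (1 + 2 * (-1 + 2 * σ)) = r⁻¹ * r ^ (((4 : ℕ) : ℝ) * σ) := by
        rw [← Real.rpow_neg_one, ← Real.rpow_add (by linarith)]
        congr 1; push_cast; ring
      have b1 := rp hR hσ.le (by linarith : 0 ≤ P) 2 2 hPR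
      have b2 := rp hR hσ.le (by linarith : 0 ≤ r) 1 4 hrR
      have e3 : P⁻¹ * r⁻¹ = (Q / nr u₀)⁻¹ := by
        rw [hr, et]
        have : Q ≠ 0 := by linarith
        field_simp
      rw [e2] at h2
      rw [e1]
      calc _ ≤ P⁻¹ * (R ^ σ) ^ (2 * 2) * (Φ (u + u') a * (r⁻¹ * (R ^ σ) ^ (1 * 4))) := by
            refine mul_le_mul (mul_le_mul_of_nonneg_left b1 (by positivity)) (h2.trans ?_)
              (by positivity) (by positivity)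
            gcongr
        _ = P⁻¹ * r⁻¹ * (R ^ σ) ^ 8 * Φ (u + u') a := by ring
        _ = _ := by rw [e3]; ring
  rw [mul_assoc, mul_sum]
  calc _ ≤ C * (Fintype.card (Chr M) * ((R ^ σ) ^ 8 / (Q / nr u₀) * Φ (u + u') a)) :=
        mul_le_mul_of_nonneg_left (sum_le_card_mul _ _ (by positivity) (by simp)
          fun ψ'' _ => key ψ'') hC.le
    _ ≤ C * ((Fintype.card (Chr M) + 1) * ((R ^ σ) ^ 8 / (Q / nr u₀) * Φ (u + u') a)) := by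
        gcongr; linarith
    _ = _ := by ring

/-- The sum over the factorisations, classes and marks, the first mark being the longer one. -/
def term (M : O) [Fintype (Chr M)] (R Q La Lb : ℝ) (β : O → ℂ) (w : ℂ) (g e h k : O) : ℝ :=
  ∑ u ∈ Uh Q La Lb (g * h), ∑ ψ' : Chr M, ∑ za ∈ sp M (La / nr u.2.1), ∑ zb ∈ sp M (Lb / nr u.2.2),
    ‖rowS M R 1 (mid β u.1 (g * h) (e * h ^ 2 * (za * zb) ^ 2) ψ' w) k‖ ^ 2

/-- Weights of the second step. -/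
def wI {M : O} (A : ℝ) (i : Ix M) : ℝ := A / (nr i.2.1 * nr i.2.2.1)

/-- Row lengths of the second step. -/
def XI {M : O} (Λ L A La l : ℝ) (i : Ix M) : ℝ :=
  l * K0 Λ L A i.1 i.2.1 * (La / nr i.2.2.2.1.2.1) ^ 4

/-- Column lengths of the second step. -/
def LI {M : O} (Q : ℝ) (i : Ix M) : ℝ := Q / nr i.2.2.2.1.1

/-- Coefficients of the second step. -/
def βI {M : O} (β : O → ℂ) (w : ℂ) (i : Ix M) : O → ℂ :=
  mid β i.2.2.2.1.1 (i.1 * i.2.2.1) (i.2.1 * i.2.2.1 ^ 2 * i.2.2.2.2.2 ^ 2) i.2.2.2.2.1 w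

theorem wI_nonneg {M : O} {A : ℝ} (hA : 0 ≤ A) (i : Ix M) : 0 ≤ wI A i := by
  unfold wI; positivity

/-- Numerical facts about an index. -/
theorem facts {M : O} [Fintype (Chr M)] {R Λ L A Q La Lb l : ℝ} (hR : 1 ≤ R) (hA : 1 ≤ A)
    (hQ : 1 ≤ Q) (hLa : 1 ≤ La) (hLb : 1 ≤ Lb) (hl : 1 ≤ l) (hL : L = Q * La * Lb)
    (hLR : l * L ^ 7 ≤ R) (hΛ : 1 ≤ Λ) (hΛR : Λ ≤ R) {g e h z : O} {u : O × O × O} {ψ : Chr M}
    (hi : (⟨g, e, h, u, ψ, z⟩ : Ix M) ∈ ixs M R Λ L A Q La Lb) :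
    ∃ q x y : ℝ, q = Q / nr u.1 ∧ x = La / nr u.2.1 ∧ y = Lb / nr u.2.2 ∧ 1 ≤ q ∧ 1 ≤ y ∧ y ≤ x ∧
      x ≤ La ∧ y ≤ Lb ∧ q ≤ Q ∧ L / nr g = nr h * q * x * y ∧
      1 ≤ XI Λ L A La l (⟨g, e, h, u, ψ, z⟩ : Ix M) ∧
      XI Λ L A La l (⟨g, e, h, u, ψ, z⟩ : Ix M) ≤ R ^ 2 := by
  have hR0 : 0 ≤ R := by linarith
  obtain ⟨hg, he, hK, hh, hu, hz⟩ := of_mem_ixs hi
  obtain ⟨-, hg0, hg1, hgR⟩ := of_mem_sp hR0 hg
  obtain ⟨-, hh0, hh1, hhR⟩ := of_mem_sp hR0 hh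
  obtain ⟨-, -, he1, heg, -⟩ := of_mem_pdiv hg0 he
  obtain ⟨-, hu1, hu2, hu3, hu4, hu5, hu6, hu7, hu8⟩ := of_mem_Uh (mul_ne_zero hg0 hh0) hu
  have hy : 1 ≤ Lb / nr u.2.2 := (one_le_div (by linarith)).2 hu7
  have hx : La / nr u.2.1 ≤ La := div_le_self (by linarith) hu2
  have hL1 : 1 ≤ L := by rw [hL]; exact one_le_mul_of_one_le_of_one_le (by nlinarith) hLb
  have hLaL : La ≤ L := by
    rw [hL]
    have : 1 ≤ Q * Lb := by nlinarith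
    nlinarith
  refine ⟨_, _, _, rfl, rfl, rfl, (one_le_div (by linarith)).2 hu5, hy, hu8, hx,
    div_le_self (by linarith) hu3, div_le_self (by linarith) hu1, ?_, ?_, ?_⟩
  · have e1 := congrArg nr hu4
    rw [nr_mul, nr_mul, nr_mul] at e1
    rw [hL]
    field_simp
    linarith
  · unfold XI
    have : 1 ≤ (La / nr u.2.1) ^ 4 := one_le_pow₀ (hy.trans hu8)
    exact one_le_mul_of_one_le_of_one_le (one_le_mul_of_one_le_of_one_le hl hK) this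
  · unfold XI K0
    simp only
    have a1 : nr e * (L / nr g) ^ 2 ≤ L ^ 2 := by
      calc nr e * (L / nr g) ^ 2 ≤ nr g * (L / nr g) ^ 2 := by gcongr
        _ = L ^ 2 / nr g := by field_simp
        _ ≤ L ^ 2 := div_le_self (by positivity) hg1
    have a2 : Λ * nr e * (L / nr g) ^ 2 / A ≤ R * L ^ 2 := by
      refine (div_le_self (by positivity) hA).trans ?_
      rw [mul_assoc]
      gcongr
    have a3 : (La / nr u.2.1) ^ 4 ≤ L ^ 4 := by gcongr; exact hx.trans hLaL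
    calc _ ≤ l * (R * L ^ 2) * L ^ 4 := by gcongr
      _ = R * (l * L ^ 6) := by ring
      _ ≤ R * (l * L ^ 7) := by gcongr; norm_num
      _ ≤ R * R := by gcongr
      _ = R ^ 2 := by ring

/-- Embedding of the rows. -/
theorem embed {M : O} (hM : Adm M) [Fintype (Chr M)] {σ : ℝ} (hσ : 0 < σ) : ∃ C : ℝ, 0 < C ∧
    ∀ (R Λ L A Q La Lb l : ℝ) (β : O → ℂ) (w : ℂ), 1 ≤ R → 1 ≤ A → 1 ≤ Q → 1 ≤ La → 1 ≤ Lb → 1 ≤ l →
      L = Q * La * Lb → l * L ^ 7 ≤ R → 1 ≤ Λ → Λ ≤ R →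
      ∑ g ∈ sp M R, ∑ e ∈ pdiv g, ∑ h ∈ sp M R, A / (nr e * nr h) *
          ∑ k ∈ rows (K0 Λ L A g e), term M R Q La Lb β w g e h k ≤
        C * (R ^ σ) ^ 2 *
          ∑ i ∈ ixs M R Λ L A Q La Lb, wI A i * Dq M R 1 (βI β w i) (XI Λ L A La l i) := by
  classical
  obtain ⟨C, hC, hE⟩ := embed_rows hσ
  refine ⟨C, hC, fun R Λ L A Q La Lb l β w hR hA hQ hLa hLb hl hL hLR hΛ hΛR => ?_⟩
  rw [sum_ixs, mul_sum]
  refine sum_le_sum fun g hg => ?_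
  rw [← sum_filter_of_ne (p := fun e => 1 ≤ K0 Λ L A g e) (fun e _ hne => by
    by_contra hlt
    rw [rows_eq_empty (not_le.1 hlt)] at hne
    simp at hne), mul_sum]
  refine sum_le_sum fun e he => ?_
  rw [mul_sum]
  refine sum_le_sum fun h hh => ?_
  unfold term
  rw [sum_comm, mul_sum, mul_sum]
  refine sum_le_sum fun u hu => ?_
  rw [sum_comm, mul_sum, mul_sum]
  refine sum_le_sum fun ψ _ => ?_
  rw [sum_comm, sum_congr rfl fun _ _ => sum_comm, sum_comm, mul_sum, mul_sum]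
  refine sum_le_sum fun z hz => ?_
  have hi : (⟨g, e, h, u, ψ, z⟩ : Ix M) ∈ ixs M R Λ L A Q La Lb := by
    simp only [ixs, mem_sigma, mem_univ, true_and]
    exact ⟨hg, he, hh, hu, hz⟩
  obtain ⟨q, x, y, -, hx, -, -, hy1, hyx, -, -, -, -, hX1, hXR⟩ :=
    facts hR hA hQ hLa hLb hl hL hLR hΛ hΛR hi
  have hK := (mem_filter.1 he).2
  have h1 := hE M (K0 Λ L A g e) (La / nr u.2.1) (XI Λ L A La l (⟨g, e, h, u, ψ, z⟩ : Ix M))
    (fun k => ‖rowS M R 1 (βI β w (⟨g, e, h, u, ψ, z⟩ : Ix M)) k‖ ^ 2) (fun k => sq_nonneg _) hK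
    (by rw [← hx]; linarith) (by
      unfold XI
      rw [mul_assoc]
      exact le_mul_of_one_le_left (by positivity) hl) (summable_row _ _ _ _ (by linarith))
  have h2 : ∑ za ∈ sp M (La / nr u.2.1), ∑ k ∈ rows (K0 Λ L A g e),
      ‖rowS M R 1 (mid β u.1 (g * h) (e * h ^ 2 * (za * z) ^ 2) ψ w) k‖ ^ 2 =
      ∑ za ∈ sp M (La / nr u.2.1), ∑ k ∈ rows (K0 Λ L A g e),
        ‖rowS M R 1 (βI β w (⟨g, e, h, u, ψ, z⟩ : Ix M)) (k * za ^ 4)‖ ^ 2 := by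
    refine sum_congr rfl fun za _ => sum_congr rfl fun k _ => ?_
    rw [show e * h ^ 2 * (za * z) ^ 2 = e * h ^ 2 * z ^ 2 * za ^ 2 by ring, rowS_mid_move hM]
    rfl
  have h3 := rp hR hσ.le (by linarith : 0 ≤ XI Λ L A La l (⟨g, e, h, u, ψ, z⟩ : Ix M)) 2 1 hXR
  rw [Nat.cast_one, one_mul, mul_one] at h3
  have h4 : 0 ≤ Dq M R 1 (βI β w (⟨g, e, h, u, ψ, z⟩ : Ix M))
      (XI Λ L A La l (⟨g, e, h, u, ψ, z⟩ : Ix M)) :=
    tsum_nonneg fun k => mul_nonneg (gw_pos _).le (sq_nonneg _)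
  rw [h2, mul_left_comm]
  refine mul_le_mul_of_nonneg_left (h1.trans ?_) (by positivity)
  exact mul_le_mul_of_nonneg_right (mul_le_mul_of_nonneg_left h3 hC.le) h4

/-- The total weight of the diagonal terms. -/
theorem diag_weight {M : O} [Fintype (Chr M)] {σ : ℝ} (hσ : 0 < σ) : ∃ C : ℝ, 0 < C ∧
    ∀ (R L A Q La Lb l Y : ℝ), 1 ≤ R → 1 ≤ A → 1 ≤ Q → 1 ≤ La → 1 ≤ Lb → 1 ≤ l →
      L = Q * La * Lb → l * L ^ 7 ≤ R → σ ≤ 1 → La ^ 4 * min La Lb ≤ Y →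
      ∑ i ∈ ixs M R (R ^ σ) L A Q La Lb, wI A i * XI (R ^ σ) L A La l i ≤
        C * (R ^ σ) ^ 11 * (l * L ^ 2 * Y) := by
  obtain ⟨Cd, hCd, hd⟩ := card_pdiv_le' hσ
  obtain ⟨Ch, hCh, hh⟩ := sum_sp_inv_le hσ
  refine ⟨Ch ^ 2 * Cd ^ 4 * (Fintype.card (Chr M) + 1) * 7, by positivity,
    fun R L A Q La Lb l Y hR hA hQ hLa hLb hl hL hLR hσ1 hY => ?_⟩
  have hΛ : 1 ≤ R ^ σ := Real.one_le_rpow hR hσ.le
  have hΛR : R ^ σ ≤ R := by
    simpa using Real.rpow_le_rpow_of_exponent_le hR hσ1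
  have hY0 : 0 ≤ Y := le_trans (by positivity) hY
  have hL0 : 0 ≤ L := by rw [hL]; positivity
  refine (sum_ixs_diag (c := R ^ σ * (l * L ^ 2 * Y)) hR (by linarith) (by positivity)
    (fun n hn h => hd R n hn h hR) (hh M R hR) _ ?_).trans ?_
  · intro g e h u ψ z hi
    obtain ⟨q, x, y, -, hx, hy, -, hy1, hyx, hxL, hyL, -, -, -, -⟩ :=
      facts hR hA hQ hLa hLb hl hL hLR hΛ hΛR hi
    obtain ⟨hg, he, -, hh, -, -⟩ := of_mem_ixs hi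
    obtain ⟨-, hg0, hg1, -⟩ := of_mem_sp (by linarith) hg
    obtain ⟨-, -, hh1, -⟩ := of_mem_sp (by linarith) hh
    obtain ⟨-, -, he1, -, -⟩ := of_mem_pdiv hg0 he
    unfold wI XI K0
    simp only
    rw [← hx, ← hy]
    have a1 : x ^ 4 * y ≤ Y := by
      refine le_trans ?_ hY
      have : y ≤ min La Lb := le_min (hyx.trans hxL) hyL
      have : 0 ≤ x := by linarith
      gcongr
    calc _ = (nr g)⁻¹ * ((nr h)⁻¹ * (R ^ σ * (l * L ^ 2 * (x ^ 4 * y)))) / nr g := by field_simp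
      _ ≤ (nr g)⁻¹ * ((nr h)⁻¹ * (R ^ σ * (l * L ^ 2 * (x ^ 4 * y)))) := by
          have : 0 ≤ x := by linarith
          exact div_le_self (by positivity) hg1
      _ ≤ _ := by gcongr
  · calc _ = Ch ^ 2 * Cd ^ 4 * Fintype.card (Chr M) * 7 * (R ^ σ) ^ 11 * (l * L ^ 2 * Y) := by ring
      _ ≤ _ := by gcongr; linarith

/-- The off-diagonal terms of the second step. -/
theorem off {M : O} (hM : Adm M) [Fintype (Chr M)] {σ : ℝ} (hσ : 0 < σ) (hσ8 : σ ≤ 1 / 8) (J : ℕ) :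
    ∃ C : ℝ, 0 < C ∧ ∀ (R L A Q La Lb l F Λ₁ u u' : ℝ) (β : O → ℂ) (Φ : ℝ → O → ℝ) (ψ' : Chr M),
      1 ≤ R → 1 ≤ A → 1 ≤ Q → 1 ≤ La → 1 ≤ Lb → 1 ≤ l → 0 ≤ F → A ≤ R →
      L = Q * La * Lb → l * L ^ 7 ≤ R → Supp M Q β → (∀ v a, 0 ≤ Φ v a) →
      H1 M R Q (A / l) β Φ → H2 A (A / l) Λ₁ F J Φ → l * La ^ 6 ≤ Λ₁ →
      ∑ i ∈ ixs M R (R ^ σ) L A Q La Lb, wI A i *
        OD M R 1 5 (βI β (-(1 / 2) + σ + u * Complex.I) i) (XI (R ^ σ) L A La l i) (LI Q i) (R ^ σ)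
          ψ' (-(1 / 2) + σ + u' * Complex.I) ≤
        C * (R ^ σ) ^ 27 * (L * (F * A)) * (1 + |u|) ^ J * (1 + |u'|) ^ J := by
  obtain ⟨Cd, hCd, hd⟩ := card_pdiv_le' hσ
  obtain ⟨Ch, hCh, hh⟩ := sum_sp_inv_le hσ
  obtain ⟨C, hC, hp⟩ := dual_phi hM
  refine ⟨Ch ^ 2 * Cd ^ 8 * (Fintype.card (Chr M) + 1) * C, by positivity,
    fun R L A Q La Lb l F Λ₁ u u' β Φ ψ' hR hA hQ hLa hLb hl hF hAR hL hLR hβ hΦ h1 h2 hΛ₁ => ?_⟩
  have hR0 : 0 ≤ R := by linarith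
  have hΛ : 1 ≤ R ^ σ := Real.one_le_rpow hR hσ.le
  have hΛR : R ^ σ ≤ R := by
    simpa using Real.rpow_le_rpow_of_exponent_le hR (by linarith : σ ≤ 1)
  have hL1 : 1 ≤ L := by rw [hL]; exact one_le_mul_of_one_le_of_one_le (by nlinarith) hLb
  have hQR : Q ≤ R := by
    have a1 : Q ≤ L := by
      rw [hL, mul_assoc]
      exact le_mul_of_one_le_right (by linarith) (by nlinarith)
    have a2 : L ≤ L ^ 7 := le_self_pow₀ hL1 (by norm_num)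
    have a3 : L ^ 7 ≤ l * L ^ 7 := le_mul_of_one_le_left (by positivity) hl
    linarith
  have hΛ0 : 0 ≤ Λ₁ := le_trans (by positivity) hΛ₁
  have hAl : 0 ≤ A / l := by positivity
  set ρ := R ^ σ with hρ
  simp only [OD, mul_sum (s := pdiv _), mul_sum (s := sp M R)]
  refine (sum_ixs_off (c := C * ρ ^ 9 * L) hR (by positivity) (fun n hn h => hd R n hn h hR)
    (hh M R hR) (rows (A / l)) (fun a ha => ?_) (fun a => min (A / nr a) Λ₁ * Φ (u + u') a)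
    (fun a _ => mul_nonneg (le_min (by positivity) hΛ0) (hΦ _ _)) _ ?_).trans ?_
  · refine ⟨(of_mem_rows hAl ha).1, (of_mem_rows hAl ha).2.trans ?_⟩
    have : A / l ≤ A := div_le_self (by linarith) hl
    nlinarith
  · intro g e h u₀ ψ z hi g' hg' e' he' h' hh'
    obtain ⟨q, x, y, hq, hx, hy, hq1, hy1, hyx, hxL, hyL, -, hLg, hX1, -⟩ :=
      facts hR hA hQ hLa hLb hl hL hLR hΛ hΛR hi
    obtain ⟨hg, he, -, hh, hu, hz⟩ := of_mem_ixs hi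
    obtain ⟨hgp, hg0, hg1, hgR⟩ := of_mem_sp hR0 hg
    obtain ⟨hhp, hh0, hh1, hhR⟩ := of_mem_sp hR0 hh
    obtain ⟨-, hg0', hg1', -⟩ := of_mem_sp hR0 hg'
    obtain ⟨-, -, hh1', -⟩ := of_mem_sp hR0 hh'
    obtain ⟨-, he0, he1, -, -⟩ := of_mem_pdiv hg0 he
    obtain ⟨-, he0', he1', -, hed⟩ := of_mem_pdiv hg0' he'
    obtain ⟨hup, -, -, -, hu4, hu5, -, -, -⟩ := of_mem_Uh (mul_ne_zero hg0 hh0) hu
    rw [← hy] at hz
    obtain ⟨-, hz0, hz1, hzy⟩ := of_mem_sp (by linarith) hz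
    have hx1 : 1 ≤ x := hy1.trans hyx
    have hge : e' * (g' / e') = g' := EuclideanDomain.mul_div_cancel' he0' hed
    have hge0 : g' / e' ≠ 0 := fun h0 => hg0' (by rw [← hge, h0, mul_zero])
    have hgen : nr (g' / e') = nr g' / nr e' := by
      rw [eq_div_iff (by linarith), mul_comm, ← nr_mul, hge]
    set y₀ : O := e * h ^ 2 * z ^ 2 * (g' * (g' / e')) with hy₀
    have hy00 : y₀ ≠ 0 := mul_ne_zero (mul_ne_zero (mul_ne_zero he0 (pow_ne_zero _ hh0))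
      (pow_ne_zero _ hz0)) (mul_ne_zero hg0' hge0)
    have eX : XI ρ L A La l (⟨g, e, h, u₀, ψ, z⟩ : Ix M) =
        l * (ρ * nr e * (nr h * q * x * y) ^ 2 / A) * x ^ 4 := by
      unfold XI K0
      simp only
      rw [hLg, ← hx]
    have eL : LI Q (⟨g, e, h, u₀, ψ, z⟩ : Ix M) = q := hq.symm
    rw [eL]
    set X := XI ρ L A La l (⟨g, e, h, u₀, ψ, z⟩ : Ix M) with hX
    have hrow : ∀ m ∈ rows (ρ * nr e' * (q / nr g') ^ 2 / X), m ≠ 0 ∧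
        nr (m * y₀) * (l * x ^ 6) ≤ A := by
      intro m hm
      obtain ⟨hm0, hm⟩ := of_mem_rows (by positivity) hm
      refine ⟨hm0, ?_⟩
      rw [nr_mul, hy₀, nr_mul, nr_mul, nr_mul, nr_mul, nr_pow, nr_pow, hgen]
      calc _ ≤ ρ * nr e' * (q / nr g') ^ 2 / X *
            (nr e * nr h ^ 2 * y ^ 2 * (nr g' * (nr g' / nr e'))) * (l * x ^ 6) := by gcongr
        _ = A := by rw [eX]; field_simp
    have hx6 : 1 ≤ x ^ 6 := one_le_pow₀ hx1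
    have hmem : ∀ m ∈ rows (ρ * nr e' * (q / nr g') ^ 2 / X), nr (m * y₀) ≤ A / l := by
      intro m hm
      rw [le_div_iff₀ (by linarith)]
      refine le_trans ?_ (hrow m hm).2
      gcongr
      exact le_mul_of_one_le_right (by linarith) hx6
    have hsum := sum_mul_le (rows (ρ * nr e' * (q / nr g') ^ 2 / X)) (rows (A / l)) hy00
      (fun m hm => mem_rows' (mul_ne_zero (hrow m hm).1 hy00) (hmem m hm))
      (fun a => min (A / nr a) Λ₁ * Φ (u + u') a) (fun a => chi g' a * (chi z a * chi h a))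
      (fun a _ => mul_nonneg (le_min (by positivity) hΛ0) (hΦ _ _))
      (fun a => mul_nonneg (chi_nonneg _ _) (mul_nonneg (chi_nonneg _ _) (chi_nonneg _ _)))
      (fun a ha => by
        rw [chi_of_dvd (Dvd.dvd.trans ⟨e * h ^ 2 * z ^ 2 * (g' / e'), by rw [hy₀]; ring⟩ ha),
          chi_of_dvd (Dvd.dvd.trans ⟨e * h ^ 2 * z * (g' * (g' / e')), by rw [hy₀]; ring⟩ ha),
          chi_of_dvd (Dvd.dvd.trans ⟨e * h * z ^ 2 * (g' * (g' / e')), by rw [hy₀]; ring⟩ ha)]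
        norm_num)
    simp only [mul_assoc (chi g' _), mul_assoc (chi z _)] at hsum
    refine le_trans ?_ (mul_le_mul_of_nonneg_left (mul_le_mul_of_nonneg_left hsum
      (by positivity)) (by positivity))
    rw [mul_sum, mul_sum, mul_sum, mul_sum]
    refine sum_le_sum fun m hm => ?_
    have ha0 : m * y₀ ≠ 0 := mul_ne_zero (hrow m hm).1 hy00
    have hb := hp R Q (A / l) σ u u' β Φ u₀.1 (g * h) (e * h ^ 2 * z ^ 2) g' e' h' m ψ ψ' hR hσ hσ8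
      hQR hβ hΦ h1 hup (hgp.mul hhp) ⟨u₀.2.1 * u₀.2.2, by rw [← hu4]; ring⟩
      (by rw [nr_mul, sq]; gcongr) hu5 hg' hh' he' ha0 (hmem m hm)
    rw [← hq, ← hy₀, ← hρ] at hb
    have hmin : l * x ^ 6 ≤ min (A / nr (m * y₀)) Λ₁ := by
      refine le_min ?_ (le_trans (by gcongr) hΛ₁)
      rw [le_div_iff₀ (nr_pos ha0), mul_comm]
      exact (hrow m hm).2
    have hΦ0 := hΦ (u + u') (m * y₀)
    have hw0 : 0 ≤ wI A (⟨g, e, h, u₀, ψ, z⟩ : Ix M) := wI_nonneg (by linarith) _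
    have eg : (nr g)⁻¹ * L = nr h * q * x * y := by rw [← hLg]; ring
    calc _ ≤ wI A (⟨g, e, h, u₀, ψ, z⟩ : Ix M) * (X / (nr e' * nr h') *
          (C * ρ ^ 8 / q * Φ (u + u') (m * y₀))) := by
          refine mul_le_mul_of_nonneg_left (mul_le_mul_of_nonneg_left hb (by positivity)) hw0
      _ = (nr h')⁻¹ * (C * ρ ^ 9 * (nr h * q * x * y) * (l * (x ^ 5 * y) * Φ (u + u') (m * y₀))) /
            nr e' := by
          rw [eX]
          unfold wI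
          simp only
          field_simp
      _ ≤ (nr h')⁻¹ * (C * ρ ^ 9 * (nr h * q * x * y) * (l * (x ^ 5 * y) * Φ (u + u') (m * y₀))) :=
          div_le_self (by positivity) he1'
      _ ≤ (nr h')⁻¹ * (C * ρ ^ 9 * (nr h * q * x * y) *
            (min (A / nr (m * y₀)) Λ₁ * Φ (u + u') (m * y₀))) := by
          gcongr
          refine le_trans ?_ hmin
          rw [show x ^ 6 = x ^ 5 * x by ring]
          gcongr
      _ = _ := by rw [← eg]; ring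
  · have a1 := h2 (u + u')
    have a2 : (1 + |u + u'|) ^ J ≤ (1 + |u|) ^ J * (1 + |u'|) ^ J := by
      rw [← mul_pow]
      gcongr
      have := abs_add_le u u'
      have := abs_nonneg u
      have := abs_nonneg u'
      nlinarith
    calc _ ≤ (Ch * ρ) ^ 2 * (Cd * ρ ^ 2) ^ 8 * (Fintype.card (Chr M) + 1) * (C * ρ ^ 9 * L) *
          (F * A * ((1 + |u|) ^ J * (1 + |u'|) ^ J)) := by
          refine mul_le_mul ?_ (a1.trans (by gcongr)) (sum_nonneg fun a _ =>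
            mul_nonneg (le_min (by positivity) hΛ0) (hΦ _ _)) (by positivity)
          gcongr
          linarith
      _ = _ := by ring

/-- One half of the dual sum of the first step. -/
theorem half {M : O} (hM : Adm M) [Fintype (Chr M)] {σ : ℝ} (hσ : 0 < σ) (hσ8 : σ ≤ 1 / 8)
    (J : ℕ) : ∃ C : ℝ, 0 < C ∧ ∀ (R L A Q La Lb l b F Λ₁ Y u : ℝ) (β : O → ℂ) (Φ : ℝ → O → ℝ),
      1 ≤ R → 1 ≤ A → 1 ≤ Q → 1 ≤ La → 1 ≤ Lb → 1 ≤ l → 0 ≤ F → A ≤ R →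
      L = Q * La * Lb → l * L ^ 7 ≤ R → Supp M Q β → (∀ n, ‖β n‖ ≤ b) → (∀ v a, 0 ≤ Φ v a) →
      H1 M R Q (A / l) β Φ → H2 A (A / l) Λ₁ F J Φ → l * La ^ 6 ≤ Λ₁ → La ^ 4 * min La Lb ≤ Y →
      ∑ g ∈ sp M R, ∑ e ∈ pdiv g, ∑ h ∈ sp M R, A / (nr e * nr h) *
          ∑ k ∈ rows (K0 (R ^ σ) L A g e),
            term M R Q La Lb β (-(1 / 2) + σ + u * Complex.I) g e h k ≤
        C * (R ^ σ) ^ 33 * (L * (b ^ 2 * (l * L * Y) + F * A)) * (1 + |u|) ^ J := by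
  obtain ⟨Ce, hCe, he⟩ := embed hM hσ
  obtain ⟨Cw, hCw, hw⟩ := diag_weight (M := M) hσ
  obtain ⟨Co, hCo, ho⟩ := off hM hσ hσ8 J
  obtain ⟨Cs, hCs, hs⟩ := sum_sp_rpow_le (σ := 2 * σ) (by linarith)
  obtain ⟨Cp, hCp, hp⟩ := poisson_family hM hσ (by linarith) J (9 / σ)
  refine ⟨Ce * (Cw * Cs + Cp * Co + Cp * (49 * Cw)), by positivity,
    fun R L A Q La Lb l b F Λ₁ Y u β Φ hR hA hQ hLa hLb hl hF hAR hL hLR hβ hb hΦ h1 h2 hΛ₁ hY => ?_⟩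
  have hR0 : 0 ≤ R := by linarith
  have hΛ : 1 ≤ R ^ σ := Real.one_le_rpow hR hσ.le
  have hΛR : R ^ σ ≤ R := by
    simpa using Real.rpow_le_rpow_of_exponent_le hR (by linarith : σ ≤ 1)
  have hL1 : 1 ≤ L := by rw [hL]; exact one_le_mul_of_one_le_of_one_le (by nlinarith) hLb
  have hQR : Q ≤ R := by
    have a1 : Q ≤ L := by
      rw [hL, mul_assoc]
      exact le_mul_of_one_le_right (by linarith) (by nlinarith)
    have a2 : L ≤ L ^ 7 := le_self_pow₀ hL1 (by norm_num)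
    have a3 : L ^ 7 ≤ l * L ^ 7 := le_mul_of_one_le_left (by positivity) hl
    linarith
  have hb0 : 0 ≤ b := (norm_nonneg _).trans (hb 0)
  have hY0 : 0 ≤ Y := le_trans (by positivity) hY
  set w : ℂ := -(1 / 2) + σ + u * Complex.I with hw'
  have hre : w.re = -(1 / 2) + σ := by simp [hw']
  have b1 := he R (R ^ σ) L A Q La Lb l β w hR hA hQ hLa hLb hl hL hLR hΛ hΛR
  have b2 := hw R L A Q La Lb l Y hR hA hQ hLa hLb hl hL hLR (by linarith) hY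
  have hfac : ∀ i ∈ ixs M R (R ^ σ) L A Q La Lb, Supp M (LI Q i) (βI β w i) ∧ LI Q i ≤ R ∧
      1 ≤ XI (R ^ σ) L A La l i ∧ XI (R ^ σ) L A La l i ≤ R ^ 2 := by
    rintro ⟨g, e, h, u₀, ψ, z⟩ hi
    obtain ⟨q, x, y, hq, -, -, -, -, -, -, -, hqQ, -, hX1, hX2⟩ :=
      facts hR hA hQ hLa hLb hl hL hLR hΛ hΛR hi
    obtain ⟨hg, -, -, hh, hu, -⟩ := of_mem_ixs hi
    have hup := (of_mem_Uh (mul_ne_zero (of_mem_sp hR0 hg).2.1 (of_mem_sp hR0 hh).2.1) hu).1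
    exact ⟨supp_mid hβ hup _ _ _ _, le_trans (le_of_eq hq.symm) (hqQ.trans hQR), hX1, hX2⟩
  have b3 := hp (ixs M R (R ^ σ) L A Q La Lb) (wI A) (βI β w) (XI (R ^ σ) L A La l) (LI Q) 1 5 R
    (R ^ σ) (Co * (R ^ σ) ^ 27 * (L * (F * A)) * (1 + |u|) ^ J) (Or.inl ⟨rfl, rfl⟩) hR hΛ
    (fun i _ => wI_nonneg (by linarith) i)
    (fun i hi => ⟨(hfac i hi).1, (hfac i hi).2.1,
      (inv_le_one_of_one_le₀ hR).trans (hfac i hi).2.2.1, (hfac i hi).2.2.2⟩)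
    (fun ψ' u' => ho R L A Q La Lb l F Λ₁ u u' β Φ ψ' hR hA hQ hLa hLb hl hF hAR hL hLR hβ hΦ h1 h2
      hΛ₁)
  have e4 : R ^ (4 * σ) = (R ^ σ) ^ 4 := by
    rw [← Real.rpow_mul_natCast hR0]; congr 1; push_cast; ring
  have e2 : R ^ (2 * σ) = (R ^ σ) ^ 2 := by
    rw [← Real.rpow_mul_natCast hR0]; congr 1; push_cast; ring
  rw [e4, mul_assoc Cp (R ^ (7 : ℝ)), tail_eq hR hσ] at b3
  have c1 : ∀ i : Ix M, ∑ n ∈ sp M R, ‖βI β w i n‖ ^ 2 ≤ b ^ 2 * (Cs * (R ^ σ) ^ 2) := by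
    intro i
    rw [← e2]
    refine le_trans ?_ (mul_le_mul_of_nonneg_left (hs M R hR) (by positivity))
    rw [mul_sum]
    refine sum_le_sum fun n hn => ?_
    have h0 := (of_mem_sp hR0 hn).2.2.1
    refine (pow_le_pow_left₀ (norm_nonneg _) (norm_mid_le hM hR0 hb _ _ _ _ _ hn) 2).trans
      (le_of_eq ?_)
    rw [mul_pow, ← Real.rpow_mul_natCast (by linarith), hre]
    congr 2
    push_cast
    ring
  have c2 : ∀ i : Ix M, ∑ n ∈ sp M R, ‖βI β w i n‖ ≤ 7 * R * b := by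
    intro i
    refine sum_le_card_mul _ _ hb0 (card_sp_le M hR0) fun n hn => ?_
    refine (norm_mid_le hM hR0 hb _ _ _ _ _ hn).trans (mul_le_of_le_one_right hb0 ?_)
    exact Real.rpow_le_one_of_one_le_of_nonpos (of_mem_sp hR0 hn).2.2.1 (by rw [hre]; linarith)
  set W := ∑ i ∈ ixs M R (R ^ σ) L A Q La Lb, wI A i * XI (R ^ σ) L A La l i with hW
  have d1 : ∑ i ∈ ixs M R (R ^ σ) L A Q La Lb, wI A i *
      (XI (R ^ σ) L A La l i * ∑ n ∈ sp M R, ‖βI β w i n‖ ^ 2) ≤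
      W * (b ^ 2 * (Cs * (R ^ σ) ^ 2)) := by
    rw [hW, sum_mul]
    refine sum_le_sum fun i hi => ?_
    rw [mul_assoc]
    have := (hfac i hi).2.2.1
    exact mul_le_mul_of_nonneg_left (mul_le_mul_of_nonneg_left (c1 i) (by linarith))
      (wI_nonneg (by linarith) i)
  have d2 : ∑ i ∈ ixs M R (R ^ σ) L A Q La Lb, wI A i * (∑ n ∈ sp M R, ‖βI β w i n‖) ^ 2 ≤
      W * (7 * R * b) ^ 2 := by
    rw [hW, sum_mul]
    refine sum_le_sum fun i hi => ?_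
    rw [mul_assoc]
    refine mul_le_mul_of_nonneg_left ?_ (wI_nonneg (by linarith) i)
    refine (pow_le_pow_left₀ (sum_nonneg fun _ _ => norm_nonneg _) (c2 i) 2).trans ?_
    exact le_mul_of_one_le_left (by positivity) (hfac i hi).2.2.1
  set ρ := R ^ σ with hρ
  set T := L * (b ^ 2 * (l * L * Y) + F * A) * (1 + |u|) ^ J with hT
  have hu1 : 1 ≤ (1 + |u|) ^ J := one_le_pow₀ (by linarith [abs_nonneg u])
  have t1 : l * L ^ 2 * Y * b ^ 2 ≤ T := by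
    calc l * L ^ 2 * Y * b ^ 2 = L * (b ^ 2 * (l * L * Y) + 0) * 1 := by ring
      _ ≤ T := by rw [hT]; gcongr; positivity
  have t2 : L * (F * A) * (1 + |u|) ^ J ≤ T := by
    calc L * (F * A) * (1 + |u|) ^ J = L * (0 + F * A) * (1 + |u|) ^ J := by ring
      _ ≤ T := by rw [hT]; gcongr; positivity
  have hT0 : 0 ≤ T := le_trans (by positivity) t2
  have p1 : ρ ^ 13 ≤ ρ ^ 31 := pow_le_pow_right₀ hΛ (by norm_num)
  have p2 : ρ ^ 11 ≤ ρ ^ 31 := pow_le_pow_right₀ hΛ (by norm_num)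
  have f1 : W * (b ^ 2 * (Cs * ρ ^ 2)) ≤ Cw * Cs * ρ ^ 31 * T := by
    calc _ ≤ Cw * ρ ^ 11 * (l * L ^ 2 * Y) * (b ^ 2 * (Cs * ρ ^ 2)) := by gcongr
      _ = Cw * Cs * ρ ^ 13 * (l * L ^ 2 * Y * b ^ 2) := by ring
      _ ≤ _ := by gcongr
  have f2 : Cp * ρ ^ 4 * (Co * ρ ^ 27 * (L * (F * A)) * (1 + |u|) ^ J) ≤ Cp * Co * ρ ^ 31 * T := by
    calc _ = Cp * Co * ρ ^ 31 * (L * (F * A) * (1 + |u|) ^ J) := by ring
      _ ≤ _ := by gcongr
  have f3 : Cp * (R ^ 2)⁻¹ * (W * (7 * R * b) ^ 2) ≤ Cp * (49 * Cw) * ρ ^ 31 * T := by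
    calc _ ≤ Cp * (R ^ 2)⁻¹ * (Cw * ρ ^ 11 * (l * L ^ 2 * Y) * (7 * R * b) ^ 2) := by gcongr
      _ = Cp * (49 * Cw) * ρ ^ 11 * (l * L ^ 2 * Y * b ^ 2) := by field_simp; ring
      _ ≤ _ := by gcongr
  have f4 := mul_le_mul_of_nonneg_left d2 (by positivity : 0 ≤ Cp * (R ^ 2)⁻¹)
  calc _ ≤ _ := b1
    _ ≤ Ce * ρ ^ 2 * ((Cw * Cs + Cp * Co + Cp * (49 * Cw)) * ρ ^ 31 * T) := by
        refine mul_le_mul_of_nonneg_left (b3.trans ?_) (by positivity)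
        linarith
    _ = _ := by rw [hT]; ring

end GC

/-- **Core estimate.** -/
theorem gcore {M : O} (hM : Adm M) {ε : ℝ} (hε : 0 < ε) (J : ℕ) : ∃ C : ℝ, 0 < C ∧
    ∀ (R A Q L₁ L₂ l b F : ℝ) (β c₁ c₂ : O → ℂ) (Φ : ℝ → O → ℝ), 1 ≤ A → 1 ≤ Q → 1 ≤ L₁ → 1 ≤ L₂ →
      1 ≤ l → 1 ≤ b → 0 ≤ F → A ≤ R → l * (Q * L₁ * L₂) ^ 7 ≤ R →
      Supp M Q β → Supp M L₁ c₁ → Supp M L₂ c₂ →
      (∀ n, ‖β n‖ ≤ b) → (∀ n, ‖c₁ n‖ ≤ 1) → (∀ n, ‖c₂ n‖ ≤ 1) → (∀ v a, 0 ≤ Φ v a) →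
      H1 M R Q (A / l) β Φ → H2 A (A / l) (l * max L₁ L₂ ^ 6) F J Φ →
      Dq M R 5 (tri M R β c₁ c₂) A ≤ C * R ^ ε * (Q * L₁ * L₂) *
        (b ^ 2 * (A + l * (Q * L₁ * L₂) * (max L₁ L₂ ^ 4 * min L₁ L₂)) + F * A) := by
  classical
  have := finite_chr hM.1
  have : Fintype (Chr M) := Fintype.ofFinite _
  set σ : ℝ := min (ε / 100) (1 / 8) with hσ'
  have hσ : 0 < σ := lt_min (by positivity) (by norm_num)
  have hσ8 : σ ≤ 1 / 8 := min_le_right _ _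
  have hσε : σ ≤ ε / 100 := min_le_left _ _
  obtain ⟨Cp, hCp, hp⟩ := poisson_family hM hσ (by linarith) J (9 / σ)
  obtain ⟨Ct, hCt, ht⟩ := norm_tri_le hσ
  obtain ⟨Cd, hCd, hd⟩ := dual_tri_le hM hσ
  obtain ⟨Ch, hCh, hh⟩ := GC.half hM hσ hσ8 J
  refine ⟨7 * Ct ^ 2 + Cp * (Cd * (2 * Ch)) + Cp * (49 * Ct ^ 2), by positivity, ?_⟩
  intro R A Q L₁ L₂ l b F β c₁ c₂ Φ hA hQ hL₁ hL₂ hl hb1 hF hAR hLR hβ hc₁ hc₂ hb hb₁ hb₂ hΦ h1 h2
  set L := Q * L₁ * L₂ with hL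
  have hR : 1 ≤ R := hA.trans hAR
  have hR0 : 0 ≤ R := by linarith
  have hL1 : 1 ≤ L := one_le_mul_of_one_le_of_one_le (by nlinarith) hL₂
  have hLR' : L ≤ R := by
    have a2 : L ≤ L ^ 7 := le_self_pow₀ hL1 (by norm_num)
    have a3 : L ^ 7 ≤ l * L ^ 7 := le_mul_of_one_le_left (by positivity) hl
    linarith
  have hΛ : 1 ≤ R ^ σ := Real.one_le_rpow hR hσ.le
  have e4 : R ^ (4 * σ) = (R ^ σ) ^ 4 := by
    rw [← Real.rpow_mul_natCast hR0]; congr 1; push_cast; ring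
  have e10 : R ^ (10 * σ) = (R ^ σ) ^ 10 := by
    rw [← Real.rpow_mul_natCast hR0]; congr 1; push_cast; ring
  have hε' : (R ^ σ) ^ 47 ≤ R ^ ε := by
    rw [← Real.rpow_mul_natCast hR0]
    exact Real.rpow_le_rpow_of_exponent_le hR (by push_cast; linarith)
  set Y := max L₁ L₂ ^ 4 * min L₁ L₂ with hY
  have hm0 : 0 ≤ min L₁ L₂ := le_min (by linarith) (by linarith)
  have hY0 : 0 ≤ Y := by positivity
  have hsupp := supp_tri (R := R) hβ hc₁ hc₂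
  have hOD : ∀ (ψ : Chr M) (u : ℝ), OD M R 5 1 (tri M R β c₁ c₂) A L (R ^ σ) ψ
      (-(1 / 2) + σ + u * Complex.I) ≤ Cd * (2 * Ch) * (R ^ σ) ^ 43 *
        (L * (b ^ 2 * (l * L * Y) + F * A)) * (1 + |u|) ^ J := by
    intro ψ u
    have a1 := hh R L A Q L₁ L₂ l b F _ Y u β Φ hR hA hQ hL₁ hL₂ hl hF hAR rfl hLR hβ hb hΦ h1 h2
      (by gcongr; exact le_max_left _ _) (by rw [hY]; gcongr; exact le_max_left _ _)
    have a2 := hh R L A Q L₂ L₁ l b F _ Y u β Φ hR hA hQ hL₂ hL₁ hl hF hAR (by rw [hL]; ring) hLR hβ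
      hb hΦ h1 h2 (by gcongr; exact le_max_right _ _)
      (by rw [hY, min_comm L₂]; gcongr; exact le_max_right _ _)
    set w : ℂ := -(1 / 2) + σ + u * Complex.I with hw
    have hre : w.re = -(1 / 2) + σ := by simp [hw]
    calc _ ≤ Cd * (R ^ σ) ^ 10 * (∑ g ∈ sp M R, ∑ e ∈ pdiv g, ∑ h ∈ sp M R, A / (nr e * nr h) *
            ∑ k ∈ rows (GC.K0 (R ^ σ) L A g e), GC.term M R Q L₁ L₂ β w g e h k +
          ∑ g ∈ sp M R, ∑ e ∈ pdiv g, ∑ h ∈ sp M R, A / (nr e * nr h) *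
            ∑ k ∈ rows (GC.K0 (R ^ σ) L A g e), GC.term M R Q L₂ L₁ β w g e h k) := by
          unfold OD
          rw [← Finset.sum_add_distrib, Finset.mul_sum]
          refine Finset.sum_le_sum fun g hg => ?_
          rw [← Finset.sum_add_distrib, Finset.mul_sum]
          refine Finset.sum_le_sum fun e _ => ?_
          rw [← Finset.sum_add_distrib, Finset.mul_sum]
          refine Finset.sum_le_sum fun h hh' => ?_
          rw [← mul_add, ← Finset.sum_add_distrib, mul_left_comm]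
          refine mul_le_mul_of_nonneg_left ?_ (by positivity)
          rw [Finset.mul_sum]
          refine Finset.sum_le_sum fun k _ => ?_
          refine (hd R Q L₁ L₂ β c₁ c₂ g e h k ψ w hR hβ hc₁ hc₂ hLR' hQ hL₁ hL₂ hb₁ hb₂ hg hh'
            hre.le).trans ?_
          rw [e10]
          refine mul_le_mul_of_nonneg_left ?_ (by positivity)
          refine (GC.sum_split Q L₁ L₂ (g * h) _ fun u => by positivity).trans
            (add_le_add (le_of_eq rfl) (le_of_eq ?_))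
          unfold GC.term
          refine Finset.sum_congr rfl fun u _ => Finset.sum_congr rfl fun ψ' _ => ?_
          rw [Finset.sum_comm]
          refine Finset.sum_congr rfl fun za _ => Finset.sum_congr rfl fun zb _ => ?_
          rw [mul_comm za zb]
      _ ≤ Cd * (R ^ σ) ^ 10 * (Ch * (R ^ σ) ^ 33 * (L * (b ^ 2 * (l * L * Y) + F * A)) *
            (1 + |u|) ^ J + Ch * (R ^ σ) ^ 33 * (L * (b ^ 2 * (l * L * Y) + F * A)) *
            (1 + |u|) ^ J) := mul_le_mul_of_nonneg_left (add_le_add a1 a2) (by positivity)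
      _ = _ := by ring
  have b1 := hp (I := Unit) {()} (fun _ => 1) (fun _ => tri M R β c₁ c₂) (fun _ => A) (fun _ => L)
    5 1 R (R ^ σ) (Cd * (2 * Ch) * (R ^ σ) ^ 43 * (L * (b ^ 2 * (l * L * Y) + F * A)))
    (Or.inr ⟨rfl, rfl⟩) hR hΛ (fun _ _ => zero_le_one)
    (fun _ _ => ⟨hsupp, hLR', (inv_le_one_of_one_le₀ hR).trans hA, by nlinarith⟩)
    (fun ψ u => by rw [Finset.sum_singleton, one_mul]; exact hOD ψ u)
  simp only [Finset.sum_singleton, one_mul] at b1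
  rw [e4, mul_assoc Cp (R ^ (7 : ℝ)), GC.tail_eq hR hσ] at b1
  have c0 : ∀ n ∈ sp M R, ‖tri M R β c₁ c₂ n‖ ≤ Ct * R ^ σ * b := by
    intro n hn
    obtain ⟨-, hn0, hn1, hnR⟩ := GC.of_mem_sp hR0 hn
    refine (ht M R b β c₁ c₂ hb hb₁ hb₂ n hn0).trans ?_
    gcongr
  have c1 : ∑ n ∈ sp M R, ‖tri M R β c₁ c₂ n‖ ^ 2 ≤ 7 * L * (Ct * R ^ σ * b) ^ 2 := by
    rw [← Finset.sum_filter_of_ne (p := fun n => n ∈ sp M L) (fun n _ hne =>
      (LS2.mem_sp (by linarith)).2 (hsupp n fun h0 => hne (by rw [h0]; simp)))]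
    refine GC.sum_le_card_mul _ _ (by positivity) (le_trans ?_ (GC.card_sp_le M (by linarith)))
      fun n hn => pow_le_pow_left₀ (norm_nonneg _) (c0 n (Finset.mem_filter.1 hn).1) 2
    exact_mod_cast Finset.card_le_card fun n hn => (Finset.mem_filter.1 hn).2
  have c2 : ∑ n ∈ sp M R, ‖tri M R β c₁ c₂ n‖ ≤ 7 * R * (Ct * R ^ σ * b) :=
    GC.sum_le_card_mul _ _ (by positivity) (GC.card_sp_le M hR0) c0
  set ρ := R ^ σ with hρ
  set T := L * (b ^ 2 * (A + l * L * Y) + F * A) with hT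
  have t1 : L * (b ^ 2 * A) ≤ T := by
    calc L * (b ^ 2 * A) = L * (b ^ 2 * (A + 0) + 0) := by ring
      _ ≤ T := by rw [hT]; gcongr <;> positivity
  have t2 : L * (b ^ 2 * (l * L * Y) + F * A) ≤ T := by
    calc _ = L * (b ^ 2 * (0 + l * L * Y) + F * A) := by ring
      _ ≤ T := by rw [hT]; gcongr; linarith
  have t3 : b ^ 2 ≤ T := by
    refine le_trans ?_ t1
    calc b ^ 2 = 1 * (b ^ 2 * 1) := by ring
      _ ≤ _ := by gcongr
  have hT0 : 0 ≤ T := le_trans (by positivity) t3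
  have p1 : ρ ^ 2 ≤ R ^ ε := (pow_le_pow_right₀ hΛ (by norm_num)).trans hε'
  have f1 : A * ∑ n ∈ sp M R, ‖tri M R β c₁ c₂ n‖ ^ 2 ≤ 7 * Ct ^ 2 * R ^ ε * T := by
    calc _ ≤ A * (7 * L * (Ct * ρ * b) ^ 2) := by gcongr
      _ = 7 * Ct ^ 2 * ρ ^ 2 * (L * (b ^ 2 * A)) := by ring
      _ ≤ _ := by gcongr
  have f2 : Cp * ρ ^ 4 * (Cd * (2 * Ch) * ρ ^ 43 * (L * (b ^ 2 * (l * L * Y) + F * A))) ≤
      Cp * (Cd * (2 * Ch)) * R ^ ε * T := by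
    calc _ = Cp * (Cd * (2 * Ch)) * ρ ^ 47 * (L * (b ^ 2 * (l * L * Y) + F * A)) := by ring
      _ ≤ _ := by gcongr
  have f3 : Cp * (R ^ 2)⁻¹ * (∑ n ∈ sp M R, ‖tri M R β c₁ c₂ n‖) ^ 2 ≤
      Cp * (49 * Ct ^ 2) * R ^ ε * T := by
    calc _ ≤ Cp * (R ^ 2)⁻¹ * (7 * R * (Ct * ρ * b)) ^ 2 := by gcongr
      _ = Cp * (49 * Ct ^ 2) * ρ ^ 2 * b ^ 2 := by field_simp; ring
      _ ≤ _ := by gcongr
  rw [mul_assoc _ L, ← hT]
  linarith

end Crest.Agent.R17
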