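import Crest.Agent.R17.M4P1

/-!
# Row 17, module M4, part Core: the splitting lemmas (auxiliary file A)

Copies `M4CA.tri`, `M4CA.back`, `M4CA.mid` of the definitions of `M4Core.lean` (definitionally equal)
and the easy lemmas about them.
-/

set_option autoImplicit false

noncomputable section

namespace Crest.Agent.R17

namespace M4CA

open scoped ComplexConjugate

open Classical in
/-- Copy of `tri`. -/
def tri (M : O) (R : ℝ) (β c₁ c₂ : O → ℂ) (n : O) : ℂ :=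
  if Squarefree n then
    ∑ v ∈ (sp M R ×ˢ sp M R ×ˢ sp M R).filter (fun v => v.1 * v.2.1 * v.2.2 = n),
      β v.1 * c₁ v.2.1 * c₂ v.2.2
  else 0

open Classical in
/-- Copy of `back`. -/
def back (M : O) (R : ℝ) (β : O → ℂ) (t T : O) (ψ : Chr M) (w : ℂ) (a : O) : ℂ :=
  ∑ s ∈ sp M R, if IsCoprime s T then β (t * s) * ev ψ s * (nr s : ℂ) ^ w * conj (sym s a) else 0

open Classical in
/-- Copy of `mid`. -/
def mid {M : O} (β : O → ℂ) (u₀ T r₀ : O) (ψ : Chr M) (w : ℂ) (s : O) : ℂ :=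
  if IsCoprime s T then β (u₀ * s) * ev ψ s * gam 5 s * sym s r₀ ^ 5 * (nr s : ℂ) ^ w else 0

theorem SP_of_mem {M n : O} {X : ℝ} (h : n ∈ sp M X) : SP M n := by
  classical
  rw [sp, Finset.mem_filter] at h
  exact h.2

theorem PO_of_mem {M n : O} (hM : Adm M) {X : ℝ} (h : n ∈ sp M X) : PO n :=
  PO.of_adm hM (SP_of_mem h).1 (SP_of_mem h).2.2

theorem mem_rows' {K : ℝ} (hK : 0 ≤ K) {k : O} : k ∈ rows K ↔ k ≠ 0 ∧ nr k ≤ K := by
  rw [rows, Finset.mem_erase, mem_ball, Nat.le_floor_iff hK]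

theorem supp_tri {M : O} {R Q L₁ L₂ : ℝ} {β c₁ c₂ : O → ℂ} (hβ : Supp M Q β) (h1 : Supp M L₁ c₁)
    (h2 : Supp M L₂ c₂) : Supp M (Q * L₁ * L₂) (tri M R β c₁ c₂) := by
  classical
  intro n hn
  unfold tri at hn
  split_ifs at hn with hs
  · obtain ⟨v, hv, hne⟩ := Finset.exists_ne_zero_of_sum_ne_zero hn
    rw [Finset.mem_filter] at hv
    obtain ⟨a1, a2⟩ := hβ _ (left_ne_zero_of_mul (left_ne_zero_of_mul hne))
    obtain ⟨b1, b2⟩ := h1 _ (right_ne_zero_of_mul (left_ne_zero_of_mul hne))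
    obtain ⟨d1, d2⟩ := h2 _ (right_ne_zero_of_mul hne)
    refine ⟨⟨?_, hs, ?_⟩, ?_⟩
    · rw [← hv.2]; exact (a1.1.mul b1.1).mul d1.1
    · rw [← hv.2]; exact (a1.2.2.mul_left b1.2.2).mul_left d1.2.2
    · rw [← hv.2, nr_mul, nr_mul]
      have e1 : 0 ≤ nr v.1 := Nat.cast_nonneg _
      have e2 : 0 ≤ nr v.2.1 := Nat.cast_nonneg _
      have e3 : 0 ≤ nr v.2.2 := Nat.cast_nonneg _
      exact mul_le_mul (mul_le_mul a2 b2 e2 (e1.trans a2)) d2 e3
        (mul_nonneg (e1.trans a2) (e2.trans b2))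
  · exact absurd rfl hn

theorem tri_comm (M : O) (R : ℝ) (β c₁ c₂ : O → ℂ) : tri M R β c₁ c₂ = tri M R β c₂ c₁ := by
  classical
  funext n
  unfold tri
  split_ifs with hs
  · refine Finset.sum_nbij' (fun v => (v.1, v.2.2, v.2.1)) (fun v => (v.1, v.2.2, v.2.1))
      ?_ ?_ ?_ ?_ ?_
    · intro v hv
      simp only [Finset.mem_filter, Finset.mem_product] at hv ⊢
      refine ⟨⟨hv.1.1, hv.1.2.2, hv.1.2.1⟩, ?_⟩
      rw [← hv.2]; ring
    · intro v hv
      simp only [Finset.mem_filter, Finset.mem_product] at hv ⊢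
      refine ⟨⟨hv.1.1, hv.1.2.2, hv.1.2.1⟩, ?_⟩
      rw [← hv.2]; ring
    · intro v _; rfl
    · intro v _; rfl
    · intro v _; ring
  · rfl

theorem norm_tri_le {ε : ℝ} (hε : 0 < ε) : ∃ C : ℝ, 0 < C ∧ ∀ (M : O) (R b : ℝ) (β c₁ c₂ : O → ℂ),
    (∀ n, ‖β n‖ ≤ b) → (∀ n, ‖c₁ n‖ ≤ 1) → (∀ n, ‖c₂ n‖ ≤ 1) → ∀ n, n ≠ 0 →
    ‖tri M R β c₁ c₂ n‖ ≤ C * nr n ^ ε * b := by
  classical
  obtain ⟨C, hC, hd⟩ := card_pdiv_le (half_pos hε)
  refine ⟨C ^ 2, by positivity, fun M R b β c₁ c₂ hβ h1 h2 n hn => ?_⟩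
  have hb : 0 ≤ b := (norm_nonneg _).trans (hβ 0)
  have hn0 : 0 < nr n := nr_pos hn
  unfold tri
  split_ifs with hs
  · set S := (sp M R ×ˢ sp M R ×ˢ sp M R).filter (fun v => v.1 * v.2.1 * v.2.2 = n) with hS
    have hcard : S.card ≤ (pdiv n ×ˢ pdiv n).card := by
      refine Finset.card_le_card_of_injOn (fun v => (v.1, v.2.1)) ?_ ?_
      · intro v hv
        rw [Finset.mem_coe, hS, Finset.mem_filter, Finset.mem_product, Finset.mem_product] at hv
        rw [Finset.mem_coe, Finset.mem_product, mem_pdiv hn, mem_pdiv hn]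
        refine ⟨⟨(SP_of_mem hv.1.1).1, ?_⟩, (SP_of_mem hv.1.2.1).1, ?_⟩
        · exact ⟨v.2.1 * v.2.2, by rw [← hv.2]; ring⟩
        · exact ⟨v.1 * v.2.2, by rw [← hv.2]; ring⟩
      · intro v hv v' hv' h
        rw [Finset.mem_coe, hS, Finset.mem_filter] at hv hv'
        simp only [Prod.mk.injEq] at h
        have h3 : v.2.2 = v'.2.2 := by
          have e := hv.2.trans hv'.2.symm
          rw [← h.1, ← h.2] at e
          have : v.1 * v.2.1 ≠ 0 := by
            intro h0; apply hn; rw [← hv.2, h0, zero_mul]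
          exact mul_left_cancel₀ this e
        exact Prod.ext h.1 (Prod.ext h.2 h3)
    have h3 : ‖∑ v ∈ S, β v.1 * c₁ v.2.1 * c₂ v.2.2‖ ≤ S.card * b := by
      refine (norm_sum_le _ _).trans ?_
      rw [← nsmul_eq_mul]
      refine Finset.sum_le_card_nsmul _ _ _ fun v _ => ?_
      rw [norm_mul, norm_mul]
      calc ‖β v.1‖ * ‖c₁ v.2.1‖ * ‖c₂ v.2.2‖ ≤ b * 1 * 1 := by
            gcongr
            · exact hβ _
            · exact h1 _
            · exact h2 _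
        _ = b := by ring
    refine h3.trans (mul_le_mul_of_nonneg_right ?_ hb)
    have h4 : (S.card : ℝ) ≤ ((pdiv n).card : ℝ) ^ 2 := by
      rw [Finset.card_product] at hcard
      rw [sq]; exact_mod_cast hcard
    refine h4.trans ?_
    have h5 : nr n ^ ε = (nr n ^ (ε / 2)) ^ 2 := by
      rw [← Real.rpow_natCast, ← Real.rpow_mul hn0.le]; norm_num
    rw [h5, ← mul_pow]
    exact pow_le_pow_left₀ (Nat.cast_nonneg _) (hd n hn) 2
  · rw [norm_zero]; positivity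

theorem rowS_mid_move {M : O} (hM : Adm M) (R : ℝ) (β : O → ℂ) (u₀ T r₀ z k : O) (ψ : Chr M)
    (w : ℂ) : rowS M R 1 (mid β u₀ T (r₀ * z ^ 2) ψ w) k =
      rowS M R 1 (mid β u₀ T r₀ ψ w) (k * z ^ 4) := by
  classical
  unfold rowS
  refine Finset.sum_congr rfl fun n hn => ?_
  have hpo := PO_of_mem hM hn
  unfold mid
  split_ifs with hc
  · rw [sym_mul_right hpo, sym_mul_right hpo, sym_pow_right hpo, sym_pow_right hpo, mul_pow,
      ← pow_mul]
    have := sym_pow_add_six hpo.1 z (j := 4) (by norm_num)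
    norm_num at this ⊢
    rw [this]; ring
  · simp

theorem embed_rows {ε : ℝ} (hε : 0 < ε) : ∃ C : ℝ, 0 < C ∧ ∀ (M : O) (K L K' : ℝ) (f : O → ℝ),
    (∀ k, 0 ≤ f k) → 1 ≤ K → 1 ≤ L → K * L ^ 4 ≤ K' →
    (Summable fun k => gw (nr k / K') * f k) →
    ∑ z ∈ sp M L, ∑ k ∈ rows K, f (k * z ^ 4) ≤ C * K' ^ ε * ∑' k, gw (nr k / K') * f k := by
  classical
  obtain ⟨C, hC, hd⟩ := card_pdiv_le hε
  have hg1 : 0 < gw 1 := Real.exp_pos _
  refine ⟨C / gw 1, by positivity, fun M K L K' f hf hK hL hK' hs => ?_⟩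
  have hL4 : 1 ≤ L ^ 4 := one_le_pow₀ hL
  have hK1 : 1 ≤ K' := le_trans (by nlinarith) hK'
  have hK0 : 0 < K' := by linarith
  rw [← Finset.sum_product' (s := sp M L) (t := rows K) (f := fun z k => f (k * z ^ 4))]
  have hmap : ∀ x ∈ sp M L ×ˢ rows K, x.2 * x.1 ^ 4 ∈ rows K' := by
    intro x hx
    rw [Finset.mem_product, LS2.mem_sp (by linarith), mem_rows' (by linarith)] at hx
    rw [mem_rows' hK0.le]
    refine ⟨mul_ne_zero hx.2.1 (pow_ne_zero _ hx.1.1.1.ne_zero), ?_⟩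
    rw [nr_mul, nr_pow]
    refine le_trans ?_ hK'
    have e1 : 0 ≤ nr x.1 := Nat.cast_nonneg _
    exact mul_le_mul hx.2.2 (pow_le_pow_left₀ e1 hx.1.2 4) (by positivity) (by linarith)
  rw [← Finset.sum_fiberwise_of_maps_to hmap]
  have h1 : ∀ a ∈ rows K', ∑ x ∈ (sp M L ×ˢ rows K).filter (fun x => x.2 * x.1 ^ 4 = a),
      f (x.2 * x.1 ^ 4) ≤ C / gw 1 * K' ^ ε * (gw (nr a / K') * f a) := by
    intro a ha
    rw [mem_rows' hK0.le] at ha
    set S := (sp M L ×ˢ rows K).filter (fun x => x.2 * x.1 ^ 4 = a) with hS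
    have e1 : ∑ x ∈ S, f (x.2 * x.1 ^ 4) = S.card * f a := by
      rw [← nsmul_eq_mul, ← Finset.sum_const]
      refine Finset.sum_congr rfl fun x hx => ?_
      rw [(Finset.mem_filter.1 hx).2]
    have e2 : S.card ≤ (pdiv a).card := by
      refine Finset.card_le_card_of_injOn (fun x => x.1) ?_ ?_
      · intro x hx
        rw [Finset.mem_coe, hS, Finset.mem_filter, Finset.mem_product] at hx
        rw [Finset.mem_coe, mem_pdiv ha.1]
        exact ⟨(SP_of_mem hx.1.1).1, ⟨x.2 * x.1 ^ 3, by rw [← hx.2]; ring⟩⟩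
      · intro x hx x' hx' h
        rw [Finset.mem_coe, hS, Finset.mem_filter, Finset.mem_product] at hx hx'
        simp only at h
        refine Prod.ext h ?_
        have e := hx.2.trans hx'.2.symm
        rw [← h] at e
        exact mul_right_cancel₀ (pow_ne_zero _ (SP_of_mem hx.1.1).1.ne_zero) e
    have e3 : (S.card : ℝ) ≤ C * K' ^ ε := by
      refine le_trans (by exact_mod_cast e2) ((hd a ha.1).trans ?_)
      exact mul_le_mul_of_nonneg_left (Real.rpow_le_rpow (Nat.cast_nonneg _) ha.2 hε.le) hC.le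
    have e4 : gw 1 ≤ gw (nr a / K') := by
      unfold gw
      apply Real.exp_le_exp.2
      have : nr a / K' ≤ 1 := (div_le_one hK0).2 ha.2
      have h2 : 0 < 2 * Real.pi / Real.sqrt 3 := by positivity
      nlinarith
    rw [e1]
    have e5 : 1 ≤ gw (nr a / K') / gw 1 := (one_le_div hg1).2 e4
    have e6 := hf a
    have e7 : 0 ≤ C * K' ^ ε := by positivity
    calc (S.card : ℝ) * f a ≤ C * K' ^ ε * f a := mul_le_mul_of_nonneg_right e3 e6
      _ ≤ C * K' ^ ε * f a * (gw (nr a / K') / gw 1) :=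
          le_mul_of_one_le_right (mul_nonneg e7 e6) e5
      _ = _ := by ring
  refine (Finset.sum_le_sum h1).trans ?_
  rw [← Finset.mul_sum]
  refine mul_le_mul_of_nonneg_left ?_ (by positivity)
  exact hs.sum_le_tsum _ fun k _ => mul_nonneg (Real.exp_pos _).le (hf k)

end M4CA

end Crest.Agent.R17
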