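import Crest.Agent.R17.M4CoreAuxA

/-!
# Row 17, module M4, part Core: the splitting lemmas (auxiliary file B)

The second dual row sum is a returning sum (`M4CA.dual_mid_le`).
-/

set_option autoImplicit false

noncomputable section

namespace Crest.Agent.R17

namespace M4CA

open scoped ComplexConjugate

theorem norm_Rs {m n : O} (hm : IsCoprime m 2) (hn : IsCoprime n 2) : ‖Rs m n‖ = 1 := by
  have h := congrArg norm (Rs_sq hm hn)
  rw [norm_pow, norm_one] at h
  have h0 := norm_nonneg (Rs m n)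
  nlinarith

theorem gam_mul5 {m n : O} (hm : PO m) (hn : PO n) (h : IsCoprime m n) :
    gam 5 (m * n) = Rs m n * sym n (m ^ 2) ^ 5 * gam 5 m * gam 5 n := by
  unfold gam
  rw [gs_mul 5 hm hn h, sym_recip hm hn, sym_pow_right hn, nr_mul,
    Real.sqrt_mul (Nat.cast_nonneg _), Complex.ofReal_mul]
  have h2 := Rs_sq hm.2 hn.2
  have h3 : Rs m n ^ 5 = Rs m n := by
    calc Rs m n ^ 5 = (Rs m n ^ 2) ^ 2 * Rs m n := by ring
      _ = Rs m n := by rw [h2]; ring
  rw [mul_pow, h3]
  ring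

theorem nr_cpow_mul (m n : O) (w : ℂ) :
    (nr (m * n) : ℂ) ^ w = (nr m : ℂ) ^ w * (nr n : ℂ) ^ w := by
  rw [nr_mul, Complex.ofReal_mul,
    Complex.mul_cpow_ofReal_nonneg (Nat.cast_nonneg _) (Nat.cast_nonneg _)]

theorem norm_nr_cpow {n : O} (hn : n ≠ 0) (w : ℂ) : ‖(nr n : ℂ) ^ w‖ = nr n ^ w.re :=
  Complex.norm_cpow_eq_rpow_re_of_pos (nr_pos hn) w

theorem nr_cpow_add {n : O} (hn : n ≠ 0) (w w' : ℂ) :
    (nr n : ℂ) ^ (w + w') = (nr n : ℂ) ^ w * (nr n : ℂ) ^ w' :=
  Complex.cpow_add _ _ (Complex.ofReal_ne_zero.2 (nr_pos hn).ne')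

theorem coprime_two {M n : O} (hM : Adm M) (h : IsCoprime n M) : IsCoprime n 2 :=
  h.of_isCoprime_of_dvd_right (Dvd.dvd.trans ⟨36, by norm_num⟩ hM.2)

theorem four_dvd {M x : O} (hM : Adm M) (h : M ∣ x) : (4 : O) ∣ x :=
  (Dvd.dvd.trans ⟨18, by norm_num⟩ hM.2).trans h

theorem class_expand {M : O} (hM : Adm M) [Fintype (Chr M)] (φ : O → ℂ)
    (h1 : ∀ n, IsCoprime n M → ‖φ n‖ ≤ 1) (h2 : ∀ n n', M ∣ n - n' → φ n = φ n') :
    ∃ b : Chr M → ℂ, (∀ ν, ‖b ν‖ ≤ 1) ∧ ∀ n, IsCoprime n M → φ n = ∑ ν, b ν * ev ν n := by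
  classical
  have hP : PerB M (fun n => if IsCoprime n M then φ n else 0) := by
    refine ⟨fun n => ?_, fun n n' h => ?_, fun n h => if_neg h⟩
    · dsimp only
      split_ifs with hc
      · exact h1 n hc
      · simp
    · have : IsCoprime n M ↔ IsCoprime n' M := by
        obtain ⟨c, hc⟩ := h
        have e : n = n' + M * c := by rw [← hc]; ring
        rw [e]
        exact IsCoprime.add_mul_left_left_iff
      dsimp only
      rw [h2 n n' h]
      exact if_congr this rfl rfl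
  obtain ⟨b, hb, hb'⟩ := hP.expand hM.1
  refine ⟨b, hb, fun n hn => ?_⟩
  have := hb' n
  rwa [if_pos hn] at this

theorem cs {ι' : Type*} (s : Finset ι') (a x : ι' → ℂ) :
    ‖∑ i ∈ s, a i * x i‖ ^ 2 ≤ (∑ i ∈ s, ‖a i‖ ^ 2) * ∑ i ∈ s, ‖x i‖ ^ 2 := by
  refine le_trans ?_ (Finset.sum_mul_sq_le_sq_mul_sq s (fun i => ‖a i‖) fun i => ‖x i‖)
  refine pow_le_pow_left₀ (norm_nonneg _) ((norm_sum_le _ _).trans (le_of_eq ?_)) 2
  exact Finset.sum_congr rfl fun i _ => norm_mul _ _

theorem sym_exp {n e e' h r₀ m : O} (hn : PO n) (he : IsCoprime n e) (hh : IsCoprime n h) :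
    sym n ((e * e' * h) ^ 2) ^ 5 * sym n (e * h ^ 2) * sym n r₀ ^ 5 * sym n m ^ 5 =
      conj (sym n (m * r₀ * (e * e' * e'))) := by
  rw [conj_sym hn.1]
  simp only [sym_mul_right hn, sym_pow_right hn]
  have h1 := sym_pow_six hn.1 he
  have h2 := sym_pow_six hn.1 hh
  calc _ = (sym n e ^ 6) * (sym n h ^ 6) ^ 2 *
        (sym n m * sym n r₀ * (sym n e * sym n e' * sym n e')) ^ 5 := by ring
    _ = _ := by rw [h1, h2]; ring

theorem dual_mid_le {M : O} (hM : Adm M) [Fintype (Chr M)] :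
    ∃ C : ℝ, 0 < C ∧ ∀ (R Q : ℝ) (β : O → ℂ) (u₀ T r₀ g e h m : O) (ψ ψ' : Chr M) (w w' : ℂ),
      Supp M Q β → Primary u₀ → g ∈ sp M R → h ∈ sp M R → e ∈ pdiv g →
      ‖rowS M R 5 (dualC 1 (mid β u₀ T r₀ ψ w) g e h ψ' w') m‖ ^ 2 ≤
        C * (nr g * nr h) ^ (2 * w.re) * ∑ ψ'' : Chr M,
          ‖back M R β (u₀ * g * h) (T * g * h) ψ'' (w + w') (m * r₀ * (g * (g / e)))‖ ^ 2 := by
  classical
  have : Nonempty (Chr M) := ⟨1⟩
  refine ⟨Fintype.card (Chr M), by exact_mod_cast Fintype.card_pos, ?_⟩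
  intro R Q β u₀ T r₀ g e h m ψ ψ' w w' hβ hu hg hh he
  have hgpo := PO_of_mem hM hg
  have hhpo := PO_of_mem hM hh
  have hg0 : g ≠ 0 := hgpo.1.ne_zero
  have hh0 : h ≠ 0 := hhpo.1.ne_zero
  have ht : PO (g * h) := hgpo.mul hhpo
  have ht0 : g * h ≠ 0 := mul_ne_zero hg0 hh0
  rw [mem_pdiv hg0] at he
  obtain ⟨he1, e', hee'⟩ := he
  have hdiv : g / e = e' := by
    rw [hee']; exact mul_div_cancel_left₀ e' he1.ne_zero
  by_cases hc : Squarefree (g * h) ∧ IsCoprime (g * h) T
  · obtain ⟨b, hb, hb'⟩ := class_expand hM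
      (fun n => Rs (g * h) n * Rs n n * ev ψ n * ev ψ' n) (fun n hn => by
        have h2 := coprime_two hM hn
        rw [norm_mul, norm_mul, norm_mul, norm_Rs ht.2 h2, norm_Rs h2 h2, norm_ev hM.1 _ hn,
          norm_ev hM.1 _ hn]; norm_num) (fun n n' hn => by
        rw [Rs_congr (m := g * h) (m' := g * h) (by simp) (four_dvd hM hn),
          Rs_congr (four_dvd hM hn) (four_dvd hM hn), ev_congr ψ hn, ev_congr ψ' hn])
    set κ : ℂ := ev ψ (g * h) * gam 5 (g * h) * sym (g * h) r₀ ^ 5 * (nr (g * h) : ℂ) ^ w with hκ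
    have key : rowS M R 5 (dualC 1 (mid β u₀ T r₀ ψ w) g e h ψ' w') m =
        κ * ∑ ν : Chr M, b ν *
          back M R β (u₀ * g * h) (T * g * h) ν (w + w') (m * r₀ * (g * (g / e))) := by
      unfold back rowS
      simp only [Finset.mul_sum]
      rw [Finset.sum_comm]
      refine Finset.sum_congr rfl fun n hn => ?_
      have hnpo := PO_of_mem hM hn
      have hnsp := SP_of_mem hn
      have hn0 : n ≠ 0 := hnpo.1.ne_zero
      unfold dualC mid
      by_cases h0 : β (u₀ * g * h * n) = 0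
      · have h0' : β (u₀ * (g * h * n)) = 0 := by rw [← h0]; congr 1; ring
        simp [h0, h0']
      have hsq := (hβ _ h0).1.2.1
      have hcop : IsCoprime (g * h) n := by
        have e1 : u₀ * g * h * n = u₀ * (g * h * n) := by ring
        rw [e1] at hsq
        exact (IsRelPrime.of_squarefree_mul (Squarefree.of_mul_right hsq)).isCoprime
      have hiff : IsCoprime (g * h * n) T ↔ IsCoprime n (T * g * h) := by
        constructor
        · intro h1
          rw [mul_assoc]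
          exact h1.of_mul_left_right.mul_right hcop.symm
        · intro h1
          exact hc.2.mul_left h1.of_mul_right_left.of_mul_right_left
      by_cases h1 : IsCoprime n (T * g * h)
      · rw [if_pos (hiff.2 h1)]
        simp only [if_pos h1]
        have e2 : ∑ ν : Chr M, κ * (b ν * (β (u₀ * g * h * n) * ev ν n * (nr n : ℂ) ^ (w + w') *
              conj (sym n (m * r₀ * (g * (g / e)))))) =
            κ * (β (u₀ * g * h * n) * (∑ ν : Chr M, b ν * ev ν n) * (nr n : ℂ) ^ (w + w') *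
              conj (sym n (m * r₀ * (g * (g / e))))) := by
          simp only [Finset.mul_sum, Finset.sum_mul]
          exact Finset.sum_congr rfl fun ν _ => by ring
        rw [e2, ← hb' n hnsp.2.2, hdiv, hκ]
        have e3 : u₀ * (g * h * n) = u₀ * g * h * n := by ring
        have e4 := gam_mul_gam (j := 1) (by norm_num) hnpo hnsp.2.1
        rw [pow_one, ← Rs_self hnpo, mul_one] at e4
        have hne : IsCoprime n e :=
          hcop.symm.of_mul_right_left.of_isCoprime_of_dvd_right ⟨e', hee'⟩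
        have e5 := sym_exp (e' := e') (r₀ := r₀) (m := m) hnpo hne hcop.symm.of_mul_right_right
        rw [← hee'] at e5
        rw [e3, gam_mul5 ht hnpo hcop, ev_mul, sym_mul_left ht0 hn0, nr_cpow_mul,
          nr_cpow_add hn0, ← e5, ← e4]
        ring
      · rw [if_neg (fun h2 => h1 (hiff.1 h2))]
        simp [h1]
    rw [key, norm_mul, mul_pow]
    have hκ1 : ‖κ‖ ^ 2 ≤ (nr g * nr h) ^ (2 * w.re) := by
      have : ‖κ‖ ≤ (nr g * nr h) ^ w.re := by
        rw [hκ, norm_mul, norm_mul, norm_mul, norm_nr_cpow ht0, norm_gam (by norm_num) ht hc.1,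
          nr_mul, norm_pow]
        have a1 := norm_ev_le hM.1 ψ (g * h)
        have a2 : ‖sym (g * h) r₀‖ ^ 5 ≤ 1 := pow_le_one₀ (norm_nonneg _) (norm_sym_le _ _)
        refine mul_le_of_le_one_left (by positivity) ?_
        rw [mul_one]
        exact mul_le_one₀ a1 (by positivity) a2
      refine (pow_le_pow_left₀ (norm_nonneg _) this 2).trans (le_of_eq ?_)
      rw [← Real.rpow_natCast, ← Real.rpow_mul (by positivity)]
      congr 1; push_cast; ring
    have hcs := cs Finset.univ b fun ν =>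
      back M R β (u₀ * g * h) (T * g * h) ν (w + w') (m * r₀ * (g * (g / e)))
    have hb2 : ∑ ν : Chr M, ‖b ν‖ ^ 2 ≤ Fintype.card (Chr M) := by
      rw [← Finset.card_univ, ← mul_one ((Finset.univ : Finset (Chr M)).card : ℝ), ← nsmul_eq_mul]
      exact Finset.sum_le_card_nsmul _ _ _ fun ν _ => pow_le_one₀ (norm_nonneg _) (hb ν)
    have hS : 0 ≤ ∑ ν : Chr M,
        ‖back M R β (u₀ * g * h) (T * g * h) ν (w + w') (m * r₀ * (g * (g / e)))‖ ^ 2 :=
      Finset.sum_nonneg fun _ _ => by positivity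
    calc _ ≤ (nr g * nr h) ^ (2 * w.re) * ((Fintype.card (Chr M) : ℝ) * ∑ ν : Chr M,
        ‖back M R β (u₀ * g * h) (T * g * h) ν (w + w') (m * r₀ * (g * (g / e)))‖ ^ 2) :=
          mul_le_mul hκ1 (hcs.trans (mul_le_mul_of_nonneg_right hb2 hS)) (by positivity)
            (by positivity)
      _ = _ := by ring
  · have key : rowS M R 5 (dualC 1 (mid β u₀ T r₀ ψ w) g e h ψ' w') m = 0 := by
      unfold rowS
      refine Finset.sum_eq_zero fun n _ => ?_
      unfold dualC mid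
      split_ifs with h1
      · have h0 : β (u₀ * (g * h * n)) = 0 := by
          by_contra h0
          exact hc ⟨(Squarefree.of_mul_right (hβ _ h0).1.2.1).of_mul_left, h1.of_mul_left_left⟩
        simp [h0]
      · simp
    rw [key, norm_zero, zero_pow two_ne_zero]
    positivity

end M4CA

end Crest.Agent.R17
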