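import Crest.Agent.R17.LBasic

/-!
# Row 17, module M4, part Sup (auxiliary): dyadic decomposition, pointwise bounds for plain sums
-/

set_option autoImplicit false

noncomputable section

namespace Crest.Agent.R17.M4S

open Finset

open Classical in
/-- Dyadic decomposition. -/
theorem dyadic {ε : ℝ} (hε : 0 < ε) : ∃ K : ℝ, 0 < K ∧ ∀ {I : Type} (S : Finset I) (g f : I → ℝ)
    (Z B : ℝ), 1 ≤ Z → 0 ≤ B → (∀ a ∈ S, 1 ≤ g a ∧ g a ≤ Z) → (∀ a ∈ S, 0 ≤ f a) →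
    (∀ X : ℝ, 1 ≤ X → (∃ a ∈ S, X ≤ g a) →
      ∑ a ∈ S.filter (fun a => X ≤ g a ∧ g a ≤ 2 * X), f a ≤ B) →
    ∑ a ∈ S, f a ≤ K * Z ^ ε * B := by
  refine ⟨2 / ε + 1, by positivity, fun S g f Z B hZ hB hg hf h => ?_⟩
  have hex : ∀ a, ∃ n : ℕ, a ∈ S → (2 : ℝ) ^ n ≤ g a ∧ g a < 2 ^ (n + 1) := fun a => by
    by_cases ha : a ∈ S
    · obtain ⟨n, hn⟩ := exists_nat_pow_near (hg a ha).1 (one_lt_two (α := ℝ))
      exact ⟨n, fun _ => hn⟩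
    · exact ⟨0, fun h => (ha h).elim⟩
  choose idx hidx using hex
  have hZε : 1 ≤ Z ^ ε := Real.one_le_rpow hZ hε.le
  have hmaps : ∀ a ∈ S, idx a ∈ range (⌊2 / ε * Z ^ ε⌋₊ + 1) := fun a ha => by
    rw [mem_range, Nat.lt_succ_iff]
    refine Nat.le_floor ?_
    have h1 := Real.log_le_log (by positivity) ((hidx a ha).1.trans (hg a ha).2)
    rw [Real.log_pow] at h1
    have h2 := Real.log_le_rpow_div (zero_le_one.trans hZ) hε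
    have h3 := Real.log_two_gt_d9
    have h4 : (0 : ℝ) ≤ idx a := Nat.cast_nonneg _
    have h5 : 2 / ε * Z ^ ε = 2 * (Z ^ ε / ε) := by ring
    rw [h5]
    nlinarith
  rw [← sum_fiberwise_of_maps_to hmaps]
  refine (sum_le_card_nsmul _ _ B fun i _ => ?_).trans ?_
  · rcases (S.filter fun a => idx a = i).eq_empty_or_nonempty with he | ⟨a, ha⟩
    · rw [he, sum_empty]; exact hB
    · obtain ⟨ha1, rfl⟩ := mem_filter.1 ha
      refine le_trans (sum_le_sum_of_subset_of_nonneg (fun b hb => ?_)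
        fun b hb _ => hf b (mem_filter.1 hb).1)
        (h (2 ^ idx a) (one_le_pow₀ one_le_two) ⟨a, ha1, (hidx a ha1).1⟩)
      obtain ⟨hb1, hb2⟩ := mem_filter.1 hb
      have := hidx b hb1
      rw [hb2, pow_succ'] at this
      exact mem_filter.2 ⟨hb1, this.1, this.2.le⟩
  · rw [card_range, nsmul_eq_mul]
    refine mul_le_mul_of_nonneg_right ?_ hB
    push_cast
    have := Nat.floor_le (show 0 ≤ 2 / ε * Z ^ ε by positivity)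
    linarith

/-- The trivial bound. -/
theorem triv {M : O} (hM : Adm M) : ∃ C : ℝ, 0 < C ∧ ∀ (ν : Chr M) (a : O) (N : ℝ) (s : ℂ),
    0 < N → |s.re| ≤ 1 → ‖Pln ν a N s‖ ≤ C * N := by
  obtain ⟨C, hC, h⟩ := tsum_norm_Sm_le 0 0 1 le_rfl
  refine ⟨C, hC, fun ν a N s hN hs => ?_⟩
  have h1 := h (rc ν a) 1 N s (polyB_rc hM ν a) hN hs
  have h2 := norm_tsum_le_tsum_norm (summable_Sm (polyB_rc hM ν a) hN s)
  simp only [abs_zero, add_zero, zero_add, Real.rpow_one, min_self, mul_one] at h1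
  exact h2.trans h1

/-- Large scales. -/
theorem big {M : O} (hM : Adm M) : ∃ C : ℝ, 0 < C ∧ ∀ (ν : Chr M) (a : O) (A T N t : ℝ),
    ¬ Exc M a → nr a ≤ A → |t| ≤ T → A ^ 2 * (1 + T) ^ 3 ≤ N →
      ‖Pln ν a N (t * Complex.I)‖ ≤ C := by
  obtain ⟨C, hC, h⟩ := Pln_decay hM (ε := 1 / 4) (by norm_num) 0
  refine ⟨C, hC, fun ν a A T N t ha hA ht hN => ?_⟩
  have h1 : 1 ≤ nr a := one_le_nr (ne_zero_of_not_exc ha)
  have hA1 : 1 ≤ A := h1.trans hA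
  have ht0 := abs_nonneg t
  have hT1 : 1 ≤ 1 + T := by linarith
  have h2 : 1 ≤ A ^ 2 := one_le_pow₀ hA1
  have h3 : 1 + T ≤ (1 + T) ^ 3 := le_self_pow₀ hT1 (by norm_num)
  have h4 : 1 + T ≤ N := by nlinarith
  have hN1 : 1 ≤ N := hT1.trans h4
  have hN0 : 0 ≤ N := zero_le_one.trans hN1
  have him : ((t : ℂ) * Complex.I).im = t := by simp
  have hre : ((t : ℂ) * Complex.I).re = 0 := by simp
  have key := h N N (t * Complex.I) ν a hN1 ha ?_ le_rfl (by rw [hre]; norm_num)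
    (by rw [him]; linarith)
  · simpa using key
  rw [him]
  set u : ℝ := N ^ (1 / 4 : ℝ) with hu
  have hu0 : 0 ≤ u := Real.rpow_nonneg hN0 _
  have hu4 : u ^ 4 = N := by
    rw [hu, ← Real.rpow_natCast, ← Real.rpow_mul hN0]; norm_num
  have h5 : nr a * (1 + |t|) ^ 2 ≤ u ^ 3 := by
    refine le_of_pow_le_pow_left₀ (n := 4) (by norm_num) (by positivity) ?_
    calc (nr a * (1 + |t|) ^ 2) ^ 4 ≤ (A * (1 + T) ^ 2) ^ 4 := by gcongr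
      _ = A ^ 4 * (1 + T) ^ 8 := by ring
      _ ≤ A ^ 6 * (1 + T) ^ 9 := by gcongr <;> norm_num
      _ = (A ^ 2 * (1 + T) ^ 3) ^ 3 := by ring
      _ ≤ N ^ 3 := by gcongr
      _ = (u ^ 3) ^ 4 := by rw [← hu4]; ring
  calc nr a * u * (1 + |t|) ^ 2 = u * (nr a * (1 + |t|) ^ 2) := by ring
    _ ≤ u * u ^ 3 := by gcongr
    _ = N := by rw [← hu4]; ring

theorem one_le_R {A T : ℝ} (hA : 1 ≤ A) (hT : 0 ≤ T) : 1 ≤ A ^ 2 * (1 + T) ^ 3 :=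
  one_le_mul_of_one_le_of_one_le (one_le_pow₀ hA) (one_le_pow₀ (by linarith))

/-- Small and large scales. -/
theorem out {M : O} (hM : Adm M) : ∃ C : ℝ, 0 < C ∧ ∀ (ν : Chr M) (a : O) (A T N t : ℝ),
    ¬ Exc M a → nr a ≤ A → |t| ≤ T → 0 < N → (N ≤ 1 ∨ A ^ 2 * (1 + T) ^ 3 ≤ N) →
      ‖Pln ν a N (t * Complex.I)‖ ≤ C * Real.sqrt N := by
  obtain ⟨C₁, hC₁, h₁⟩ := triv hM
  obtain ⟨C₂, hC₂, h₂⟩ := big hM
  refine ⟨C₁ + C₂, by positivity, fun ν a A T N t ha hA ht hN h => ?_⟩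
  have hs := Real.sqrt_nonneg N
  rcases h with h | h
  · have h3 := h₁ ν a N (t * Complex.I) hN (by simp)
    have h4 : N ≤ Real.sqrt N := Real.le_sqrt_of_sq_le (by nlinarith)
    nlinarith
  · have h3 := h₂ ν a A T N t ha hA ht h
    have h4 : 1 ≤ Real.sqrt N := Real.one_le_sqrt.2 ((one_le_R
      ((one_le_nr (ne_zero_of_not_exc ha)).trans hA) ((abs_nonneg t).trans ht)).trans h)
    nlinarith

/-- All scales. -/
theorem pt {M : O} (hM : Adm M) : ∃ C : ℝ, 0 < C ∧ ∀ (ν : Chr M) (a : O) (A T N t : ℝ),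
    ¬ Exc M a → nr a ≤ A → |t| ≤ T → 0 < N →
      ‖Pln ν a N (t * Complex.I)‖ ≤ C * Real.sqrt (A ^ 2 * (1 + T) ^ 3) * Real.sqrt N := by
  obtain ⟨C₁, hC₁, h₁⟩ := triv hM
  obtain ⟨C₂, hC₂, h₂⟩ := out hM
  refine ⟨C₁ + C₂, by positivity, fun ν a A T N t ha hA ht hN => ?_⟩
  have hs := Real.sqrt_nonneg N
  have hR : 1 ≤ Real.sqrt (A ^ 2 * (1 + T) ^ 3) := Real.one_le_sqrt.2 (one_le_R
    ((one_le_nr (ne_zero_of_not_exc ha)).trans hA) ((abs_nonneg t).trans ht))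
  rcases le_total N (A ^ 2 * (1 + T) ^ 3) with h | h
  · calc ‖Pln ν a N (t * Complex.I)‖ ≤ C₁ * N := h₁ ν a N _ hN (by simp)
      _ = C₁ * Real.sqrt N * Real.sqrt N := by rw [mul_assoc, Real.mul_self_sqrt hN.le]
      _ ≤ (C₁ + C₂) * Real.sqrt (A ^ 2 * (1 + T) ^ 3) * Real.sqrt N := by
          gcongr; linarith
  · calc ‖Pln ν a N (t * Complex.I)‖ ≤ C₂ * Real.sqrt N := h₂ ν a A T N t ha hA ht hN (Or.inr h)
      _ = C₂ * 1 * Real.sqrt N := by rw [mul_one]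
      _ ≤ (C₁ + C₂) * Real.sqrt (A ^ 2 * (1 + T) ^ 3) * Real.sqrt N := by
          gcongr; linarith

theorem card_ball_floor {A : ℝ} (hA : 1 ≤ A) : ((ball ⌊A⌋₊).card : ℝ) ≤ 8 * A := by
  have h1 : ((ball ⌊A⌋₊).card : ℝ) ≤ 7 * ⌊A⌋₊ + 1 := by exact_mod_cast card_ball_le ⌊A⌋₊
  have h2 := Nat.floor_le (zero_le_one.trans hA)
  linarith

theorem sqrt_pow_four {y : ℝ} (hy : 0 ≤ y) : Real.sqrt y ^ 4 = y ^ 2 := by
  rw [show (4 : ℕ) = 2 * 2 from rfl, pow_mul, Real.sq_sqrt hy]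

theorem min_le_geom {u L : ℝ} (hu : 0 ≤ u) (hL : 0 ≤ L) :
    min u L ≤ u ^ (1 / 6 : ℝ) * L ^ (5 / 6 : ℝ) := by
  have h0 : 0 ≤ min u L := le_min hu hL
  calc min u L = min u L ^ (1 / 6 + 5 / 6 : ℝ) := by norm_num
    _ = min u L ^ (1 / 6 : ℝ) * min u L ^ (5 / 6 : ℝ) := Real.rpow_add' h0 (by norm_num)
    _ ≤ u ^ (1 / 6 : ℝ) * L ^ (5 / 6 : ℝ) := by
        gcongr
        exacts [min_le_left _ _, min_le_right _ _]

/-- The algebra of centring. -/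
theorem centre {P₁ P₂ P₃ P₄ w : ℂ} {y₁ y₂ y₃ y₄ Y D W : ℝ} (h₁ : 0 < y₁) (h₂ : 0 < y₂)
    (h₃ : 0 < y₃) (h₄ : 0 < y₄) (h : y₁ * y₂ = y₃ * y₄) (k₁ : y₁ ≤ Y) (k₂ : y₂ ≤ Y) (k₃ : y₃ ≤ Y)
    (k₄ : y₄ ≤ Y) (hY : 1 ≤ Y) (hD : 0 ≤ D) (hw : ‖w‖ ≤ W)
    (e₁ : ‖P₁ - y₁ * w‖ ≤ D * Real.sqrt y₁) (e₂ : ‖P₂ - y₂ * w‖ ≤ D * Real.sqrt y₂)
    (e₃ : ‖P₃ - y₃ * w‖ ≤ D * Real.sqrt y₃) (e₄ : ‖P₄ - y₄ * w‖ ≤ D * Real.sqrt y₄) :
    ‖P₁ * P₂ - P₃ * P₄‖ ≤ (4 * W * D + 2 * D ^ 2) * Real.sqrt Y * Real.sqrt (y₁ * y₂) := by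
  have hW : 0 ≤ W := (norm_nonneg _).trans hw
  have aux : ∀ (P Q : ℂ) (x y : ℝ), 0 < x → 0 < y → x ≤ Y → y ≤ Y →
      ‖P - x * w‖ ≤ D * Real.sqrt x → ‖Q - y * w‖ ≤ D * Real.sqrt y →
      ‖P * Q - ((x * y : ℝ) : ℂ) * w ^ 2‖ ≤
        (2 * W * D + D ^ 2) * Real.sqrt Y * Real.sqrt (x * y) := by
    intro P Q x y hx hy hxY hyY hP hQ
    have hid : P * Q - ((x * y : ℝ) : ℂ) * w ^ 2 =
        x * w * (Q - y * w) + y * w * (P - x * w) + (P - x * w) * (Q - y * w) := by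
      push_cast; ring
    have hsY : 1 ≤ Real.sqrt Y := Real.one_le_sqrt.2 hY
    have b : ∀ (x y : ℝ) (Q : ℂ), 0 < x → x ≤ Y → ‖Q‖ ≤ D * Real.sqrt y →
        ‖x * w * Q‖ ≤ W * D * Real.sqrt Y * (Real.sqrt x * Real.sqrt y) := by
      intro x y Q hx hxY hQ
      rw [norm_mul, norm_mul, Complex.norm_real, Real.norm_of_nonneg hx.le]
      calc x * ‖w‖ * ‖Q‖ ≤ x * W * (D * Real.sqrt y) := by gcongr
        _ = W * D * Real.sqrt x * (Real.sqrt x * Real.sqrt y) := by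
            conv_lhs => rw [← Real.mul_self_sqrt hx.le]
            ring
        _ ≤ W * D * Real.sqrt Y * (Real.sqrt x * Real.sqrt y) := by gcongr
    have b1 := b x y _ hx hxY hQ
    have b2 := b y x _ hy hyY hP
    have b3 : ‖(P - x * w) * (Q - y * w)‖ ≤ D ^ 2 * Real.sqrt Y * (Real.sqrt x * Real.sqrt y) := by
      rw [norm_mul]
      calc ‖P - x * w‖ * ‖Q - y * w‖ ≤ D * Real.sqrt x * (D * Real.sqrt y) := by gcongr
        _ = D ^ 2 * 1 * (Real.sqrt x * Real.sqrt y) := by ring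
        _ ≤ D ^ 2 * Real.sqrt Y * (Real.sqrt x * Real.sqrt y) := by gcongr
    rw [hid, Real.sqrt_mul hx.le]
    refine (norm_add₃_le).trans ?_
    linarith
  have a1 := aux P₁ P₂ y₁ y₂ h₁ h₂ k₁ k₂ e₁ e₂
  have a2 := aux P₃ P₄ y₃ y₄ h₃ h₄ k₃ k₄ e₃ e₄
  rw [← h] at a2
  have := norm_sub_le (P₁ * P₂ - ((y₁ * y₂ : ℝ) : ℂ) * w ^ 2)
    (P₃ * P₄ - ((y₁ * y₂ : ℝ) : ℂ) * w ^ 2)
  rw [sub_sub_sub_cancel_right] at this
  linarith

end Crest.Agent.R17.M4S
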