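import Crest.Agent.R17.M4Bil
import Crest.Agent.R17.M4SupAux

/-!
# Row 17, module M4, part Sup: the fourth moment statement, its maximal form, exceptional rows
-/

set_option autoImplicit false

noncomputable section

namespace Crest.Agent.R17

open scoped ComplexConjugate

open Classical in
/-- The non-exceptional rows of norm at most `A`. -/
def nex (M : O) (A : ℝ) : Finset O := (ball ⌊A⌋₊).filter fun a => ¬ Exc M a

/-- The fourth moment bound with exponent `θ`. -/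
def T4 (M : O) (θ : ℝ) : Prop :=
  ∃ (C : ℝ) (J : ℕ), 0 < C ∧ ∀ (A N τ : ℝ) (ν : Chr M), 1 ≤ A → 0 < N →
    ∑ a ∈ nex M A, ‖Pln ν a N (τ * Complex.I)‖ ^ 4 ≤ C * (1 + |τ|) ^ J * A ^ (1 + θ) * N ^ 2

/-- The normalised maximal function of a row. -/
def psup (M a : O) (T : ℝ) : ℝ :=
  sSup {x | ∃ (ψ : Chr M) (y t : ℝ), 0 < y ∧ |t| ≤ T ∧
    x = ‖Pln ψ a y (t * Complex.I)‖ / Real.sqrt y}

theorem M4S.mem_nex {M a : O} {A : ℝ} (hA : 0 ≤ A) : a ∈ nex M A ↔ nr a ≤ A ∧ ¬ Exc M a := by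
  classical
  rw [nex, Finset.mem_filter, mem_ball, Nat.le_floor_iff hA]

theorem M4S.of_mem_nex {M a : O} {A : ℝ} (h : a ∈ nex M A) :
    ¬ Exc M a ∧ 1 ≤ nr a ∧ nr a ≤ A := by
  classical
  obtain ⟨h1, h2⟩ := Finset.mem_filter.1 h
  have h3 := one_le_nr (ne_zero_of_not_exc h2)
  have h4 := mem_ball.1 h1
  have h5 : 1 ≤ nm a := by exact_mod_cast h3
  exact ⟨h2, h3, (Nat.le_floor_iff' (by omega)).1 h4⟩

theorem M4S.card_nex (M : O) {A : ℝ} (hA : 1 ≤ A) : ((nex M A).card : ℝ) ≤ 8 * A := by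
  classical
  exact le_trans (by exact_mod_cast Finset.card_filter_le _ _) (M4S.card_ball_floor hA)

theorem T4_four {M : O} (hM : Adm M) : T4 M 4 := by
  obtain ⟨C, hC, h⟩ := M4S.pt hM
  refine ⟨8 * C ^ 4, 6, by positivity, fun A N τ ν hA hN => ?_⟩
  have h1 : ∀ a ∈ nex M A, ‖Pln ν a N (τ * Complex.I)‖ ^ 4 ≤
      C ^ 4 * (A ^ 2 * (1 + |τ|) ^ 3) ^ 2 * N ^ 2 := fun a ha => by
    obtain ⟨h2, -, h3⟩ := M4S.of_mem_nex ha
    refine (pow_le_pow_left₀ (norm_nonneg _) (h ν a A |τ| N τ h2 h3 le_rfl hN) 4).trans_eq ?_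
    rw [mul_pow, mul_pow, M4S.sqrt_pow_four hN.le, M4S.sqrt_pow_four (by positivity)]
  refine (Finset.sum_le_card_nsmul _ _ _ h1).trans ?_
  rw [nsmul_eq_mul, show (1 + 4 : ℝ) = (5 : ℕ) by norm_num, Real.rpow_natCast]
  refine (mul_le_mul_of_nonneg_right (M4S.card_nex M hA) (by positivity)).trans_eq ?_
  ring
theorem T4.mono {M : O} {θ θ' : ℝ} (h : T4 M θ) (hθ : θ ≤ θ') : T4 M θ' := by
  obtain ⟨C, J, hC, h⟩ := h
  refine ⟨C, J, hC, fun A N τ ν hA hN => (h A N τ ν hA hN).trans ?_⟩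
  gcongr
theorem psup_nonneg (M a : O) (T : ℝ) : 0 ≤ psup M a T :=
  Real.sSup_nonneg (by rintro x ⟨ψ, y, t, -, -, rfl⟩; positivity)

theorem M4S.le_psup {M : O} (hM : Adm M) {a : O} (ha : ¬ Exc M a) (ψ : Chr M) {y t T : ℝ}
    (hy : 0 < y) (ht : |t| ≤ T) : ‖Pln ψ a y (t * Complex.I)‖ ≤ psup M a T * Real.sqrt y := by
  obtain ⟨C, -, h⟩ := M4S.pt hM
  rw [← div_le_iff₀ (Real.sqrt_pos.2 hy)]
  refine le_csSup ⟨C * Real.sqrt (nr a ^ 2 * (1 + T) ^ 3), ?_⟩ ⟨ψ, y, t, hy, ht, rfl⟩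
  rintro x ⟨ψ, y, t, hy, ht, rfl⟩
  rw [div_le_iff₀ (Real.sqrt_pos.2 hy)]
  exact h ψ a _ T y t ha le_rfl ht hy

theorem M4S.exists_near (M a : O) {T : ℝ} (hT : 0 ≤ T) : ∃ (ψ : Chr M) (y t : ℝ), 0 < y ∧
    |t| ≤ T ∧ psup M a T ≤ 2 * (‖Pln ψ a y (t * Complex.I)‖ / Real.sqrt y) := by
  rcases (psup_nonneg M a T).eq_or_lt with h | h
  · exact ⟨1, 1, 0, one_pos, by simpa using hT, h ▸ by positivity⟩
  · obtain ⟨x, ⟨ψ, y, t, hy, ht, rfl⟩, hx⟩ := exists_lt_of_lt_csSup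
      (s := {x | ∃ (ψ : Chr M) (y t : ℝ), 0 < y ∧ |t| ≤ T ∧
        x = ‖Pln ψ a y (t * Complex.I)‖ / Real.sqrt y}) (b := psup M a T / 2)
      ⟨_, (1 : Chr M), 1, 0, one_pos, by simpa using hT, rfl⟩ (half_lt_self h)
    exact ⟨ψ, y, t, hy, ht, by linarith⟩

/-- (`Sm_shift` removes the real part; boundedness of the set from `Pln_decay` and the trivial
bound.) -/
theorem norm_Pln_le_psup {M : O} (hM : Adm M) : ∃ C : ℝ, 0 < C ∧
    ∀ (a : O) (ψ : Chr M) (y T : ℝ) (s : ℂ), ¬ Exc M a → 0 < y → |s.re| ≤ 1 → |s.im| ≤ T →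
      ‖Pln ψ a y s‖ ≤ C * psup M a T * Real.sqrt y := by
  refine ⟨Real.exp (1 / 4) * Real.sqrt (Real.exp (1 / 2)), by positivity,
    fun a ψ y T s ha hy hre him => ?_⟩
  have h1 := WeightB.norm_Sm_eq (rc ψ a) (rc_zero ψ a) hy s
  have h2 := M4S.le_psup hM ha ψ (y := y * Real.exp (s.re / 2)) (by positivity) him
  have h3 := psup_nonneg M a T
  have h4 := abs_le.1 hre
  rw [Pln_eq_Sm, h1, ← Pln_eq_Sm]
  rw [Real.sqrt_mul hy.le] at h2
  calc Real.exp (s.re ^ 2 / 4) * ‖Pln ψ a (y * Real.exp (s.re / 2)) (s.im * Complex.I)‖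
      ≤ Real.exp (1 / 4) * (psup M a T * (Real.sqrt y * Real.sqrt (Real.exp (1 / 2)))) := by
        refine mul_le_mul (Real.exp_le_exp.2 (by nlinarith)) (h2.trans ?_) (norm_nonneg _)
          (by positivity)
        gcongr
        linarith
    _ = _ := by ring
/-- Maximal form with an arbitrary weight on the rows and a restricted range of scales
(`sup_moment`, dyadic decomposition of the scale, finitely many characters). -/
theorem sup_four {M : O} (hM : Adm M) {ε : ℝ} (hε : 0 < ε) : ∃ C : ℝ, 0 < C ∧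
    ∀ (S : Finset O) (ϖ : O → ℝ) (ψ : O → Chr M) (y t : O → ℝ) (R Y T E : ℝ), 1 ≤ R → 0 ≤ T →
      (∀ a, 0 ≤ ϖ a) → (∀ a ∈ S, R⁻¹ ≤ y a ∧ y a ≤ Y ∧ |t a| ≤ T) → Y ≤ R → 0 ≤ E →
      (∀ (ν : Chr M) (N τ : ℝ), R⁻¹ / 8 ≤ N → N ≤ 8 * Y → |τ| ≤ T + 3 →
        ∑ a ∈ S, ϖ a * ‖Pln ν a N (τ * Complex.I)‖ ^ 4 ≤ E * N ^ 2) →
      ∑ a ∈ S, ϖ a * (‖Pln (ψ a) a (y a) (t a * Complex.I)‖ ^ 4 / y a ^ 2) ≤
        C * R ^ ε * (1 + T) ^ 9 * E := by
  classical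
  have := finite_chr hM.1
  let _ : Fintype (Chr M) := Fintype.ofFinite _
  obtain ⟨K, hK, hd⟩ := M4S.dyadic (half_pos hε)
  obtain ⟨C, hC, hs⟩ := sup_moment 4
  have hcard : (0 : ℝ) < Fintype.card (Chr M) := by exact_mod_cast Fintype.card_pos
  refine ⟨Fintype.card (Chr M) * (K * (64 * C)), by positivity,
    fun S ϖ ψ y t R Y T E hR hT hϖ hS hYR hE h => ?_⟩
  have hR0 : 0 < R := by linarith
  rw [← Finset.sum_fiberwise_of_maps_to (t := Finset.univ) (g := ψ) fun _ _ => Finset.mem_univ _]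
  refine (Finset.sum_le_card_nsmul _ _ (K * (R ^ 2) ^ (ε / 2) * (64 * C * (1 + T) ^ 9 * E))
    fun ν _ => ?_).trans_eq ?_
  · refine hd _ (fun a => y a * R) _ _ _ (one_le_pow₀ hR) (by positivity) (fun a ha => ?_)
      (fun a _ => mul_nonneg (hϖ a) (by positivity)) fun X hX ⟨a₀, ha₀, hX₀⟩ => ?_
    · obtain ⟨h1, h2, -⟩ := hS a (Finset.mem_filter.1 ha).1
      refine ⟨by rwa [← inv_le_iff_one_le_mul₀ hR0], ?_⟩
      rw [sq]
      exact mul_le_mul_of_nonneg_right (h2.trans hYR) hR0.le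
    · have hX0 : 0 < X / R := by positivity
      have hXY : X / R ≤ Y :=
        ((div_le_iff₀ hR0).2 hX₀).trans (hS a₀ (Finset.mem_filter.1 ha₀).1).2.1
      have hXR : R⁻¹ ≤ X / R := by rw [inv_eq_one_div]; gcongr
      set S' := (S.filter fun a => ψ a = ν).filter fun a => X ≤ y a * R ∧ y a * R ≤ 2 * X with hS'
      have hsub : S' ⊆ S := (Finset.filter_subset _ _).trans (Finset.filter_subset _ _)
      have hy : ∀ a ∈ S', y a ∈ Set.Icc (X / R) (2 * (X / R)) := fun a ha => by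
        obtain ⟨h1, h2⟩ := (Finset.mem_filter.1 ha).2
        exact ⟨(div_le_iff₀ hR0).2 h1, by rw [← mul_div_assoc]; exact (le_div_iff₀ hR0).2 h2⟩
      have key := hs S' ϖ (fun a => rc ν a) 1 0 (X / R) T (E * (8 * (X / R)) ^ 2) y t hϖ
        (fun a => polyB_rc hM ν a) hX0 hT hy (fun a ha => (hS a (hsub ha)).2.2)
        (fun Y' hY' t' ht' => by
          have h1 : 0 < R⁻¹ := inv_pos.2 hR0
          refine le_trans (Finset.sum_le_sum_of_subset_of_nonneg hsub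
            fun a _ _ => mul_nonneg (hϖ a) (by positivity))
            ((h ν Y' t' (by linarith [hY'.1]) (by linarith [hY'.2]) ht').trans ?_)
          have h2 : 0 ≤ Y' := by linarith [hY'.1]
          gcongr
          exact hY'.2)
      calc ∑ a ∈ S', ϖ a * (‖Pln (ψ a) a (y a) (t a * Complex.I)‖ ^ 4 / y a ^ 2)
          ≤ ∑ a ∈ S', ϖ a * ‖Sm (rc ν a) (y a) (t a * Complex.I)‖ ^ 4 / (X / R) ^ 2 := by
            refine Finset.sum_le_sum fun a ha => ?_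
            rw [(Finset.mem_filter.1 (Finset.mem_filter.1 ha).1).2, Pln_eq_Sm, mul_div_assoc]
            have := hϖ a
            gcongr
            exact (hy a ha).1
        _ ≤ C * (1 + T) ^ (2 * 4 + 1) * (E * (8 * (X / R)) ^ 2) / (X / R) ^ 2 := by
            rw [← Finset.sum_div]
            gcongr
        _ = 64 * C * (1 + T) ^ 9 * E := by
            have := hX0.ne'
            generalize X / R = z at this ⊢
            field_simp
            norm_num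
  · rw [nsmul_eq_mul, Finset.card_univ, ← Real.rpow_natCast R 2, ← Real.rpow_mul hR0.le,
      show ((2 : ℕ) : ℝ) * (ε / 2) = ε by push_cast; ring]
    ring
theorem T4.sum_psup {M : O} (hM : Adm M) {θ ε : ℝ} (h : T4 M θ) (hθ : 0 ≤ θ) (hε : 0 < ε) :
    ∃ (C : ℝ) (J : ℕ), 0 < C ∧ ∀ A T : ℝ, 1 ≤ A → 0 ≤ T →
      ∑ a ∈ nex M A, psup M a T ^ 4 ≤ C * (1 + T) ^ J * A ^ (1 + θ + ε) := by
  classical
  obtain ⟨C, J, hC, h⟩ := h
  obtain ⟨C₁, hC₁, h₁⟩ := sup_four hM (half_pos hε)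
  obtain ⟨C₂, hC₂, h₂⟩ := M4S.out hM
  refine ⟨16 * (C₁ * C * 4 ^ J + 8 * C₂ ^ 4), J + 9 + ⌈3 * (ε / 2)⌉₊, by positivity,
    fun A T hA hT => ?_⟩
  choose ψ y t hy ht hp using fun a => M4S.exists_near M a hT
  set R : ℝ := A ^ 2 * (1 + T) ^ 3 with hR
  have hR1 : 1 ≤ R := M4S.one_le_R hA hT
  have hA0 : 0 < A := by linarith
  have hT1 : 1 ≤ 1 + T := by linarith
  have h3 : ∀ a, psup M a T ^ 4 ≤
      16 * (1 * (‖Pln (ψ a) a (y a) (t a * Complex.I)‖ ^ 4 / y a ^ 2)) := fun a => by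
    refine (pow_le_pow_left₀ (psup_nonneg M a T) (hp a) 4).trans_eq ?_
    rw [mul_pow, div_pow, M4S.sqrt_pow_four (hy a).le]
    norm_num
  refine (Finset.sum_le_sum fun a _ => h3 a).trans ?_
  rw [← Finset.mul_sum, mul_assoc 16, mul_assoc 16]
  refine mul_le_mul_of_nonneg_left ?_ (by norm_num)
  rw [← Finset.sum_filter_add_sum_filter_not _ fun a => R⁻¹ ≤ y a ∧ y a ≤ R, add_mul, add_mul]
  refine add_le_add ?_ ?_
  · refine (h₁ _ (fun _ => 1) ψ y t R R T (C * (4 * (1 + T)) ^ J * A ^ (1 + θ)) hR1 hT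
      (fun _ => zero_le_one) (fun a ha => ⟨(Finset.mem_filter.1 ha).2.1,
        (Finset.mem_filter.1 ha).2.2, ht a⟩) le_rfl (by positivity)
      fun ν N τ hN _ hτ => ?_).trans ?_
    · have hN0 : 0 < N := lt_of_lt_of_le (by positivity) hN
      simp only [one_mul]
      refine (Finset.sum_le_sum_of_subset_of_nonneg (Finset.filter_subset _ _)
        fun _ _ _ => by positivity).trans ((h A N τ ν hA hN0).trans ?_)
      gcongr
      linarith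
    · have h4 : R ^ (ε / 2) ≤ A ^ ε * (1 + T) ^ ⌈3 * (ε / 2)⌉₊ := by
        rw [hR, Real.mul_rpow (by positivity) (by positivity), ← Real.rpow_natCast A 2,
          ← Real.rpow_mul hA0.le, show ((2 : ℕ) : ℝ) * (ε / 2) = ε by push_cast; ring,
          ← Real.rpow_natCast (1 + T) 3, ← Real.rpow_mul (by positivity),
          ← Real.rpow_natCast (1 + T) ⌈3 * (ε / 2)⌉₊]
        gcongr
        exact Nat.le_ceil _
      calc C₁ * R ^ (ε / 2) * (1 + T) ^ 9 * (C * (4 * (1 + T)) ^ J * A ^ (1 + θ))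
          ≤ C₁ * (A ^ ε * (1 + T) ^ ⌈3 * (ε / 2)⌉₊) * (1 + T) ^ 9 *
            (C * (4 * (1 + T)) ^ J * A ^ (1 + θ)) := by gcongr
        _ = _ := by rw [Real.rpow_add hA0 (1 + θ) ε, mul_pow]; ring
  · have h4 : ∀ a ∈ (nex M A).filter (fun a => ¬ (R⁻¹ ≤ y a ∧ y a ≤ R)),
        1 * (‖Pln (ψ a) a (y a) (t a * Complex.I)‖ ^ 4 / y a ^ 2) ≤ C₂ ^ 4 := fun a ha => by
      obtain ⟨h5, h6⟩ := Finset.mem_filter.1 ha
      obtain ⟨h7, -, h8⟩ := M4S.of_mem_nex h5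
      have h9 := h₂ (ψ a) a A T (y a) (t a) h7 h8 (ht a) (hy a) (by
        rcases not_and_or.1 h6 with h | h
        · exact Or.inl ((not_le.1 h).le.trans (inv_le_one_of_one_le₀ hR1))
        · exact Or.inr (not_le.1 h).le)
      have := hy a
      rw [one_mul, div_le_iff₀ (by positivity), ← M4S.sqrt_pow_four (hy a).le, ← mul_pow]
      gcongr
    refine (Finset.sum_le_card_nsmul _ _ _ h4).trans ?_
    rw [nsmul_eq_mul]
    have h5 : (((nex M A).filter fun a => ¬ (R⁻¹ ≤ y a ∧ y a ≤ R)).card : ℝ) ≤ 8 * A :=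
      le_trans (by exact_mod_cast Finset.card_filter_le _ _) (M4S.card_nex M hA)
    have h6 : A ≤ A ^ (1 + θ + ε) := Real.self_le_rpow_of_one_le hA (by linarith)
    have h7 : 1 ≤ (1 + T) ^ (J + 9 + ⌈3 * (ε / 2)⌉₊) := one_le_pow₀ hT1
    calc _ ≤ 8 * A * C₂ ^ 4 := by gcongr
      _ = 8 * C₂ ^ 4 * 1 * A := by ring
      _ ≤ _ := by gcongr
theorem T4.sum_psup_weight {M : O} (hM : Adm M) {θ ε : ℝ} (h : T4 M θ) (hθ : 0 ≤ θ) (hε : 0 < ε) :
    ∃ (C : ℝ) (J : ℕ), 0 < C ∧ ∀ A T : ℝ, 0 ≤ T →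
      ∑ a ∈ nex M A, psup M a T ^ 4 / nr a ≤ C * (1 + T) ^ J * (max 1 A) ^ (θ + ε) := by
  obtain ⟨C, J, hC, h⟩ := h.sum_psup hM hθ (half_pos hε)
  obtain ⟨K, hK, hd⟩ := M4S.dyadic (half_pos hε)
  refine ⟨K * C * 2 ^ (1 + θ + ε / 2), J, by positivity, fun A T hT => ?_⟩
  have hZ : 1 ≤ max 1 A := le_max_left _ _
  have hZ0 : 0 < max 1 A := one_pos.trans_le hZ
  refine (hd (nex M A) nr _ (max 1 A)
    (C * (1 + T) ^ J * 2 ^ (1 + θ + ε / 2) * (max 1 A) ^ (θ + ε / 2)) hZ (by positivity)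
    (fun a ha => ⟨(M4S.of_mem_nex ha).2.1, (M4S.of_mem_nex ha).2.2.trans (le_max_right _ _)⟩)
    (fun a _ => by have := psup_nonneg M a T; positivity) fun X hX ⟨a₀, ha₀, hX₀⟩ => ?_).trans_eq ?_
  · have hX0 : 0 < X := by linarith
    have hXZ : X ≤ max 1 A := hX₀.trans ((M4S.of_mem_nex ha₀).2.2.trans (le_max_right _ _))
    calc _ ≤ ∑ a ∈ (nex M A).filter (fun a => X ≤ nr a ∧ nr a ≤ 2 * X), psup M a T ^ 4 / X :=
          Finset.sum_le_sum fun a ha => by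
            have := psup_nonneg M a T
            gcongr
            exact (Finset.mem_filter.1 ha).2.1
      _ ≤ ∑ a ∈ nex M (2 * X), psup M a T ^ 4 / X :=
          Finset.sum_le_sum_of_subset_of_nonneg (fun a ha => (M4S.mem_nex (by linarith)).2
            ⟨(Finset.mem_filter.1 ha).2.2, (M4S.of_mem_nex (Finset.mem_filter.1 ha).1).1⟩)
            fun a _ _ => by have := psup_nonneg M a T; positivity
      _ ≤ C * (1 + T) ^ J * (2 * X) ^ (1 + θ + ε / 2) / X := by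
          rw [← Finset.sum_div]
          gcongr
          exact h _ T (by linarith) hT
      _ = C * (1 + T) ^ J * 2 ^ (1 + θ + ε / 2) * X ^ (θ + ε / 2) := by
          rw [Real.mul_rpow (by norm_num) hX0.le, add_assoc, Real.rpow_add hX0 1, Real.rpow_one]
          field_simp
      _ ≤ _ := by gcongr
  · rw [show θ + ε = ε / 2 + (θ + ε / 2) by ring, Real.rpow_add hZ0 (ε / 2)]
    ring
open Classical in
theorem sum_exc_min_le {M : O} (hM : Adm M) {ε : ℝ} (hε : 0 < ε) : ∃ C : ℝ, 0 < C ∧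
    ∀ A Λ₁ : ℝ, 1 ≤ A → 1 ≤ Λ₁ →
      ∑ a ∈ (rows A).filter (Exc M), min (A / nr a) Λ₁ ≤
        C * A ^ ε * Λ₁ ^ (5 / 6 : ℝ) * A ^ (1 / 6 : ℝ) := by
  obtain ⟨C, hC, h⟩ := card_exc_le (half_pos hε)
  obtain ⟨K, hK, hd⟩ := M4S.dyadic (half_pos hε)
  have hM0 := nr_pos hM.1
  refine ⟨K * (C * 2 ^ (1 / 6 : ℝ) * (2 * nr M) ^ (ε / 2)), by positivity, fun A L hA hL => ?_⟩
  have hA0 : 0 < A := by linarith
  have hmem : ∀ a ∈ (rows A).filter (Exc M), a ≠ 0 ∧ nr a ≤ A ∧ Exc M a := fun a ha => by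
    obtain ⟨h1, h2⟩ := Finset.mem_filter.1 ha
    obtain ⟨h3, h4⟩ := Finset.mem_erase.1 h1
    exact ⟨h3, (Nat.le_floor_iff hA0.le).1 (mem_ball.1 h4), h2⟩
  refine (hd _ nr _ A (C * 2 ^ (1 / 6 : ℝ) * (2 * nr M) ^ (ε / 2) * A ^ (ε / 2) *
    L ^ (5 / 6 : ℝ) * A ^ (1 / 6 : ℝ)) hA (by positivity)
    (fun a ha => ⟨one_le_nr (hmem a ha).1, (hmem a ha).2.1⟩)
    (fun a _ => le_min (by positivity) (by linarith)) fun X hX ⟨a₀, ha₀, hX₀⟩ => ?_).trans_eq ?_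
  · have hX0 : 0 < X := by linarith
    have hXA : X ≤ A := hX₀.trans (hmem a₀ ha₀).2.1
    have h1 : ∀ a ∈ ((rows A).filter (Exc M)).filter (fun a => X ≤ nr a ∧ nr a ≤ 2 * X),
        min (A / nr a) L ≤ (A / X) ^ (1 / 6 : ℝ) * L ^ (5 / 6 : ℝ) := fun a ha => by
      refine (M4S.min_le_geom (by positivity) (by linarith)).trans ?_
      gcongr
      exact (Finset.mem_filter.1 ha).2.1
    refine (Finset.sum_le_card_nsmul _ _ _ h1).trans ?_
    rw [nsmul_eq_mul]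
    have h2 : 1 ≤ ⌊2 * X⌋₊ := Nat.le_floor (by push_cast; linarith)
    have h3 := Nat.floor_le (show 0 ≤ 2 * X by linarith)
    have h4 : ((((rows A).filter (Exc M)).filter
        (fun a => X ≤ nr a ∧ nr a ≤ 2 * X)).card : ℝ) ≤
        C * (2 * X) ^ (1 / 6 : ℝ) * (2 * A * nr M) ^ (ε / 2) := by
      refine le_trans ?_ ((h M ⌊2 * X⌋₊ hM.1 h2).trans ?_)
      · refine Nat.cast_le.2 (Finset.card_le_card fun a ha => ?_)
        obtain ⟨h5, h6⟩ := Finset.mem_filter.1 ha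
        exact Finset.mem_filter.2 ⟨mem_ball.2 (Nat.le_floor h6.2), (hmem a h5).1, (hmem a h5).2.2⟩
      · gcongr
        linarith
    refine (mul_le_mul_of_nonneg_right h4 (by positivity)).trans_eq ?_
    have h5 : X ^ (1 / 6 : ℝ) ≠ 0 := by positivity
    rw [Real.mul_rpow (by norm_num) hX0.le, Real.div_rpow hA0.le hX0.le, mul_right_comm 2 A,
      Real.mul_rpow (by positivity) hA0.le]
    field_simp
  · have h1 : A ^ ε = A ^ (ε / 2) * A ^ (ε / 2) := by rw [← Real.rpow_add hA0, add_halves]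
    rw [h1]
    ring
/-- Exceptional rows, no centring. -/
theorem cenP_zero_le {M : O} (hM : Adm M) : ∃ C : ℝ, 0 < C ∧
    ∀ (ν : Chr M) (a : O) (y₁ y₂ y₃ y₄ Y : ℝ) (s : ℂ), 0 < y₁ → 0 < y₂ → y₁ * y₂ ≤ Y → |s.re| ≤ 1 →
      ‖cenP ν a y₁ y₂ y₃ y₄ 0 s‖ ≤ C * Real.sqrt Y * Real.sqrt (y₁ * y₂) := by
  obtain ⟨C, hC, h⟩ := M4S.triv hM
  refine ⟨C ^ 2, by positivity, fun ν a y₁ y₂ y₃ y₄ Y s h₁ h₂ hY hs => ?_⟩
  rw [cenP, zero_mul, sub_zero, norm_mul]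
  calc ‖Pln ν a y₁ s‖ * ‖Pln ν a y₂ s‖ ≤ C * y₁ * (C * y₂) :=
        mul_le_mul (h ν a y₁ s h₁ hs) (h ν a y₂ s h₂ hs) (norm_nonneg _) (by positivity)
    _ = C ^ 2 * Real.sqrt (y₁ * y₂) * Real.sqrt (y₁ * y₂) := by
        rw [mul_assoc (C ^ 2), Real.mul_self_sqrt (by positivity)]; ring
    _ ≤ _ := by gcongr
/-- Exceptional rows, centring (`Pln_exc` with `θ = 1/2`). -/
theorem cenP_one_le {M : O} (hM : Adm M) {ε : ℝ} (hε : 0 < ε) : ∃ (C : ℝ) (J : ℕ), 0 < C ∧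
    ∀ (ν : Chr M) (a : O) (y₁ y₂ y₃ y₄ Y : ℝ) (s : ℂ), a ≠ 0 → Exc M a → 0 < y₁ → 0 < y₂ → 0 < y₃ →
      0 < y₄ → y₁ * y₂ = y₃ * y₄ → y₁ ≤ Y → y₂ ≤ Y → y₃ ≤ Y → y₄ ≤ Y → 1 ≤ Y → |s.re| ≤ 1 →
      ‖cenP ν a y₁ y₂ y₃ y₄ 1 s‖ ≤
        C * nr a ^ ε * (1 + |s.im|) ^ J * Real.sqrt Y * Real.sqrt (y₁ * y₂) := by
  obtain ⟨C, J, hC, h⟩ := Pln_exc hM (θ := 1 / 2) (by norm_num) (by norm_num) (half_pos hε)
  refine ⟨4 * (C * (Real.sqrt Real.pi * Real.exp 1)) * C + 2 * C ^ 2, 2 * J, by positivity,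
    fun ν a y₁ y₂ y₃ y₄ Y s ha hE h₁ h₂ h₃ h₄ hy k₁ k₂ k₃ k₄ hY hs => ?_⟩
  obtain ⟨m, hm, -, hP⟩ := h ν a ha hE
  set F : ℝ := nr a ^ (ε / 2) * (1 + |s.im|) ^ J with hF
  have hF1 : 1 ≤ F := one_le_mul_of_one_le_of_one_le
    (Real.one_le_rpow (one_le_nr ha) (half_pos hε).le) (one_le_pow₀ (by linarith [abs_nonneg s.im]))
  have hP' : ∀ y : ℝ, 0 < y → ‖Pln ν a y s - y * (m * Wm (1 + s))‖ ≤ C * F * Real.sqrt y :=
    fun y hy => by
      have := hP y s hy (hs.trans (by norm_num))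
      rw [← Real.sqrt_eq_rpow, mul_assoc C, mul_comm m, mul_assoc (y : ℂ)] at this
      exact this
  have hw : ‖m * Wm (1 + s)‖ ≤ C * (Real.sqrt Real.pi * Real.exp 1) := by
    rw [norm_mul, norm_Wm]
    gcongr
    have := abs_le.1 hs
    simp only [Complex.add_re, Complex.one_re]
    nlinarith [sq_nonneg (1 + s).im]
  have key := M4S.centre h₁ h₂ h₃ h₄ hy k₁ k₂ k₃ k₄ hY (by positivity) hw (hP' y₁ h₁) (hP' y₂ h₂)
    (hP' y₃ h₃) (hP' y₄ h₄)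
  rw [cenP, one_mul]
  refine key.trans ?_
  have hF2 : F ^ 2 = nr a ^ ε * (1 + |s.im|) ^ (2 * J) := by
    rw [hF, mul_pow, sq, ← Real.rpow_add (nr_pos ha), add_halves, ← pow_mul, mul_comm J]
  rw [mul_assoc _ (nr a ^ ε), ← hF2]
  gcongr ?_ * _ * _
  have h5 : F ≤ F ^ 2 := le_self_pow₀ hF1 (by norm_num)
  have h6 : 0 ≤ 4 * (C * (Real.sqrt Real.pi * Real.exp 1)) * C := by positivity
  nlinarith [mul_le_mul_of_nonneg_left h5 h6]

end Crest.Agent.R17
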