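import Crest.Agent.R17.P3Defs

/-!
# Row 17, principal rows: Dirichlet convolution on triples, the analytic part
-/

set_option autoImplicit false

noncomputable section

namespace Crest.Agent.R17.P3.CA

variable {α γ f g g' K : T3 → ℂ}

theorem hasSum_conv (hα : Sup α) (hγ : Sup γ)
    (h : Summable fun d : T3 × T3 => ‖α d.1 * γ d.2 * K (d.1 * d.2)‖) :
    HasSum (fun v => conv α γ v * K v) (∑' d : T3 × T3, α d.1 * γ d.2 * K (d.1 * d.2)) := by
  have h1 := (Summable.of_norm h).hasSum.tsum_fiberwise (fun d : T3 × T3 => d.1 * d.2)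
  refine (congrArg (HasSum · _) (funext fun v => ?_)).mp h1
  symm
  rw [tsum_subtype ((fun d : T3 × T3 => d.1 * d.2) ⁻¹' {v})
    (fun d : T3 × T3 => α d.1 * γ d.2 * K (d.1 * d.2)), tsum_eq_sum (s := tdiv v), conv,
    Finset.sum_mul]
  · refine Finset.sum_congr rfl fun d hd => ?_
    have e := (mem_tdiv.1 hd).2.2
    rw [Set.indicator_of_mem (by exact e), e]
  · intro d hd
    by_cases e : d.1 * d.2 = v
    · rw [Set.indicator_of_mem (by exact e)]
      by_contra hne
      exact hd (mem_tdiv.2 ⟨hα _ (left_ne_zero_of_mul (left_ne_zero_of_mul hne)),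
        hγ _ (right_ne_zero_of_mul (left_ne_zero_of_mul hne)), e⟩)
    · exact Set.indicator_of_notMem (by exact e) _

theorem summable_nT {σ : ℝ} (hσ : 1 < σ) : Summable fun v : T3 => nr (nT v) ^ (-σ) := by
  have h := summable_nr_rpow hσ
  have h0 : (0 : O → ℝ) ≤ fun n : O => nr n ^ (-σ) := fun n => by positivity
  have h2 := h.mul_of_nonneg h h0 h0
  have h3 := h.mul_of_nonneg h2 h0 fun v => mul_nonneg (h0 _) (h0 _)
  refine h3.congr fun v => ?_
  rw [nT, nr_mul, nr_mul, Real.mul_rpow (by positivity) (by positivity),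
    Real.mul_rpow (by positivity) (by positivity), mul_assoc]

theorem deconv (hf : Sup f) (hg : Sup g) (hg' : Sup g') (hgg : conv g' g = del) {H C : ℝ}
    (h1 : ∀ v, ‖f v‖ ≤ H * nr (nT v)) (h2 : ∀ v, ‖g v‖ ≤ 1) (h3 : ∀ v, ‖g' v‖ ≤ 1)
    (hK : ∀ v, Pr3 v → ‖K v‖ ≤ C * nr (nT v) ^ (-3 : ℝ)) :
    ∑' v, f v * K v = ∑' j, conv f g' j * ∑' d, g d * K (j * d) := by
  classical
  have hH : 0 ≤ H := by simpa [nT_one] using (norm_nonneg _).trans (h1 1)
  have hC : 0 ≤ C := by simpa [nT_one] using (norm_nonneg _).trans (hK 1 pr3_one)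
  set G : T3 × T3 × T3 → ℂ := fun x => f x.1 * (g' x.2.1 * g x.2.2 * K (x.1 * (x.2.1 * x.2.2)))
    with hG
  have hs : Summable G := by
    have s2 := summable_nT (σ := 2) (by norm_num)
    have s3 := summable_nT (σ := 3) (by norm_num)
    have p2 : (0 : T3 → ℝ) ≤ fun v : T3 => nr (nT v) ^ (-2 : ℝ) := fun n => by positivity
    have p3 : (0 : T3 → ℝ) ≤ fun v : T3 => nr (nT v) ^ (-3 : ℝ) := fun n => by positivity
    have s4 := (s2.mul_of_nonneg (s3.mul_of_nonneg s3 p3 p3) p2
      fun v => mul_nonneg (p3 _) (p3 _)).mul_left (H * C)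
    refine Summable.of_norm_bounded s4 fun x => ?_
    by_cases hx : G x = 0
    · rw [hx, norm_zero]
      positivity
    · have a1 := hf _ (left_ne_zero_of_mul hx)
      have a2 := hg' _ (left_ne_zero_of_mul (left_ne_zero_of_mul (right_ne_zero_of_mul hx)))
      have a3 := hg _ (right_ne_zero_of_mul (left_ne_zero_of_mul (right_ne_zero_of_mul hx)))
      have b := hK _ (a1.mul (a2.mul a3))
      rw [nT_mul, nT_mul, nr_mul, nr_mul, Real.mul_rpow (by positivity) (by positivity),
        Real.mul_rpow (by positivity) (by positivity)] at b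
      have e : nr (nT x.1) ^ (-2 : ℝ) = nr (nT x.1) * nr (nT x.1) ^ (-3 : ℝ) := by
        rw [mul_comm, ← Real.rpow_add_one (nr_pos a1.nT.ne_zero).ne']
        norm_num
      simp only [hG, norm_mul]
      have b2 : ‖g' x.2.1‖ * ‖g x.2.2‖ ≤ 1 := mul_le_one₀ (h3 _) (norm_nonneg _) (h2 _)
      have b3 := (mul_le_mul b2 b (norm_nonneg _) zero_le_one).trans (one_mul _).le
      refine (mul_le_mul (h1 _) b3 (by positivity) (by positivity)).trans (le_of_eq ?_)
      rw [e]
      ring
  have hs' : Summable fun y : (T3 × T3) × T3 => G (Equiv.prodAssoc _ _ _ y) :=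
    (Equiv.prodAssoc T3 T3 T3).summable_iff.2 hs
  have e1 : ∀ y : T3 × T3, f y.1 * g' y.2 * ∑' d, g d * K (y.1 * y.2 * d) =
      ∑' d, G (Equiv.prodAssoc _ _ _ (y, d)) := fun y => by
    rw [← tsum_mul_left]
    refine tsum_congr fun d => ?_
    simp only [hG, Equiv.prodAssoc_apply, mul_assoc]
  have c1 := (hasSum_conv (K := fun j => ∑' d, g d * K (j * d)) hf hg'
    (by simpa only [e1] using hs'.prod.norm)).tsum_eq
  rw [c1]
  simp only [e1]
  rw [← hs'.tsum_prod, (Equiv.prodAssoc T3 T3 T3).tsum_eq G, hs.tsum_prod]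
  refine tsum_congr fun a => ?_
  by_cases ha : f a = 0
  · simp [hG, ha]
  · have s1 : Summable fun y : T3 × T3 => g' y.1 * g y.2 * K (a * (y.1 * y.2)) :=
      (summable_mul_left_iff ha).1 (hs.prod_factor a)
    have c2 := (hasSum_conv (K := fun v => K (a * v)) hg' hg s1.norm).tsum_eq
    simp only [hG]
    rw [tsum_mul_left, ← c2, hgg, tsum_eq_single 1 fun v hv => by simp [del, hv]]
    simp [del]

theorem conv_sub (α α' γ : T3 → ℂ) (v : T3) :
    conv (fun u => α u - α' u) γ v = conv α γ v - conv α' γ v := by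
  simp only [conv, sub_mul, Finset.sum_sub_distrib]

theorem conv_comm (α γ : T3 → ℂ) : conv α γ = conv γ α := by
  funext v
  refine Finset.sum_nbij' Prod.swap Prod.swap (fun d hd => ?_) (fun d hd => ?_) (fun _ _ => rfl)
    (fun _ _ => rfl) fun d _ => mul_comm _ _
  all_goals
    rw [mem_tdiv] at hd ⊢
    exact ⟨hd.2.1, hd.1, (mul_comm _ _).trans hd.2.2⟩

theorem conv_tw (α γ : T3 → ℂ) : conv (tw α) (tw γ) = tw (conv α γ) := by
  funext v
  rw [tw, conv, conv, Finset.sum_mul]
  refine Finset.sum_congr rfl fun d hd => ?_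
  rw [tw, tw, ← (mem_tdiv.1 hd).2.2, wt_mul]
  push_cast
  ring

end Crest.Agent.R17.P3.CA
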