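import Crest.Agent.R17.P3Defs

/-!
# Row 17, principal rows: multiplicativity of the convolution on triples (auxiliary file)
-/

set_option autoImplicit false

noncomputable section

namespace Crest.Agent.R17.P3.CvB

open scoped ComplexConjugate

variable {M p : O} {α γ : T3 → ℂ}

theorem split1 {a b u v : O} (ha : Primary a) (hu : Primary u) (hv : Primary v)
    (h : a * b = u * v) : ∃ a₁ a₂ b₁ b₂, Primary a₁ ∧ Primary a₂ ∧ Primary b₁ ∧ Primary b₂ ∧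
      a₁ * b₁ = u ∧ a₂ * b₂ = v ∧ a₁ * a₂ = a ∧ b₁ * b₂ = b := by
  obtain ⟨c₁, c₂, h1, h2, rfl⟩ := exists_dvd_and_dvd_of_dvd_mul (⟨b, h.symm⟩ : a ∣ u * v)
  obtain ⟨w, hw, hp⟩ := exists_unit_primary (n := c₁) fun hl => hu.not_lam_dvd (hl.trans h1)
  obtain ⟨w', hw'⟩ := hw.exists_right_inv
  obtain ⟨e₁, rfl⟩ := h1
  obtain ⟨e₂, rfl⟩ := h2
  have k1 : w * c₁ * (w' * c₂) = c₁ * c₂ := by linear_combination c₁ * c₂ * hw'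
  have k2 : w * c₁ * (w' * e₁) = c₁ * e₁ := by linear_combination c₁ * e₁ * hw'
  have k3 : w' * c₂ * (w * e₂) = c₂ * e₂ := by linear_combination c₂ * e₂ * hw'
  have p2 : Primary (w' * c₂) := hp.of_mul (k1 ▸ ha)
  refine ⟨w * c₁, w' * c₂, w' * e₁, w * e₂, hp, p2, hp.of_mul (k2 ▸ hu), p2.of_mul (k3 ▸ hv),
    k2, k3, k1, mul_left_cancel₀ ha.ne_zero ?_⟩
  linear_combination c₁ * c₂ * e₁ * e₂ * hw' - h

theorem uniq1 {a₁ a₂ c₁ c₂ u v : O} (ha : Primary a₁) (hc : Primary c₁) (huv : IsCoprime u v)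
    (h1 : a₁ ∣ u) (h2 : c₁ ∣ u) (h3 : a₂ ∣ v) (h4 : c₂ ∣ v) (h : a₁ * a₂ = c₁ * c₂) : a₁ = c₁ :=
  ha.eq_of_associated hc (associated_of_dvd_dvd
    (((huv.of_isCoprime_of_dvd_left h1).of_isCoprime_of_dvd_right h4).dvd_of_dvd_mul_right
      ⟨_, h.symm⟩)
    (((huv.of_isCoprime_of_dvd_left h2).of_isCoprime_of_dvd_right h3).dvd_of_dvd_mul_right
      ⟨_, h⟩))

theorem cancel3 {a b c : T3} (ha : Pr3 a) (h : a * b = a * c) : b = c :=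
  Prod.ext (mul_left_cancel₀ ha.1.ne_zero (congrArg (·.1) h))
    (Prod.ext (mul_left_cancel₀ ha.2.1.ne_zero (congrArg (·.2.1) h))
      (mul_left_cancel₀ ha.2.2.ne_zero (congrArg (·.2.2) h)))

theorem dvd1 (v : T3) : v.1 ∣ nT v := (dvd_mul_right _ _).mul_right _
theorem dvd2 (v : T3) : v.2.1 ∣ nT v := (dvd_mul_left _ _).mul_right _
theorem dvd3 (v : T3) : v.2.2 ∣ nT v := dvd_mul_left _ _

theorem split3 {a b u v : T3} (ha : Pr3 a) (hu : Pr3 u) (hv : Pr3 v) (h : a * b = u * v) :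
    ∃ a₁ a₂ b₁ b₂, Pr3 a₁ ∧ Pr3 a₂ ∧ Pr3 b₁ ∧ Pr3 b₂ ∧
      a₁ * b₁ = u ∧ a₂ * b₂ = v ∧ a₁ * a₂ = a ∧ b₁ * b₂ = b := by
  obtain ⟨x₁, x₂, x₃, x₄, x5, x6, x7, x8, x9, x10, x11, x12⟩ :=
    split1 ha.1 hu.1 hv.1 (congrArg (·.1) h)
  obtain ⟨y₁, y₂, y₃, y₄, y5, y6, y7, y8, y9, y10, y11, y12⟩ :=
    split1 ha.2.1 hu.2.1 hv.2.1 (congrArg (·.2.1) h)
  obtain ⟨z₁, z₂, z₃, z₄, z5, z6, z7, z8, z9, z10, z11, z12⟩ :=
    split1 ha.2.2 hu.2.2 hv.2.2 (congrArg (·.2.2) h)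
  exact ⟨(x₁, y₁, z₁), (x₂, y₂, z₂), (x₃, y₃, z₃), (x₄, y₄, z₄), ⟨x5, y5, z5⟩, ⟨x6, y6, z6⟩,
    ⟨x7, y7, z7⟩, ⟨x8, y8, z8⟩, Prod.ext x9 (Prod.ext y9 z9), Prod.ext x10 (Prod.ext y10 z10),
    Prod.ext x11 (Prod.ext y11 z11), Prod.ext x12 (Prod.ext y12 z12)⟩

theorem uniq3 {a₁ a₂ c₁ c₂ b₁ b₂ e₁ e₂ : T3} (ha : Pr3 a₁) (hc : Pr3 c₁)
    (huv : IsCoprime (nT (a₁ * b₁)) (nT (a₂ * b₂))) (h1 : c₁ * e₁ = a₁ * b₁)
    (h2 : c₂ * e₂ = a₂ * b₂) (h : a₁ * a₂ = c₁ * c₂) : a₁ = c₁ := by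
  have k1 : nT a₁ ∣ nT (a₁ * b₁) := by rw [nT_mul]; exact dvd_mul_right _ _
  have k2 : nT c₁ ∣ nT (a₁ * b₁) := by rw [← h1, nT_mul]; exact dvd_mul_right _ _
  have k3 : nT a₂ ∣ nT (a₂ * b₂) := by rw [nT_mul]; exact dvd_mul_right _ _
  have k4 : nT c₂ ∣ nT (a₂ * b₂) := by rw [← h2, nT_mul]; exact dvd_mul_right _ _
  exact Prod.ext
    (uniq1 ha.1 hc.1 huv ((dvd1 _).trans k1) ((dvd1 _).trans k2) ((dvd1 _).trans k3)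
      ((dvd1 _).trans k4) (congrArg (·.1) h))
    (Prod.ext
      (uniq1 ha.2.1 hc.2.1 huv ((dvd2 _).trans k1) ((dvd2 _).trans k2) ((dvd2 _).trans k3)
        ((dvd2 _).trans k4) (congrArg (·.2.1) h))
      (uniq1 ha.2.2 hc.2.2 huv ((dvd3 _).trans k1) ((dvd3 _).trans k2) ((dvd3 _).trans k3)
        ((dvd3 _).trans k4) (congrArg (·.2.2) h)))

theorem tdiv_one : tdiv 1 = {(1, 1)} := by
  ext d
  rw [mem_tdiv, Finset.mem_singleton]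
  refine ⟨fun ⟨h1, _, h3⟩ => ?_, fun h => by rw [h]; exact ⟨pr3_one, pr3_one, mul_one _⟩⟩
  have e : d.1 = 1 := Prod.ext
    (h1.1.eq_one_of_isUnit (IsUnit.of_mul_eq_one _ (congrArg (·.1) h3)))
    (Prod.ext (h1.2.1.eq_one_of_isUnit (IsUnit.of_mul_eq_one _ (congrArg (·.2.1) h3)))
      (h1.2.2.eq_one_of_isUnit (IsUnit.of_mul_eq_one _ (congrArg (·.2.2) h3))))
  rw [e, one_mul] at h3
  exact Prod.ext e h3

theorem mul3_conv (hα : Mul3 M α) (hγ : Mul3 M γ) : Mul3 M (conv α γ) := by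
  refine ⟨by rw [conv, tdiv_one, Finset.sum_singleton, hα.one, hγ.one, mul_one], fun v hv => ?_,
    fun u v hu hv huv => ?_⟩
  · obtain ⟨d, hd, h⟩ := Finset.exists_ne_zero_of_sum_ne_zero hv
    obtain ⟨h1, h2, rfl⟩ := mem_tdiv.1 hd
    refine ⟨h1.mul h2, ?_⟩
    rw [nT_mul]
    exact (hα.supp _ (left_ne_zero_of_mul h)).2.mul_left (hγ.supp _ (right_ne_zero_of_mul h)).2
  · rw [conv, conv, conv, Finset.sum_mul_sum, ← Finset.sum_product']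
    symm
    refine Finset.sum_bij (fun x _ => (x.1.1 * x.2.1, x.1.2 * x.2.2)) ?_ ?_ ?_ ?_
    · rintro ⟨d, e⟩ hx
      obtain ⟨hd, he⟩ := Finset.mem_product.1 hx
      obtain ⟨d1, d2, rfl⟩ := mem_tdiv.1 hd
      obtain ⟨e1, e2, rfl⟩ := mem_tdiv.1 he
      exact mem_tdiv.2 ⟨d1.mul e1, d2.mul e2, mul_mul_mul_comm _ _ _ _⟩
    · rintro ⟨d, e⟩ hx ⟨d', e'⟩ hx' h
      obtain ⟨hd, he⟩ := Finset.mem_product.1 hx
      obtain ⟨hd', he'⟩ := Finset.mem_product.1 hx'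
      obtain ⟨d1, d2, rfl⟩ := mem_tdiv.1 hd
      obtain ⟨e1, e2, rfl⟩ := mem_tdiv.1 he
      obtain ⟨d1', d2', d3⟩ := mem_tdiv.1 hd'
      obtain ⟨e1', e2', e3⟩ := mem_tdiv.1 he'
      obtain ⟨h1, h2⟩ := Prod.mk.inj h
      dsimp only at *
      have k1 : d.1 = d'.1 := uniq3 d1 d1' huv d3 e3 h1
      rw [← k1] at d3 h1
      have k2 : d'.2 = d.2 := cancel3 d1 d3
      rw [k2] at h2
      exact Prod.ext (Prod.ext k1 k2.symm) (Prod.ext (cancel3 d1 h1) (cancel3 d2 h2))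
    · intro d hd
      obtain ⟨d1, -, d3⟩ := mem_tdiv.1 hd
      obtain ⟨a₁, a₂, b₁, b₂, h1, h2, h3, h4, h5, h6, h7, h8⟩ := split3 d1 hu hv d3
      exact ⟨((a₁, b₁), (a₂, b₂)), Finset.mem_product.2
        ⟨mem_tdiv.2 ⟨h1, h3, h5⟩, mem_tdiv.2 ⟨h2, h4, h6⟩⟩, Prod.ext h7 h8⟩
    · rintro ⟨d, e⟩ hx
      obtain ⟨hd, he⟩ := Finset.mem_product.1 hx
      obtain ⟨d1, d2, rfl⟩ := mem_tdiv.1 hd
      obtain ⟨e1, e2, rfl⟩ := mem_tdiv.1 he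
      dsimp only at *
      rw [nT_mul, nT_mul] at huv
      rw [hα.mul _ _ d1 e1 huv.of_mul_left_left.of_mul_right_left,
        hγ.mul _ _ d2 e2 huv.of_mul_left_right.of_mul_right_right]
      ring

theorem eq_pow (hp : Prime p) (hp' : Primary p) {a : O} {k : ℕ} (ha : Primary a) (h : a ∣ p ^ k) :
    ∃ i, p ^ i = a := by
  obtain ⟨i, -, hi⟩ := (dvd_prime_pow hp k).1 h
  exact ⟨i, (ha.eq_of_associated (hp'.pow i) hi).symm⟩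

theorem eq_pp (hp : Prime p) (hp' : Primary p) {a b : T3} {l : L3} (ha : Pr3 a)
    (h : a * b = pp p l) : ∃ i, pp p i = a := by
  obtain ⟨i, hi⟩ := eq_pow hp hp' ha.1 ⟨_, (congrArg (·.1) h).symm⟩
  obtain ⟨j, hj⟩ := eq_pow hp hp' ha.2.1 ⟨_, (congrArg (·.2.1) h).symm⟩
  obtain ⟨k, hk⟩ := eq_pow hp hp' ha.2.2 ⟨_, (congrArg (·.2.2) h).symm⟩
  exact ⟨(i, j, k), Prod.ext hi (Prod.ext hj hk)⟩

theorem lb_conv (hp : Prime p) (hp' : Primary p) {c c' : ℝ} (hα : LB p α c) (hγ : LB p γ c') :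
    LB p (conv α γ) (c * c') := by
  classical
  intro S
  have hsub : ((S.biUnion fun l => tdiv (pp p l) : Finset (T3 × T3)) : Set (T3 × T3)) ⊆
      Prod.map (pp p) (pp p) '' Set.univ := by
    intro d hd
    obtain ⟨l, -, hl⟩ := Finset.mem_biUnion.1 (Finset.mem_coe.1 hd)
    obtain ⟨h1, h2, h3⟩ := mem_tdiv.1 hl
    obtain ⟨i, hi⟩ := eq_pp hp hp' h1 h3
    obtain ⟨j, hj⟩ := eq_pp hp hp' h2 ((mul_comm _ _).trans h3)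
    exact ⟨(i, j), trivial, Prod.ext hi hj⟩
  obtain ⟨T, -, hT⟩ := Finset.subset_set_image_iff.1 hsub
  have hinj := pp_injective hp
  calc ∑ l ∈ S, ‖conv α γ (pp p l)‖ ≤ ∑ l ∈ S, ∑ d ∈ tdiv (pp p l), ‖α d.1‖ * ‖γ d.2‖ :=
        Finset.sum_le_sum fun l _ => (norm_sum_le _ _).trans
          (Finset.sum_le_sum fun d _ => (norm_mul _ _).le)
    _ = ∑ d ∈ S.biUnion fun l => tdiv (pp p l), ‖α d.1‖ * ‖γ d.2‖ := by
        rw [Finset.sum_biUnion]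
        intro l _ l' _ hl
        exact Finset.disjoint_left.2 fun d h1 h2 =>
          hl (hinj ((mem_tdiv.1 h1).2.2.symm.trans (mem_tdiv.1 h2).2.2))
    _ = ∑ x ∈ T, ‖α (pp p x.1)‖ * ‖γ (pp p x.2)‖ := by
        rw [← hT, Finset.sum_image fun x _ y _ h => (hinj.prodMap hinj) h]
        rfl
    _ ≤ c * c' := SB.prod hα hγ (fun _ => norm_nonneg _) (fun _ => norm_nonneg _) T

theorem of_rc_ne (ν : Chr M) {n : O} (h : rc ν 1 n ≠ 0) : Primary n ∧ IsCoprime n M :=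
  ⟨by_contra fun h' => h (LBA.rc_neg ν 1 h'),
    by_contra fun h' => h (rc_eq_zero ν (by rwa [mul_one]))⟩

theorem supp3 {ν₁ ν₂ ν₃ : Chr M} {v : T3} (h1 : rc ν₁ 1 v.1 ≠ 0) (h2 : rc ν₂ 1 v.2.1 ≠ 0)
    (h3 : rc ν₃ 1 v.2.2 ≠ 0) : Pr3 v ∧ IsCoprime (nT v) M :=
  ⟨⟨(of_rc_ne _ h1).1, (of_rc_ne _ h2).1, (of_rc_ne _ h3).1⟩,
    ((of_rc_ne _ h1).2.mul_left (of_rc_ne _ h2).2).mul_left (of_rc_ne _ h3).2⟩

theorem mul3_g3 (ψ : Chr M) : Mul3 M (g3 ψ) := by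
  refine ⟨by simp [g3, rc_one], fun v hv => ?_, fun u v hu hv huv => ?_⟩
  · simp only [g3, mul_ne_zero_iff] at hv
    exact supp3 hv.1.1.2 hv.1.2 hv.2
  · simp only [g3, Prod.fst_mul, Prod.snd_mul]
    rw [mu_mul hu.1 hv.1 ((huv.of_isCoprime_of_dvd_left (dvd1 u)).of_isCoprime_of_dvd_right
      (dvd1 v)), rc_mul _ _ hu.1 hv.1, rc_mul _ _ hu.2.1 hv.2.1, rc_mul _ _ hu.2.2 hv.2.2]
    ring

theorem mul3_gi3 (ψ : Chr M) : Mul3 M (gi3 ψ) := by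
  refine ⟨by simp [gi3, rc_one], fun v hv => ?_, fun u v hu hv huv => ?_⟩
  · simp only [gi3, mul_ne_zero_iff] at hv
    exact supp3 hv.1.1 hv.1.2.2 hv.2.2
  · simp only [gi3, Prod.fst_mul, Prod.snd_mul]
    rw [mu_mul hu.2.1 hv.2.1 ((huv.of_isCoprime_of_dvd_left (dvd2 u)).of_isCoprime_of_dvd_right
      (dvd2 v)), mu_mul hu.2.2 hv.2.2
      ((huv.of_isCoprime_of_dvd_left (dvd3 u)).of_isCoprime_of_dvd_right (dvd3 v)),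
      rc_mul _ _ hu.1 hv.1, rc_mul _ _ hu.2.1 hv.2.1, rc_mul _ _ hu.2.2 hv.2.2]
    ring

theorem nmul {a b : ℂ} (ha : ‖a‖ ≤ 1) (hb : ‖b‖ ≤ 1) : ‖a * b‖ ≤ 1 := by
  rw [norm_mul]; exact mul_le_one₀ ha (norm_nonneg _) hb

theorem norm_g3_le (hM : Adm M) (ψ : Chr M) (v : T3) : ‖g3 ψ v‖ ≤ 1 :=
  nmul (nmul (nmul (norm_mu_le _) (norm_rc_le hM _ _ _)) (norm_rc_le hM _ _ _))
    (norm_rc_le hM _ _ _)

theorem norm_gi3_le (hM : Adm M) (ψ : Chr M) (v : T3) : ‖gi3 ψ v‖ ≤ 1 :=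
  nmul (nmul (norm_rc_le hM _ _ _) (nmul (norm_mu_le _) (norm_rc_le hM _ _ _)))
    (nmul (norm_mu_le _) (norm_rc_le hM _ _ _))

open Classical in
theorem sum_mu {n : O} (hn : Primary n) : ∑ d ∈ pdiv n, mu d = if n = 1 then 1 else 0 := by
  rw [sum_mu_pdiv hn.ne_zero]
  refine if_congr ⟨fun h => ?_, fun h => by rw [h, pf_one]⟩ rfl rfl
  rw [hn.eq_prod, h, Finset.prod_empty]

theorem sum_tdiv_mu {v : T3} (hv : Pr3 v) :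
    ∑ d ∈ tdiv v, mu d.2.1 * (mu d.1.2.1 * mu d.1.2.2) =
      (∑ e ∈ pdiv v.1, mu e) * ((∑ e ∈ pdiv v.2.1, mu e) * ∑ e ∈ pdiv v.2.2, mu e) := by
  rw [Finset.sum_mul_sum (pdiv v.2.1), ← Finset.sum_product', Finset.sum_mul_sum,
    ← Finset.sum_product']
  refine Finset.sum_bij (fun d _ => (d.2.1, d.1.2.1, d.1.2.2)) ?_ ?_ ?_ fun _ _ => rfl
  · intro d hd
    obtain ⟨h1, h2, rfl⟩ := mem_tdiv.1 hd
    exact Finset.mem_product.2 ⟨(mem_pdiv hv.1.ne_zero).2 ⟨h2.1, dvd_mul_left _ _⟩,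
      Finset.mem_product.2 ⟨(mem_pdiv hv.2.1.ne_zero).2 ⟨h1.2.1, dvd_mul_right _ _⟩,
        (mem_pdiv hv.2.2.ne_zero).2 ⟨h1.2.2, dvd_mul_right _ _⟩⟩⟩
  · rintro ⟨⟨a₁, a₂, a₃⟩, b₁, b₂, b₃⟩ hd ⟨⟨c₁, c₂, c₃⟩, e₁, e₂, e₃⟩ hd' h
    obtain ⟨h1, h2, h3⟩ := mem_tdiv.1 hd
    have h4 := h3.trans (mem_tdiv.1 hd').2.2.symm
    simp only [Prod.mk.injEq, Prod.mk_mul_mk] at h h4 ⊢
    obtain ⟨rfl, rfl, rfl⟩ := h
    exact ⟨⟨mul_right_cancel₀ h2.1.ne_zero h4.1, rfl, rfl⟩, rfl,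
      mul_left_cancel₀ h1.2.1.ne_zero h4.2.1, mul_left_cancel₀ h1.2.2.ne_zero h4.2.2⟩
  · rintro ⟨x, y, z⟩ he
    obtain ⟨h1, h23⟩ := Finset.mem_product.1 he
    obtain ⟨h2, h3⟩ := Finset.mem_product.1 h23
    obtain ⟨px, x', hx⟩ := (mem_pdiv hv.1.ne_zero).1 h1
    obtain ⟨py, y', hy⟩ := (mem_pdiv hv.2.1.ne_zero).1 h2
    obtain ⟨pz, z', hz⟩ := (mem_pdiv hv.2.2.ne_zero).1 h3
    exact ⟨((x', y, z), (x, y', z')), mem_tdiv.2 ⟨⟨px.of_mul (hx ▸ hv.1), py, pz⟩,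
      ⟨px, py.of_mul (hy ▸ hv.2.1), pz.of_mul (hz ▸ hv.2.2)⟩,
      Prod.ext ((mul_comm _ _).trans hx.symm) (Prod.ext hy.symm hz.symm)⟩, rfl⟩

theorem conv_gi_g (ψ : Chr M) : conv (gi3 ψ) (g3 ψ) = del := by
  classical
  funext v
  by_cases hv : Pr3 v
  · have h : ∀ d ∈ tdiv v, gi3 ψ d.1 * g3 ψ d.2 =
        rc ψ 1 v.1 * rc (1 : Chr M) 1 v.2.1 * rc (1 : Chr M) 1 v.2.2 *
          (mu d.2.1 * (mu d.1.2.1 * mu d.1.2.2)) := by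
      intro d hd
      obtain ⟨h1, h2, rfl⟩ := mem_tdiv.1 hd
      simp only [gi3, g3, Prod.fst_mul, Prod.snd_mul]
      rw [rc_mul _ _ h1.1 h2.1, rc_mul _ _ h1.2.1 h2.2.1, rc_mul _ _ h1.2.2 h2.2.2]
      ring
    rw [conv, Finset.sum_congr rfl h, ← Finset.mul_sum, sum_tdiv_mu hv, sum_mu hv.1,
      sum_mu hv.2.1, sum_mu hv.2.2, del]
    by_cases h1 : v = 1
    · subst h1; simp [rc_one]
    · rw [if_neg h1]
      split_ifs with a b c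
      · exact absurd (Prod.ext a (Prod.ext b c)) h1
      all_goals simp
  · rw [conv, Finset.sum_eq_zero fun d hd => absurd ?_ hv, del,
      if_neg fun h : v = 1 => hv (h ▸ pr3_one)]
    obtain ⟨h1, h2, rfl⟩ := mem_tdiv.1 hd
    exact h1.mul h2

end Crest.Agent.R17.P3.CvB
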