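import Crest.Agent.R17.P3Defs
import Crest.Agent.R17.P3ConvAuxB
import Crest.Agent.R17.P3ConvAuxA

/-!
# Row 17, principal rows: Dirichlet convolution on triples

`hasSum_conv`: `HasSum.tsum_fiberwise` along `d ↦ d.1 * d.2`, the fibre sum is a finite sum over
`tdiv v` (`tsum_subtype`, `tsum_eq_sum`, `mem_tdiv`).  `summable_nT`: product of three copies of
`summable_nr_rpow`.  `deconv`: with `Ψ j = ∑' d, g d K(j d)` (`‖Ψ j‖ ≤ C' N(j)^{-3}`), `hasSum_conv`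
gives `∑_j (f * g')(j) Ψ j = ∑_{a,c} f a g' c Ψ(a c) = ∑_a f a ∑_{c,d} g' c g d K(a c d)` and the inner
sum is `∑_v (g' * g)(v) K(a v) = K a` (`hasSum_conv` with the kernel `K(a ·)`; `Summable.tsum_prod`).
`Mul3.conv`: for coprime `u, v` the map `((a,b),(a',b')) ↦ (a a', b b')` is a bijection
`tdiv u × tdiv v → tdiv (u v)` (`Finset.sum_bij` / `sum_nbij`; one component: `a ∣ u v` gives
`a = a₁ a₂`, `a₁ ∣ u`, `a₂ ∣ v` by `exists_dvd_and_dvd_of_dvd_mul`, normalise with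
`exists_unit_primary`, `Primary.of_mul`; uniqueness by `IsCoprime.dvd_of_dvd_mul_right`,
`Primary.eq_of_associated`).  `LB.conv`: a factorisation of `pp p l` is `(pp p a, pp p b)` with
`a + b = l` (`dvd_prime_pow`), compare with `SB.prod`.  `conv_gi_g`: the sum over `tdiv v` is a
product of three sums over primary divisors, `sum_mu_pdiv`, `rc_mul`.
-/

set_option autoImplicit false

noncomputable section

namespace Crest.Agent.R17.P3

open scoped ComplexConjugate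

variable {M p : O} {α γ α' f g g' K : T3 → ℂ}

theorem hasSum_conv (hα : Sup α) (hγ : Sup γ)
    (h : Summable fun d : T3 × T3 => ‖α d.1 * γ d.2 * K (d.1 * d.2)‖) :
    HasSum (fun v => conv α γ v * K v) (∑' d : T3 × T3, α d.1 * γ d.2 * K (d.1 * d.2)) :=
  CA.hasSum_conv hα hγ h

theorem summable_nT {σ : ℝ} (hσ : 1 < σ) : Summable fun v : T3 => nr (nT v) ^ (-σ) :=
  CA.summable_nT hσ

theorem deconv (hf : Sup f) (hg : Sup g) (hg' : Sup g') (hgg : conv g' g = del) {H C : ℝ}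
    (h1 : ∀ v, ‖f v‖ ≤ H * nr (nT v)) (h2 : ∀ v, ‖g v‖ ≤ 1) (h3 : ∀ v, ‖g' v‖ ≤ 1)
    (hK : ∀ v, Pr3 v → ‖K v‖ ≤ C * nr (nT v) ^ (-3 : ℝ)) :
    ∑' v, f v * K v = ∑' j, conv f g' j * ∑' d, g d * K (j * d) :=
  CA.deconv hf hg hg' hgg h1 h2 h3 hK

theorem Mul3.conv (hα : Mul3 M α) (hγ : Mul3 M γ) : Mul3 M (conv α γ) :=
  CvB.mul3_conv hα hγ

theorem conv_sub (α α' γ : T3 → ℂ) (v : T3) :
    conv (fun u => α u - α' u) γ v = conv α γ v - conv α' γ v :=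
  CA.conv_sub α α' γ v

theorem conv_comm (α γ : T3 → ℂ) : conv α γ = conv γ α :=
  CA.conv_comm α γ

theorem conv_tw (α γ : T3 → ℂ) : conv (tw α) (tw γ) = tw (conv α γ) :=
  CA.conv_tw α γ

theorem LB.conv (hp : Prime p) (hp' : Primary p) {c c' : ℝ} (hα : LB p α c) (hγ : LB p γ c') :
    LB p (conv α γ) (c * c') :=
  CvB.lb_conv hp hp' hα hγ

theorem mul3_g3 (ψ : Chr M) : Mul3 M (g3 ψ) :=
  CvB.mul3_g3 ψ

theorem mul3_gi3 (ψ : Chr M) : Mul3 M (gi3 ψ) :=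
  CvB.mul3_gi3 ψ

theorem norm_g3_le (hM : Adm M) (ψ : Chr M) (v : T3) : ‖g3 ψ v‖ ≤ 1 :=
  CvB.norm_g3_le hM ψ v

theorem norm_gi3_le (hM : Adm M) (ψ : Chr M) (v : T3) : ‖gi3 ψ v‖ ≤ 1 :=
  CvB.norm_gi3_le hM ψ v

theorem conv_gi_g (ψ : Chr M) : conv (gi3 ψ) (g3 ψ) = del :=
  CvB.conv_gi_g ψ

end Crest.Agent.R17.P3
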