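import Crest.Agent.R17.P3Defs

/-!
# Row 17, principal rows: Euler products on triples

`decomp`: remove the powers of `p` from the three components (`vp`, `Primary.of_mul`, or
`WfDvdMonoid.max_power_factor`).  `euler_le`, `euler_diff`: prove by induction on a finite set `S` of
good primes, for the functions cut off to the triples with `pf (nT v) ⊆ S`,
`SB ‖f‖ (∏_{p ∈ S} (1 + ε p))` and
`SB ‖f' - f‖ (∏ (1 + ε p + δ p) - ∏ (1 + ε p))`: write `v = pp p l * v'` (`decomp`, `SB.comp`,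
`SB.prod`), `‖f'(pp l) f'(v') - f(pp l) f(v')‖ ≤ ‖f'(pp l) - f(pp l)‖ ‖f' v'‖ + ‖f(pp l)‖ ‖f' v' - f v'‖`;
then `∏ (1 + ε + δ) ≤ ∏ (1 + ε) ∏ (1 + δ)`, `1 + t ≤ exp t`; a finite set of triples in the support is
smooth for `S = ⋃ pf (nT v)`.  `tsum_split`: `tsum_mul_tsum_of_summable_norm` and
`tsum_eq_tsum_of_ne_zero_bij` with `(l, v) ↦ pp p l * v`.  `euler_ne`: `ε 1_{GP}` is summable, so there
is a finite set `S₀` of good primes with `SBP M (ε off S₀) (1/2)`; induction on `S₀`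
(`tsum_split`, the local factor is within `ε p < 1` of `1`, `Mul3.cut`); for `S₀ = ∅` use `euler_diff`
against `del`: `‖∑' f - 1‖ ≤ exp(1/2) - 1 < 1`.
-/

set_option autoImplicit false

noncomputable section

namespace Crest.Agent.R17.P3

open scoped ComplexConjugate

variable {M p : O} {f f' : T3 → ℂ} {ε δ : O → ℝ} {E Δ : ℝ}

theorem Eul_dec1 (hp : Prime p) (hp' : Primary p) {n : O} (hn : Primary n) :
    ∃ (k : ℕ) (m : O), Primary m ∧ ¬ p ∣ m ∧ n = p ^ k * m := by
  obtain ⟨k, m, h1, h2⟩ := WfDvdMonoid.max_power_factor hn.ne_zero hp.irreducible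
  exact ⟨k, m, (hp'.pow k).of_mul (h2 ▸ hn), h1, h2⟩

theorem Eul_uniq1 (hp : Prime p) {k l : ℕ} {a b : O} (ha : ¬ p ∣ a) (hb : ¬ p ∣ b)
    (h : p ^ k * a = p ^ l * b) : k = l ∧ a = b := by
  have key : ∀ {k l : ℕ} {a b : O}, ¬ p ∣ a → p ^ k * a = p ^ l * b → l ≤ k := by
    intro k l a b ha h
    by_contra hlt
    obtain ⟨d, rfl⟩ := Nat.exists_eq_add_of_lt (not_le.1 hlt)
    rw [pow_succ, pow_add, mul_assoc, mul_assoc] at h
    exact ha (mul_left_cancel₀ (pow_ne_zero k hp.ne_zero) h ▸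
      Dvd.dvd.mul_left (dvd_mul_right p b) _)
  obtain rfl : k = l := le_antisymm (key hb h.symm) (key ha h)
  exact ⟨rfl, mul_left_cancel₀ (pow_ne_zero k hp.ne_zero) h⟩

theorem Eul_not_dvd (hp : Prime p) {v : T3} :
    ¬ p ∣ nT v ↔ ¬ p ∣ v.1 ∧ ¬ p ∣ v.2.1 ∧ ¬ p ∣ v.2.2 := by
  rw [nT, hp.dvd_mul, hp.dvd_mul, not_or, not_or, and_assoc]

theorem decomp (hp : Prime p) (hp' : Primary p) {v : T3} (hv : Pr3 v) :
    ∃ (l : L3) (v' : T3), Pr3 v' ∧ ¬ p ∣ nT v' ∧ v = pp p l * v' := by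
  obtain ⟨k1, m1, a1, b1, c1⟩ := Eul_dec1 hp hp' hv.1
  obtain ⟨k2, m2, a2, b2, c2⟩ := Eul_dec1 hp hp' hv.2.1
  obtain ⟨k3, m3, a3, b3, c3⟩ := Eul_dec1 hp hp' hv.2.2
  exact ⟨(k1, k2, k3), (m1, m2, m3), ⟨a1, a2, a3⟩, (Eul_not_dvd hp).2 ⟨b1, b2, b3⟩,
    Prod.ext c1 (Prod.ext c2 c3)⟩

theorem decomp_unique (hp : Prime p) {l l' : L3} {v v' : T3} (hv : ¬ p ∣ nT v) (hv' : ¬ p ∣ nT v')
    (h : pp p l * v = pp p l' * v') : l = l' ∧ v = v' := by
  obtain ⟨a1, a2, a3⟩ := (Eul_not_dvd hp).1 hv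
  obtain ⟨b1, b2, b3⟩ := (Eul_not_dvd hp).1 hv'
  have h1 := Eul_uniq1 hp a1 b1 (congrArg (·.1) h)
  have h2 := Eul_uniq1 hp a2 b2 (congrArg (·.2.1) h)
  have h3 := Eul_uniq1 hp a3 b3 (congrArg (·.2.2) h)
  exact ⟨Prod.ext h1.1 (Prod.ext h2.1 h3.1), Prod.ext h1.2 (Prod.ext h2.2 h3.2)⟩

theorem Eul_eq_one {v : T3} (hv : Pr3 v) (h : IsUnit (nT v)) : v = 1 := by
  rw [nT, IsUnit.mul_iff, IsUnit.mul_iff] at h
  exact Prod.ext (hv.1.eq_one_of_isUnit h.1.1)
    (Prod.ext (hv.2.1.eq_one_of_isUnit h.1.2) (hv.2.2.eq_one_of_isUnit h.2))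

theorem mul3_del (M : O) : Mul3 M del := by
  refine ⟨if_pos rfl, fun v hv => ?_, fun u v hu hv _ => ?_⟩
  · obtain rfl : v = 1 := by_contra fun h => hv (if_neg h)
    exact ⟨pr3_one, nT_one ▸ isCoprime_one_left⟩
  · unfold del
    by_cases h : u * v = 1
    · have h1 : nT u * nT v = 1 := by rw [← nT_mul, h, nT_one]
      rw [if_pos h, if_pos (Eul_eq_one hu (IsUnit.of_mul_eq_one _ h1)),
        if_pos (Eul_eq_one hv (IsUnit.of_mul_eq_one_right _ h1)), one_mul]
    · rw [if_neg h]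
      split_ifs with h1 h2
      · exact absurd (by rw [h1, h2, one_mul]) h
      all_goals simp

open Classical in
theorem Mul3.cut (hf : Mul3 M f) (hp : Prime p) : Mul3 M fun v => if p ∣ nT v then 0 else f v := by
  refine ⟨by rw [nT_one, if_neg hp.not_dvd_one, hf.one], fun v hv => hf.supp v fun h => hv (by
    rw [h, ite_self]), fun u v hu hv h => ?_⟩
  rw [nT_mul, hf.mul u v hu hv h]
  by_cases h1 : p ∣ nT u
  · rw [if_pos (h1.mul_right _), if_pos h1, zero_mul]
  · by_cases h2 : p ∣ nT v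
    · rw [if_pos (h2.mul_left _), if_pos h2, mul_zero]
    · rw [if_neg h1, if_neg h2, if_neg fun h => (hp.dvd_mul.1 h).elim h1 h2]

theorem Eul_mul_pp (hf : Mul3 M f) (hp : Prime p) (hp' : Primary p) (l : L3) {v : T3} (hv : Pr3 v)
    (h : ¬ p ∣ nT v) : f (pp p l * v) = f (pp p l) * f v :=
  hf.mul _ _ (pr3_pp hp' l) hv (by
    rw [nT_pp]
    exact (hp.irreducible.coprime_iff_not_dvd.2 h).pow_left)

theorem Eul_step (hp : Prime p) (hp' : Primary p) {h : T3 → ℝ} {H : L3 × T3 → ℝ} {c : ℝ}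
    (hs : ∀ v, 0 < h v → Pr3 v) (hH : SB H c)
    (hle : ∀ l v, Pr3 v → ¬ p ∣ nT v → h (pp p l * v) ≤ H (l, v)) : SB h c := by
  classical
  choose! l w h1 h2 h3 using fun v (hv : Pr3 v) => decomp hp hp' hv
  refine hH.comp (fun v => (l v, w v)) (fun u hu v hv e => ?_) fun v hv => ?_
  · simp only [Prod.mk.injEq] at e
    rw [h3 u (hs u hu), h3 v (hs v hv), e.1, e.2]
  · conv_lhs => rw [h3 v (hs v hv)]
    exact hle _ _ (h1 v (hs v hv)) (h2 v (hs v hv))

open Classical in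
theorem Eul_SB_ite {α : Type} (a : α) : SB (fun b => if b = a then (1 : ℝ) else 0) 1 := fun S => by
  rw [Finset.sum_ite_eq']
  split_ifs
  · exact le_rfl
  · exact zero_le_one

open Classical in
theorem Eul_del_pp (hp : Prime p) (l : L3) : del (pp p l) = if l = 0 then 1 else 0 :=
  if_congr (by rw [← pp_zero p, (pp_injective hp).eq_iff]) rfl rfl

theorem Eul_loc (hp : Prime p) {c : ℝ} (h : LB p (fun v => f v - del v) c) :
    SB (fun l : L3 => ‖f (pp p l)‖) (1 + c) := by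
  classical
  refine ((Eul_SB_ite (0 : L3)).add h).mono (fun l => ?_) le_rfl
  have := norm_add_le (del (pp p l)) (f (pp p l) - del (pp p l))
  rw [add_sub_cancel] at this
  refine this.trans (add_le_add (le_of_eq ?_) le_rfl)
  rw [Eul_del_pp hp]
  split_ifs <;> simp

open Classical in
/-- restriction to the triples which are smooth for `S` -/
def Eul_cs (S : Finset O) (h : T3 → ℝ) (v : T3) : ℝ := if pf (nT v) ⊆ S then h v else 0

theorem Eul_cs_nonneg (S : Finset O) {h : T3 → ℝ} (h0 : ∀ v, 0 ≤ h v) (v : T3) :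
    0 ≤ Eul_cs S h v := by
  unfold Eul_cs
  split_ifs
  · exact h0 v
  · exact le_rfl

theorem Eul_cs_pos {S : Finset O} {h : T3 → ℝ} {v : T3} (hv : 0 < Eul_cs S h v) :
    pf (nT v) ⊆ S ∧ 0 < h v := by
  unfold Eul_cs at hv
  split_ifs at hv with h1
  · exact ⟨h1, hv⟩
  · exact absurd hv (lt_irrefl _)

open Classical in
theorem Eul_sub (hp' : Primary p) {S : Finset O} {l : L3} {v : T3} (hv : Pr3 v) (h : ¬ p ∣ nT v)
    (hS : pf (nT (pp p l * v)) ⊆ insert p S) : pf (nT v) ⊆ S := fun q hq => by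
  obtain ⟨h1, h2, h3⟩ := BasicB.of_mem_pf hq
  have := hS ((mem_pf ((pr3_pp hp' l).mul hv).nT.ne_zero).2
    ⟨h1, h2, by rw [nT_mul]; exact h3.mul_left _⟩)
  exact (Finset.mem_insert.1 this).resolve_left fun e => h (e ▸ h3)

theorem Eul_empty {v : T3} (hv : Pr3 v) (h : pf (nT v) ⊆ ∅) : v = 1 :=
  Eul_eq_one hv (by
    rw [hv.nT.eq_prod, Finset.subset_empty.1 h, Finset.prod_empty]
    exact isUnit_one)

theorem Eul_A (hf : Mul3 M f) (S : Finset O)
    (hS : ∀ p ∈ S, GP M p ∧ LB p (fun v => f v - del v) (ε p)) :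
    SB (Eul_cs S fun v => ‖f v‖) (∏ p ∈ S, (1 + ε p)) := by
  classical
  induction S using Finset.induction_on with
  | empty =>
    refine (Eul_SB_ite (1 : T3)).comp id (fun _ _ _ _ e => e) fun v hv => ?_
    obtain ⟨h1, h2⟩ := Eul_cs_pos hv
    obtain rfl := Eul_empty (hf.sup v (norm_pos_iff.1 h2)) h1
    simp [Eul_cs, hf.one, nT_one]
  | insert p S hp ih =>
    obtain ⟨⟨p1, p2, -⟩, p3⟩ := hS p (Finset.mem_insert_self _ _)
    rw [Finset.prod_insert hp]
    refine Eul_step p1 p2 (fun v hv => hf.sup v (norm_pos_iff.1 (Eul_cs_pos hv).2))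
      ((Eul_loc p1 p3).prod (ih fun q hq => hS q (Finset.mem_insert_of_mem hq))
        (fun _ => norm_nonneg _) (Eul_cs_nonneg S fun _ => norm_nonneg _)) fun l v hv h => ?_
    simp only [Eul_cs]
    by_cases h1 : pf (nT (pp p l * v)) ⊆ insert p S
    · rw [if_pos h1, if_pos (Eul_sub p2 hv h h1), Eul_mul_pp hf p1 p2 l hv h, norm_mul]
    · rw [if_neg h1]
      exact mul_nonneg (norm_nonneg _) (Eul_cs_nonneg S (fun _ => norm_nonneg _) v)

theorem Eul_supp (hf : Mul3 M f) (hf' : Mul3 M f') {v : T3} (h : 0 < ‖f' v - f v‖) :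
    Pr3 v ∧ IsCoprime (nT v) M := by
  by_cases h1 : f v = 0
  · rw [h1, sub_zero] at h
    exact hf'.supp v (norm_pos_iff.1 h)
  · exact hf.supp v h1

theorem Eul_B (hf : Mul3 M f) (hf' : Mul3 M f') (S : Finset O)
    (hS : ∀ p ∈ S, GP M p ∧ LB p (fun v => f v - del v) (ε p) ∧ LB p (fun v => f' v - f v) (δ p)) :
    SB (Eul_cs S fun v => ‖f' v - f v‖) (∏ p ∈ S, (1 + (ε p + δ p)) - ∏ p ∈ S, (1 + ε p)) := by
  classical
  induction S using Finset.induction_on with
  | empty =>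
    intro T
    refine (Finset.sum_nonpos fun v _ => not_lt.1 fun hv => ?_).trans (by simp)
    obtain ⟨h1, h2⟩ := Eul_cs_pos hv
    obtain rfl := Eul_empty (Eul_supp hf hf' h2).1 h1
    simp [hf.one, hf'.one] at h2
  | insert p S hp ih =>
    obtain ⟨⟨p1, p2, -⟩, p3, p4⟩ := hS p (Finset.mem_insert_self _ _)
    have hS' := fun q hq => hS q (Finset.mem_insert_of_mem hq)
    have hA := Eul_A (ε := fun q => ε q + δ q) hf' S fun q hq =>
      ⟨(hS' q hq).1, (SB.add (hS' q hq).2.1 (hS' q hq).2.2).mono (fun l => by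
        have := norm_add_le (f (pp q l) - del (pp q l)) (f' (pp q l) - f (pp q l))
        rwa [sub_add_sub_cancel'] at this) le_rfl⟩
    refine Eul_step p1 p2 (fun v hv => (Eul_supp hf hf' (Eul_cs_pos hv).2).1)
      (((SB.prod p4 hA (fun _ => norm_nonneg _) (Eul_cs_nonneg S fun _ => norm_nonneg _)).add
        ((Eul_loc p1 p3).prod (ih hS') (fun _ => norm_nonneg _)
          (Eul_cs_nonneg S fun _ => norm_nonneg _))).mono (fun _ => le_rfl) (le_of_eq ?_))
      fun l v hv h => ?_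
    · rw [Finset.prod_insert hp, Finset.prod_insert hp]
      ring
    · simp only [Eul_cs]
      by_cases h1 : pf (nT (pp p l * v)) ⊆ insert p S
      · rw [if_pos h1, if_pos (Eul_sub p2 hv h h1), if_pos (Eul_sub p2 hv h h1),
          Eul_mul_pp hf p1 p2 l hv h, Eul_mul_pp hf' p1 p2 l hv h, ← norm_mul, ← norm_mul]
        refine le_trans (le_of_eq ?_) (norm_add_le _ _)
        congr 1
        ring
      · rw [if_neg h1]
        exact add_nonneg (mul_nonneg (norm_nonneg _) (Eul_cs_nonneg S (fun _ => norm_nonneg _) v))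
          (mul_nonneg (norm_nonneg _) (Eul_cs_nonneg S (fun _ => norm_nonneg _) v))

theorem Eul_final {h : T3 → ℝ} (h0 : ∀ v, 0 ≤ h v) (hs : ∀ v, 0 < h v → Pr3 v ∧ IsCoprime (nT v) M)
    {c : ℝ} (H : ∀ S : Finset O, (∀ p ∈ S, GP M p) → SB (Eul_cs S h) c) : SB h c := by
  classical
  intro T
  refine le_trans (Finset.sum_le_sum fun v hv => ?_)
    (H ((T.biUnion fun v => pf (nT v)).filter (GP M)) (fun p hp => (Finset.mem_filter.1 hp).2) T)
  rcases (h0 v).eq_or_lt with h1 | h1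
  · rw [← h1]
    exact Eul_cs_nonneg _ h0 v
  · refine le_of_eq (if_pos fun q hq => ?_).symm
    obtain ⟨q1, q2, q3⟩ := BasicB.of_mem_pf hq
    exact Finset.mem_filter.2 ⟨Finset.mem_biUnion.2 ⟨v, hv, hq⟩, q1, q2,
      fun q4 => q1.not_isUnit ((hs v h1).2.isUnit_of_dvd' q3 q4)⟩

theorem Eul_prod_le {S : Finset O} (h0 : ∀ p ∈ S, 0 ≤ ε p) (h : ∑ p ∈ S, ε p ≤ E) :
    ∏ p ∈ S, (1 + ε p) ≤ Real.exp E := by
  refine le_trans (Finset.prod_le_prod (fun p hp => by linarith [h0 p hp])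
    fun p _ => (add_comm 1 (ε p)).le.trans (Real.add_one_le_exp _)) ?_
  rw [← Real.exp_sum]
  exact Real.exp_le_exp.2 h

theorem euler_le (hf : Mul3 M f) (hε : ∀ p, GP M p → LB p (fun v => f v - del v) (ε p))
    (hE : SBP M ε E) : SB (fun v => ‖f v‖) (Real.exp E) := by
  exact Eul_final (fun _ => norm_nonneg _) (fun v hv => hf.supp v (norm_pos_iff.1 hv)) fun S hS =>
    (Eul_A hf S fun p hp => ⟨hS p hp, hε p (hS p hp)⟩).mono (fun _ => le_rfl)
      (Eul_prod_le (fun p hp => SB.nonneg (hε p (hS p hp))) (hE S hS))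

theorem euler_diff (hf : Mul3 M f) (hf' : Mul3 M f')
    (hε : ∀ p, GP M p → LB p (fun v => f v - del v) (ε p)) (hE : SBP M ε E)
    (hδ : ∀ p, GP M p → LB p (fun v => f' v - f v) (δ p)) (hΔ : SBP M δ Δ) :
    SB (fun v => ‖f' v - f v‖) (Real.exp E * (Real.exp Δ - 1)) := by
  refine Eul_final (fun _ => norm_nonneg _) (fun v hv => Eul_supp hf hf' hv) fun S hS =>
    (Eul_B hf hf' S fun p hp => ⟨hS p hp, hε p (hS p hp), hδ p (hS p hp)⟩).mono (fun _ => le_rfl) ?_
  have e0 : ∀ p ∈ S, 0 ≤ ε p := fun p hp => SB.nonneg (hε p (hS p hp))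
  have d0 : ∀ p ∈ S, 0 ≤ δ p := fun p hp => SB.nonneg (hδ p (hS p hp))
  have h1 := Eul_prod_le e0 (hE S hS)
  have h2 := Eul_prod_le d0 (hΔ S hS)
  have h3 : ∏ p ∈ S, (1 + (ε p + δ p)) ≤ (∏ p ∈ S, (1 + ε p)) * ∏ p ∈ S, (1 + δ p) := by
    rw [← Finset.prod_mul_distrib]
    exact Finset.prod_le_prod (fun p hp => by linarith [e0 p hp, d0 p hp])
      fun p hp => by nlinarith [mul_nonneg (e0 p hp) (d0 p hp)]
  have h4 : 0 ≤ ∏ p ∈ S, (1 + ε p) := Finset.prod_nonneg fun p hp => by linarith [e0 p hp]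
  have h5 : 0 ≤ Real.exp Δ - 1 := by
    have : 0 ≤ Δ := by simpa using hΔ ∅ (by simp)
    linarith [Real.add_one_le_exp Δ]
  nlinarith [mul_le_mul_of_nonneg_left h2 h4, mul_le_mul_of_nonneg_right h1 h5]

open Classical in
theorem tsum_split (hf : Mul3 M f) (hp : Prime p) (hp' : Primary p)
    (hs : Summable fun v => ‖f v‖) :
    ∑' v, f v = (∑' l : L3, f (pp p l)) * ∑' v, if p ∣ nT v then 0 else f v := by
  have h1 : Summable fun l : L3 => ‖f (pp p l)‖ := hs.comp_injective (pp_injective hp)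
  have h2 : Summable fun v => ‖if p ∣ nT v then 0 else f v‖ :=
    Summable.of_nonneg_of_le (fun _ => norm_nonneg _) (fun v => by split_ifs <;> simp) hs
  rw [tsum_mul_tsum_of_summable_norm h1 h2]
  have h3 : ∀ z : L3 × T3, (f (pp p z.1) * if p ∣ nT z.2 then 0 else f z.2) ≠ 0 →
      ¬ p ∣ nT z.2 ∧ Pr3 z.2 := fun z hz => by
    have := right_ne_zero_of_mul hz
    split_ifs at this with h
    · exact absurd rfl this
    · exact ⟨h, hf.sup _ this⟩
  refine tsum_eq_tsum_of_ne_zero_bij (fun z => pp p z.1.1 * z.1.2) (fun z z' e => ?_)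
    (fun v hv => ?_) fun z => ?_
  · have := decomp_unique hp (h3 _ z.2).1 (h3 _ z'.2).1 e
    exact Subtype.ext (Prod.ext this.1 this.2)
  · obtain ⟨l, w, a1, a2, rfl⟩ := decomp hp hp' (hf.sup v hv)
    refine ⟨⟨(l, w), ?_⟩, rfl⟩
    rw [Function.mem_support, if_neg a2, ← Eul_mul_pp hf hp hp' l a1 a2]
    exact hv
  · rw [if_neg (h3 _ z.2).1]
    exact Eul_mul_pp hf hp hp' _ (h3 _ z.2).2 (h3 _ z.2).1

theorem Eul_ne {α : Type} [DecidableEq α] {g : α → ℂ} (a : α) {c : ℝ} (hc : c < 1)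
    (h : SB (fun b => ‖g b - if b = a then 1 else 0‖) c) : ∑' b, g b ≠ 0 := by
  intro h0
  have h1 := h.summable fun _ => norm_nonneg _
  have h2 : HasSum (fun b => if b = a then (1 : ℂ) else 0) 1 := hasSum_ite_eq a 1
  have h3 : Summable g := by simpa using h1.of_norm.add h2.summable
  have h4 := (norm_tsum_le_tsum_norm h1).trans (h.tsum_le fun _ => norm_nonneg _)
  rw [h3.tsum_sub h2.summable, h0, h2.tsum_eq] at h4
  simp at h4
  linarith

open Classical in
theorem Eul_ne_ind (S : Finset O) (hS : ∀ p ∈ S, GP M p) : ∀ (f : T3 → ℂ) (ε : O → ℝ), Mul3 M f →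
    (∀ p, GP M p → LB p (fun v => f v - del v) (ε p)) → SBP M ε E → (∀ p, GP M p → ε p < 1) →
    SBP M (fun p => if p ∈ S then 0 else ε p) (1 / 2) → ∑' v, f v ≠ 0 := by
  induction S using Finset.induction_on with
  | empty =>
    intro f ε hf hε _ _ h2
    have h3 := euler_diff (ε := fun _ => 0) (E := 0) (mul3_del M) hf
      (fun p _ T => by simp) (fun T _ => by simp) hε (by simpa using h2)
    refine Eul_ne (1 : T3) ?_ (h3.mono (fun v => by rw [del]) le_rfl)
    have := Real.exp_bound_div_one_sub_of_interval' (x := 2⁻¹) (by norm_num) (by norm_num)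
    rw [Real.exp_zero]
    linarith
  | insert p S hp ih =>
    intro f ε hf hε hE h1 h2
    have hg := hS p (Finset.mem_insert_self _ _)
    rw [tsum_split hf hg.1 hg.2.1 ((euler_le hf hε hE).summable fun _ => norm_nonneg _)]
    refine mul_ne_zero (Eul_ne (0 : L3) (h1 p hg) ?_) (ih
      (fun q hq => hS q (Finset.mem_insert_of_mem hq)) _ (fun q => if q = p then 0 else ε q)
      (hf.cut hg.1) (fun q hq => ?_) (fun T hT => le_trans (Finset.sum_le_sum fun q hq => ?_)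
        (hE T hT)) (fun q hq => ?_) ?_)
    · simpa only [LB, Eul_del_pp hg.1] using hε p hg
    · by_cases h : q = p
      · subst h
        rw [if_pos rfl]
        intro T
        refine Finset.sum_nonpos fun l _ => le_of_eq (norm_eq_zero.2 ?_)
        simp only [Eul_del_pp hq.1]
        by_cases hl : l = 0
        · rw [hl, pp_zero, nT_one, if_neg hq.1.not_dvd_one, hf.one, if_pos rfl, sub_self]
        · rw [if_neg hl, if_pos, sub_zero]
          rw [nT_pp]
          refine dvd_pow_self _ fun h => hl ?_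
          exact Prod.ext (by simp only [Prod.fst_zero]; omega)
            (Prod.ext (by simp only [Prod.snd_zero, Prod.fst_zero]; omega)
              (by simp only [Prod.snd_zero]; omega))
      · rw [if_neg h]
        refine SB.mono (hε q hq) (fun l => le_of_eq ?_) le_rfl
        simp only
        rw [if_neg]
        rw [nT_pp]
        exact fun h' => h (BasicB.eq_of_dvd hg.1 hq.1 hg.2.1 hq.2.1 (hg.1.dvd_of_dvd_pow h')).symm
    · split_ifs
      · exact SB.nonneg (hε q (hT q hq))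
      · exact le_rfl
    · split_ifs
      · exact one_pos
      · exact h1 q hq
    · intro T hT
      refine le_trans (le_of_eq (Finset.sum_congr rfl fun q _ => ?_)) (h2 T hT)
      by_cases h3 : q ∈ S <;> by_cases h4 : q = p <;> simp [h3, h4]

theorem euler_ne (hf : Mul3 M f) (hε : ∀ p, GP M p → LB p (fun v => f v - del v) (ε p))
    (hE : SBP M ε E) (h1 : ∀ p, GP M p → ε p < 1) : ∑' v, f v ≠ 0 := by
  classical
  have h2 : SB (fun p => if GP M p then ε p else 0) E := fun T => by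
    rw [← Finset.sum_filter]
    exact hE _ fun p hp => (Finset.mem_filter.1 hp).2
  obtain ⟨S, hS⟩ := summable_iff_vanishing_norm.1 (h2.summable fun p => by
    split_ifs with h
    · exact SB.nonneg (hε p h)
    · exact le_rfl) (1 / 2) (by norm_num)
  refine Eul_ne_ind (S.filter (GP M)) (fun p hp => (Finset.mem_filter.1 hp).2) f ε hf hε hE h1
    fun T hT => ?_
  refine le_trans (le_of_eq ?_) ((le_abs_self _).trans (hS (T \ S) Finset.sdiff_disjoint).le)
  rw [Finset.sdiff_eq_filter, Finset.sum_filter]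
  refine Finset.sum_congr rfl fun q hq => ?_
  by_cases h3 : q ∈ S <;> simp [h3, hT q hq]

end Crest.Agent.R17.P3
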