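import Crest.Agent.R17.P3Op

/-!
# Row 17, principal rows: proofs of `GP.seven_le`, `loc_ram`, `loc_gi`
-/

set_option autoImplicit false

noncomputable section

namespace Crest.Agent.R17.P3.LocA

open scoped ComplexConjugate

variable {M p : O}

theorem seven_le (hM : Adm M) (hp : GP M p) : 7 ≤ nr p := by
  have h2 : p ≠ -2 := by
    rintro rfl
    exact hp.2.2 (Dvd.dvd.trans ⟨-36, by norm_num⟩ hM.2)
  exact_mod_cast (nm_prime_mod_six hp.1 hp.2.1 h2).2

theorem rpow_neg_le {q c : ℝ} (hq : 7 ≤ q) (a b : ℕ) (hb : b ≠ 0) (hc : 0 < c)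
    (h : 1 ≤ c ^ b * 7 ^ a) : q ^ (-((a : ℝ) / b)) ≤ c := by
  have hq0 : 0 < q := by linarith
  have hb' : (b : ℝ) ≠ 0 := Nat.cast_ne_zero.2 hb
  rw [← pow_le_pow_iff_left₀ (by positivity) hc.le hb, ← Real.rpow_natCast,
    ← Real.rpow_mul hq0.le, neg_mul, div_mul_cancel₀ _ hb', Real.rpow_neg hq0.le,
    Real.rpow_natCast, inv_le_iff_one_le_mul₀ (by positivity)]
  exact h.trans (by gcongr)

theorem SB_single {α : Type} [DecidableEq α] (a : α) {c : ℝ} (hc : 0 ≤ c) :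
    SB (fun b => if b = a then c else 0) c :=
  SB.of_hasSum (hasSum_ite_eq a c) fun b => by split_ifs; exacts [hc, le_rfl]

theorem SB_geom {t : ℝ} (h0 : 0 ≤ t) (h1 : t < 1) : SB (fun n : ℕ => t ^ n) (1 - t)⁻¹ :=
  SB.of_hasSum (hasSum_geometric_of_lt_one h0 h1) fun n => by positivity

theorem SB_tail {t : ℝ} (h0 : 0 ≤ t) (h1 : t ≤ 7 / 10) :
    SB (fun n : ℕ => if 6 ≤ n then t ^ n else 0) (10 / 3 * t ^ 6) := by
  have h := (SB_geom h0 (by linarith)).const_mul (pow_nonneg h0 6)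
  have h2 : t ^ 6 * (1 - t)⁻¹ ≤ 10 / 3 * t ^ 6 := by
    rw [mul_comm]
    refine mul_le_mul_of_nonneg_right ?_ (pow_nonneg h0 6)
    rw [inv_le_comm₀ (by linarith) (by norm_num)]
    linarith
  have h3 : ∀ n : ℕ, 0 < (if 6 ≤ n then t ^ n else 0) → 6 ≤ n := fun n hn => by
    by_contra h6
    rw [if_neg h6] at hn
    exact lt_irrefl _ hn
  refine (h.mono (fun _ => le_rfl) h2).comp (fun n => n - 6) (fun a ha b hb e => ?_)
    fun n hn => ?_
  · have := h3 a ha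
    have := h3 b hb
    simp only at e
    omega
  · rw [if_pos (h3 n hn), ← pow_add, Nat.add_sub_cancel' (h3 n hn)]

theorem f3_pp (ψ : Chr M) (hp : GP M p) (i j k : ℕ) :
    f3 ψ (pp p (i, j, k)) = cf ψ ((p ^ k) ^ 6) (p ^ i) (p ^ j) :=
  if_pos ⟨hp.2.1.pow k, (hp.1.coprime_iff_not_dvd.2 hp.2.2).pow_left⟩

theorem div_three_le (i : ℕ) : ((i / 3 : ℕ) : ℝ) ≤ (i : ℝ) / 3 := by
  exact_mod_cast Nat.cast_div_le (α := ℝ) (m := i) (n := 3)

theorem norm_zero_le (hM : Adm M) (ψ : Chr M) (hp : GP M p) {k i : ℕ} (hk : 1 ≤ k) (hi : 1 ≤ i) :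
    ‖cf ψ ((p ^ k) ^ 6) (p ^ i) 1‖ ≤ if 6 ≤ i then nr p ^ (2 * i / 3 : ℝ) else 0 := by
  have hq : 1 ≤ nr p := le_trans (by norm_num) (seven_le hM hp)
  have h := norm_cf_ram_zero hM ψ hp.1 hp.2.1 hp.2.2
    (pow_ne_zero 6 (pow_ne_zero k hp.1.ne_zero)) hi
  rw [vp_pow hp.1 (pow_ne_zero k hp.1.ne_zero), vp_pow hp.1 hp.1.ne_zero, vp_self hp.1] at h
  refine h.trans ?_
  have h3 := div_three_le i
  split_ifs
  all_goals first
    | exact le_rfl
    | positivity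
    | exact Real.rpow_le_rpow_of_exponent_le hq (by linarith)
    | (exfalso; omega)

theorem norm_one_le (hM : Adm M) (ψ : Chr M) (hp : GP M p) {k i : ℕ} (hk : 1 ≤ k) (hi : 1 ≤ i) :
    ‖cf ψ ((p ^ k) ^ 6) (p ^ i) p‖ ≤
      (if i = 1 then nr p else 0) + if 6 ≤ i then nr p ^ (2 * i / 3 + 1 / 2 : ℝ) else 0 := by
  have hq : 1 ≤ nr p := le_trans (by norm_num) (seven_le hM hp)
  have h := norm_cf_ram_one hM ψ hp.1 hp.2.1 hp.2.2
    (pow_ne_zero 6 (pow_ne_zero k hp.1.ne_zero)) hi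
  rw [vp_pow hp.1 (pow_ne_zero k hp.1.ne_zero), vp_pow hp.1 hp.1.ne_zero, vp_self hp.1] at h
  refine h.trans ?_
  have h3 := div_three_le i
  by_cases h1 : i = 1
  · subst h1
    rw [if_neg (by omega), if_pos (by omega), if_pos rfl, if_neg (by omega)]
    norm_num
  · rw [if_neg h1, zero_add]
    split_ifs
    all_goals first
      | exact le_rfl
      | positivity
      | exact Real.rpow_le_rpow_of_exponent_le hq (by linarith)
      | (exfalso; omega)

open Classical in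
theorem loc_ram (hM : Adm M) (ψ : Chr M) (hp : GP M p) {k : ℕ} (hk : 1 ≤ k) :
    f3 ψ (pp p (0, 0, k)) = 1 ∧
    SB (fun y : ℕ × ℕ => if y = 0 then 0 else
      ‖f3 ψ (pp p (y.1, y.2, k))‖ * (nr p ^ (-(7 / 8) : ℝ)) ^ (y.1 + y.2))
      (3 * nr p ^ (-(3 / 4) : ℝ)) := by
  refine ⟨by rw [f3_pp ψ hp, pow_zero, cf_one], ?_⟩
  have hq := seven_le hM hp
  have hq0 : 0 < nr p := by linarith
  have hdvd : p ∣ (p ^ k) ^ 6 := (dvd_pow_self p (by omega)).trans (dvd_pow_self _ (by norm_num))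
  generalize hqq : nr p = q at hq hq0
  have hpw : ∀ (a : ℝ) (n : ℕ), (q ^ a) ^ n = q ^ (a * n) := fun a n => by
    rw [Real.rpow_mul hq0.le, Real.rpow_natCast]
  set t := q ^ (-(5 / 24) : ℝ) with ht
  have ht0 : 0 ≤ t := by positivity
  have ht1 : t ≤ 7 / 10 := by
    simpa using rpow_neg_le hq 5 24 (by norm_num) (c := 7 / 10) (by norm_num) (by norm_num)
  have hA := SB_tail ht0 ht1
  have hA0 : ∀ n : ℕ, 0 ≤ if 6 ≤ n then t ^ n else 0 := fun n => by split_ifs <;> positivity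
  have h1 := hA.prod (SB_single (0 : ℕ) zero_le_one) hA0 fun b => by split_ifs <;> positivity
  have h2 := hA.prod (SB_single (1 : ℕ) (c := q ^ (-(3 / 8) : ℝ)) (by positivity)) hA0
    fun b => by split_ifs <;> positivity
  have h3 := SB_single ((1, 1) : ℕ × ℕ) (c := q ^ (-(3 / 4) : ℝ)) (by positivity)
  refine ((h1.add h2).add h3).mono ?_ ?_
  · rintro ⟨i, j⟩
    have hn : 0 ≤ (if 6 ≤ i then t ^ i else 0) * (if j = 0 then 1 else 0) +
        (if 6 ≤ i then t ^ i else 0) * (if j = 1 then q ^ (-(3 / 8) : ℝ) else 0) +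
        if (i, j) = (1, 1) then q ^ (-(3 / 4) : ℝ) else 0 := by split_ifs <;> positivity
    by_cases h0 : (i, j) = 0
    · rw [if_pos h0]; exact hn
    rw [if_neg h0]
    simp only [f3_pp ψ hp]
    by_cases hz : (i = 0 ∧ 1 ≤ j) ∨ 2 ≤ j
    · rw [cf_ram_zero hM ψ hp.1 hp.2.1 hp.2.2 hdvd hz, norm_zero, zero_mul]; exact hn
    have hi : 1 ≤ i := by
      rw [Prod.mk_eq_zero] at h0
      omega
    have hx : 0 ≤ (q ^ (-(7 / 8) : ℝ)) ^ (i + j) := by positivity
    obtain rfl | rfl : j = 0 ∨ j = 1 := by omega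
    · have := norm_zero_le hM ψ hp hk hi
      rw [hqq] at this
      rw [pow_zero]
      refine (mul_le_mul_of_nonneg_right this hx).trans ?_
      simp only [if_true, mul_one, zero_ne_one, if_false, mul_zero, add_zero, Prod.mk.injEq,
        and_false]
      split_ifs
      · rw [ht, hpw, hpw, ← Real.rpow_add hq0]
        exact le_of_eq (congrArg _ (by ring))
      · rw [zero_mul]
    · have := norm_one_le hM ψ hp hk hi
      rw [hqq] at this
      rw [pow_one]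
      refine (mul_le_mul_of_nonneg_right this hx).trans ?_
      simp only [if_true, one_ne_zero, if_false, mul_zero, zero_add, Prod.mk.injEq, and_true]
      rw [add_mul, add_comm]
      refine add_le_add ?_ ?_
      · split_ifs
        · rw [ht, hpw, hpw, ← Real.rpow_add hq0, ← Real.rpow_add hq0]
          exact le_of_eq (congrArg _ (by push_cast; ring))
        · rw [zero_mul, zero_mul]
      · split_ifs with h
        · subst h
          rw [hpw, mul_comm, ← Real.rpow_add_one hq0.ne']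
          exact le_of_eq (congrArg _ (by norm_num))
        · rw [zero_mul]
  · have a1 : q ^ (-(1 / 2) : ℝ) ≤ 38 / 100 := by
      simpa using rpow_neg_le hq 1 2 (by norm_num) (c := 38 / 100) (by norm_num) (by norm_num)
    have a2 : q ^ (-(7 / 8) : ℝ) ≤ 1 / 5 := by
      simpa using rpow_neg_le hq 7 8 (by norm_num) (c := 1 / 5) (by norm_num) (by norm_num)
    have e1 : t ^ 6 = q ^ (-(1 / 2) : ℝ) * q ^ (-(3 / 4) : ℝ) := by
      rw [ht, hpw, ← Real.rpow_add hq0]; norm_num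
    have e2 : t ^ 6 * q ^ (-(3 / 8) : ℝ) = q ^ (-(7 / 8) : ℝ) * q ^ (-(3 / 4) : ℝ) := by
      rw [ht, hpw, ← Real.rpow_add hq0, ← Real.rpow_add hq0]; norm_num
    have h4 : 0 ≤ q ^ (-(3 / 4) : ℝ) := by positivity
    rw [mul_assoc _ _ (q ^ (-(3 / 8) : ℝ)), e2, e1]
    nlinarith [mul_le_mul_of_nonneg_right a1 h4, mul_le_mul_of_nonneg_right a2 h4]

theorem norm_mu_pow_le (hp : Prime p) (j : ℕ) {x : ℝ} (hx : 0 ≤ x) :
    ‖mu (p ^ j)‖ * x ^ j ≤ (if j = 0 then 1 else 0) + if j = 1 then x else 0 := by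
  rcases j with _ | _ | j
  · simp
  · simpa using mul_le_mul_of_nonneg_right (norm_mu_le p) hx
  · have : ¬ Squarefree (p ^ (j + 1 + 1)) := fun h =>
      hp.not_isUnit (h p ⟨p ^ j, by ring⟩)
    simp [BasicB.mu_of_not this]

theorem loc_gi (hM : Adm M) (ψ : Chr M) (hp : GP M p) : LB p (tw (gi3 ψ)) 2 := by
  have hq := seven_le hM hp
  set x := nr p ^ (-(7 / 8) : ℝ) with hx
  have hx0 : 0 ≤ x := by positivity
  have hx1 : x ≤ 1 / 5 := by
    simpa using rpow_neg_le hq 7 8 (by norm_num) (c := 1 / 5) (by norm_num) (by norm_num)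
  have hB := (SB_single (0 : ℕ) zero_le_one).add (SB_single (1 : ℕ) hx0)
  have hB0 : ∀ j : ℕ, 0 ≤ (if j = 0 then (1 : ℝ) else 0) + if j = 1 then x else 0 := fun j => by
    split_ifs <;> positivity
  have h := (SB_geom hx0 (by linarith)).prod (hB.prod hB hB0 hB0) (fun n => by positivity)
    fun b => mul_nonneg (hB0 _) (hB0 _)
  refine h.mono ?_ ?_
  · rintro ⟨i, j, k⟩
    simp only [norm_tw, wt_pp, ← hx]
    have r : ∀ (ν : Chr M) (n : O), ‖rc ν 1 n‖ ≤ 1 := fun ν n => norm_rc_le hM ν 1 n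
    have b : ‖gi3 ψ (pp p (i, j, k))‖ ≤ ‖mu (p ^ j)‖ * ‖mu (p ^ k)‖ := by
      simp only [gi3, pp, norm_mul]
      calc _ ≤ 1 * (‖mu (p ^ j)‖ * 1) * (‖mu (p ^ k)‖ * 1) := by gcongr <;> exact r _ _
        _ = _ := by ring
    calc _ ≤ ‖mu (p ^ j)‖ * ‖mu (p ^ k)‖ * x ^ (i + j + k) := by gcongr
      _ = x ^ i * ((‖mu (p ^ j)‖ * x ^ j) * (‖mu (p ^ k)‖ * x ^ k)) := by ring
      _ ≤ _ := mul_le_mul_of_nonneg_left (mul_le_mul (norm_mu_pow_le hp.1 j hx0)
          (norm_mu_pow_le hp.1 k hx0) (by positivity) (hB0 j)) (by positivity)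
  · rw [inv_mul_le_iff₀ (by linarith)]
    nlinarith

end Crest.Agent.R17.P3.LocA
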