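import Crest.Agent.R17.P3Op

/-!
# Row 17, principal rows: local estimates, the differences `f3 - g3` and `Tp f3 - f3`
-/

set_option autoImplicit false

noncomputable section

namespace Crest.Agent.R17.P3.LocB

open scoped ComplexConjugate

variable {M p : O}

theorem SB_fiber {α β : Type} {h : α → β → ℝ} {c : β → ℝ} {C : ℝ}
    (H : ∀ b, SB (fun a => h a b) (c b)) (Hc : SB c C) (h0 : ∀ a b, 0 ≤ h a b) :
    SB (fun v : α × β => h v.1 v.2) C := by
  classical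
  intro S
  calc ∑ v ∈ S, h v.1 v.2 ≤ ∑ v ∈ S.image Prod.fst ×ˢ S.image Prod.snd, h v.1 v.2 :=
        Finset.sum_le_sum_of_subset_of_nonneg Finset.subset_product fun v _ _ => h0 _ _
    _ = ∑ b ∈ S.image Prod.snd, ∑ a ∈ S.image Prod.fst, h a b := Finset.sum_product_right _ _ _
    _ ≤ ∑ b ∈ S.image Prod.snd, c b := Finset.sum_le_sum fun b _ => H b _
    _ ≤ C := Hc _

theorem SB_single {α : Type} [DecidableEq α] (a : α) {t : ℝ} (ht : 0 ≤ t) :
    SB (fun b => if b = a then t else 0) t :=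
  SB.of_hasSum (hasSum_ite_eq a t) fun _ => by split_ifs <;> simp [ht]

theorem SB_geo {x : ℝ} (h0 : 0 ≤ x) (h1 : x ≤ 1 / 5) : SB (fun j : ℕ => x ^ j) (5 / 4) :=
  (SB.of_hasSum (hasSum_geometric_of_lt_one h0 (by linarith)) fun _ => by positivity).mono
    (fun _ => le_rfl) (by rw [inv_le_comm₀ (by linarith) (by norm_num)]; linarith)

theorem SB_geo1 {x : ℝ} (h0 : 0 ≤ x) (h1 : x ≤ 1 / 5) :
    SB (fun j : ℕ => if j = 0 then 0 else x ^ j) (5 / 4 * x) := by
  rw [mul_comm]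
  refine ((SB_geo h0 h1).const_mul h0).comp (fun j => j - 1) (fun a ha b hb e => ?_) fun j hj => ?_
  · have a0 : a ≠ 0 := fun h => by simp [h] at ha
    have b0 : b ≠ 0 := fun h => by simp [h] at hb
    simp only at e
    omega
  · have j0 : j ≠ 0 := fun h => by simp [h] at hj
    rw [if_neg j0, ← pow_succ', Nat.sub_one_add_one j0]

theorem LB_of {f : T3 → ℂ} {x c₀ c₁ : ℝ} (hx : x = nr p ^ (-(7 / 8) : ℝ)) (h1 : x ≤ 1 / 5)
    (H0 : SB (fun y : ℕ × ℕ => ‖f (pp p (y.1, y.2, 0))‖ * x ^ (y.1 + y.2)) c₀)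
    (H1 : ∀ k, 1 ≤ k → SB (fun y : ℕ × ℕ => ‖f (pp p (y.1, y.2, k))‖ * x ^ (y.1 + y.2)) c₁) :
    LB p (tw f) (c₀ + c₁ * (5 / 4 * x)) := by
  have h0 : 0 ≤ x := by rw [hx]; positivity
  have A := SB_fiber (h := fun (y : ℕ × ℕ) (k : ℕ) =>
      x ^ k * (‖f (pp p (y.1, y.2, k))‖ * x ^ (y.1 + y.2)))
    (c := fun k => (if k = 0 then c₀ else 0) + c₁ * if k = 0 then 0 else x ^ k)
    (fun k => by
      rcases Nat.eq_zero_or_pos k with rfl | hk
      · simpa using H0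
      · rw [if_neg hk.ne', if_neg hk.ne', zero_add, mul_comm]
        exact (H1 k hk).const_mul (by positivity))
    ((SB_single 0 H0.nonneg).add ((SB_geo1 h0 h1).const_mul (H1 1 le_rfl).nonneg))
    fun _ _ => by positivity
  refine A.comp (fun l : L3 => ((l.1, l.2.1), l.2.2)) (fun a _ b _ e => ?_) fun l _ => le_of_eq ?_
  · simp only [Prod.mk.injEq] at e
    exact Prod.ext e.1.1 (Prod.ext e.1.2 e.2)
  · rw [norm_tw, wt_pp, ← hx, pow_add]
    ring

theorem x_le (h7 : 7 ≤ nr p) : nr p ^ (-(7 / 8) : ℝ) ≤ 1 / 5 := by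
  refine (Real.rpow_le_rpow_of_nonpos (by norm_num) h7 (by norm_num)).trans ?_
  refine le_of_pow_le_pow_left₀ (n := 8) (by norm_num) (by norm_num) ?_
  rw [← Real.rpow_natCast, ← Real.rpow_mul (by norm_num)]
  norm_num

theorem e_le (h7 : 7 ≤ nr p) : nr p ^ (-(3 / 4) : ℝ) ≤ 1 / 3 := by
  refine (Real.rpow_le_rpow_of_nonpos (by norm_num) h7 (by norm_num)).trans ?_
  refine le_of_pow_le_pow_left₀ (n := 4) (by norm_num) (by norm_num) ?_
  rw [← Real.rpow_natCast, ← Real.rpow_mul (by norm_num)]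
  norm_num

theorem x_le_e (h7 : 7 ≤ nr p) : nr p ^ (-(7 / 8) : ℝ) ≤ nr p ^ (-(3 / 4) : ℝ) :=
  Real.rpow_le_rpow_of_exponent_le (by linarith) (by norm_num)

theorem f3_zero (hM : Adm M) (ψ : Chr M) (hp : GP M p) (i j : ℕ) :
    f3 ψ (pp p (i, j, 0)) = if i = 0 then 1 else if i = 1 ∧ j = 0 then -ev ψ p else 0 := by
  have h := cf_unram hM ψ (a := 1) hp.1 hp.2.1 hp.2.2 hp.1.not_dvd_one i j
  simp only [sym_one_right, one_pow, map_one, mul_one] at h
  simp only [f3, pp, pow_zero, one_pow]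
  rw [if_pos ⟨primary_one, isCoprime_one_left⟩, h]

theorem g3_pp (ψ : Chr M) (hp : GP M p) (i j k : ℕ) :
    g3 ψ (pp p (i, j, k)) = if i = 0 then 1 else if i = 1 then -ev ψ p else 0 := by
  have h1 : ∀ n : ℕ, rc (1 : Chr M) 1 (p ^ n) = 1 := fun n => by
    rw [LBA.rc_pos _ _ (hp.2.1.pow n), sym_one_right, map_one, mul_one]
    exact MulChar.one_apply (isUnit_mk_iff.2 (hp.1.coprime_iff_not_dvd.2 hp.2.2).pow_left)
  simp only [g3, pp, h1, mul_one]
  split_ifs with h0 h2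
  · rw [h0, pow_zero, mu_one, LBA.rc_one, one_mul]
  · rw [h2, pow_one, mu_prime hp.1 hp.2.1, LBA.rc_pos _ _ hp.2.1, sym_one_right]
    simp
  · obtain ⟨n, rfl⟩ : ∃ n, i = n + 1 + 1 := ⟨i - 2, by omega⟩
    rw [pow_succ _ (n + 1), mu_mul_of_not_coprime, zero_mul]
    exact fun h => hp.1.not_isUnit (h.isUnit_of_dvd' (dvd_pow_self p (by omega)) dvd_rfl)

theorem norm_ev_p (hM : Adm M) (ψ : Chr M) (hp : GP M p) : ‖ev ψ p‖ = 1 :=
  norm_ev hM.1 ψ (hp.1.coprime_iff_not_dvd.2 hp.2.2)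

open Classical in
/-- The statement of `loc_ram`. -/
def Ram (ψ : Chr M) (p : O) : Prop := ∀ k : ℕ, 1 ≤ k →
  f3 ψ (pp p (0, 0, k)) = 1 ∧
    SB (fun y : ℕ × ℕ => if y = 0 then 0 else
      ‖f3 ψ (pp p (y.1, y.2, k))‖ * (nr p ^ (-(7 / 8) : ℝ)) ^ (y.1 + y.2))
      (3 * nr p ^ (-(3 / 4) : ℝ))

theorem loc_f (hM : Adm M) (ψ : Chr M) (hp : GP M p) (h7 : 7 ≤ nr p) (hr : Ram ψ p) :
    LB p (tw fun v => f3 ψ v - g3 ψ v) (10 * nr p ^ (-(13 / 8) : ℝ)) := by
  have hx5 := x_le h7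
  have hxe := x_le_e h7
  have hex : nr p ^ (-(13 / 8) : ℝ) = nr p ^ (-(3 / 4) : ℝ) * nr p ^ (-(7 / 8) : ℝ) := by
    rw [← Real.rpow_add (by linarith)]
    norm_num
  have hψ := norm_ev_p hM ψ hp
  unfold Ram at hr
  rw [hex]
  generalize nr p ^ (-(3 / 4) : ℝ) = e at *
  set x := nr p ^ (-(7 / 8) : ℝ) with hx
  have h0 : 0 ≤ x := by positivity
  have n0 : ∀ (a : ℕ) (t : ℝ), 0 ≤ t → ∀ i : ℕ, 0 ≤ if i = a then t else 0 :=
    fun a t ht i => by split_ifs <;> simp [ht]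
  have n1 : ∀ j : ℕ, 0 ≤ if j = 0 then 0 else x ^ j := fun j => by split_ifs <;> positivity
  refine (LB_of (c₀ := x * (5 / 4 * x)) (c₁ := 3 * e + (1 * (5 / 4 * x) + x * (5 / 4))) hx hx5
    ?_ fun k hk => ?_).mono (fun _ => le_rfl) (by nlinarith [mul_le_mul_of_nonneg_left hxe h0])
  · refine ((SB_single 1 h0).prod (SB_geo1 h0 hx5) (n0 1 x h0) n1).mono (fun y => ?_) le_rfl
    obtain ⟨i, j⟩ := y
    simp only [f3_zero hM ψ hp, g3_pp ψ hp]
    rcases i with _ | _ | i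
    · simp
    · rcases j with _ | j
      · simp
      · simp [hψ, pow_add, mul_comm]
    · simp
  · obtain ⟨r0, r1⟩ := hr k hk
    refine (r1.add (((SB_single 0 zero_le_one).prod (SB_geo1 h0 hx5) (n0 0 1 zero_le_one) n1).add
      ((SB_single 1 h0).prod (SB_geo h0 hx5) (n0 1 x h0) fun _ => by positivity))).mono
      (fun y => ?_) le_rfl
    obtain ⟨i, j⟩ := y
    by_cases hy : ((i, j) : ℕ × ℕ) = 0
    · obtain ⟨rfl, rfl⟩ := Prod.mk_eq_zero.1 hy
      simp [r0, g3_pp ψ hp]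
    · rw [if_neg hy]
      refine (mul_le_mul_of_nonneg_right (norm_sub_le _ _) (by positivity)).trans ?_
      rw [add_mul, g3_pp ψ hp]
      refine add_le_add le_rfl ?_
      rcases i with _ | _ | i
      · have hj : j ≠ 0 := fun h => hy (by simp [h])
        simp [hj]
      · simp [hψ, pow_add]
      · simp

theorem loc_T (hM : Adm M) (ψ : Chr M) (hp : GP M p) (h7 : 7 ≤ nr p) (hr : Ram ψ p) :
    LB p (tw fun v => Tp ψ p (f3 ψ) v - f3 ψ v) (20 * nr p ^ (-(3 / 4) : ℝ)) := by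
  have hx5 := x_le h7
  have hxe := x_le_e h7
  have he3 := e_le h7
  have hψ := norm_ev_p hM ψ hp
  have hψ' : conj (ev ψ p) * ev ψ p = 1 := by
    rw [Complex.conj_mul', hψ]
    simp
  unfold Ram at hr
  generalize nr p ^ (-(3 / 4) : ℝ) = e at *
  set x := nr p ^ (-(7 / 8) : ℝ) with hx
  have h0 : 0 < x := by positivity
  refine (LB_of (c₀ := x + x ^ 2) (c₁ := x⁻¹ * (3 * e) + x * 2 + 2) hx hx5
    ?_ fun k hk => ?_).mono (fun _ => le_rfl) ?_
  · refine ((SB_single ((1, 0) : ℕ × ℕ) h0.le).add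
      (SB_single ((1, 1) : ℕ × ℕ) (sq_nonneg x))).mono (fun y => ?_) le_rfl
    obtain ⟨i, j⟩ := y
    simp only [Tp_pp ψ hp.1, f3_zero hM ψ hp]
    rcases i with _ | _ | i
    · rcases j with _ | j
      · simp [hψ']
      · simp
    · rcases j with _ | _ | j
      · simp [hψ]
      · simp [hψ]
      · simp
    · simp
  · obtain ⟨r0, r1⟩ := hr k hk
    have r2 : SB (fun y : ℕ × ℕ => ‖f3 ψ (pp p (y.1, y.2, k))‖ * x ^ (y.1 + y.2)) 2 := by
      refine (r1.add (SB_single (0 : ℕ × ℕ) zero_le_one)).mono (fun y => ?_) (by linarith)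
      by_cases hy : y = 0
      · subst hy
        simp [r0]
      · simp [hy]
    have r3 : SB (fun y : ℕ × ℕ => ‖f3 ψ (pp p (y.1 + 1, y.2, k))‖ * x ^ (y.1 + y.2))
        (x⁻¹ * (3 * e)) := by
      refine (r1.const_mul (inv_pos.2 h0).le).comp (fun y => (y.1 + 1, y.2))
        (fun a _ b _ h => ?_) fun y _ => le_of_eq ?_
      · simp only [Prod.mk.injEq] at h
        exact Prod.ext (by omega) h.2
      · rw [if_neg (by simp), show y.1 + 1 + y.2 = y.1 + y.2 + 1 by ring, pow_succ]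
        field_simp
    have r4 : SB (fun y : ℕ × ℕ =>
        ‖if y.2 = 0 then 0 else f3 ψ (pp p (y.1, y.2 - 1, k))‖ * x ^ (y.1 + y.2)) (x * 2) := by
      refine (r2.const_mul h0.le).comp (fun y => (y.1, y.2 - 1))
        (fun a ha b hb h => ?_) fun y hy => le_of_eq ?_
      · have a0 : a.2 ≠ 0 := fun h => by simp [h] at ha
        have b0 : b.2 ≠ 0 := fun h => by simp [h] at hb
        simp only [Prod.mk.injEq] at h
        exact Prod.ext h.1 (by omega)
      · have y0 : y.2 ≠ 0 := fun h => by simp [h] at hy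
        rw [if_neg y0, show y.1 + y.2 = y.1 + (y.2 - 1) + 1 by omega, pow_succ]
        ring
    refine ((r3.add r4).add r2).mono (fun y => ?_) le_rfl
    rw [← add_mul, ← add_mul, Tp_pp ψ hp.1]
    refine mul_le_mul_of_nonneg_right ((norm_sub_le _ _).trans (add_le_add
      ((norm_add_le _ _).trans (add_le_add (le_of_eq ?_) (le_of_eq ?_))) le_rfl)) (by positivity)
    · rw [norm_mul, norm_neg, Complex.norm_conj, hψ, one_mul]
    · congr
  · have e1 : (x⁻¹ * (3 * e) + x * 2 + 2) * (5 / 4 * x) = 15 / 4 * e + 5 / 2 * x ^ 2 + 5 / 2 * x := by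
      field_simp
      ring
    rw [e1]
    nlinarith

end Crest.Agent.R17.P3.LocB
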