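import Crest.Agent.R17.P3Op
import Crest.Agent.R17.P3LocAuxA
import Crest.Agent.R17.P3LocAuxB

/-!
# Row 17, principal rows: local estimates

Put `q = N p ≥ 7` (`nm_prime_mod_six`; `p ≠ -2` since `72 ∣ M`), `x = q^{-7/8} ≤ 1/5`,
`F(i,j,k) = f3 ψ (pp p (i,j,k)) = cf ψ ((p^k)^6) (p^i) (p^j)`; `wt_pp`, `norm_tw`.
`loc_ram` (`k ≥ 1`, `vp p ((p^k)^6) = 6k`): `j ≥ 2` or `(i = 0, j = 1)`: zero (`cf_ram_zero`);
`j = 0`, `i ≥ 1`: zero for `i < 6`, and `≤ q^{2i/3}` (`norm_cf_ram_zero`); `j = 1`: `≤ q` for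
`i = 1`, zero for `2 ≤ i ≤ 5`, `≤ q^{2i/3+1/2}` for `i ≥ 6` (`norm_cf_ram_one`).  With
`t = q^{-5/24} ≤ 7/10` (`∑_{i ≥ 6} t^i = t⁶/(1-t) ≤ (10/3) t⁶`) the sum is at most
`q^{-3/4} + (10/3) q^{-5/4} + (10/3) q^{-13/8} ≤ 3 q^{-3/4}` (`q^{-1/2} ≤ 0.38`, `x ≤ 1/5`).  Majorise by explicit functions with known
`HasSum` (`hasSum_geometric_of_lt_one`, `hasSum_ite_eq`, `SB.of_hasSum`, `SB.prod`, `SB.add`, `SB.mono`).
For `k = 0` (`cf_unram` with `a = 1`): `F(0,j,0) = 1`, `F(1,0,0) = -ψ(p)`, the rest is zero;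
`G(i,j,k) = g3 ψ (pp p (i,j,k))` is `1` for `i = 0`, `-ψ(p)` for `i = 1`, `0` for `i ≥ 2`.
`loc_f`: `F - G` vanishes at `(0,j,0)`, `(1,0,0)`, `(0,0,k)`; otherwise
`‖F - G‖ ≤ 1_{k ≥ 1, (i,j) ≠ 0} ‖F‖ + ‖G‖`, where the `G` part is supported on `i = 0, j, k ≥ 1` and
`i = 1, (j,k) ≠ 0`: `≤ (25/16) x² + (25/8) x²`, the `F` part is `≤ 3 q^{-3/4} (5/4) x`.
`loc_gi`: `(1 + x)²/(1 - x) ≤ 2`.  `loc_T` (`Tp_pp`): at `k = 0` the difference is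
`ψ(p) (δ_{(1,0)} - δ_{(1,1)})`, of norm `x + x²`; for `k ≥ 1` (note `F(1,0,k) = 0`) bound the three
terms separately: `(5/4) x · [3 q^{-3/4}/x + 2 x + 2]`.
-/

set_option autoImplicit false

noncomputable section

namespace Crest.Agent.R17.P3

open scoped ComplexConjugate

variable {M p : O}

theorem GP.seven_le (hM : Adm M) (hp : GP M p) : 7 ≤ nr p :=
  LocA.seven_le hM hp

open Classical in
theorem loc_ram (hM : Adm M) (ψ : Chr M) (hp : GP M p) {k : ℕ} (hk : 1 ≤ k) :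
    f3 ψ (pp p (0, 0, k)) = 1 ∧
    SB (fun y : ℕ × ℕ => if y = 0 then 0 else
      ‖f3 ψ (pp p (y.1, y.2, k))‖ * (nr p ^ (-(7 / 8) : ℝ)) ^ (y.1 + y.2))
      (3 * nr p ^ (-(3 / 4) : ℝ)) :=
  LocA.loc_ram hM ψ hp hk

theorem loc_f (hM : Adm M) (ψ : Chr M) (hp : GP M p) :
    LB p (tw fun v => f3 ψ v - g3 ψ v) (10 * nr p ^ (-(13 / 8) : ℝ)) :=
  LocB.loc_f hM ψ hp (hp.seven_le hM) fun _ hk => loc_ram hM ψ hp hk

theorem loc_gi (hM : Adm M) (ψ : Chr M) (hp : GP M p) : LB p (tw (gi3 ψ)) 2 :=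
  LocA.loc_gi hM ψ hp

theorem loc_T (hM : Adm M) (ψ : Chr M) (hp : GP M p) :
    LB p (tw fun v => Tp ψ p (f3 ψ) v - f3 ψ v) (20 * nr p ^ (-(3 / 4) : ℝ)) :=
  LocB.loc_T hM ψ hp (hp.seven_le hM) fun _ hk => loc_ram hM ψ hp hk

end Crest.Agent.R17.P3
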