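import Crest.Agent.R17.P3Theta

/-!
# Row 17, principal rows: the model sum

`Psi3_eq`: the summand is `[μ rc(n) W(N n/D) · rc(c) gw(N c⁶/(A' N n/D))] · [rc(x) W(N x/X')]` with
`D = B/N j₁`, `X' = X/N j₂`, `A' = A/N j₃⁶` (for `n = 0` both sides vanish, `rc_zero`); absolute
convergence: `gw t ≤ C/t` (`gw_le_rpow`), `norm_Wc_le_rpow`, `summable_nr_rpow`; `Summable.tsum_prod`,
`tsum_mul_left`, `tsum_mul_right`.  `Psi3_bounds`: `Pln_exc` (`θ = 7/8`, `a = 1`, `Exc M 1`,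
`Princ (1 : Chr M) 1`), `MT_approx`, `Mob_of_zeroFree`; `κ = m · Wm(1 + 0) · κ'`;
`(A/N j₃⁶)^{1/6} = A^{1/6}/N j₃`, `(A/N j₃⁶)^{7/48} = A^{7/48} N j₃^{-7/8}`,
`(B/N j₁)^{β+ε} ≤ B^{β+ε} N j₁^{-7/8}`, `X^{7/8} ≤ X B^{-1/60}`, `A^{7/48} ≤ A^{1/6} B^{-1/60}`,
`P S - P₀ S₀ = (P - P₀) S + P₀ (S - S₀)`.
-/

set_option autoImplicit false

noncomputable section

namespace Crest.Agent.R17.P3

open scoped ComplexConjugate

variable {M : O}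

theorem P3Psi_summable (hM : Adm M) (ψ : Chr M) {D A : ℝ} (hD : 0 < D) (hA : 0 < A) :
    Summable fun v : O × O => ‖mu v.1 * rc ψ 1 v.1 * Wc (nr v.1 / D) 0 *
      (rc (1 : Chr M) 1 v.2 * (gw (nr v.2 ^ 6 / (A * (nr v.1 / D))) : ℂ))‖ := by
  obtain ⟨C, hC, h⟩ := gw_le_rpow 1
  have hb : PolyB (fun n => mu n * rc ψ 1 n * (nr n : ℂ)) 1 1 :=
    ⟨by simp, fun n => by
      have := (polyB_mu_rc hM ψ 1).2 n
      rw [Real.rpow_zero, mul_one] at this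
      rw [norm_mul, Complex.norm_real, Real.norm_of_nonneg (Nat.cast_nonneg _), Real.rpow_one]
      gcongr⟩
  have h1 := (summable_Sm hb hD 0).mul_left (C * (A / D))
  have h2 := summable_nr_rpow (σ := 6) (by norm_num)
  refine (h1.mul_of_nonneg h2 (fun n => by positivity) fun c => by positivity).of_nonneg_of_le
    (fun v => norm_nonneg _) ?_
  rintro ⟨n, c⟩
  dsimp only
  rcases eq_or_ne n 0 with rfl | hn
  · simp [rc_zero]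
  rcases eq_or_ne c 0 with rfl | hc
  · rw [rc_zero, zero_mul, mul_zero, norm_zero]; positivity
  have n1 := nr_pos hn
  have n2 := nr_pos hc
  have h3 := h (nr c ^ 6 / (A * (nr n / D))) (by positivity) zero_le_one
  rw [Real.rpow_neg_one] at h3
  have h4 : nr c ^ (-6 : ℝ) = (nr c ^ 6)⁻¹ := by
    rw [Real.rpow_neg n2.le]; norm_cast
  rw [h4, norm_mul, norm_mul (rc _ _ c), Complex.norm_real, Real.norm_of_nonneg (gw_pos _).le,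
    mul_right_comm (mu n * rc ψ 1 n), norm_mul _ (nr n : ℂ), Complex.norm_real,
    Real.norm_of_nonneg n1.le]
  calc _ ≤ ‖mu n * rc ψ 1 n * Wc (nr n / D) 0‖ * (1 * (C * (nr c ^ 6 / (A * (nr n / D)))⁻¹)) := by
        have := (gw_pos (nr c ^ 6 / (A * (nr n / D)))).le
        gcongr
        exact norm_rc_le hM _ _ _
    _ = _ := by field_simp

theorem Psi3_eq (hM : Adm M) (ψ : Chr M) {B : ℝ} (hB : 0 < B) {j : T3} (hj : Pr3 j) :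
    Psi3 ψ B j = Pln (1 : Chr M) 1 (Xpar B / nr j.2.1) 0 *
      MT ψ (B / nr j.1) (Apar B / nr j.2.2 ^ 6) := by
  have n1 := nr_pos hj.1.ne_zero
  have n2 := nr_pos hj.2.1.ne_zero
  have n3 := nr_pos hj.2.2.ne_zero
  have hA : 0 < Apar B := by unfold Apar; positivity
  have hX : 0 < Xpar B := by unfold Xpar; positivity
  have h1 := P3Psi_summable hM ψ (D := B / nr j.1) (A := Apar B / nr j.2.2 ^ 6) (by positivity)
    (by positivity)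
  have h2 := summable_Sm (polyB_rc hM (1 : Chr M) 1) (X := Xpar B / nr j.2.1) (by positivity) 0
  have e1 := h1.of_norm.tsum_prod
  simp only [tsum_mul_left] at e1
  rw [MT]
  simp only [Th]
  rw [← e1, Pln, tsum_mul_tsum_of_summable_norm h2 h1, Psi3]
  let e : T3 ≃ T3 := ⟨fun v => (v.2.1, v.1, v.2.2), fun v => (v.2.1, v.1, v.2.2),
    fun _ => rfl, fun _ => rfl⟩
  rw [← e.tsum_eq]
  refine tsum_congr ?_
  rintro ⟨x, n, c⟩
  have a1 : nr (j.1 * n) / B = nr n / (B / nr j.1) := by rw [nr_mul]; field_simp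
  have a2 : nr (j.2.1 * x) / Xpar B = nr x / (Xpar B / nr j.2.1) := by rw [nr_mul]; field_simp
  have a3 : nr ((j.2.2 * c) ^ 6) * B / (Apar B * nr (j.1 * n)) =
      nr c ^ 6 / (Apar B / nr j.2.2 ^ 6 * (nr n / (B / nr j.1))) := by
    rw [nr_pow, nr_mul, nr_mul]
    rcases eq_or_ne (nr n) 0 with h | h
    · simp [h]
    · field_simp
  show g3 ψ (n, x, c) * K3 B (j * (n, x, c)) = _
  simp only [g3, K3, Phi, Prod.fst_mul, Prod.snd_mul, a1, a2, a3]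
  ring

theorem P3Psi_princ : Princ (1 : Chr M) 1 := by
  intro n hn hc
  rw [mul_one] at hc
  rw [rc, if_pos hn, sym_one_right, map_one, mul_one, ev]
  obtain ⟨a, b, hab⟩ := hc
  refine MulChar.one_apply (IsUnit.of_mul_eq_one (Ideal.Quotient.mk _ a) ?_)
  rw [← map_mul, ← map_one (Ideal.Quotient.mk _), Ideal.Quotient.eq, Ideal.mem_span_singleton]
  exact ⟨-b, by rw [← hab]; ring⟩

theorem P3Psi_core {P P₀ S S₀ : ℂ} {c₁ c₀ c₂ c₃ u v δ : ℝ} (hδ : δ ≤ 1) (hδ0 : 0 ≤ δ) (hc₁ : 0 ≤ c₁)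
    (hc₀ : 0 ≤ c₀) (hc₂ : 0 ≤ c₂) (hc₃ : 0 ≤ c₃) (hu : 0 ≤ u) (hv : 0 ≤ v)
    (h1 : ‖P - P₀‖ ≤ c₁ * u * δ) (h0 : ‖P₀‖ ≤ c₀ * u) (h2 : ‖S - S₀‖ ≤ c₂ * v * δ)
    (h3 : ‖S₀‖ ≤ c₃ * v) :
    ‖P * S‖ ≤ (c₁ + c₀) * (c₂ + c₃) * (u * v) ∧
      ‖P * S - P₀ * S₀‖ ≤ (c₁ + c₀) * (c₂ + c₃) * (u * v * δ) := by
  have hS : ‖S‖ ≤ (c₂ + c₃) * v := by
    calc ‖S‖ ≤ ‖S - S₀‖ + ‖S₀‖ := norm_le_norm_sub_add _ _
      _ ≤ c₂ * v * 1 + c₃ * v := add_le_add (h2.trans (by gcongr)) h3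
      _ = _ := by ring
  have hP : ‖P‖ ≤ (c₁ + c₀) * u := by
    calc ‖P‖ ≤ ‖P - P₀‖ + ‖P₀‖ := norm_le_norm_sub_add _ _
      _ ≤ c₁ * u * 1 + c₀ * u := add_le_add (h1.trans (by gcongr)) h0
      _ = _ := by ring
  constructor
  · rw [norm_mul]
    calc _ ≤ (c₁ + c₀) * u * ((c₂ + c₃) * v) := by gcongr
      _ = _ := by ring
  · calc _ = ‖(P - P₀) * S + P₀ * (S - S₀)‖ := by congr 1; ring
      _ ≤ ‖P - P₀‖ * ‖S‖ + ‖P₀‖ * ‖S - S₀‖ := by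
        rw [← norm_mul, ← norm_mul]; exact norm_add_le _ _
      _ ≤ c₁ * u * δ * ((c₂ + c₃) * v) + c₀ * u * ((c₂ + c₃) * v * δ) := by
        have : ‖S - S₀‖ ≤ (c₂ + c₃) * v * δ := h2.trans (by gcongr; linarith)
        gcongr
      _ = _ := by ring

theorem P3Psi_div {x n σ : ℝ} (hx : 0 ≤ x) (hn : 1 ≤ n) (hσ : 7 / 8 ≤ σ) :
    (x / n) ^ σ ≤ x ^ σ * n ^ (-(7 / 8) : ℝ) := by
  rw [Real.div_rpow hx (by linarith), div_eq_mul_inv, ← Real.rpow_neg (by linarith)]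
  exact mul_le_mul_of_nonneg_left (Real.rpow_le_rpow_of_exponent_le hn (by linarith)) (by positivity)

theorem P3Psi_div6 {x n : ℝ} (hx : 0 ≤ x) (hn : 0 ≤ n) (σ : ℝ) :
    (x / n ^ 6) ^ σ = x ^ σ * n ^ (-(6 * σ)) := by
  rw [Real.div_rpow hx (by positivity), div_eq_mul_inv, ← Real.rpow_natCast_mul hn,
    ← Real.rpow_neg hn]
  norm_num

theorem Psi3_bounds (hM : Adm M) : ∃ κ : ℂ, κ ≠ 0 ∧ ∀ β : ℝ, 7 / 8 ≤ β → β ≤ 1 → ZeroFree β →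
    ∀ (ψ : Chr M) (ε : ℝ), 0 < ε → ∃ C : ℝ, 0 < C ∧ ∀ (B : ℝ) (j : T3), 1 ≤ B → Pr3 j →
      ‖Psi3 ψ B j‖ ≤ C * (Apar B ^ (1 / 6 : ℝ) * Xpar B) * B ^ (β + ε) * wt j ∧
      ‖Psi3 ψ B j - κ * (Apar B ^ (1 / 6 : ℝ) * Xpar B : ℝ) *
          (Mob ψ 1 (B / nr j.1) (1 / 6) / ((nr j.2.1 * nr j.2.2 : ℝ) : ℂ))‖ ≤
        C * (Apar B ^ (1 / 6 : ℝ) * Xpar B) * B ^ (β + ε - 1 / 60) * wt j := by
  obtain ⟨C₁, J₁, hC₁, h₁⟩ := Pln_exc hM (θ := 7 / 8) (ε := 1) (by norm_num) (by norm_num) one_pos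
  obtain ⟨m, -, hm, h₁⟩ := h₁ (1 : Chr M) 1 one_ne_zero fun p hp => by simp at hp
  obtain ⟨κ, hκ, h₂⟩ := MT_approx hM
  refine ⟨m * Wm (1 + 0) * κ, mul_ne_zero (mul_ne_zero (hm P3Psi_princ) (Wm_ne_zero _)) hκ,
    fun β hβ hβ1 hZ ψ ε hε => ?_⟩
  obtain ⟨C₂, hC₂, h₂⟩ := h₂ β (by linarith) hβ1 hZ ψ ε hε
  obtain ⟨C₃, J₃, hC₃, h₃⟩ := Mob_of_zeroFree (by linarith) hβ1 hZ hM ψ hε
  refine ⟨(C₁ + ‖m‖ * ‖Wm (1 + 0)‖) * (C₂ + ‖κ‖ * C₃), by positivity, fun B j hB hj => ?_⟩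
  have hB0 : 0 < B := by linarith
  have n1 := one_le_nr hj.1.ne_zero
  have n2 := one_le_nr hj.2.1.ne_zero
  have n3 := one_le_nr hj.2.2.ne_zero
  have hA : 0 < Apar B := by unfold Apar; positivity
  have hX : 0 < Xpar B := by unfold Xpar; positivity
  have k1 := h₁ (Xpar B / nr j.2.1) 0 (by positivity) (by simp)
  have k2 := h₂ (B / nr j.1) (Apar B / nr j.2.2 ^ 6) (by positivity) (by positivity)
  have k3 := h₃ (B / nr j.1) (1 / 6) (by positivity) (by norm_num)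
  have i6 : (1 / 6 : ℂ).im = 0 := by norm_num
  simp only [nr, nm_one, Nat.cast_one, Real.one_rpow, Complex.zero_im, abs_zero, add_zero, one_pow,
    mul_one, i6] at k1 k3
  have d1 := P3Psi_div hB0.le n1 (σ := β + ε) (by linarith)
  have d2 := P3Psi_div hX.le n2 (σ := 7 / 8) le_rfl
  have d2' := P3Psi_div hX.le n2 (σ := 1) (by norm_num)
  rw [Real.rpow_one, Real.rpow_one] at d2'
  have x1 : Xpar B ^ (7 / 8 : ℝ) ≤ Xpar B * B ^ (-(1 / 60) : ℝ) := by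
    rw [Xpar, ← Real.rpow_mul hB0.le, ← Real.rpow_add hB0]
    exact Real.rpow_le_rpow_of_exponent_le hB (by norm_num)
  have x2 : Apar B ^ (7 / 48 : ℝ) ≤ Apar B ^ (1 / 6 : ℝ) * B ^ (-(1 / 60) : ℝ) := by
    rw [Apar, ← Real.rpow_mul hB0.le, ← Real.rpow_mul hB0.le, ← Real.rpow_add hB0]
    exact Real.rpow_le_rpow_of_exponent_le hB (by norm_num)
  have x3 : nr j.2.2 ^ (-(6 * (1 / 6)) : ℝ) ≤ nr j.2.2 ^ (-(7 / 8) : ℝ) :=
    Real.rpow_le_rpow_of_exponent_le n3 (by norm_num)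
  have x4 : (-(6 * (7 / 48)) : ℝ) = -(7 / 8) := by norm_num
  have x5 : nr j.2.2 ^ (-(6 * (1 / 6)) : ℝ) = (nr j.2.2)⁻¹ := by
    rw [← Real.rpow_neg_one]; norm_num
  rw [P3Psi_div6 hA.le (by positivity), P3Psi_div6 hA.le (by positivity), x4] at k2
  obtain ⟨r1, r2⟩ := P3Psi_core (δ := B ^ (-(1 / 60) : ℝ)) (c₁ := C₁) (c₀ := ‖m‖ * ‖Wm (1 + 0)‖)
    (c₂ := C₂) (c₃ := ‖κ‖ * C₃) (u := Xpar B * nr j.2.1 ^ (-(7 / 8) : ℝ))
    (v := Apar B ^ (1 / 6 : ℝ) * nr j.2.2 ^ (-(7 / 8) : ℝ) * (B ^ (β + ε) * nr j.1 ^ (-(7 / 8) : ℝ)))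
    (Real.rpow_le_one_of_one_le_of_nonpos hB (by norm_num)) (by positivity) hC₁.le (by positivity)
    hC₂.le (by positivity) (by positivity) (by positivity)
    (k1.trans (by
      calc _ ≤ C₁ * (Xpar B * B ^ (-(1 / 60) : ℝ) * nr j.2.1 ^ (-(7 / 8) : ℝ)) := by
            gcongr; exact d2.trans (by gcongr)
        _ = _ := by ring))
    (by
      rw [norm_mul, norm_mul, Complex.norm_real, Real.norm_of_nonneg (by positivity), add_zero,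
        mul_right_comm]
      gcongr)
    (k2.trans (by
      calc _ ≤ C₂ * (Apar B ^ (1 / 6 : ℝ) * B ^ (-(1 / 60) : ℝ) * nr j.2.2 ^ (-(7 / 8) : ℝ)) *
            (B ^ (β + ε) * nr j.1 ^ (-(7 / 8) : ℝ)) := by gcongr
        _ = _ := by ring))
    (by
      rw [norm_mul, norm_mul, Complex.norm_real, Real.norm_of_nonneg (by positivity)]
      calc _ ≤ ‖κ‖ * (Apar B ^ (1 / 6 : ℝ) * nr j.2.2 ^ (-(7 / 8) : ℝ)) *
            (C₃ * (B ^ (β + ε) * nr j.1 ^ (-(7 / 8) : ℝ))) := by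
            gcongr; exact k3.trans (by gcongr)
        _ = _ := by ring)
  have hw : wt j = nr j.1 ^ (-(7 / 8) : ℝ) * nr j.2.1 ^ (-(7 / 8) : ℝ) * nr j.2.2 ^ (-(7 / 8) : ℝ) := by
    rw [wt, nT, nr_mul, nr_mul, Real.mul_rpow (by positivity) (by positivity),
      Real.mul_rpow (by positivity) (by positivity)]
  rw [Psi3_eq hM ψ hB0 hj, hw, sub_eq_add_neg (β + ε), Real.rpow_add hB0 (β + ε)]
  refine ⟨r1.trans_eq (by ring), le_of_eq_of_le ?_ (r2.trans_eq (by ring))⟩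
  congr 2
  rw [x5, add_zero]
  push_cast
  ring

end Crest.Agent.R17.P3
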