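import Crest.Agent.R17.P3Op
import Crest.Agent.R17.P3Conv

/-!
# Row 17, principal rows: the sum over the principal rows as a sum over triples

`norm_K3_le`: `gw_le_rpow 1`, `norm_Wc_le_rpow` with `A = -4` and `A = -3`.  `tsum_exc`: the map
`c ↦ c⁶` is injective on primary elements (`Primary.ext_vp`, `vp_pow`), and a primary `a` coprime to
`M` with `Exc M a` is such a power (`exists_sixth`); `tsum_eq_tsum_of_ne_zero_bij`.  `Irow_eq`: both
sides are `∑_{n', x'} cf(z n', x') Φ(N n', N x' N π)` (`Function.Injective.tsum_eq` for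
`(n', x') ↦ (z n', x')` and `(n', x') ↦ (n', π x')`; no summability is needed).  `rows_eq`:
`Finset.powerset_univ`, `Finset.compl_eq_univ_sdiff`; summability over triples from `‖Sh z π f3 v‖ ≤
N z · N(nT v)` (vanishing off primary triples), `norm_K3_le`, `summable_nT`;
`Summable.tsum_finsetSum`, `Summable.tsum_prod`, `Summable.tsum_comm` or an explicit `Equiv`
`O × (O × O) ≃ T3`.
-/

set_option autoImplicit false

noncomputable section

namespace Crest.Agent.R17.P3

open scoped ComplexConjugate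

variable {M : O}

theorem norm_K3_le {B : ℝ} (hB : 0 < B) :
    ∃ C : ℝ, ∀ v, Pr3 v → ‖K3 B v‖ ≤ C * nr (nT v) ^ (-3 : ℝ) := by
  obtain ⟨C₁, hC₁, h₁⟩ := norm_Wc_le_rpow (-4) 0
  obtain ⟨C₂, hC₂, h₂⟩ := gw_le_rpow 1
  obtain ⟨C₃, hC₃, h₃⟩ := norm_Wc_le_rpow (-3) 0
  have hA : 0 < Apar B := Real.rpow_pos_of_pos hB _
  have hX : 0 < Xpar B := Real.rpow_pos_of_pos hB _
  refine ⟨C₁ * C₂ * C₃ * (B ^ 3 * Apar B * Xpar B ^ 3), fun v hv => ?_⟩
  have hn := nr_pos hv.1.ne_zero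
  have hx := nr_pos hv.2.1.ne_zero
  have hc := one_le_nr hv.2.2.ne_zero
  have e : ∀ (y : ℝ) (k : ℕ), 0 < y → y ^ (-(k : ℝ)) = (y ^ k)⁻¹ := fun y k hy => by
    rw [Real.rpow_neg hy.le, Real.rpow_natCast]
  have a₁ := h₁ (nr v.1 / B) 0 (by positivity) (by simp)
  have a₂ := h₂ (nr (v.2.2 ^ 6) * B / (Apar B * nr v.1)) (by rw [nr_pow]; positivity) zero_le_one
  have a₃ := h₃ (nr v.2.1 / Xpar B) 0 (by positivity) (by simp)
  have e₁ := e (nr v.1 / B) 4 (by positivity)
  have e₃ := e (nr v.2.1 / Xpar B) 3 (by positivity)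
  have e₄ := e (nr (nT v)) 3 (nr_pos hv.nT.ne_zero)
  rw [Nat.cast_ofNat] at e₁ e₃ e₄
  rw [e₁] at a₁
  rw [e₃] at a₃
  rw [Real.rpow_neg_one] at a₂
  rw [K3, Phi, norm_mul, norm_mul, Complex.norm_real, Real.norm_of_nonneg (gw_pos _).le, e₄]
  refine (mul_le_mul (mul_le_mul a₁ a₂ (gw_pos _).le (by positivity)) a₃ (norm_nonneg _)
    (by rw [nr_pow]; positivity)).trans ?_
  rw [nT, nr_mul, nr_mul, nr_pow]
  have h4 : (nr v.2.2 ^ 3)⁻¹ ≤ 1 := inv_le_one_of_one_le₀ (one_le_pow₀ hc)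
  refine le_trans (le_of_eq ?_) (mul_le_of_le_one_right (by positivity) h4)
  field_simp

open Classical in
theorem tsum_exc (M : O) (F : O → ℂ) :
    ∑' a : O, (if Exc M a then xiR M a * F a else 0) =
      ∑' c : O, if Primary c ∧ IsCoprime c M then F (c ^ 6) else 0 := by
  have hs : ∀ c : Function.support fun c : O =>
      if Primary c ∧ IsCoprime c M then F (c ^ 6) else 0, Primary c.1 ∧ IsCoprime c.1 M := fun c => by
    by_contra h
    exact c.2 (if_neg h)
  refine tsum_eq_tsum_of_ne_zero_bij (fun c => c.1 ^ 6) (fun c d h => Subtype.ext ?_)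
    (fun a ha => ?_) fun c => ?_
  · refine (hs c).1.ext_vp (hs d).1 fun p hp _ => ?_
    have := congrArg (vp p) h
    simp only [vp_pow hp (hs c).1.ne_zero, vp_pow hp (hs d).1.ne_zero] at this
    omega
  · have h1 : Exc M a := by
      by_contra h
      exact ha (if_neg h)
    simp only [Function.mem_support, if_pos h1] at ha
    have h2 : Primary a ∧ IsCoprime a M := by
      by_contra h
      exact left_ne_zero_of_mul ha (if_neg h)
    obtain ⟨r, c, hr, hc, h3, rfl⟩ := exists_sixth h2.1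
    have h4 : r = 1 := by
      refine hr.ext_vp primary_one fun p hp hp' => ?_
      rw [BasicB.vp_unit hp isUnit_one]
      by_contra h0
      have h5 := (BasicB.mem_pf_iff hr.ne_zero hp hp').2 h0
      have h6 : p ∣ r * c ^ 6 := (BasicB.of_mem_pf h5).2.2.mul_right _
      have h7 := h1 p ((mem_pf h2.1.ne_zero).2 ⟨hp, hp', h6⟩)
        fun h => hp.not_isUnit (h2.2.isUnit_of_dvd' h6 h)
      rw [vp_mul hp hr.ne_zero (hc.pow 6).ne_zero, vp_pow hp hc.ne_zero] at h7
      have := h3 p h5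
      omega
    rw [h4, one_mul] at ha h2 ⊢
    have h5 : IsCoprime c M := (IsCoprime.pow_left_iff (by norm_num)).1 h2.2
    exact ⟨⟨c, by
      simp only [Function.mem_support, if_pos (And.intro hc h5)]
      exact right_ne_zero_of_mul ha⟩, rfl⟩
  · have h1 : Exc M (c.1 ^ 6) := fun p hp _ => by
      rw [vp_pow (BasicB.pf_sub hp).1 (hs c).1.ne_zero]
      exact dvd_mul_right _ _
    simp only [if_pos h1, if_pos (hs c)]
    rw [xiR, if_pos ⟨(hs c).1.pow 6, (hs c).2.pow_left⟩, one_mul]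

theorem Irow_eq (ψ : Chr M) (B : ℝ) {c z π : O} (hc : Primary c) (hcM : IsCoprime c M) (hz : z ≠ 0)
    (hπ : π ≠ 0) :
    Irow ψ B (c ^ 6) z π = ∑' y : O × O, Sh z π (f3 ψ) (y.1, y.2, c) * K3 B (y.1, y.2, c) := by
  have h1 : Function.Injective fun y : O × O => (z * y.1, y.2) := fun y y' h =>
    Prod.ext (mul_left_cancel₀ hz (Prod.ext_iff.1 h).1) (Prod.ext_iff.1 h).2
  have h2 : Function.Injective fun y : O × O => (y.1, π * y.2) := fun y y' h =>
    Prod.ext (Prod.ext_iff.1 h).1 (mul_left_cancel₀ hπ (Prod.ext_iff.1 h).2)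
  rw [Irow, ← h1.tsum_eq, ← h2.tsum_eq
    (f := fun y : O × O => Sh z π (f3 ψ) (y.1, y.2, c) * K3 B (y.1, y.2, c))]
  · refine tsum_congr fun y => ?_
    simp only [Sh, f3, K3, dvd_mul_right, if_true, if_pos (And.intro hc hcM), nr_mul]
    rw [mul_div_cancel_left₀ _ hπ, mul_div_cancel_left₀ _ (nr_pos hz).ne', mul_comm (nr π)]
  · intro y hy
    have h3 : π ∣ y.2 := by
      by_contra h
      exact left_ne_zero_of_mul hy (if_neg h)
    obtain ⟨x, hx⟩ := h3
    exact ⟨(y.1, x), Prod.ext rfl hx.symm⟩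
  · intro y hy
    have h3 : z ∣ y.1 := by
      by_contra h
      exact hy (if_neg h)
    obtain ⟨x, hx⟩ := h3
    exact ⟨(x, y.2), Prod.ext hx.symm rfl⟩

theorem rows_summable (hM : Adm M) (ψ : Chr M) {B : ℝ} (hB : 0 < B) {z π : O} (hz : Primary z)
    (hπ : Primary π) : Summable fun v : T3 => Sh z π (f3 ψ) v * K3 B v := by
  obtain ⟨C, hC⟩ := norm_K3_le hB
  refine ((summable_nT one_lt_two).mul_left (nr z * |C|)).of_norm_bounded fun v => ?_
  have h0 : (0 : ℝ) ≤ nr z := Nat.cast_nonneg _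
  have h0' : (0 : ℝ) ≤ nr (nT v) := Nat.cast_nonneg _
  by_cases h : Sh z π (f3 ψ) v = 0
  · rw [h, zero_mul, norm_zero]
    positivity
  have h1 : π ∣ v.2.1 := by
    by_contra h1
    exact h (if_neg h1)
  obtain ⟨n, x, c⟩ := v
  obtain ⟨x, rfl : _ = π * x⟩ := h1
  have h2 : Sh z π (f3 ψ) (n, π * x, c) = f3 ψ (z * n, x, c) := by
    simp only [Sh, dvd_mul_right, if_true, mul_div_cancel_left₀ _ hπ.ne_zero]
  rw [h2] at h ⊢
  obtain ⟨p₁, p₂, p₃⟩ := (mul3_f3 hM ψ).sup _ h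
  have hv : Pr3 (n, π * x, c) := ⟨hz.of_mul p₁, hπ.mul p₂, p₃⟩
  have h3 : nr (nT (z * n, x, c)) ≤ nr z * nr (nT (n, π * x, c)) := by
    have h4 : nr z * nr (nT (n, π * x, c)) = nr π * nr (nT (z * n, x, c)) := by
      simp only [nT, nr_mul]
      ring
    rw [h4]
    exact le_mul_of_one_le_left (Nat.cast_nonneg _) (one_le_nr hπ.ne_zero)
  have hp := nr_pos hv.nT.ne_zero
  rw [norm_mul]
  refine (mul_le_mul ((norm_f3_le hM ψ _).trans h3) ((hC _ hv).trans
    (mul_le_mul_of_nonneg_right (le_abs_self C) (by positivity))) (norm_nonneg _)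
    (by positivity)).trans (le_of_eq ?_)
  rw [show (-2 : ℝ) = 1 + -3 by norm_num, Real.rpow_add hp, Real.rpow_one]
  ring

/-- Regrouping of the triples along the last component. -/
def rowsEquiv : O × O × O ≃ T3 where
  toFun w := (w.2.1, w.2.2, w.1)
  invFun v := (v.2.2, v.1, v.2.1)
  left_inv _ := rfl
  right_inv _ := rfl

theorem rows_hasSum {F : T3 → ℂ} (hF : Summable F) :
    HasSum (fun c : O => ∑' y : O × O, F (y.1, y.2, c)) (∑' v, F v) := by
  have h1 := (rowsEquiv.summable_iff).2 hF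
  rw [← rowsEquiv.tsum_eq]
  exact h1.hasSum.prod_fiberwise fun c => (h1.prod_factor c).hasSum

open Classical in
theorem rows_eq (hM : Adm M) (ψ : Chr M) (K₀ : ℕ) {B : ℝ} (hB : 0 < B) :
    ∑' a : O, (if Exc M a then xiR M a * Ia ψ K₀ B a else 0) =
      ∑ q ∈ Fintype.piFinset (fun i : Fin K₀ => Pset M K₀ B i), (∏ i : Fin K₀, cw K₀ B i (q i)) *
        ∑' v : T3, fI ψ q Finset.univ v * K3 B v := by
  have hP : ∀ q ∈ Fintype.piFinset (fun i : Fin K₀ => Pset M K₀ B i), ∀ J : Finset (Fin K₀),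
      Primary (∏ i ∈ J, q i) := fun q hq J =>
    Primary.prod fun i _ => ((mem_Pset hB).1 (Fintype.mem_piFinset.1 hq i)).2.1
  rw [tsum_exc]
  have h1 := hasSum_sum (s := Fintype.piFinset fun i : Fin K₀ => Pset M K₀ B i) fun q hq =>
    hasSum_sum (s := (Finset.univ : Finset (Finset (Fin K₀)))) fun J _ =>
      (rows_hasSum (rows_summable hM ψ hB (hP q hq Jᶜ) (hP q hq J))).mul_left
        ((∏ i : Fin K₀, cw K₀ B i (q i)) * ∏ i ∈ Jᶜ, -conj (ev ψ (q i)))
  refine (tsum_congr fun c => ?_).trans (h1.tsum_eq.trans ?_)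
  · split_ifs with hc
    · exact Finset.sum_congr rfl fun q hq => Finset.sum_congr rfl fun J _ => by
        rw [Irow_eq ψ B hc.1 hc.2 (hP q hq _).ne_zero (hP q hq _).ne_zero]
    · simp only [Sh, f3, if_neg hc, ite_self, zero_mul, tsum_zero, mul_zero, Finset.sum_const_zero]
  · refine Finset.sum_congr rfl fun q hq => ?_
    simp only [fI, Finset.powerset_univ, ← Finset.compl_eq_univ_sdiff, Finset.sum_mul, mul_assoc]
    rw [Summable.tsum_finsetSum fun J _ =>
      (rows_summable hM ψ hB (hP q hq Jᶜ) (hP q hq J)).mul_left _, Finset.mul_sum]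
    simp only [tsum_mul_left]

end Crest.Agent.R17.P3
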