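import Crest.Agent.R17.P3Euler
import Crest.Agent.R17.P3Rows
import Crest.Agent.R17.P3Loc
import Crest.Agent.R17.P3Psi

/-!
# Row 17, principal rows: assembly (owner helper81)
-/

set_option autoImplicit false

noncomputable section

namespace Crest.Agent.R17.P3

open scoped ComplexConjugate

variable {M p : O}

/-- The deconvolved coefficients. -/
def b3 (ψ : Chr M) : T3 → ℂ := conv (f3 ψ) (gi3 ψ)

/-- The size of the local factors. -/
def eps3 (p : O) : ℝ := 20 * nr p ^ (-(13 / 8) : ℝ)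

/-- The sum of the local sizes. -/
def E3 : ℝ := 20 * ∑' n : O, nr n ^ (-(13 / 8) : ℝ)

theorem mul3_b3 (hM : Adm M) (ψ : Chr M) : Mul3 M (b3 ψ) := (mul3_f3 hM ψ).conv (mul3_gi3 ψ)

theorem lb_b3 (hM : Adm M) (ψ : Chr M) (hp : GP M p) :
    LB p (tw fun v => b3 ψ v - del v) (eps3 p) := by
  have h := LB.conv hp.1 hp.2.1 (loc_f hM ψ hp) (loc_gi hM ψ hp)
  rw [conv_tw] at h
  have e : (conv (fun v => f3 ψ v - g3 ψ v) (gi3 ψ)) = fun v => b3 ψ v - del v := by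
    funext v
    rw [conv_sub, conv_comm (g3 ψ), conv_gi_g, b3]
  rw [e] at h
  exact SB.mono h (fun _ => le_rfl) (by rw [eps3]; linarith)

theorem LB.twist {b χ : T3 → ℂ} {e : ℝ} (hp : Primary p) (h : LB p (tw fun v => b v - del v) e)
    (h1 : χ 1 = 1) (hχ : ∀ v, Pr3 v → ‖χ v‖ ≤ wt v) : LB p (fun v => b v * χ v - del v) e := by
  refine SB.mono h (fun l => ?_) le_rfl
  have e1 : b (pp p l) * χ (pp p l) - del (pp p l) = (b (pp p l) - del (pp p l)) * χ (pp p l) := by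
    unfold del
    split_ifs with h0
    · rw [h0, h1]; ring
    · ring
  simp only [norm_tw]
  rw [e1, norm_mul]
  exact mul_le_mul_of_nonneg_left (hχ _ (pr3_pp hp l)) (norm_nonneg _)

theorem sbp_eps3 (M : O) : SBP M eps3 E3 := fun S _ => by
  simp only [eps3, E3, ← Finset.mul_sum]
  exact mul_le_mul_of_nonneg_left ((summable_nr_rpow (by norm_num)).sum_le_tsum S
    fun _ _ => by positivity) (by norm_num)

theorem eps3_lt_one (hM : Adm M) (hp : GP M p) : eps3 p < 1 := by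
  have h7 := hp.seven_le hM
  have h1 : (20 : ℝ) < 7 ^ (13 / 8 : ℝ) := by
    refine lt_of_pow_lt_pow_left₀ 8 (by positivity) ?_
    rw [← Real.rpow_natCast (7 ^ (13 / 8 : ℝ)), ← Real.rpow_mul (by norm_num)]
    norm_num
  have h2 : (7 : ℝ) ^ (13 / 8 : ℝ) ≤ nr p ^ (13 / 8 : ℝ) :=
    Real.rpow_le_rpow (by norm_num) h7 (by norm_num)
  rw [eps3, Real.rpow_neg (by positivity), ← div_eq_mul_inv, div_lt_one (by positivity)]
  linarith

theorem norm_wt (v : T3) : ‖(wt v : ℂ)‖ = wt v := by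
  rw [Complex.norm_real, Real.norm_of_nonneg (wt_nonneg v)]

theorem lb_tw_b3 (hM : Adm M) (ψ : Chr M) (hp : GP M p) :
    LB p (fun v => tw (b3 ψ) v - del v) (eps3 p) :=
  (lb_b3 hM ψ hp).twist hp.2.1 (χ := fun v => (wt v : ℂ)) (by rw [wt_one, Complex.ofReal_one])
    fun v _ => (norm_wt v).le

theorem sb_b3 (hM : Adm M) (ψ : Chr M) : SB (fun v => ‖b3 ψ v‖ * wt v) (Real.exp E3) := by
  have := euler_le (mul3_b3 hM ψ).tw (fun p hp => lb_tw_b3 hM ψ hp) (sbp_eps3 M)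
  simpa only [norm_tw] using this

theorem sb_diff (hM : Adm M) (ψ : Chr M) {ι : Type} [Fintype ι] [DecidableEq ι] {q : ι → O}
    (hq : ∀ i, GP M (q i)) (hinj : Function.Injective q) {R : ℝ} (hR : 0 < R)
    (hqR : ∀ i, R ≤ nr (q i)) :
    SB (fun v => ‖conv (fI ψ q Finset.univ) (gi3 ψ) v - b3 ψ v‖ * wt v)
      (Real.exp E3 * (Real.exp (Fintype.card ι * (40 * R ^ (-(3 / 4) : ℝ))) - 1)) := by
  classical
  have hq' : ∀ i ∈ (Finset.univ : Finset ι), GP M (q i) := fun i _ => hq i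
  have hinj' : Set.InjOn q (Finset.univ : Finset ι) := hinj.injOn
  have hc : 0 ≤ 40 * R ^ (-(3 / 4) : ℝ) := by positivity
  have hm := ((mul3_fI hM ψ hq' hinj').conv (mul3_gi3 ψ)).tw
  have e : (fun v => tw (conv (fI ψ q Finset.univ) (gi3 ψ)) v - tw (b3 ψ) v) =
      conv (tw fun v => fI ψ q Finset.univ v - f3 ψ v) (tw (gi3 ψ)) := by
    rw [conv_tw]
    funext v
    simp only [tw, conv_sub, b3]
    ring
  have key := euler_diff (mul3_b3 hM ψ).tw hm (fun p hp => lb_tw_b3 hM ψ hp) (sbp_eps3 M)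
    (δ := fun p => ∑ i, if q i = p then 40 * R ^ (-(3 / 4) : ℝ) else 0)
    (Δ := Fintype.card ι * (40 * R ^ (-(3 / 4) : ℝ))) (fun p hp => ?_) (fun S _ => ?_)
  · refine SB.mono key (fun v => le_of_eq ?_) le_rfl
    rw [tw, tw, ← sub_mul, norm_mul, norm_wt]
  · rw [e]
    by_cases h : ∃ i, q i = p
    · obtain ⟨i, rfl⟩ := h
      have h1 : LB (q i) (tw fun v => fI ψ q Finset.univ v - f3 ψ v)
          (20 * nr (q i) ^ (-(3 / 4) : ℝ)) := by
        refine SB.mono (loc_T hM ψ hp) (fun l => le_of_eq ?_) le_rfl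
        simp only [tw, fI_pp_self hM ψ hq' hinj' (Finset.mem_univ i)]
      refine SB.mono (LB.conv hp.1 hp.2.1 h1 (loc_gi hM ψ hp)) (fun _ => le_rfl) ?_
      have h2 : nr (q i) ^ (-(3 / 4) : ℝ) ≤ R ^ (-(3 / 4) : ℝ) :=
        Real.rpow_le_rpow_of_nonpos hR (hqR i) (by norm_num)
      refine le_trans ?_ (Finset.single_le_sum (f := fun j => if q j = q i then
        40 * R ^ (-(3 / 4) : ℝ) else 0) (fun j _ => by split_ifs <;> simp [hc]) (Finset.mem_univ i))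
      rw [if_pos rfl]
      linarith
    · have h1 : LB p (tw fun v => fI ψ q Finset.univ v - f3 ψ v) 0 := fun S => by
        simp [tw, fI_pp_of_ne hM ψ hq' hinj' hp fun i _ hi => h ⟨i, hi⟩]
      refine SB.mono (LB.conv hp.1 hp.2.1 h1 (loc_gi hM ψ hp)) (fun _ => le_rfl) ?_
      rw [zero_mul]
      exact Finset.sum_nonneg fun j _ => by split_ifs <;> simp [hc]
  · rw [Finset.sum_comm]
    refine (Finset.sum_le_card_nsmul _ _ (40 * R ^ (-(3 / 4) : ℝ)) fun i _ => ?_).trans ?_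
    · rw [Finset.sum_ite_eq]
      split_ifs <;> simp [hc]
    · rw [nsmul_eq_mul, Finset.card_univ]

theorem pair_le {b u : T3 → ℂ} {c C : ℝ} (hb : Sup b) (h : SB (fun v => ‖b v‖ * wt v) c)
    (hC : 0 ≤ C) (hu : ∀ v, Pr3 v → ‖u v‖ ≤ C * wt v) :
    Summable (fun v => b v * u v) ∧ ‖∑' v, b v * u v‖ ≤ C * c := by
  have h1 : SB (fun v => ‖b v * u v‖) (C * c) := by
    refine SB.mono (h.const_mul hC) (fun v => ?_) le_rfl
    by_cases h0 : b v = 0
    · simp [h0]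
    · rw [norm_mul, mul_left_comm]
      exact mul_le_mul_of_nonneg_left (hu v (hb v h0)) (norm_nonneg _)
  have h2 := h1.summable fun _ => norm_nonneg _
  exact ⟨h2.of_norm, (norm_tsum_le_tsum_norm h2).trans (h1.tsum_le fun _ => norm_nonneg _)⟩

theorem bbOf_tsum {b : T3 → ℂ} {u : O → ℂ}
    (h : Summable fun v : T3 => b v * (u v.1 / ((nr v.2.1 * nr v.2.2 : ℝ) : ℂ))) :
    ∑' j, bbOf b j * u j = ∑' v : T3, b v * (u v.1 / ((nr v.2.1 * nr v.2.2 : ℝ) : ℂ)) := by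
  rw [h.tsum_prod]
  refine tsum_congr fun j => ?_
  rw [bbOf, ← tsum_mul_right]
  exact tsum_congr fun y => by ring

theorem norm_chi_le {s : ℂ} (hs : 7 / 8 ≤ s.re) {v : T3} (hv : Pr3 v) :
    ‖(nr v.1 : ℂ) ^ (-s) / ((nr v.2.1 * nr v.2.2 : ℝ) : ℂ)‖ ≤ wt v := by
  have h1 := one_le_nr hv.1.ne_zero
  have h2 := one_le_nr hv.2.1.ne_zero
  have h3 := one_le_nr hv.2.2.ne_zero
  have h4 : 1 ≤ nr v.2.1 * nr v.2.2 := one_le_mul_of_one_le_of_one_le h2 h3
  rw [norm_div, Complex.norm_cpow_eq_rpow_re_of_pos (by positivity), Complex.norm_real,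
    Real.norm_of_nonneg (by positivity), wt, nT, mul_assoc, nr_mul, nr_mul,
    Real.mul_rpow (by positivity) (by positivity), div_eq_mul_inv, ← Real.rpow_neg_one]
  refine mul_le_mul (Real.rpow_le_rpow_of_exponent_le h1 (by simpa using hs))
    (Real.rpow_le_rpow_of_exponent_le h4 (by norm_num)) (by positivity) (by positivity)

theorem bb_zero (hM : Adm M) (ψ : Chr M) : bbOf (b3 ψ) 0 = 0 := by
  have : ∀ y : O × O, b3 ψ (0, y) = 0 := fun y => by
    by_contra h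
    exact ((mul3_b3 hM ψ).sup _ h).1.ne_zero rfl
  simp [bbOf, this]

theorem bb_summable (hM : Adm M) (ψ : Chr M) :
    Summable fun j => ‖bbOf (b3 ψ) j‖ * nr j ^ (-(7 / 8) : ℝ) := by
  have h := (sb_b3 hM ψ).summable fun v => mul_nonneg (norm_nonneg _) (wt_nonneg v)
  refine Summable.of_nonneg_of_le (fun j => by positivity) (fun j => ?_) h.prod
  have e : ‖bbOf (b3 ψ) j‖ * nr j ^ (-(7 / 8) : ℝ) =
      ‖bbOf (b3 ψ) j * (nr j : ℂ) ^ (-((7 / 8 : ℝ) : ℂ))‖ := by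
    rw [norm_mul, ← Complex.ofReal_neg, ← Complex.ofReal_cpow (Nat.cast_nonneg _),
      Complex.norm_real, Real.norm_of_nonneg (by positivity)]
  rw [e, bbOf, ← tsum_mul_right]
  refine tsum_of_norm_bounded (h.prod_factor j).hasSum fun y => ?_
  by_cases h0 : b3 ψ (j, y) = 0
  · simp [h0]
  · rw [div_mul_eq_mul_div, mul_div_assoc, norm_mul]
    exact mul_le_mul_of_nonneg_left
      (norm_chi_le (s := ((7 / 8 : ℝ) : ℂ)) (v := (j, y)) (by rw [Complex.ofReal_re])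
        ((mul3_b3 hM ψ).sup _ h0)) (norm_nonneg _)

theorem bb_ne (hM : Adm M) (ψ : Chr M) {s : ℂ} (hs : 7 / 8 < s.re) :
    ∑' j : O, bbOf (b3 ψ) j * (nr j : ℂ) ^ (-s) ≠ 0 := by
  have h1 : nr (1 : O) = 1 := by rw [nr, BasicA.nm_of_isUnit isUnit_one, Nat.cast_one]
  have hone : (nr (1 : T3).1 : ℂ) ^ (-s) / ((nr (1 : T3).2.1 * nr (1 : T3).2.2 : ℝ) : ℂ) = 1 := by
    simp only [Prod.fst_one, Prod.snd_one, h1]
    simp
  have h2 := (pair_le (u := fun v => (nr v.1 : ℂ) ^ (-s) / ((nr v.2.1 * nr v.2.2 : ℝ) : ℂ))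
    (mul3_b3 hM ψ).sup (sb_b3 hM ψ) zero_le_one fun v hv => by
      rw [one_mul]; exact norm_chi_le hs.le hv).1
  rw [bbOf_tsum (u := fun j => (nr j : ℂ) ^ (-s)) h2]
  refine euler_ne ((mul3_b3 hM ψ).twist hone fun u v _ _ => ?_)
    (fun p hp => (lb_b3 hM ψ hp).twist hp.2.1 hone fun v hv => norm_chi_le hs.le hv) (sbp_eps3 M)
    fun p hp => eps3_lt_one hM hp
  simp only [Prod.fst_mul, Prod.snd_mul, nr_mul, Complex.ofReal_mul]
  rw [Complex.mul_cpow_ofReal_nonneg (Nat.cast_nonneg _) (Nat.cast_nonneg _), div_mul_div_comm]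
  congr 1
  ring

theorem exp_sub_one_le {t T : ℝ} (ht : 0 ≤ t) (hT : t ≤ T) :
    Real.exp t - 1 ≤ t * Real.exp T := by
  have h1 := Real.add_one_le_exp (-t)
  have h2 : Real.exp (-t) * Real.exp t = 1 := by rw [← Real.exp_add]; simp
  have h3 := Real.exp_le_exp.2 hT
  nlinarith [Real.exp_pos t]

open Classical in
theorem main_est (K₀ : ℕ) (hK : 1 ≤ K₀) : ∃ m : ℝ, 0 < m ∧ ∀ β : ℝ, 7 / 8 ≤ β → β ≤ 1 →
    ZeroFree β → ∀ {M : O}, Adm M → ∀ ψ : Chr M, ∃ (κ : ℂ) (C : ℝ), κ ≠ 0 ∧ ∀ B : ℝ, 1 ≤ B →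
      ‖∑' a : O, (if Exc M a then xiR M a * Ia ψ K₀ B a else 0) -
        κ * (Apar B ^ (1 / 6 : ℝ) * Xpar B : ℝ) * Pt M K₀ B *
          ∑' j : O, bbOf (b3 ψ) j * Mob ψ 1 (B / nr j) (1 / 6)‖ ≤ C * NrmB B * B ^ (β - m) := by
  have hK0 : (0 : ℝ) < K₀ := by exact_mod_cast hK
  set m : ℝ := min (1 / 60) (3 / (32 * (K₀ : ℝ))) / 2 with hm
  have hm0 : 0 < m := by positivity
  have hm1 : 2 * m ≤ 1 / 60 := by rw [hm]; linarith [min_le_left (1 / 60) (3 / (32 * (K₀ : ℝ)))]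
  have hm2 : 2 * m ≤ 3 / (32 * (K₀ : ℝ)) := by
    rw [hm]; linarith [min_le_right (1 / 60) (3 / (32 * (K₀ : ℝ)))]
  refine ⟨m, hm0, fun β hβ hβ1 hZ M hM ψ => ?_⟩
  obtain ⟨κ, hκ, hP⟩ := Psi3_bounds hM
  obtain ⟨C, hC, hP⟩ := hP β hβ hβ1 hZ ψ m hm0
  obtain ⟨Cw, hCw, hw⟩ := sum_cw_le 0
  refine ⟨κ, Cw ^ K₀ * (C * (Real.exp E3 * (K₀ * 40 * Real.exp (K₀ * 40)) + Real.exp E3)), hκ,
    fun B hB => ?_⟩
  have hB0 : 0 < B := one_pos.trans_le hB
  set N : ℝ := Apar B ^ (1 / 6 : ℝ) * Xpar B with hN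
  have hN0 : 0 < N := by rw [hN]; unfold Apar Xpar; positivity
  obtain ⟨CK, hCK⟩ := norm_K3_le hB0
  have hb := (mul3_b3 hM ψ).sup
  -- the two pairings with `b3`
  have p1 := pair_le hb (sb_b3 hM ψ) (by positivity) fun v hv => (hP B v hB hv).1
  have p2 := pair_le hb (sb_b3 hM ψ) (by positivity) fun v hv => (hP B v hB hv).2
  have p3 : Summable fun v : T3 => b3 ψ v * (κ * (N : ℂ) * Mob ψ 1 (B / nr v.1) (1 / 6) /
      ((nr v.2.1 * nr v.2.2 : ℝ) : ℂ)) := (p1.1.sub p2.1).congr fun v => by ring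
  have e0 : κ * (N : ℂ) * ∑' j : O, bbOf (b3 ψ) j * Mob ψ 1 (B / nr j) (1 / 6) =
      ∑' v, b3 ψ v * Psi3 ψ B v - ∑' v, b3 ψ v * (Psi3 ψ B v - κ * (N : ℂ) *
        (Mob ψ 1 (B / nr v.1) (1 / 6) / ((nr v.2.1 * nr v.2.2 : ℝ) : ℂ))) := by
    rw [← p1.1.tsum_sub p2.1, ← tsum_mul_left]
    refine Eq.trans (tsum_congr fun j => ?_) ((bbOf_tsum (u := fun j => κ * (N : ℂ) *
      Mob ψ 1 (B / nr j) (1 / 6)) p3).trans (tsum_congr fun v => by ring))
    ring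
  have key : ∀ q ∈ Fintype.piFinset (fun i : Fin K₀ => Pset M K₀ B i),
      ‖∑' v : T3, fI ψ q Finset.univ v * K3 B v -
        κ * (N : ℂ) * ∑' j : O, bbOf (b3 ψ) j * Mob ψ 1 (B / nr j) (1 / 6)‖ ≤
      C * (Real.exp E3 * (K₀ * 40 * Real.exp (K₀ * 40)) + Real.exp E3) * N * B ^ (β - m) := by
    intro q hq
    rw [Fintype.mem_piFinset] at hq
    have hq1 := fun i => (mem_Pset hB0).1 (hq i)
    have hg : ∀ i, GP M (q i) := fun i => ⟨(hq1 i).1, (hq1 i).2.1, (hq1 i).2.2.1⟩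
    have hinj : Function.Injective q := fun i j hij => by
      by_contra hne
      exact Finset.disjoint_left.1 (disjoint_Pset M K₀ hB fun h => hne (Fin.ext h)) (hq i)
        (hij ▸ hq j)
    have hR : ∀ i, B ^ (1 / (8 * (K₀ : ℝ))) ≤ nr (q i) := fun i =>
      (Real.rpow_le_rpow_of_exponent_le hB (ell_bounds i.2).1).trans (hq1 i).2.2.2.1.le
    have hd := sb_diff hM ψ hg hinj (by positivity) hR
    have hmI := mul3_fI hM ψ (I := Finset.univ) (fun i _ => hg i) hinj.injOn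
    obtain ⟨H, hH⟩ := norm_fI_le hM ψ (q := q) (I := Finset.univ) fun i _ => (hg i).1.ne_zero
    have hsup : Sup fun v => conv (fI ψ q Finset.univ) (gi3 ψ) v - b3 ψ v := fun v hv => by
      by_contra h
      have h1 : conv (fI ψ q Finset.univ) (gi3 ψ) v = 0 := by
        by_contra h'; exact h ((hmI.conv (mul3_gi3 ψ)).sup v h')
      have h2 : b3 ψ v = 0 := by by_contra h'; exact h (hb v h')
      exact hv (by simp only [h1, h2, sub_zero])
    have p4 := pair_le hsup hd (by positivity) fun v hv => (hP B v hB hv).1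
    have e1 : ∑' v : T3, fI ψ q Finset.univ v * K3 B v =
        ∑' v, (conv (fI ψ q Finset.univ) (gi3 ψ) v - b3 ψ v) * Psi3 ψ B v +
          ∑' v, b3 ψ v * Psi3 ψ B v := by
      rw [deconv hmI.sup (mul3_g3 ψ).sup (mul3_gi3 ψ).sup (conv_gi_g ψ) hH (norm_g3_le hM ψ)
        (norm_gi3_le hM ψ) hCK, ← p4.1.tsum_add p1.1]
      exact tsum_congr fun v => by rw [Psi3]; ring
    rw [e0, e1, add_comm, add_sub_sub_cancel]
    refine (norm_add_le _ _).trans ((add_le_add p4.2 p2.2).trans ?_)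
    have t1 : (B ^ (1 / (8 * (K₀ : ℝ)))) ^ (-(3 / 4) : ℝ) = B ^ (-(3 / (32 * (K₀ : ℝ)))) := by
      rw [← Real.rpow_mul hB0.le]
      congr 1
      field_simp
      ring
    have t2 : B ^ (-(3 / (32 * (K₀ : ℝ)))) ≤ 1 :=
      Real.rpow_le_one_of_one_le_of_nonpos hB (neg_nonpos.2 (by positivity))
    have t3 := exp_sub_one_le (t := K₀ * (40 * B ^ (-(3 / (32 * (K₀ : ℝ)))))) (T := K₀ * 40)
      (by positivity) (by nlinarith)
    have t4 : B ^ (β + m) * B ^ (-(3 / (32 * (K₀ : ℝ)))) ≤ B ^ (β - m) := by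
      rw [← Real.rpow_add hB0]
      exact Real.rpow_le_rpow_of_exponent_le hB (by linarith)
    have t5 : B ^ (β + m - 1 / 60) ≤ B ^ (β - m) :=
      Real.rpow_le_rpow_of_exponent_le hB (by linarith)
    rw [Fintype.card_fin, t1]
    calc _ ≤ C * N * B ^ (β + m) * (Real.exp E3 * (K₀ * (40 * B ^ (-(3 / (32 * (K₀ : ℝ))))) *
          Real.exp (K₀ * 40))) + C * N * B ^ (β - m) * Real.exp E3 := by gcongr
      _ = C * N * (Real.exp E3 * (K₀ * 40 * Real.exp (K₀ * 40))) *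
          (B ^ (β + m) * B ^ (-(3 / (32 * (K₀ : ℝ))))) + C * N * B ^ (β - m) * Real.exp E3 := by ring
      _ ≤ C * N * (Real.exp E3 * (K₀ * 40 * Real.exp (K₀ * 40))) * B ^ (β - m) +
          C * N * B ^ (β - m) * Real.exp E3 := by gcongr
      _ = _ := by ring
  have hsum : ∑ q ∈ Fintype.piFinset (fun i : Fin K₀ => Pset M K₀ B i),
      ‖∏ i : Fin K₀, cw K₀ B i (q i)‖ ≤ Cw ^ K₀ * B ^ (1 / 6 : ℝ) := by
    simp only [norm_prod]
    rw [← Finset.prod_univ_sum (fun i : Fin K₀ => Pset M K₀ B i) fun i p => ‖cw K₀ B i p‖,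
      ← prod_Pw hK hB0]
    calc _ ≤ ∏ i : Fin K₀, Cw * Pw K₀ B i :=
          Finset.prod_le_prod (fun i _ => Finset.sum_nonneg fun _ _ => norm_nonneg _) fun i _ => by
            simpa using (hw M K₀ i B 0 hB0 (by simp)).1
      _ = _ := by rw [Finset.prod_mul_distrib, Finset.prod_const, Finset.card_univ, Fintype.card_fin]
  rw [rows_eq hM ψ K₀ hB0, Pt, Finset.prod_univ_sum, mul_assoc (κ * (N : ℂ)), mul_left_comm,
    Finset.sum_mul, ← Finset.sum_sub_distrib]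
  calc _ ≤ ∑ q ∈ Fintype.piFinset (fun i : Fin K₀ => Pset M K₀ B i),
        ‖∏ i : Fin K₀, cw K₀ B i (q i)‖ * (C * (Real.exp E3 * (K₀ * 40 * Real.exp (K₀ * 40)) +
          Real.exp E3) * N * B ^ (β - m)) := by
        refine norm_sum_le_of_le _ fun q hq => ?_
        rw [← mul_sub, norm_mul]
        exact mul_le_mul_of_nonneg_left (key q hq) (norm_nonneg _)
    _ ≤ Cw ^ K₀ * B ^ (1 / 6 : ℝ) * (C * (Real.exp E3 * (K₀ * 40 * Real.exp (K₀ * 40)) +
          Real.exp E3) * N * B ^ (β - m)) := by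
        rw [← Finset.sum_mul]
        gcongr
    _ = _ := by rw [NrmB, ← hN]; ring

end Crest.Agent.R17.P3
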