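import Crest.Agent.R17.P3Defs

/-!
# Row 17, principal rows: the slot operators

`mul3_f3`: `cf_mul`, then `cf_row_mul` with `y = c'⁶` (`sym_pow_right`, `sym_pow_six`; `cf_support`,
`PO.of_adm`).  `Tp_of_not_dvd`: `f((p,1,1) v) = f(p,1,1) f(v)`, `‖ev ψ p‖ = 1`.  `Mul3.Tp`: `p`
divides at most one of the two coprime triples; `(x x')/p = (x/p) x'`.  `Sh_Sh`: write `x = π π' y`.
`fI_insert`: `Finset.sum_powerset_insert`, `Sh` is linear, `Sh_Sh`.  `mul3_fI`: induction, together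
with `fI_pp_of_ne` (the value at `(p,1,1) = pp p (1,0,0)` is that of `f3`, `cf_unram` with `a = 1`).
`fI_pp_self`: `I = insert i (I.erase i)`; `Tp` at `pp p l` only uses values at `pp p l'`.
-/

set_option autoImplicit false

noncomputable section

namespace Crest.Agent.R17.P3

open scoped ComplexConjugate

variable {M p : O} {f : T3 → ℂ}

theorem P3Op_cf_six (hM : Adm M) (ψ : Chr M) (a : O) {n x c : O} (h : IsCoprime c (n * x)) :
    cf ψ (a * c ^ 6) n x = cf ψ a n x := by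
  rw [cf_row_mul hM ψ a h.pow_left]
  by_cases h0 : cf ψ a n x = 0
  · rw [h0, mul_zero]
  obtain ⟨hn, hnM, hx, hxM⟩ := cf_support ψ h0
  rw [sym_pow_right (PO.of_adm hM hn hnM), sym_pow_right (PO.of_adm hM hx hxM),
    sym_pow_six hn h.of_mul_right_left.symm, sym_pow_six hx h.of_mul_right_right.symm, map_one,
    one_mul, one_mul]

theorem mul3_f3 (hM : Adm M) (ψ : Chr M) : Mul3 M (f3 ψ) := by
  refine ⟨?_, fun v hv => ?_, ?_⟩
  · rw [f3, if_pos ⟨primary_one, isCoprime_one_left⟩]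
    exact cf_one ψ _
  · unfold f3 at hv
    split_ifs at hv with hc
    · obtain ⟨hn, hnM, hx, hxM⟩ := cf_support ψ hv
      exact ⟨⟨hn, hx, hc.1⟩, (hnM.mul_left hxM).mul_left hc.2⟩
    · exact absurd rfl hv
  · rintro ⟨n, x, c⟩ ⟨n', x', c'⟩ ⟨hn, hx, hc⟩ ⟨hn', hx', hc'⟩ h
    simp only [nT] at h hn hx hc hn' hx' hc'
    simp only [f3, Prod.mk_mul_mk]
    by_cases h1 : IsCoprime c M
    swap
    · rw [if_neg fun h' => h1 h'.2.of_mul_left_left, if_neg fun h' => h1 h'.2, zero_mul]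
    by_cases h2 : IsCoprime c' M
    swap
    · rw [if_neg fun h' => h2 h'.2.of_mul_left_right, if_neg (c := Primary c' ∧ _)
        fun h' => h2 h'.2, mul_zero]
    rw [if_pos ⟨hc.mul hc', h1.mul_left h2⟩, if_pos ⟨hc, h1⟩, if_pos ⟨hc', h2⟩,
      cf_mul hM ψ _ hn hn' hx hx' h.of_mul_left_left.of_mul_right_left, mul_pow,
      P3Op_cf_six hM ψ _ h.of_mul_left_left.of_mul_right_right.symm, mul_comm (c ^ 6),
      P3Op_cf_six hM ψ _ h.of_mul_left_right.of_mul_right_left]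

theorem norm_f3_le (hM : Adm M) (ψ : Chr M) (v : T3) : ‖f3 ψ v‖ ≤ nr (nT v) := by
  unfold f3
  split_ifs with hc
  · rw [nT, nr_mul, nr_mul]
    exact (norm_cf_le hM ψ _ _ _).trans
      (le_mul_of_one_le_right (by positivity) (one_le_nr hc.1.ne_zero))
  · rw [norm_zero]; positivity

theorem f3_p (hM : Adm M) (ψ : Chr M) (hp : GP M p) : f3 ψ (p, 1, 1) = -ev ψ p := by
  have h := cf_unram hM ψ (a := 1) hp.1 hp.2.1 hp.2.2 hp.1.not_dvd_one 1 0
  rw [f3, if_pos ⟨primary_one, isCoprime_one_left⟩]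
  simpa [sym_one_right] using h

theorem P3Op_Sh_mul (z : O) {π : O} (hπ : π ≠ 0) (f : T3 → ℂ) (w : T3) :
    Sh z π f ((1, π, 1) * w) = f ((z, 1, 1) * w) := by
  obtain ⟨n, x, c⟩ := w
  simp only [Sh, Prod.mk_mul_mk, one_mul]
  rw [if_pos (dvd_mul_right _ _), mul_div_cancel_left₀ _ hπ]

theorem P3Op_Sh_not (z : O) {π : O} (f : T3 → ℂ) {v : T3} (h : ¬ π ∣ v.2.1) :
    Sh z π f v = 0 := if_neg h

theorem P3Op_split {π : O} {v : T3} (h : π ∣ v.2.1) : ∃ w : T3, v = (1, π, 1) * w := by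
  obtain ⟨n, x, c⟩ := v
  obtain ⟨y, rfl⟩ : π ∣ x := h
  exact ⟨(n, y, c), by simp⟩

theorem P3Op_Sh_left (z : O) (f : T3 → ℂ) (w : T3) : Sh z 1 f w = f ((z, 1, 1) * w) := by
  rw [← P3Op_Sh_mul z one_ne_zero f w]
  exact congrArg _ (one_mul w).symm

theorem P3Op_Sh_right {π : O} (hπ : π ≠ 0) (f : T3 → ℂ) (w : T3) :
    Sh 1 π f ((1, π, 1) * w) = f w := by
  rw [P3Op_Sh_mul 1 hπ f w]
  exact congrArg _ (one_mul w)

theorem P3Op_nT_left (z : O) (w : T3) : nT ((z, 1, 1) * w) = z * nT w := by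
  rw [nT_mul]; simp [nT]

theorem P3Op_nT_right (z : O) (w : T3) : nT ((1, z, 1) * w) = z * nT w := by
  rw [nT_mul]; simp [nT]

theorem P3Op_of_mul {u v : T3} (hu : Pr3 u) (h : Pr3 (u * v)) : Pr3 v :=
  ⟨hu.1.of_mul h.1, hu.2.1.of_mul h.2.1, hu.2.2.of_mul h.2.2⟩

theorem P3Op_dvd_nT {π : O} {v : T3} (h : π ∣ v.2.1) : π ∣ nT v :=
  (h.mul_left _).mul_right _

theorem Sh_one (f : T3 → ℂ) : Sh 1 1 f = f := by
  funext v
  rw [P3Op_Sh_left]
  exact congrArg _ (one_mul v)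

theorem Sh_Sh {z z' π π' : O} (hπ : π ≠ 0) (hπ' : π' ≠ 0) (f : T3 → ℂ) :
    Sh z π (Sh z' π' f) = Sh (z * z') (π * π') f := by
  funext v
  by_cases h : π ∣ v.2.1
  swap
  · rw [P3Op_Sh_not _ _ h, P3Op_Sh_not _ _ fun h' => h (dvd_of_mul_right_dvd h')]
  obtain ⟨w, rfl⟩ := P3Op_split h
  rw [P3Op_Sh_mul z hπ]
  by_cases h' : π' ∣ w.2.1
  swap
  · rw [P3Op_Sh_not _ _ (by simpa using h'),
      P3Op_Sh_not _ _ fun h'' => h' ((mul_dvd_mul_iff_left hπ).1 h'')]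
  obtain ⟨u, rfl⟩ := P3Op_split h'
  have e1 : ((1, π, 1) : T3) * ((1, π', 1) * u) = (1, π * π', 1) * u := by
    rw [← mul_assoc]; simp
  have e2 : ((z', 1, 1) : T3) * ((z, 1, 1) * u) = (z * z', 1, 1) * u := by
    rw [← mul_assoc]; simp [mul_comm]
  rw [e1, mul_left_comm, P3Op_Sh_mul _ hπ', P3Op_Sh_mul _ (mul_ne_zero hπ hπ'), e2]

open Classical in
theorem Tp_pp (ψ : Chr M) (hp : Prime p) (f : T3 → ℂ) (i j k : ℕ) :
    Tp ψ p f (pp p (i, j, k)) = -conj (ev ψ p) * f (pp p (i + 1, j, k)) +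
      if j = 0 then 0 else f (pp p (i, j - 1, k)) := by
  have e1 : ((p, 1, 1) : T3) * pp p (i, j, k) = pp p (i + 1, j, k) := by
    simp [pp, pow_succ']
  rw [Tp, P3Op_Sh_left, e1]
  congr 1
  rcases j with _ | j
  · rw [if_pos rfl, P3Op_Sh_not _ _ (by simpa [pp] using hp.not_dvd_one)]
  · have e2 : pp p (i, j + 1, k) = ((1, p, 1) : T3) * pp p (i, j, k) := by
      simp [pp, pow_succ']
    rw [if_neg (Nat.succ_ne_zero j), e2, P3Op_Sh_right hp.ne_zero, Nat.add_sub_cancel]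

theorem P3Op_pr_left (hp : Primary p) : Pr3 (p, 1, 1) := ⟨hp, primary_one, primary_one⟩

theorem P3Op_pr_right (hp : Primary p) : Pr3 (1, p, 1) := ⟨primary_one, hp, primary_one⟩

theorem Tp_of_not_dvd (hM : Adm M) (ψ : Chr M) (hf : Mul3 M f) (hp : GP M p)
    (h1 : f (p, 1, 1) = -ev ψ p) {v : T3} (hv : Pr3 v) (h : ¬ p ∣ nT v) : Tp ψ p f v = f v := by
  have hc : IsCoprime (nT (p, 1, 1)) (nT v) := by
    simpa [nT] using hp.1.coprime_iff_not_dvd.2 h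
  have hn : conj (ev ψ p) * ev ψ p = 1 := by
    rw [Complex.conj_mul', norm_ev hM.1 ψ (hp.1.coprime_iff_not_dvd.2 hp.2.2)]; simp
  rw [Tp, P3Op_Sh_left, P3Op_Sh_not _ _ fun h' => h (P3Op_dvd_nT h'),
    hf.mul _ _ (P3Op_pr_left hp.2.1) hv hc, h1]
  linear_combination f v * hn

theorem P3Op_Tp_mul (ψ : Chr M) (hf : Mul3 M f) (hp : GP M p) {u v : T3} (hu : Pr3 u)
    (hv : Pr3 v) (huv : IsCoprime (nT u) (nT v)) (h : ¬ p ∣ nT v) :
    Tp ψ p f (u * v) = Tp ψ p f u * f v := by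
  have hc : IsCoprime p (nT v) := hp.1.coprime_iff_not_dvd.2 h
  have e : Sh 1 p f (u * v) = Sh 1 p f u * f v := by
    by_cases h' : p ∣ u.2.1
    · obtain ⟨w, rfl⟩ := P3Op_split h'
      rw [P3Op_nT_right] at huv
      rw [mul_assoc, P3Op_Sh_right hp.1.ne_zero, P3Op_Sh_right hp.1.ne_zero,
        hf.mul _ _ (P3Op_of_mul (P3Op_pr_right hp.2.1) hu) hv huv.of_mul_left_right]
    · rw [P3Op_Sh_not _ _ h', zero_mul, P3Op_Sh_not]
      exact fun h'' => (hp.1.dvd_or_dvd h'').elim h' fun h3 => h (P3Op_dvd_nT h3)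
  rw [Tp, Tp, P3Op_Sh_left, P3Op_Sh_left, e, ← mul_assoc,
    hf.mul _ _ ((P3Op_pr_left hp.2.1).mul hu) hv (by rw [P3Op_nT_left]; exact hc.mul_left huv)]
  ring

theorem Mul3.Tp (hM : Adm M) (ψ : Chr M) (hf : Mul3 M f) (hp : GP M p)
    (h1 : f (p, 1, 1) = -ev ψ p) : Mul3 M (Tp ψ p f) := by
  refine ⟨?_, fun v hv => ?_, fun u v hu hv huv => ?_⟩
  · rw [Tp_of_not_dvd hM ψ hf hp h1 pr3_one (by rw [nT_one]; exact hp.1.not_dvd_one), hf.one]
  · by_cases h0 : f ((p, 1, 1) * v) = 0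
    · rw [P3.Tp, P3Op_Sh_left, h0, mul_zero, zero_add] at hv
      have h' : p ∣ v.2.1 := by
        by_contra h'
        exact hv (P3Op_Sh_not _ _ h')
      obtain ⟨w, rfl⟩ := P3Op_split h'
      rw [P3Op_Sh_right hp.1.ne_zero] at hv
      obtain ⟨a, b⟩ := hf.supp w hv
      rw [P3Op_nT_right]
      exact ⟨(P3Op_pr_right hp.2.1).mul a, (hp.1.coprime_iff_not_dvd.2 hp.2.2).mul_left b⟩
    · obtain ⟨a, b⟩ := hf.supp _ h0
      rw [P3Op_nT_left] at b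
      exact ⟨P3Op_of_mul (P3Op_pr_left hp.2.1) a, b.of_mul_left_right⟩
  · by_cases h : p ∣ nT v
    · have h' : ¬ p ∣ nT u := fun h' => hp.1.not_isUnit (huv.isUnit_of_dvd' h' h)
      rw [mul_comm u v, P3Op_Tp_mul ψ hf hp hv hu huv.symm h',
        Tp_of_not_dvd hM ψ hf hp h1 hu h', mul_comm]
    · rw [P3Op_Tp_mul ψ hf hp hu hv huv h, Tp_of_not_dvd hM ψ hf hp h1 hv h]

variable {ι : Type} [DecidableEq ι] {q : ι → O} {I : Finset ι}

theorem fI_empty (ψ : Chr M) (q : ι → O) : fI ψ q ∅ = f3 ψ := by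
  funext v
  simp [fI, Sh_one]

theorem P3Op_Sh_sum {α : Type} (S : Finset α) (c : α → ℂ) (g : α → T3 → ℂ) (z π : O) (v : T3) :
    Sh z π (fun w => ∑ a ∈ S, c a * g a w) v = ∑ a ∈ S, c a * Sh z π (g a) v := by
  unfold Sh
  split_ifs <;> simp

theorem fI_insert (ψ : Chr M) {i : ι} (hi : i ∉ I) (hq : ∀ j ∈ insert i I, q j ≠ 0) :
    fI ψ q (insert i I) = Tp ψ (q i) (fI ψ q I) := by
  funext v
  have e : fI ψ q I = fun w => ∑ J ∈ I.powerset, (∏ i ∈ I \ J, -conj (ev ψ (q i))) *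
    Sh (∏ i ∈ I \ J, q i) (∏ i ∈ J, q i) (f3 ψ) w := rfl
  have h0 : ∀ J ∈ I.powerset, ∏ j ∈ J, q j ≠ 0 := fun J hJ => Finset.prod_ne_zero_iff.2
    fun j hj => hq j (Finset.mem_insert_of_mem (Finset.mem_powerset.1 hJ hj))
  rw [Tp, e, P3Op_Sh_sum, P3Op_Sh_sum, fI, Finset.sum_powerset_insert hi, Finset.mul_sum]
  congr 1
  · refine Finset.sum_congr rfl fun J hJ => ?_
    have hiJ : i ∉ J := fun h => hi (Finset.mem_powerset.1 hJ h)
    have hi' : i ∉ I \ J := fun h => hi (Finset.mem_sdiff.1 h).1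
    rw [Finset.insert_sdiff_of_notMem _ hiJ, Finset.prod_insert hi', Finset.prod_insert hi',
      Sh_Sh one_ne_zero (h0 J hJ), one_mul, mul_assoc]
  · refine Finset.sum_congr rfl fun J hJ => ?_
    have hiJ : i ∉ J := fun h => hi (Finset.mem_powerset.1 hJ h)
    have e1 : insert i I \ insert i J = I \ J := by
      ext j
      simp only [Finset.mem_sdiff, Finset.mem_insert, not_or]
      constructor
      · rintro ⟨h1 | h1, h2, h3⟩
        exacts [absurd h1 h2, ⟨h1, h3⟩]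
      · rintro ⟨h1, h2⟩
        exact ⟨Or.inr h1, fun h => hi (h ▸ h1), h2⟩
    rw [e1, Finset.prod_insert hiJ, Sh_Sh (hq i (Finset.mem_insert_self _ _)) (h0 J hJ), one_mul]

theorem P3Op_ind (hM : Adm M) (ψ : Chr M) (hq : ∀ i ∈ I, GP M (q i)) (hinj : Set.InjOn q I) :
    Mul3 M (fI ψ q I) ∧ ∀ p, GP M p → (∀ i ∈ I, q i ≠ p) →
      ∀ l : L3, fI ψ q I (pp p l) = f3 ψ (pp p l) := by
  induction I using Finset.induction_on with
  | empty => rw [fI_empty]; exact ⟨mul3_f3 hM ψ, fun _ _ _ _ => rfl⟩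
  | insert i I hi ih =>
    obtain ⟨a, b⟩ := ih (fun j hj => hq j (Finset.mem_insert_of_mem hj))
      (hinj.mono (Finset.coe_subset.2 (Finset.subset_insert _ _)))
    have hqi := hq i (Finset.mem_insert_self _ _)
    have h1 : fI ψ q I (q i, 1, 1) = -ev ψ (q i) := by
      have := b (q i) hqi (fun j hj h => hi (hinj (Finset.mem_coe.2 (Finset.mem_insert_of_mem hj))
        (Finset.mem_coe.2 (Finset.mem_insert_self _ _)) h ▸ hj)) (1, 0, 0)
      rw [← f3_p hM ψ hqi]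
      simpa [pp] using this
    rw [fI_insert ψ hi fun j hj => (hq j hj).1.ne_zero]
    refine ⟨a.Tp hM ψ hqi h1, fun p hp hne l => ?_⟩
    rw [Tp_of_not_dvd hM ψ a hqi h1 (pr3_pp hp.2.1 l),
      b p hp (fun j hj => hne j (Finset.mem_insert_of_mem hj))]
    rw [nT_pp]
    exact fun h => hne i (Finset.mem_insert_self _ _) (hqi.2.1.eq_of_associated hp.2.1
      (hqi.1.associated_of_dvd hp.1 (hqi.1.dvd_of_dvd_pow h)))

theorem mul3_fI (hM : Adm M) (ψ : Chr M) (hq : ∀ i ∈ I, GP M (q i)) (hinj : Set.InjOn q I) :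
    Mul3 M (fI ψ q I) := (P3Op_ind hM ψ hq hinj).1

theorem fI_pp_of_ne (hM : Adm M) (ψ : Chr M) (hq : ∀ i ∈ I, GP M (q i)) (hinj : Set.InjOn q I)
    (hp : GP M p) (hne : ∀ i ∈ I, q i ≠ p) (l : L3) : fI ψ q I (pp p l) = f3 ψ (pp p l) :=
  (P3Op_ind hM ψ hq hinj).2 p hp hne l

theorem fI_pp_self (hM : Adm M) (ψ : Chr M) (hq : ∀ i ∈ I, GP M (q i)) (hinj : Set.InjOn q I)
    {i : ι} (hi : i ∈ I) (l : L3) :
    fI ψ q I (pp (q i) l) = Tp ψ (q i) (f3 ψ) (pp (q i) l) := by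
  have e : fI ψ q I = Tp ψ (q i) (fI ψ q (I.erase i)) := by
    rw [← fI_insert ψ (Finset.notMem_erase i I)
      (by rw [Finset.insert_erase hi]; exact fun j hj => (hq j hj).1.ne_zero),
      Finset.insert_erase hi]
  have b := fI_pp_of_ne hM ψ (I := I.erase i) (fun j hj => hq j (Finset.mem_of_mem_erase hj))
    (hinj.mono (Finset.coe_subset.2 (Finset.erase_subset _ _))) (hq i hi)
    fun j hj h => Finset.ne_of_mem_erase hj
      (hinj (Finset.mem_coe.2 (Finset.mem_of_mem_erase hj)) (Finset.mem_coe.2 hi) h)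
  obtain ⟨a, j, k⟩ := l
  rw [e, Tp_pp ψ (hq i hi).1, Tp_pp ψ (hq i hi).1, b, b]

theorem norm_fI_le (hM : Adm M) (ψ : Chr M) (hq : ∀ i ∈ I, q i ≠ 0) :
    ∃ H : ℝ, ∀ v, ‖fI ψ q I v‖ ≤ H * nr (nT v) := by
  have key : ∀ (z π : O), π ≠ 0 → ∀ v, ‖Sh z π (f3 ψ) v‖ ≤ nr z * nr (nT v) := by
    intro z π hπ v
    by_cases h : π ∣ v.2.1
    · obtain ⟨w, rfl⟩ := P3Op_split h
      rw [P3Op_Sh_mul z hπ, P3Op_nT_right, nr_mul]
      refine (norm_f3_le hM ψ _).trans ?_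
      rw [P3Op_nT_left, nr_mul]
      exact mul_le_mul_of_nonneg_left (le_mul_of_one_le_left (by positivity) (one_le_nr hπ))
        (by positivity)
    · rw [P3Op_Sh_not _ _ h, norm_zero]; positivity
  refine ⟨∑ J ∈ I.powerset, ‖∏ i ∈ I \ J, -conj (ev ψ (q i))‖ * nr (∏ i ∈ I \ J, q i),
    fun v => ?_⟩
  rw [fI, Finset.sum_mul]
  refine (norm_sum_le _ _).trans (Finset.sum_le_sum fun J hJ => ?_)
  rw [norm_mul, mul_assoc]
  exact mul_le_mul_of_nonneg_left (key _ _ (Finset.prod_ne_zero_iff.2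
    fun j hj => hq j (Finset.mem_powerset.1 hJ hj)) v) (norm_nonneg _)

end Crest.Agent.R17.P3
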