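import Crest.Agent.R17.P3Defs

/-!
# Row 17, principal rows: the sum over the sixth powers

`theta_line`: `gw_eq_integral` with `σ = 1/3`, exchange sum and integral
(`hasSum_integral_of_summable_integral_norm` or `integral_tsum`; `integrable_Gamma_mul_pow`,
`summable_nr_rpow 2`), `(isL_Lc ..).2.1`.  `theta_rep`: `Princ (1 : Chr M) 1`; `princ_pole` gives the
entire `G₀(s) = (s - 1) Lc(s)`; `contour_shift_pole` on the strip `7/48 ≤ Re w ≤ 1/3`, `ρ = 1/6`, with
`G(w) = Γ(w) (2π/√3)^{-w} Y^w G₀(6w)/6` (`Lc_growth`, `norm_Gamma_le_exp`);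
`κ = Γ(1/6) (2π/√3)^{-1/6} G₀(1)/6`, `h(u) = (2π)⁻¹ Γ(w) (2π/√3)^{-w} Lc(6w)`, `w = 7/48 + iu`.
`MT_approx`: insert `theta_rep`, `Wc_add` (`Wc y 0 * y^w = Wc y w`), exchange the sum over `n` and the
integral (`summable_Sm`, `polyB_mu_rc`, `norm_Wc` only depends on `Re w`), `Mob_of_zeroFree`.
-/

set_option autoImplicit false

noncomputable section

namespace Crest.Agent.R17.P3

open scoped ComplexConjugate

open MeasureTheory

variable {M : O}

theorem P3Theta_cpow {x : ℝ} (hx : 0 < x) (s : ℂ) :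
    (x : ℂ) ^ s = Complex.exp ((Real.log x : ℂ) * s) := by
  rw [Complex.cpow_def_of_ne_zero (by exact_mod_cast hx.ne'), Complex.ofReal_log hx.le]

theorem P3Theta_div_cpow {a Y : ℝ} (ha : 0 < a) (hY : 0 < Y) (w : ℂ) :
    ((a / Y : ℝ) : ℂ) ^ (-w) = (a : ℂ) ^ (-w) * (Y : ℂ) ^ w := by
  rw [P3Theta_cpow (div_pos ha hY), P3Theta_cpow ha, P3Theta_cpow hY, ← Complex.exp_add,
    Real.log_div ha.ne' hY.ne']
  congr 1
  push_cast
  ring

theorem P3Theta_six_cpow {a x Y : ℝ} (ha : 0 < a) (hx : 0 < x) (hY : 0 < Y) (w : ℂ) :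
    ((a * (x ^ 6 / Y) : ℝ) : ℂ) ^ (-w) = ((a / Y : ℝ) : ℂ) ^ (-w) * (x : ℂ) ^ (-(6 * w)) := by
  rw [P3Theta_cpow (by positivity), P3Theta_cpow (div_pos ha hY), P3Theta_cpow hx,
    ← Complex.exp_add, Real.log_mul ha.ne' (by positivity), Real.log_div (by positivity) hY.ne',
    Real.log_div ha.ne' hY.ne', Real.log_pow]
  congr 1
  push_cast
  ring

theorem theta_line (hM : Adm M) {Y : ℝ} (hY : 0 < Y) :
    Th M Y = (1 / (2 * Real.pi) : ℂ) * ∫ u : ℝ, Complex.Gamma ((1 / 3 : ℝ) + u * Complex.I) *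
      ((2 * Real.pi / Real.sqrt 3 / Y : ℝ) : ℂ) ^ (-(((1 / 3 : ℝ) : ℂ) + u * Complex.I)) *
        Lc (1 : Chr M) 1 (6 * (((1 / 3 : ℝ) : ℂ) + u * Complex.I)) := by
  set a : ℝ := 2 * Real.pi / Real.sqrt 3 with ha
  have ha0 : 0 < a := by positivity
  have hb0 : 0 < a / Y := div_pos ha0 hY
  set w : ℝ → ℂ := fun u => ((1 / 3 : ℝ) : ℂ) + u * Complex.I with hw
  have hwre : ∀ u, (w u).re = 1 / 3 := fun u => by simp [hw]
  have hwc : Continuous w := by fun_prop
  set F : O → ℝ → ℂ := fun c u => Complex.Gamma (w u) * ((a / Y : ℝ) : ℂ) ^ (-w u) *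
    (rc (1 : Chr M) 1 c * (nr c : ℂ) ^ (-(6 * w u))) with hF
  have hG := integrable_Gamma_mul_pow (σ := 1 / 3) (by norm_num) 0
  simp only [pow_zero, mul_one] at hG
  have hbound : ∀ c u, ‖F c u‖ ≤ ‖Complex.Gamma (w u)‖ * ((a / Y) ^ (-(1 / 3) : ℝ) *
      nr c ^ (-2 : ℝ)) := by
    intro c u
    by_cases hc : c = 0
    · subst hc
      simp only [hF, rc_zero, zero_mul, mul_zero, norm_zero]
      positivity
    · have hn := nr_pos hc
      simp only [hF, norm_mul, Complex.norm_cpow_eq_rpow_re_of_pos hb0,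
        Complex.norm_cpow_eq_rpow_re_of_pos hn, Complex.neg_re, hwre]
      have e : (6 * w u).re = 2 := by simp [hw]; norm_num
      rw [e, mul_assoc]
      refine mul_le_mul_of_nonneg_left (mul_le_mul_of_nonneg_left ?_ (by positivity))
        (norm_nonneg _)
      exact mul_le_of_le_one_left (by positivity) (norm_rc_le hM _ _ _)
  have hint : ∀ c, Integrable (F c) := by
    intro c
    refine (hG.mul_const _).mono' ?_ (Filter.Eventually.of_forall (hbound c))
    by_cases hc : c = 0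
    · subst hc
      simp only [hF, rc_zero, zero_mul, mul_zero]
      exact aestronglyMeasurable_const
    · have hn := nr_pos hc
      refine Continuous.aestronglyMeasurable ?_
      refine ((WA.continuous_Gamma_line (σ := 1 / 3) (by norm_num)).mul ?_).mul
        (continuous_const.mul ?_)
      · exact hwc.neg.const_cpow (Or.inl (by exact_mod_cast hb0.ne'))
      · exact (continuous_const.mul hwc).neg.const_cpow (Or.inl (by exact_mod_cast hn.ne'))
  have hsum : Summable fun c => ∫ u, ‖F c u‖ := by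
    refine Summable.of_nonneg_of_le (fun c => integral_nonneg fun u => norm_nonneg _)
      (fun c => integral_mono (hint c).norm (hG.mul_const _) (hbound c)) ?_
    simp only [integral_mul_const]
    exact ((summable_nr_rpow (σ := 2) (by norm_num)).mul_left _).mul_left _
  have H := hasSum_integral_of_summable_integral_norm hint hsum
  have e1 : ∀ u, ∑' c, F c u = Complex.Gamma (w u) * ((a / Y : ℝ) : ℂ) ^ (-w u) *
      Lc (1 : Chr M) 1 (6 * w u) := by
    intro u
    have e : 1 < (6 * w u).re := by simp [hw]; norm_num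
    rw [(isL_Lc hM (1 : Chr M) one_ne_zero).2.1 _ e, Lser, ← tsum_mul_left]
  have e2 : ∀ c, rc (1 : Chr M) 1 c * (gw (nr c ^ 6 / Y) : ℂ) =
      (1 / (2 * Real.pi) : ℂ) * ∫ u, F c u := by
    intro c
    by_cases hc : c = 0
    · subst hc
      simp only [hF, rc_zero, zero_mul, mul_zero, integral_zero]
    · have hn := nr_pos hc
      rw [gw_eq_integral (σ := 1 / 3) (by positivity) (by norm_num), mul_left_comm,
        ← integral_const_mul]
      congr 2
      funext u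
      rw [P3Theta_six_cpow ha0 hn hY]
      simp only [hF, hw]
      ring
  simp only [e1] at H
  rw [Th]
  simp only [e2]
  rw [tsum_mul_left, H.tsum_eq]

theorem P3Theta_princ : Princ (1 : Chr M) 1 := by
  intro n hn hc
  rw [mul_one] at hc
  rw [rc, if_pos hn, PA.ev_one_chr hc, sym_one_right, map_one, mul_one]

theorem P3Theta_exp_bound (J : ℕ) {x : ℝ} (hx : 0 ≤ x) :
    Real.exp (-x) * (1 + 6 * x) ^ J ≤ 6 ^ J * (J + 2).factorial * Real.exp 1 / (1 + x ^ 2) := by
  have h1 := Real.pow_div_factorial_le_exp (1 + x) (by positivity) (J + 2)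
  rw [div_le_iff₀ (by positivity), Real.exp_add] at h1
  have h2 : (1 + 6 * x) ^ J ≤ 6 ^ J * (1 + x) ^ J := by
    rw [← mul_pow]; gcongr; linarith
  have h3 : 1 + x ^ 2 ≤ (1 + x) ^ 2 := by nlinarith
  rw [le_div_iff₀ (by positivity), Real.exp_neg]
  have he := Real.exp_pos x
  calc (Real.exp x)⁻¹ * (1 + 6 * x) ^ J * (1 + x ^ 2)
      ≤ (Real.exp x)⁻¹ * (6 ^ J * (1 + x) ^ J) * (1 + x) ^ 2 := by gcongr
    _ = (Real.exp x)⁻¹ * 6 ^ J * (1 + x) ^ (J + 2) := by ring
    _ ≤ (Real.exp x)⁻¹ * 6 ^ J * (Real.exp 1 * Real.exp x * (J + 2).factorial) := by gcongr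
    _ = 6 ^ J * (J + 2).factorial * Real.exp 1 := by field_simp

theorem theta_rep (hM : Adm M) : ∃ (κ : ℂ) (h : ℝ → ℂ), κ ≠ 0 ∧ Continuous h ∧
    (∀ J : ℕ, Integrable fun u => ‖h u‖ * (1 + |u|) ^ J) ∧ ∀ Y : ℝ, 0 < Y →
      Th M Y = κ * (Y : ℂ) ^ (1 / 6 : ℂ) +
        ∫ u : ℝ, h u * (Y : ℂ) ^ (((7 / 48 : ℝ) : ℂ) + u * Complex.I) := by
  set a : ℝ := 2 * Real.pi / Real.sqrt 3 with ha
  have ha0 : 0 < a := by positivity
  have haC : (a : ℂ) ≠ 0 := by exact_mod_cast ha0.ne'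
  obtain ⟨k, G₀, hk, hG₀, hG1, hGe⟩ := princ_pole hM (1 : Chr M) one_ne_zero P3Theta_princ
  obtain ⟨C, J₀, hC, hgr⟩ := Lc_growth hM
  obtain ⟨CΓ, hCΓ, hΓ⟩ := norm_Gamma_le_exp (σ₀ := 7 / 48) (σ₁ := 1 / 3) (by norm_num)
  have hn1 : nr (1 : O) = 1 := by rw [nr, BasicA.nm_of_isUnit isUnit_one, Nat.cast_one]
  have hgr' : ∀ s : ℂ, -1 ≤ s.re → s.re ≤ 3 → s ≠ 1 →
      ‖(s - 1) * Lc (1 : Chr M) 1 s‖ ≤ C * (1 + |s.im|) ^ J₀ := fun s h0 h1 hs => by
    simpa only [hn1, one_pow, mul_one] using (hgr 1 1 s one_ne_zero h0 h1).1 hs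
  set w : ℝ → ℂ := fun u => ((7 / 48 : ℝ) : ℂ) + u * Complex.I with hw
  have hwre : ∀ u, (w u).re = 7 / 48 := fun u => by simp [hw]
  have hw6 : ∀ u, (6 * w u).re = 7 / 8 := fun u => by simp [hw]; norm_num
  have hw6i : ∀ u, (6 * w u).im = 6 * u := fun u => by simp [hw]
  have hw1 : ∀ u, 6 * w u ≠ 1 := fun u h => by
    have := hw6 u
    rw [h] at this
    norm_num at this
  have hwc : Continuous w := by fun_prop
  set h : ℝ → ℂ := fun u => (1 / (2 * Real.pi) : ℂ) *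
    (Complex.Gamma (w u) * (a : ℂ) ^ (-w u) * Lc (1 : Chr M) 1 (6 * w u)) with hh
  have hhc : Continuous h := by
    refine continuous_const.mul (((WA.continuous_Gamma_line (σ := 7 / 48) (by norm_num)).mul
      (hwc.neg.const_cpow (Or.inl haC))).mul ?_)
    exact (isL_Lc hM (1 : Chr M) one_ne_zero).1.continuousOn.comp_continuous
      (continuous_const.mul hwc) hw1
  refine ⟨Complex.Gamma (1 / 6) * (a : ℂ) ^ (-(1 / 6 : ℂ)) * k / 6, h, ?_, hhc, fun J => ?_,
    fun Y hY => ?_⟩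
  · refine div_ne_zero (mul_ne_zero (mul_ne_zero (Complex.Gamma_ne_zero_of_re_pos (by norm_num))
      ?_) (by exact_mod_cast hk.ne')) (by norm_num)
    rw [Ne, Complex.cpow_eq_zero_iff]
    exact fun h => haC h.1
  · refine ((integrable_Gamma_mul_pow (σ := 7 / 48) (by norm_num) (J₀ + J)).const_mul
      (‖(1 / (2 * Real.pi) : ℂ)‖ * a ^ (-(7 / 48) : ℝ) * (8 * C * 6 ^ J₀))).mono'
      (hhc.norm.mul (by fun_prop)).aestronglyMeasurable (Filter.Eventually.of_forall fun u => ?_)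
    have h1 := hgr' (6 * w u) (by rw [hw6]; norm_num) (by rw [hw6]; norm_num) (hw1 u)
    have h2 : 1 / 8 ≤ ‖6 * w u - 1‖ := by
      refine le_trans ?_ (Complex.abs_re_le_norm _)
      rw [Complex.sub_re, hw6, Complex.one_re]
      norm_num [abs_of_neg]
    have h3 : (1 + |6 * u|) ^ J₀ ≤ 6 ^ J₀ * (1 + |u|) ^ J₀ := by
      rw [← mul_pow, abs_mul, abs_of_pos (by norm_num : (0 : ℝ) < 6)]
      gcongr
      linarith [abs_nonneg u]
    rw [norm_mul, hw6i] at h1
    have h4 : ‖Lc (1 : Chr M) 1 (6 * w u)‖ ≤ 8 * C * 6 ^ J₀ * (1 + |u|) ^ J₀ := by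
      have h5 := mul_le_mul_of_nonneg_right h2 (norm_nonneg (Lc (1 : Chr M) 1 (6 * w u)))
      have h6 := mul_le_mul_of_nonneg_left h3 hC.le
      linarith
    rw [Real.norm_of_nonneg (by positivity)]
    simp only [hh, norm_mul, Complex.norm_cpow_eq_rpow_re_of_pos ha0, Complex.neg_re, hwre]
    calc ‖(1 / (2 * Real.pi) : ℂ)‖ * (‖Complex.Gamma (w u)‖ * a ^ (-(7 / 48) : ℝ) *
          ‖Lc (1 : Chr M) 1 (6 * w u)‖) * (1 + |u|) ^ J
        ≤ ‖(1 / (2 * Real.pi) : ℂ)‖ * (‖Complex.Gamma (w u)‖ * a ^ (-(7 / 48) : ℝ) *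
          (8 * C * 6 ^ J₀ * (1 + |u|) ^ J₀)) * (1 + |u|) ^ J := by gcongr
      _ = _ := by rw [pow_add]; ring
  · have hb0 : 0 < a / Y := div_pos ha0 hY
    have hbC : ((a / Y : ℝ) : ℂ) ≠ 0 := by exact_mod_cast hb0.ne'
    set G : ℂ → ℂ := fun z => Complex.Gamma z * ((a / Y : ℝ) : ℂ) ^ (-z) * G₀ (6 * z) / 6 with hG
    have hGd : DifferentiableOn ℂ G (strip (7 / 48) (1 / 3)) := by
      intro z hz
      refine DifferentiableAt.differentiableWithinAt ?_
      refine (((Complex.differentiableAt_Gamma z fun m hm => ?_).mul ?_).mul ?_).div_const _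
      · have := hz.1
        rw [hm] at this
        simp only [Complex.neg_re, Complex.natCast_re] at this
        have : (0 : ℝ) ≤ m := Nat.cast_nonneg m
        linarith
      · exact differentiableAt_id.neg.const_cpow (Or.inl hbC)
      · exact (hG₀ _).comp z (by fun_prop)
    have hGb : ∀ z ∈ strip (7 / 48) (1 / 3), 1 ≤ |z.im| →
        ‖G z‖ ≤ (CΓ * Real.exp |Real.log (a / Y)| * C *
          (6 ^ J₀ * (J₀ + 2).factorial * Real.exp 1)) / (1 + z.im ^ 2) := by
      intro z hz hz1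
      have hre : (6 * z).re = 6 * z.re := by simp
      have him : (6 * z).im = 6 * z.im := by simp
      have hne : 6 * z ≠ 1 := fun h => by
        rw [h, Complex.one_im] at him
        have : z.im = 0 := by linarith
        rw [this, abs_zero] at hz1
        linarith
      have h1 := hgr' (6 * z) (by rw [hre]; linarith [hz.1]) (by rw [hre]; linarith [hz.2]) hne
      rw [← hGe _ hne, him, abs_mul, abs_of_pos (by norm_num : (0 : ℝ) < 6)] at h1
      have h2 := hΓ z hz.1 hz.2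
      have h3 : (a / Y) ^ (-z.re) ≤ Real.exp |Real.log (a / Y)| := by
        rw [Real.rpow_def_of_pos hb0]
        refine Real.exp_le_exp.2 ((le_abs_self _).trans ?_)
        rw [abs_mul]
        refine mul_le_of_le_one_right (abs_nonneg _) ?_
        rw [abs_le]
        constructor <;> linarith [hz.1, hz.2]
      have h4 := P3Theta_exp_bound J₀ (abs_nonneg z.im)
      rw [sq_abs] at h4
      simp only [hG, norm_div, norm_mul, Complex.norm_cpow_eq_rpow_re_of_pos hb0, Complex.neg_re]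
      have h6 : ‖(6 : ℂ)‖ = 6 := by simp
      rw [h6]
      calc ‖Complex.Gamma z‖ * (a / Y) ^ (-z.re) * ‖G₀ (6 * z)‖ / 6
          ≤ ‖Complex.Gamma z‖ * (a / Y) ^ (-z.re) * ‖G₀ (6 * z)‖ :=
            div_le_self (by positivity) (by norm_num)
        _ ≤ CΓ * Real.exp (-|z.im|) * Real.exp |Real.log (a / Y)| *
            (C * (1 + 6 * |z.im|) ^ J₀) := by gcongr
        _ = CΓ * Real.exp |Real.log (a / Y)| * C *
            (Real.exp (-|z.im|) * (1 + 6 * |z.im|) ^ J₀) := by ring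
        _ ≤ CΓ * Real.exp |Real.log (a / Y)| * C *
            (6 ^ J₀ * (J₀ + 2).factorial * Real.exp 1 / (1 + z.im ^ 2)) := by gcongr
        _ = _ := by ring
    have hshift := contour_shift_pole (ρ := 1 / 6) (by norm_num) (by norm_num) hGd hGb
    have hq : ∀ z : ℂ, z.re ≠ 1 / 6 → G z / (z - 1 / 6) =
        Complex.Gamma z * ((a / Y : ℝ) : ℂ) ^ (-z) * Lc (1 : Chr M) 1 (6 * z) := by
      intro z hz
      have hz' : z - 1 / 6 ≠ 0 := fun h => hz (by rw [sub_eq_zero.1 h]; norm_num)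
      have hne : 6 * z ≠ 1 := fun h => hz' (by linear_combination h / 6)
      rw [div_eq_iff hz']
      simp only [hG]
      rw [hGe _ hne]
      ring
    have hq1 : ∀ u : ℝ, (((1 / 3 : ℝ) : ℂ) + u * Complex.I).re ≠ 1 / 6 := fun u => by
      have : (((1 / 3 : ℝ) : ℂ) + u * Complex.I).re = 1 / 3 := by simp
      rw [this]; norm_num
    have hq0 : ∀ u : ℝ, (((7 / 48 : ℝ) : ℂ) + u * Complex.I).re ≠ 1 / 6 := fun u => by
      rw [hwre u]; norm_num
    simp only [hq _ (hq1 _), hq _ (hq0 _)] at hshift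
    rw [theta_line hM hY, hshift, mul_add, add_comm, ← integral_const_mul]
    congr 1
    · have hpi : (Real.pi : ℂ) ≠ 0 := by exact_mod_cast Real.pi_ne_zero
      have e6 : (6 : ℂ) * (1 / 6) = 1 := by norm_num
      simp only [hG]
      rw [e6, hG1, P3Theta_div_cpow ha0 hY]
      field_simp
    · congr 1
      funext u
      rw [P3Theta_div_cpow ha0 hY]
      simp only [hh, hw]
      ring


theorem MT_approx (hM : Adm M) : ∃ κ : ℂ, κ ≠ 0 ∧ ∀ β : ℝ, 1 / 2 ≤ β → β ≤ 1 → ZeroFree β →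
    ∀ (ψ : Chr M) (ε : ℝ), 0 < ε → ∃ C : ℝ, 0 < C ∧ ∀ D A : ℝ, 0 < D → 0 < A →
      ‖MT ψ D A - κ * (A ^ (1 / 6 : ℝ) : ℝ) * Mob ψ 1 D (1 / 6)‖ ≤
        C * A ^ (7 / 48 : ℝ) * D ^ (β + ε) := by
  obtain ⟨κ, h, hκ, hc, hi, hrep⟩ := theta_rep hM
  refine ⟨κ, hκ, fun β hβ hβ1 hz ψ ε hε => ?_⟩
  obtain ⟨C, J, hC, hMob⟩ := Mob_of_zeroFree hβ hβ1 hz hM ψ hε
  have hI0 : 0 ≤ ∫ u, ‖h u‖ * (1 + |u|) ^ J := integral_nonneg fun u => by positivity
  refine ⟨C * ((∫ u, ‖h u‖ * (1 + |u|) ^ J) + 1), by positivity, fun D A hD hA => ?_⟩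
  have hb := polyB_mu_rc hM ψ 1
  have hb0 : mu 0 * rc ψ 1 0 = 0 := hb.1
  set w : ℝ → ℂ := fun u => ((7 / 48 : ℝ) : ℂ) + u * Complex.I with hw
  have hwre : ∀ u, (w u).re = 7 / 48 := fun u => by simp [hw]
  have hwim : ∀ u, (w u).im = u := fun u => by simp [hw]
  set F : O → ℝ → ℂ := fun n u =>
    h u * (A : ℂ) ^ w u * (mu n * rc ψ 1 n * Wc (nr n / D) (w u)) with hF
  have hA0 : (A : ℂ) ≠ 0 := by exact_mod_cast hA.ne'
  have hnorm : ∀ n u, ‖F n u‖ = ‖h u‖ *
      (A ^ (7 / 48 : ℝ) * ‖mu n * rc ψ 1 n * Wc (nr n / D) ((7 / 48 : ℝ) : ℂ)‖) := by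
    intro n u
    simp only [hF, norm_mul, norm_Wc, hwre, Complex.norm_cpow_eq_rpow_re_of_pos hA,
      Complex.ofReal_re]
    ring
  have hh : Integrable fun u => ‖h u‖ := by simpa using hi 0
  have hwc : Continuous w := by
    simp only [hw]
    fun_prop
  have hFi : ∀ n, Integrable (F n) := by
    intro n
    have c1 : Continuous fun u => (A : ℂ) ^ w u := hwc.const_cpow (Or.inl hA0)
    have c2 : Continuous fun u => Wc (nr n / D) (w u) := by
      unfold Wc
      fun_prop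
    have c3 : Continuous (F n) := (hc.mul c1).mul (continuous_const.mul c2)
    exact (hh.mul_const _).mono' c3.aestronglyMeasurable
      (Filter.Eventually.of_forall fun u => (hnorm n u).le)
  have hFs : Summable fun n => ∫ u, ‖F n u‖ := by
    simp only [hnorm, integral_mul_const]
    exact ((summable_Sm hb hD _).mul_left _).mul_left _
  have hterm : ∀ n : O, mu n * rc ψ 1 n * Wc (nr n / D) 0 * Th M (A * (nr n / D)) =
      κ * (A ^ (1 / 6 : ℝ) : ℝ) * (mu n * rc ψ 1 n * Wc (nr n / D) (1 / 6)) + ∫ u, F n u := by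
    intro n
    rcases eq_or_ne n 0 with rfl | hn
    · simp only [hF, hb0, zero_mul, mul_zero, integral_zero, add_zero]
    have hy : 0 < nr n / D := div_pos (nr_pos hn) hD
    have e1 : ∀ s : ℂ, Wc (nr n / D) s = Wc (nr n / D) 0 * ((nr n / D : ℝ) : ℂ) ^ s := fun s => by
      rw [← Wc_add hy, zero_add]
    rw [hrep _ (mul_pos hA hy), mul_add, ← integral_const_mul, e1 (1 / 6),
      Complex.ofReal_cpow hA.le, Complex.ofReal_mul, Complex.mul_cpow_ofReal_nonneg hA.le hy.le]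
    congr 1
    · push_cast
      ring
    · refine integral_congr_ae (Filter.Eventually.of_forall fun u => ?_)
      simp only [hF]
      rw [e1 (w u), Complex.mul_cpow_ofReal_nonneg hA.le hy.le]
      ring
  have hS := hasSum_integral_of_summable_integral_norm hFi hFs
  have hS1 := ((summable_Sm hb hD (1 / 6)).of_norm.hasSum.mul_left
    (κ * (A ^ (1 / 6 : ℝ) : ℝ))).add hS
  have e : MT ψ D A - κ * (A ^ (1 / 6 : ℝ) : ℝ) * Mob ψ 1 D (1 / 6) =
      ∫ u, h u * (A : ℂ) ^ w u * Mob ψ 1 D (w u) := by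
    rw [MT, tsum_congr hterm, hS1.tsum_eq, Mob, add_sub_cancel_left]
    simp only [hF, tsum_mul_left, Mob]
  rw [e]
  have key := norm_integral_le_of_norm_le (μ := volume)
    (f := fun u => h u * (A : ℂ) ^ w u * Mob ψ 1 D (w u))
    ((hi J).mul_const (C * A ^ (7 / 48 : ℝ) * D ^ (β + ε)))
    (Filter.Eventually.of_forall fun u => by
      have h1 := hMob D (w u) hD (by rw [hwre]; norm_num)
      rw [hwim] at h1
      rw [norm_mul, norm_mul, Complex.norm_cpow_eq_rpow_re_of_pos hA, hwre]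
      calc _ ≤ ‖h u‖ * A ^ (7 / 48 : ℝ) * (C * (1 + |u|) ^ J * D ^ (β + ε)) := by gcongr
        _ = _ := by ring)
  rw [integral_mul_const] at key
  refine key.trans ?_
  have h2 : 0 ≤ C * A ^ (7 / 48 : ℝ) * D ^ (β + ε) := by positivity
  nlinarith

end Crest.Agent.R17.P3
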