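import Crest.Agent.R17.RowTail

/-!
# Row 17, module M15c: the slot expansion of `Ia` (shared by `RowB` and `PrincR`)

A slot prime `p` acts on functions of pairs `(n, x)` by
`(T_p f)(n,x) = -conj ψ(p) f(p n, x) + 1_{p ∣ x} f(n, x/p)`; write `T_p = t(p) + E_p` for an
arbitrary function `t` (`t p = conj (sym p r)` in `RowB`, `t = 1` in `PrincR`).
`cfE ψ a t Z = (∏_{p ∈ Z} E_p) cf` is given in completely local form.
-/

set_option autoImplicit false

noncomputable section

namespace Crest.Agent.R17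

open scoped ComplexConjugate

/-- The pairing `⟨f, Φ⟩`. -/
def pairF (f : O × O → ℂ) (Φ : ℝ → ℝ → ℂ) : ℂ := ∑' v : O × O, f v * Φ (nr v.1) (nr v.2)

/-- The local factor of `cf` at `p`. -/
def cfL {M : O} (ψ : Chr M) (a p : O) (i j : ℕ) : ℂ := cf ψ a (p ^ i) (p ^ j)

/-- The action of `E = c · (mark) + (compensate) - t` on a local factor. -/
def Eloc (c t : ℂ) (L : ℕ → ℕ → ℂ) (i j : ℕ) : ℂ :=
  c * L (i + 1) j + (if j = 0 then 0 else L i (j - 1)) - t * L i j

open Classical in
/-- The local factor at `p` when `Z` is the set of the error primes. -/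
def cfLE {M : O} (ψ : Chr M) (a : O) (t : O → ℂ) (Z : Finset O) (p : O) : ℕ → ℕ → ℂ :=
  if p ∈ Z then Eloc (-conj (ev ψ p)) (t p) (cfL ψ a p) else cfL ψ a p

open Classical in
/-- `(∏_{p ∈ Z} E_p) cf` in local form. -/
def cfE {M : O} (ψ : Chr M) (a : O) (t : O → ℂ) (Z : Finset O) (v : O × O) : ℂ :=
  if Primary v.1 ∧ Primary v.2 then
    ∏ p ∈ Z ∪ pf (v.1 * v.2), cfLE ψ a t Z p (vp p v.1) (vp p v.2) else 0

theorem cfL_zero {M : O} (ψ : Chr M) (a p : O) : cfL ψ a p 0 0 = 1 := by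
  rw [cfL, pow_zero, cf_one]

theorem cfE_of_not {M : O} (ψ : Chr M) (a : O) (t : O → ℂ) (Z : Finset O) {v : O × O}
    (h : ¬ (Primary v.1 ∧ Primary v.2)) : cfE ψ a t Z v = 0 := if_neg h

/-- The product may be taken over any larger finite set of primary primes. -/
theorem cfE_eq {M : O} (ψ : Chr M) (a : O) (t : O → ℂ) {Z H : Finset O} {n x : O}
    (hn : Primary n) (hx : Primary x) (hH : ∀ p ∈ H, Prime p ∧ Primary p) (hZ : Z ⊆ H)
    (h1 : pf n ⊆ H) (h2 : pf x ⊆ H) :
    cfE ψ a t Z (n, x) = ∏ p ∈ H, cfLE ψ a t Z p (vp p n) (vp p x) := by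
  classical
  unfold cfE
  rw [if_pos ⟨hn, hx⟩]
  refine Finset.prod_subset (fun p hp => ?_) fun p hp hp' => ?_
  · simp only [pf_mul hn.ne_zero hx.ne_zero, Finset.mem_union] at hp
    rcases hp with hp | hp | hp
    exacts [hZ hp, h1 hp, h2 hp]
  · simp only [pf_mul hn.ne_zero hx.ne_zero, Finset.mem_union, not_or] at hp'
    obtain ⟨hq, hq'⟩ := hH p hp
    have e1 : vp p n = 0 := by
      by_contra h; exact hp'.2.1 ((BasicB.mem_pf_iff hn.ne_zero hq hq').2 h)
    have e2 : vp p x = 0 := by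
      by_contra h; exact hp'.2.2 ((BasicB.mem_pf_iff hx.ne_zero hq hq').2 h)
    simp only [cfLE, if_neg hp'.1, e1, e2, cfL_zero]

namespace PC

theorem coprime_of_ne {p q : O} (hp : Prime p ∧ Primary p) (hq : Prime q ∧ Primary q)
    (h : p ≠ q) : IsCoprime p q :=
  (hp.1.irreducible.coprime_iff_not_dvd).2 fun h' => h (BasicB.eq_of_dvd hp.1 hq.1 hp.2 hq.2 h')

theorem cf_prod {M : O} (hM : Adm M) (ψ : Chr M) (a : O) (e k : O → ℕ) {H : Finset O}
    (hH : ∀ p ∈ H, Prime p ∧ Primary p) :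
    cf ψ a (∏ p ∈ H, p ^ e p) (∏ p ∈ H, p ^ k p) = ∏ p ∈ H, cfL ψ a p (e p) (k p) := by
  classical
  induction H using Finset.induction_on with
  | empty => simp [cf_one]
  | insert q H hq ih =>
    have hH' : ∀ p ∈ H, Prime p ∧ Primary p := fun p hp => hH p (Finset.mem_insert_of_mem hp)
    have hq' := hH q (Finset.mem_insert_self _ _)
    have hc : ∀ f : O → ℕ, IsCoprime q (∏ p ∈ H, p ^ f p) := fun f =>
      IsCoprime.prod_right fun p hp =>
        (coprime_of_ne hq' (hH' p hp) fun h => hq (h ▸ hp)).pow_right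
    rw [Finset.prod_insert hq, Finset.prod_insert hq, Finset.prod_insert hq,
      cf_mul hM ψ a (hq'.2.pow _) (BasicB.primary_prod_pow hH' e) (hq'.2.pow _)
        (BasicB.primary_prod_pow hH' k)
        (IsCoprime.mul_left ((hc e).mul_right (hc k)).pow_left ((hc e).mul_right (hc k)).pow_left),
      ih hH', cfL]

end PC

theorem cfE_empty {M : O} (hM : Adm M) (ψ : Chr M) (a : O) (t : O → ℂ) (v : O × O) :
    cfE ψ a t ∅ v = cf ψ a v.1 v.2 := by
  classical
  obtain ⟨n, x⟩ := v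
  by_cases h : Primary n ∧ Primary x
  · have hH : ∀ p ∈ pf n ∪ pf x, Prime p ∧ Primary p := fun p hp => by
      rcases Finset.mem_union.1 hp with hp | hp <;> exact BasicB.pf_sub hp
    rw [cfE_eq ψ a t h.1 h.2 hH (Finset.empty_subset _) Finset.subset_union_left
      Finset.subset_union_right]
    have e := PC.cf_prod hM ψ a (fun p => vp p n) (fun p => vp p x) hH
    rw [BasicB.prod_superset h.1.ne_zero hH Finset.subset_union_left,
      BasicB.prod_superset h.2.ne_zero hH Finset.subset_union_right, ← h.1.eq_prod,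
      ← h.2.eq_prod] at e
    simp only [e, cfLE, Finset.notMem_empty, if_false]
  · rw [cfE_of_not ψ a t ∅ h]
    by_contra h'
    have := cf_support ψ (Ne.symm h')
    exact h ⟨this.1, this.2.2.1⟩

namespace PC

open Classical in
/-- The shift by the mark `m.1` and the compensation `m.2`. -/
def sh (m : O × O) : Module.End ℂ (O × O → ℂ) where
  toFun f v := if m.2 ∣ v.2 then f (m.1 * v.1, v.2 / m.2) else 0
  map_add' f g := by
    funext v
    by_cases h : m.2 ∣ v.2 <;> simp [h]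
  map_smul' c f := by
    funext v
    by_cases h : m.2 ∣ v.2 <;> simp [h]

open Classical in
theorem sh_apply (m : O × O) (f : O × O → ℂ) (v : O × O) :
    sh m f v = if m.2 ∣ v.2 then f (m.1 * v.1, v.2 / m.2) else 0 := rfl

/-- The shifts form an action of the monoid `O × O`. -/
def shH : O × O →* Module.End ℂ (O × O → ℂ) where
  toFun := sh
  map_one' := by
    ext f v
    simp [sh_apply]
  map_mul' m m' := by
    refine LinearMap.ext fun f => funext fun v => ?_
    obtain ⟨z, π⟩ := m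
    obtain ⟨z', π'⟩ := m'
    obtain ⟨n, x⟩ := v
    simp only [Module.End.mul_apply, sh_apply, Prod.fst_mul, Prod.snd_mul]
    rw [show z' * (z * n) = z * z' * n by ring]
    by_cases h0 : π = 0
    · subst h0
      by_cases hx : x = 0 <;> simp [hx]
    by_cases h : π ∣ x
    · obtain ⟨y, rfl⟩ := h
      rw [if_pos (dvd_mul_right _ _), mul_div_cancel_left₀ _ h0]
      by_cases h' : π' ∣ y
      · rw [if_pos h', if_pos (mul_dvd_mul_left _ h')]
        obtain ⟨w, rfl⟩ := h'
        by_cases h1 : π' = 0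
        · simp [h1]
        · rw [mul_div_cancel_left₀ _ h1, ← mul_assoc, mul_div_cancel_left₀ _ (mul_ne_zero h0 h1)]
      · rw [if_neg h', if_neg (mt (mul_dvd_mul_iff_left h0).1 h')]
    · rw [if_neg h, if_neg fun h' => h (dvd_of_mul_right_dvd h')]

/-- The commutative algebra of the operators. -/
abbrev Al : Type := MonoidAlgebra ℂ (O × O)

/-- Its action. -/
def act : Al →ₐ[ℂ] Module.End ℂ (O × O → ℂ) := MonoidAlgebra.lift ℂ _ _ shH

theorem act_of (m : O × O) : act (MonoidAlgebra.of ℂ (O × O) m) = sh m :=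
  MonoidAlgebra.lift_of shH m

/-- `cf` as a function of the pair. -/
def cfF {M : O} (ψ : Chr M) (a : O) (v : O × O) : ℂ := cf ψ a v.1 v.2

/-- The slot operator. -/
def Tel {M : O} (ψ : Chr M) (p : O) : Al :=
  MonoidAlgebra.of ℂ (O × O) (1, p) +
    algebraMap ℂ Al (-conj (ev ψ p)) * MonoidAlgebra.of ℂ (O × O) (p, 1)

/-- The error operator. -/
def Eel {M : O} (ψ : Chr M) (t : O → ℂ) (p : O) : Al := Tel ψ p - algebraMap ℂ Al (t p)

open Classical in
theorem act_Eel {M : O} (ψ : Chr M) (t : O → ℂ) (q : O) (f : O × O → ℂ) (n x : O) :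
    act (Eel ψ t q) f (n, x) =
      (if q ∣ x then f (n, x / q) else 0) + -conj (ev ψ q) * f (q * n, x) - t q * f (n, x) := by
  simp only [Eel, Tel, map_sub, map_add, map_mul, act_of, AlgHom.commutes, LinearMap.sub_apply,
    LinearMap.add_apply, Module.End.mul_apply, Module.algebraMap_end_apply, Pi.sub_apply,
    Pi.add_apply, Pi.smul_apply, smul_eq_mul, sh_apply, one_mul, one_dvd, if_true,
    EuclideanDomain.div_one]

theorem act_prod {M : O} (hM : Adm M) (ψ : Chr M) (a : O) (t : O → ℂ) {Z : Finset O}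
    (hZ : ∀ p ∈ Z, Prime p ∧ Primary p) :
    act (∏ p ∈ Z, Eel ψ t p) (cfF ψ a) = cfE ψ a t Z := by
  classical
  induction Z using Finset.induction_on with
  | empty =>
    funext v
    rw [Finset.prod_empty, map_one, cfE_empty hM]
    rfl
  | insert q Z hq ih =>
    have hZ' : ∀ p ∈ Z, Prime p ∧ Primary p := fun p hp => hZ p (Finset.mem_insert_of_mem hp)
    obtain ⟨hq1, hq2⟩ := hZ q (Finset.mem_insert_self _ _)
    funext v
    obtain ⟨n, x⟩ := v
    rw [Finset.prod_insert hq, map_mul, Module.End.mul_apply, ih hZ', act_Eel]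
    by_cases h : Primary n ∧ Primary x
    · obtain ⟨hn, hx⟩ := h
      set H : Finset O := insert q (Z ∪ (pf n ∪ pf x)) with hHdef
      have hH : ∀ p ∈ H, Prime p ∧ Primary p := fun p hp => by
        simp only [hHdef, Finset.mem_insert, Finset.mem_union] at hp
        rcases hp with rfl | hp | hp | hp
        exacts [⟨hq1, hq2⟩, hZ' p hp, BasicB.pf_sub hp, BasicB.pf_sub hp]
      have hqH : q ∈ H := Finset.mem_insert_self _ _
      have s1 : Z ⊆ H := fun p hp => by simp [hHdef, hp]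
      have s2 : pf n ⊆ H := fun p hp => by simp [hHdef, hp]
      have s3 : pf x ⊆ H := fun p hp => by simp [hHdef, hp]
      have hv : ∀ p ∈ H.erase q, ∀ y : O, y ≠ 0 → vp p (q * y) = vp p y := fun p hp y hy => by
        obtain ⟨hne, hp⟩ := Finset.mem_erase.1 hp
        rw [vp_mul (hH p hp).1 hq1.ne_zero hy, vp_of_ne (hH p hp).1 hq1 (hH p hp).2 hq2 hne,
          zero_add]
      have hvq : ∀ y : O, y ≠ 0 → vp q (q * y) = vp q y + 1 := fun y hy => by
        rw [vp_mul hq1 hq1.ne_zero hy, vp_self hq1, add_comm]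
      have hL : cfLE ψ a t Z q = cfL ψ a q := if_neg hq
      have e0 : cfE ψ a t (insert q Z) (n, x) =
          Eloc (-conj (ev ψ q)) (t q) (cfL ψ a q) (vp q n) (vp q x) *
            ∏ p ∈ H.erase q, cfLE ψ a t Z p (vp p n) (vp p x) := by
        rw [cfE_eq ψ a t hn hx hH (Finset.insert_subset hqH s1) s2 s3,
          ← Finset.mul_prod_erase H _ hqH]
        congr 1
        · simp only [cfLE, Finset.mem_insert_self, if_true]
        · refine Finset.prod_congr rfl fun p hp => ?_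
          simp only [cfLE, Finset.mem_insert, (Finset.mem_erase.1 hp).1, false_or]
      have e1 : cfE ψ a t Z (n, x) = cfL ψ a q (vp q n) (vp q x) *
            ∏ p ∈ H.erase q, cfLE ψ a t Z p (vp p n) (vp p x) := by
        rw [cfE_eq ψ a t hn hx hH s1 s2 s3, ← Finset.mul_prod_erase H _ hqH, hL]
      have e2 : cfE ψ a t Z (q * n, x) = cfL ψ a q (vp q n + 1) (vp q x) *
            ∏ p ∈ H.erase q, cfLE ψ a t Z p (vp p n) (vp p x) := by
        rw [cfE_eq ψ a t (hq2.mul hn) hx hH s1 (by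
          rw [pf_mul hq1.ne_zero hn.ne_zero, pf_prime hq1 hq2]
          exact Finset.union_subset (Finset.singleton_subset_iff.2 hqH) s2) s3,
          ← Finset.mul_prod_erase H _ hqH, hL, hvq n hn.ne_zero]
        congr 1
        exact Finset.prod_congr rfl fun p hp => by rw [hv p hp n hn.ne_zero]
      have e3 : (if q ∣ x then cfE ψ a t Z (n, x / q) else 0) =
          (if vp q x = 0 then 0 else cfL ψ a q (vp q n) (vp q x - 1)) *
            ∏ p ∈ H.erase q, cfLE ψ a t Z p (vp p n) (vp p x) := by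
        by_cases hd : q ∣ x
        · obtain ⟨y, rfl⟩ := hd
          have hy : Primary y := hq2.of_mul hx
          rw [if_pos (dvd_mul_right _ _), mul_div_cancel_left₀ _ hq1.ne_zero, hvq y hy.ne_zero,
            if_neg (Nat.succ_ne_zero _), Nat.add_sub_cancel,
            cfE_eq ψ a t hn hy hH s1 s2 (fun p hp => s3 (by
              rw [pf_mul hq1.ne_zero hy.ne_zero]; exact Finset.mem_union_right _ hp)),
            ← Finset.mul_prod_erase H _ hqH, hL]
          congr 1
          exact Finset.prod_congr rfl fun p hp => by rw [hv p hp y hy.ne_zero]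
        · rw [if_neg hd, if_pos ((vp_eq_zero_iff hq1 hx.ne_zero).2 hd), zero_mul]
      rw [e0, e1, e2, e3, Eloc]
      ring
    · rw [cfE_of_not ψ a t _ (v := (n, x)) h, cfE_of_not ψ a t _ (v := (n, x)) h,
        cfE_of_not ψ a t _ (v := (q * n, x)) fun h' => h ⟨hq2.of_mul h'.1, h'.2⟩]
      have : (if q ∣ x then cfE ψ a t Z (n, x / q) else 0) = 0 := by
        split_ifs with hd
        · obtain ⟨y, rfl⟩ := hd
          rw [mul_div_cancel_left₀ _ hq1.ne_zero]
          exact cfE_of_not ψ a t _ (v := (n, y)) fun h' => h ⟨h'.1, hq2.mul h'.2⟩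
        · rfl
      rw [this]
      ring

theorem sh_cfF_zero {M : O} (ψ : Chr M) (a : O) {m : O × O} (h : m.1 = 0 ∨ m.2 = 0) (v : O × O) :
    sh m (cfF ψ a) v = 0 := by
  rw [sh_apply]
  split_ifs with hd
  · by_contra h'
    have := cf_support ψ h'
    rcases h with h | h
    · exact this.1.ne_zero (by simp [h])
    · exact this.2.2.1.ne_zero (by simp [h])
  · rfl

theorem summable_sh {M : O} (hM : Adm M) (ψ : Chr M) {B : ℝ} (hB : 0 < B) (m : O × O) :
    Summable (fun v : O × O × O =>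
      ‖sh m (cfF ψ v.1) v.2 * Phi B v.1 (nr v.2.1) (nr v.2.2)‖) := by
  by_cases h : m.1 = 0 ∨ m.2 = 0
  · simp only [sh_cfF_zero ψ _ h, zero_mul, norm_zero]
    exact summable_zero
  obtain ⟨z, π⟩ := m
  obtain ⟨hz, hπ⟩ : z ≠ 0 ∧ π ≠ 0 := not_or.1 h
  have i1 : Function.Injective fun v : O × O × O => (v.1, v.2.1, π * v.2.2) := by
    rintro ⟨a, n, x⟩ ⟨a', n', x'⟩ h
    simp only [Prod.mk.injEq, mul_right_inj' hπ] at h
    simp [h]
  have i2 : Function.Injective fun v : O × O × O => (v.1, z * v.2.1, v.2.2) := by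
    rintro ⟨a, n, x⟩ ⟨a', n', x'⟩ h
    simp only [Prod.mk.injEq, mul_right_inj' hz] at h
    simp [h]
  refine (i1.summable_iff fun v hv => ?_).1 ?_
  · rw [sh_apply, if_neg, zero_mul, norm_zero]
    rintro ⟨y, hy⟩
    exact hv ⟨(v.1, v.2.1, y), by simp only [← hy]⟩
  · refine ((summable_probe hM ψ hB hz hπ).comp_injective i2).congr fun v => ?_
    simp only [Function.comp, sh_apply, dvd_mul_right, if_true, mul_div_cancel_left₀ _ hπ, cfF,
      nr_mul, mul_div_cancel_left₀ _ (nr_pos hz).ne', mul_comm (nr π)]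

theorem summable_act {M : O} (hM : Adm M) (ψ : Chr M) {B : ℝ} (hB : 0 < B) (e : Al) :
    Summable (fun v : O × O × O =>
      ‖act e (cfF ψ v.1) v.2 * Phi B v.1 (nr v.2.1) (nr v.2.2)‖) := by
  induction e using MonoidAlgebra.induction_linear with
  | zero => simp
  | add e e' h h' =>
    refine Summable.of_nonneg_of_le (fun _ => norm_nonneg _) (fun v => ?_) (h.add h')
    rw [map_add, LinearMap.add_apply, Pi.add_apply, add_mul]
    exact norm_add_le _ _
  | single m c =>
    refine ((summable_sh hM ψ hB m).mul_left ‖c‖).congr fun v => ?_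
    have : act (MonoidAlgebra.single m c) = c • sh m := MonoidAlgebra.lift_single shH m c
    rw [this, LinearMap.smul_apply, Pi.smul_apply, smul_eq_mul, mul_assoc, norm_mul c]

theorem summable_act' {M : O} (hM : Adm M) (ψ : Chr M) (a : O) {B : ℝ} (hB : 0 < B) (e : Al) :
    Summable (fun v : O × O => ‖act e (cfF ψ a) v * Phi B a (nr v.1) (nr v.2)‖) :=
  (summable_act hM ψ hB e).prod_factor a

/-- The pairing as a linear form on the algebra of the operators. -/
def Lam {M : O} (hM : Adm M) (ψ : Chr M) (a : O) {B : ℝ} (hB : 0 < B) : Al →ₗ[ℂ] ℂ where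
  toFun e := pairF (act e (cfF ψ a)) (Phi B a)
  map_add' e e' := by
    unfold pairF
    rw [← (summable_act' hM ψ a hB e).of_norm.tsum_add (summable_act' hM ψ a hB e').of_norm]
    refine tsum_congr fun v => ?_
    rw [map_add, LinearMap.add_apply, Pi.add_apply, add_mul]
  map_smul' c e := by
    unfold pairF
    rw [RingHom.id_apply, smul_eq_mul, ← tsum_mul_left]
    refine tsum_congr fun v => ?_
    rw [map_smul, LinearMap.smul_apply, Pi.smul_apply, smul_eq_mul, mul_assoc]

theorem Lam_mul {M : O} (hM : Adm M) (ψ : Chr M) (a : O) {B : ℝ} (hB : 0 < B) (c : ℂ) (e : Al) :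
    Lam hM ψ a hB (algebraMap ℂ Al c * e) = c * Lam hM ψ a hB e := by
  rw [← Algebra.smul_def, map_smul, smul_eq_mul]

theorem Lam_of {M : O} (hM : Adm M) (ψ : Chr M) (a : O) {B : ℝ} (hB : 0 < B) {z π : O}
    (hz : z ≠ 0) (hπ : π ≠ 0) :
    Lam hM ψ a hB (MonoidAlgebra.of ℂ (O × O) (z, π)) = Irow ψ B a z π := by
  have i1 : Function.Injective fun v : O × O => (v.1, π * v.2) := by
    rintro ⟨n, x⟩ ⟨n', x'⟩ h
    simp only [Prod.mk.injEq, mul_right_inj' hπ] at h
    simp [h]
  have i2 : Function.Injective fun v : O × O => (z * v.1, v.2) := by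
    rintro ⟨n, x⟩ ⟨n', x'⟩ h
    simp only [Prod.mk.injEq, mul_right_inj' hz] at h
    simp [h]
  show pairF (act _ (cfF ψ a)) (Phi B a) = _
  unfold pairF Irow
  rw [act_of]
  refine (i1.tsum_eq ?_).symm.trans (Eq.trans ?_ (i2.tsum_eq ?_))
  rotate_left
  · refine tsum_congr fun v => ?_
    simp only [sh_apply, dvd_mul_right, if_true, mul_div_cancel_left₀ _ hπ, cfF,
      nr_mul, mul_div_cancel_left₀ _ (nr_pos hz).ne', mul_comm (nr π)]
  · intro v hv
    by_cases hd : z ∣ v.1
    · obtain ⟨y, hy⟩ := hd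
      exact ⟨(y, v.2), by simp only [← hy]⟩
    · exact absurd (if_neg hd) hv
  · intro v hv
    by_cases hd : π ∣ v.2
    · obtain ⟨y, hy⟩ := hd
      exact ⟨(v.1, y), by simp only [← hy]⟩
    · exact absurd (by simp only [sh_apply, if_neg hd, zero_mul]) hv

theorem of_prod {ι : Type} (J J' : Finset ι) (p : ι → O) :
    MonoidAlgebra.of ℂ (O × O) (∏ i ∈ J', p i, ∏ i ∈ J, p i) =
      (∏ i ∈ J, MonoidAlgebra.of ℂ (O × O) (1, p i)) *
        ∏ i ∈ J', MonoidAlgebra.of ℂ (O × O) (p i, 1) := by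
  rw [← map_prod, ← map_prod, ← map_mul]
  congr 1
  ext <;> simp [Prod.fst_prod, Prod.snd_prod]

theorem Ia_eq_Lam {M : O} (hM : Adm M) (ψ : Chr M) (K₀ : ℕ) {B : ℝ} (hB : 0 < B) (a : O) :
    Ia ψ K₀ B a = Lam hM ψ a hB
      (∏ i : Fin K₀, ∑ p ∈ Pset M K₀ B i, algebraMap ℂ Al (cw K₀ B i p) * Tel ψ p) := by
  classical
  rw [Finset.prod_univ_sum, map_sum, Ia]
  refine Finset.sum_congr rfl fun p hp => ?_
  have hp0 : ∀ i, p i ≠ 0 := fun i =>
    ((mem_Pset hB).1 (Fintype.mem_piFinset.1 hp i)).1.ne_zero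
  rw [Finset.prod_mul_distrib, ← map_prod, Lam_mul]
  simp only [Tel]
  rw [Fintype.prod_add, map_sum, Finset.mul_sum]
  refine Finset.sum_congr rfl fun J _ => ?_
  rw [Finset.prod_mul_distrib, ← map_prod (algebraMap ℂ Al), mul_left_comm _ (algebraMap ℂ Al _),
    Lam_mul, ← of_prod, Lam_of hM ψ a hB (Finset.prod_ne_zero_iff.2 fun i _ => hp0 i)
      (Finset.prod_ne_zero_iff.2 fun i _ => hp0 i), mul_assoc]

end PC

/-- Absolute convergence, jointly in the row and the pair. -/
theorem summable_cfE_joint {M : O} (hM : Adm M) (ψ : Chr M) (t : O → ℂ) {Z : Finset O}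
    (hZ : ∀ p ∈ Z, Prime p ∧ Primary p) {B : ℝ} (hB : 0 < B) :
    Summable (fun v : O × O × O =>
      ‖cfE ψ v.1 t Z v.2 * Phi B v.1 (nr v.2.1) (nr v.2.2)‖) := by
  refine (PC.summable_act hM ψ hB (∏ p ∈ Z, PC.Eel ψ t p)).congr fun v => ?_
  rw [PC.act_prod hM ψ _ t hZ]

theorem summable_cfE {M : O} (hM : Adm M) (ψ : Chr M) (a : O) (t : O → ℂ) {Z : Finset O}
    (hZ : ∀ p ∈ Z, Prime p ∧ Primary p) {B : ℝ} (hB : 0 < B) :
    Summable (fun v : O × O => ‖cfE ψ a t Z v * Phi B a (nr v.1) (nr v.2)‖) :=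
  (summable_cfE_joint hM ψ t hZ hB).prod_factor a

/-- The primes of different slots are different. -/
theorem injective_of_mem_piFinset {M : O} {K₀ : ℕ} {B : ℝ} (hB : 1 ≤ B) {S : Finset (Fin K₀)}
    {p : S → O} (hp : p ∈ Fintype.piFinset (fun i : S => Pset M K₀ B (i : Fin K₀))) :
    Function.Injective p := by
  intro i j h
  by_contra hij
  have hne : ((i : Fin K₀) : ℕ) ≠ ((j : Fin K₀) : ℕ) := fun h' =>
    hij (Subtype.ext (Fin.ext h'))
  exact Finset.disjoint_left.1 (disjoint_Pset M K₀ hB hne) (Fintype.mem_piFinset.1 hp i)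
    (h ▸ Fintype.mem_piFinset.1 hp j)

open Classical in
/-- **The slot expansion.** -/
theorem Ia_eq {M : O} (hM : Adm M) (ψ : Chr M) (K₀ : ℕ) {B : ℝ} (hB : 1 ≤ B) (a : O)
    (t : O → ℂ) : Ia ψ K₀ B a = ∑ S : Finset (Fin K₀),
      (∏ i ∈ Sᶜ, ∑ p ∈ Pset M K₀ B i, cw K₀ B i p * t p) *
        ∑ p ∈ Fintype.piFinset (fun i : S => Pset M K₀ B (i : Fin K₀)),
          (∏ i : S, cw K₀ B (i : Fin K₀) (p i)) *
            pairF (cfE ψ a t (Finset.univ.image p)) (Phi B a) := by
  have hB0 : 0 < B := one_pos.trans_le hB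
  have e : ∀ i : Fin K₀, ∑ p ∈ Pset M K₀ B i, algebraMap ℂ PC.Al (cw K₀ B i p) * PC.Tel ψ p =
      ∑ p ∈ Pset M K₀ B i, algebraMap ℂ PC.Al (cw K₀ B i p) * PC.Eel ψ t p +
        algebraMap ℂ PC.Al (∑ p ∈ Pset M K₀ B i, cw K₀ B i p * t p) := fun i => by
    rw [map_sum, ← Finset.sum_add_distrib]
    refine Finset.sum_congr rfl fun p _ => ?_
    rw [PC.Eel, map_mul]
    ring
  rw [PC.Ia_eq_Lam hM ψ K₀ hB0]
  simp only [e]
  rw [Fintype.prod_add, map_sum]
  refine Finset.sum_congr rfl fun S _ => ?_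
  rw [← map_prod (algebraMap ℂ PC.Al), mul_comm, PC.Lam_mul, ← Finset.prod_coe_sort S,
    Finset.prod_univ_sum, map_sum]
  congr 1
  refine Finset.sum_congr rfl fun p hp => ?_
  rw [Finset.prod_mul_distrib, ← map_prod (algebraMap ℂ PC.Al), PC.Lam_mul,
    ← Finset.prod_image (f := PC.Eel ψ t) (injective_of_mem_piFinset hB hp).injOn]
  congr 1
  show pairF (PC.act _ _) _ = _
  rw [PC.act_prod hM ψ a t]
  intro q hq
  obtain ⟨i, -, rfl⟩ := Finset.mem_image.1 hq
  have := (mem_Pset hB0).1 (Fintype.mem_piFinset.1 hp i)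
  exact ⟨this.1, this.2.1⟩

end Crest.Agent.R17
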