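import Crest.Agent.R17.Recip
import Crest.Agent.R17.Poisson

/-!
# Row 17, module M15: local values of the coefficients of the probe
-/

set_option autoImplicit false

noncomputable section

namespace Crest.Agent.R17.PB2

open scoped ComplexConjugate

/-- The Fourier factor. -/
def Fc (n x a : O) : ℂ := ft (n * x) (fun k => sym n k * conj (gs 5 x k)) a

/-- The coefficient without the support condition. -/
def cf {M : O} (ψ : Chr M) (a n x : O) : ℂ :=
  th n * ev ψ n * Gf n * sym n (-1) * Rs n x * Fc n x a / ((Real.sqrt (nr n) * nr x : ℝ) : ℂ)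

theorem po_one : PO 1 := ⟨primary_one, isCoprime_one_left⟩

theorem po_pow {p : O} (h : PO p) (i : ℕ) : PO (p ^ i) := ⟨h.1.pow i, h.2.pow_left⟩

theorem po_of {M p : O} (hM : Adm M) (hp : Prime p) (hp' : Primary p) (hpM : ¬ p ∣ M) : PO p :=
  PO.of_adm hM hp' (hp.coprime_iff_not_dvd.2 hpM)

theorem supp {M p : O} (hp : Prime p) (hp' : Primary p) (hpM : ¬ p ∣ M) (j : ℕ) :
    Primary (p ^ j) ∧ IsCoprime (p ^ j) M :=
  ⟨hp'.pow j, (hp.coprime_iff_not_dvd.2 hpM).pow_left⟩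

theorem sym_dvd {p k : O} (hp : Prime p) (h : Primary p) (hk : p ∣ k) : sym p k = 0 :=
  (sym_eq_zero_iff h).2 fun hc => hp.not_isUnit (hc.isUnit_of_dvd' dvd_rfl hk)

theorem Fc_one_left {x : O} (hx : Primary x) (a : O) : Fc 1 x a = nm x * sym x a := by
  have h := ft_ft hx.ne_zero _ (Gauss_sym_per x (5 + 6)) (-a)
  have e : Fc 1 x a = conj (ft x (ft x fun y => sym x y ^ (5 + 6)) (-a)) := by
    rw [Fc, one_mul, ft, ft, map_sum]
    refine Finset.sum_congr rfl fun k _ => ?_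
    rw [sym_one_left, one_mul, map_mul, neg_mul, eq_neg, Complex.conj_conj]
    rfl
  rw [e, h, neg_neg, map_mul, map_natCast, map_pow, conj_sym hx, ← pow_mul,
    Gauss_sym_pow hx a one_ne_zero 9, pow_one]

theorem Fc_one_right {n : O} (hn : Primary n) (a : O) : Fc n 1 a = gs 1 n a := by
  rw [Fc, mul_one]
  exact Finset.sum_congr rfl fun x _ => by
    beta_reduce
    rw [gs_one, map_one, mul_one, sym_pow_add_six hn x one_ne_zero, pow_one]

open Classical in
theorem Fc_prime {p : O} (hp : Prime p) (h : PO p) (i : ℕ) (a : O) : Fc (p ^ i) p a =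
    conj (gs 5 p 1) * if p ^ i ∣ a then (nm p : ℂ) ^ i * gs (i + 5) p (a / p ^ i) else 0 := by
  have e := Gauss_pow hp.ne_zero (Gauss_sym_per p (i + 5 + 6)) i a
  refine Eq.trans ?_ (congrArg _ e)
  rw [Fc, ← pow_succ, Gauss_G, Finset.mul_sum]
  refine Finset.sum_congr rfl fun k _ => ?_
  beta_reduce
  rw [gs_sqfree (by norm_num) h hp.squarefree k, map_mul, Complex.conj_conj,
    sym_pow_left hp.ne_zero, sym_pow_add_six h.1 k (by omega)]
  ring

theorem Fc_two {p : O} (hp : Prime p) (h : PO p) {i j : ℕ} (hi : 1 ≤ i) (hj : 2 ≤ j) (a : O) :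
    Fc (p ^ i) (p ^ j) a = 0 := by
  obtain ⟨j, rfl⟩ : ∃ k, j = k + 1 := ⟨j - 1, by omega⟩
  refine Finset.sum_eq_zero fun k _ => ?_
  beta_reduce
  rw [Gauss_gs_pow 5 j h]
  split_ifs with hk
  · rw [sym_pow_left hp.ne_zero, sym_dvd hp h.1 ((dvd_pow_self p (by omega)).trans hk),
      zero_pow (by omega), zero_mul, zero_mul]
  · simp

theorem th_one : th 1 = 1 := by
  have := mu_gam_five po_one squarefree_one
  simpa [Gf_one, gam, nr] using this.symm

theorem norm_th {p : O} (hp : Prime p) (h : Primary p) (i : ℕ) :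
    ‖th (p ^ i)‖ ≤ nr p ^ (((i / 3 : ℕ) : ℝ) / 2) := by
  have q0 := nr_pos hp.ne_zero
  unfold th
  split_ifs with hc
  · obtain ⟨-, h1, h2, -⟩ := eq_sq1_mul_cu hc.1 hc.2
    have e : cu (p ^ i) = p ^ (i / 3) := by
      rcases Nat.eq_zero_or_pos i with rfl | hi
      · simp [cu, BasicB.pf_unit isUnit_one]
      · rw [cu, pf_pow hi.ne', pf_prime hp h, Finset.prod_singleton, vp_pow hp hp.ne_zero,
          vp_self hp, mul_one]
    have := Real.sqrt_pos.2 (nr_pos h1.ne_zero)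
    rw [norm_mul, norm_mul, norm_div, norm_gc h1 h2, Complex.norm_conj, norm_arg hc.1.ne_zero,
      Complex.norm_real, Complex.norm_real, Real.norm_of_nonneg this.le, div_self this.ne', e,
      Real.norm_of_nonneg (Real.sqrt_nonneg _), nr_pow, Real.sqrt_eq_rpow, ← Real.rpow_natCast,
      ← Real.rpow_mul q0.le, one_mul, mul_one, mul_one_div]
  · rw [norm_zero]; positivity

theorem cf_one_left {M : O} (ψ : Chr M) (a : O) {x : O} (hx : PO x) : cf ψ a 1 x = sym x a := by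
  have := (nr_pos hx.1.ne_zero).ne'
  have h2 : (nm x : ℂ) ≠ 0 := by exact_mod_cast this
  rw [cf, Fc_one_left hx.1, th_one, ev_one, Gf_one, sym_one_left, Rs_one_left hx.2]
  simp [h2, nr]

theorem cf_eq_zero {M : O} (ψ : Chr M) {a n x : O} (h : Fc n x a = 0) : cf ψ a n x = 0 := by
  rw [cf, h, mul_zero, zero_div]

theorem th_Gf {p : O} (hp : Prime p) (h : PO p) : Gf p * th p = -gam 5 p := by
  rw [← mu_gam_five h hp.squarefree, mu_prime hp h.1, neg_one_mul]

theorem unram {M : O} (ψ : Chr M) {a p : O} (hp : Prime p) (h : PO p) (ha : ¬ p ∣ a) (i j : ℕ) :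
    cf ψ a (p ^ i) (p ^ j) =
      if i = 0 then sym p a ^ j else if i = 1 ∧ j = 0 then -(ev ψ p * conj (sym p a)) else 0 := by
  split_ifs with h1 h2
  · rw [h1, pow_zero, cf_one_left ψ a (po_pow h j), sym_pow_left hp.ne_zero]
  · obtain ⟨rfl, rfl⟩ := h2
    have e1 := th_Gf hp h
    have e2 := gam_mul_gam (j := 1) (by norm_num) h hp.squarefree
    have e3 := Gauss_neg_one h
    rw [pow_one, pow_zero, cf, Fc_one_right h.1, gs_sqfree (by norm_num) h hp.squarefree, Rs_comm,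
      Rs_one_left h.2, show nr (1 : O) = 1 by simp, mul_one, mul_one, mul_div_assoc,
      mul_div_assoc, ← gam, pow_one]
    rw [pow_one, mul_one] at e2
    linear_combination (ev ψ p * sym p (-1) * conj (sym p a) * gam 1 p) * e1 -
      (ev ψ p * sym p (-1) * conj (sym p a)) * e2 - (ev ψ p * conj (sym p a)) * e3
  · refine cf_eq_zero ψ ?_
    have hd : ∀ k, k ≠ 0 → ¬ p ^ k ∣ a := fun k hk hd => ha ((dvd_pow_self p hk).trans hd)
    rcases Nat.lt_trichotomy j 1 with c | rfl | c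
    · obtain rfl : j = 0 := by omega
      obtain ⟨i, rfl⟩ : ∃ k, i = k + 1 := ⟨i - 1, by omega⟩
      rw [pow_zero, Fc_one_right (h.1.pow _), Gauss_gs_pow 1 i h, if_neg (hd i (by omega))]
    · rw [pow_one, Fc_prime hp h, if_neg (hd i h1), mul_zero]
    · exact Fc_two hp h (by omega) c a

theorem ram_zero {M : O} (ψ : Chr M) {a p : O} (hp : Prime p) (h : PO p) (ha : p ∣ a) {i j : ℕ}
    (hij : (i = 0 ∧ 1 ≤ j) ∨ 2 ≤ j) : cf ψ a (p ^ i) (p ^ j) = 0 := by
  rcases Nat.eq_zero_or_pos i with rfl | hi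
  · rw [pow_zero, cf_one_left ψ a (po_pow h j), sym_pow_left hp.ne_zero, sym_dvd hp h.1 ha,
      zero_pow (by omega)]
  · exact cf_eq_zero ψ (Fc_two hp h hi (by omega) a)

theorem dvd_div_iff {a p : O} (hp : Prime p) (ha0 : a ≠ 0) {i : ℕ} (h : p ^ i ∣ a) :
    p ∣ a / p ^ i ↔ i + 1 ≤ vp p a := by
  rw [← pow_dvd_iff_le_vp hp ha0]
  obtain ⟨k, rfl⟩ := h
  have hi := pow_ne_zero i hp.ne_zero
  rw [mul_div_cancel_left₀ _ hi, pow_succ, mul_dvd_mul_iff_left hi]

theorem ram_one_one {M : O} (ψ : Chr M) {a p : O} (hp : Prime p) (h : PO p) (ha : p ∣ a)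
    (ha0 : a ≠ 0) :
    cf ψ a p p = if vp p a = 1 then ev ψ p else -((nr p : ℂ) - 1) * ev ψ p := by
  classical
  have h1 : p ^ 1 ∣ a := by rwa [pow_one]
  have hv := (pow_dvd_iff_le_vp hp ha0).1 h1
  have e := Fc_prime hp h 1 a
  rw [if_pos h1, gs_prime_zero dvd_rfl hp h, dvd_div_iff hp ha0 h1, pow_one, pow_one] at e
  have e1 := th_Gf hp h
  have e2 := Gauss_conj_mul (norm_gam (j := 5) (by norm_num) h hp.squarefree)
  have e3 := Gauss_neg_one h
  have q0 := nr_pos hp.ne_zero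
  have s0 : (Real.sqrt (nr p) : ℂ) ≠ 0 := by exact_mod_cast (Real.sqrt_pos.2 q0).ne'
  have s1 : (nm p : ℂ) ≠ 0 := by exact_mod_cast q0.ne'
  have e4 : ∀ z : ℂ, conj (gs 5 p 1) * (nm p * z) / ((Real.sqrt (nr p) * nr p : ℝ) : ℂ) =
      conj (gam 5 p) * z := fun z => by
    rw [gam, map_div₀, Complex.conj_ofReal]
    push_cast
    field_simp
  have key : ∀ z : ℂ, th p * ev ψ p * Gf p * sym p (-1) * sym p (-1) * (conj (gam 5 p) * z) =
      -z * ev ψ p := fun z => by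
    linear_combination (ev ψ p * sym p (-1) ^ 2 * conj (gam 5 p) * z) * e1 -
      (ev ψ p * sym p (-1) ^ 2 * z) * e2 - (ev ψ p * z) * e3
  rw [cf, e, Rs_self h, mul_div_assoc, e4, key]
  split_ifs with c1 c2 c2
  · omega
  · simp
  · simp
  · omega

theorem norm_cf {M : O} (hM : Adm M) (ψ : Chr M) {a p : O} (hp : Prime p) (h : PO p) (i j : ℕ)
    {c : ℝ} (hF : ‖Fc (p ^ i) (p ^ j) a‖ ≤ nr p ^ c) :
    ‖cf ψ a (p ^ i) (p ^ j)‖ ≤ nr p ^ (((i / 3 : ℕ) : ℝ) / 2 + c - (i / 2 + j)) := by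
  have q0 := nr_pos hp.ne_zero
  have r : ‖Rs (p ^ i) (p ^ j)‖ = 1 := by
    rcases sq_eq_one_iff.1 (Rs_sq (po_pow h i).2 (po_pow h j).2) with e | e <;> rw [e] <;> simp
  have e : Real.sqrt (nr (p ^ i)) * nr (p ^ j) = nr p ^ ((i : ℝ) / 2 + j) := by
    rw [nr_pow, nr_pow, Real.sqrt_eq_rpow, ← Real.rpow_natCast, ← Real.rpow_natCast,
      ← Real.rpow_mul q0.le, Real.rpow_add q0, mul_one_div]
  rw [cf, norm_div, e, Complex.norm_real, Real.norm_of_nonneg (by positivity), Real.rpow_sub q0,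
    Real.rpow_add q0 _ c]
  simp only [norm_mul, r, norm_Gf (po_pow h i), mul_one]
  gcongr ?_ * ?_ / _
  calc _ ≤ nr p ^ (((i / 3 : ℕ) : ℝ) / 2) * 1 * 1 := by
        gcongr
        · exact norm_th hp h.1 i
        · exact norm_ev_le hM.1 ψ _
        · exact norm_sym_le _ _
    _ = _ := by ring

theorem norm_gs_le {j : ℕ} (hj : ¬ 6 ∣ j) {p : O} (hp : Prime p) (h : PO p) (k : O) :
    ‖gs j p k‖ ≤ nr p ^ (1 / 2 : ℝ) := by
  rw [gs_sqfree hj h hp.squarefree, norm_mul, Gauss_norm_gs hj h hp.squarefree, Complex.norm_conj,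
    norm_pow, Real.sqrt_eq_rpow]
  exact mul_le_of_le_one_left (by positivity) (pow_le_one₀ (norm_nonneg _) (norm_sym_le _ _))

theorem gs_dvd {j : ℕ} (hj : ¬ 6 ∣ j) {p k : O} (hp : Prime p) (h : PO p) (hk : p ∣ k) :
    gs j p k = 0 := by
  rw [gs_sqfree hj h hp.squarefree, sym_dvd hp h.1 hk, zero_pow (by omega), map_zero, zero_mul]

theorem norm_nm_pow (p : O) (i : ℕ) : ‖(nm p : ℂ) ^ i‖ = nr p ^ (i : ℝ) := by
  rw [norm_pow, Complex.norm_natCast, Real.rpow_natCast]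

theorem norm_sub_one {p : O} (hp : p ≠ 0) : ‖(nm p : ℂ) - 1‖ ≤ nr p := by
  have := one_le_nr hp
  rw [show (nm p : ℂ) - 1 = ((nr p - 1 : ℝ) : ℂ) by push_cast; rfl, Complex.norm_real,
    Real.norm_of_nonneg (by linarith)]
  linarith

theorem ram_zero_le {M : O} (hM : Adm M) (ψ : Chr M) {a p : O} (hp : Prime p) (h : PO p)
    (ha0 : a ≠ 0) {i : ℕ} (hi : 1 ≤ i) :
    ‖cf ψ a (p ^ i) 1‖ ≤
      if 6 ∣ i then
        (if i ≤ vp p a then nr p ^ (2 * i / 3 : ℝ) else
          if i = vp p a + 1 then nr p ^ (2 * i / 3 - 1 : ℝ) else 0)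
      else if i = vp p a + 1 then nr p ^ ((((i / 3 : ℕ) : ℝ) + i - 1) / 2) else 0 := by
  classical
  obtain ⟨i, rfl⟩ : ∃ k, i = k + 1 := ⟨i - 1, by omega⟩
  have q0 := nr_pos hp.ne_zero
  have e := Fc_one_right (h.1.pow (i + 1)) a
  rw [Gauss_gs_pow 1 i h, one_mul] at e
  have key := fun c => norm_cf (a := a) (c := c) hM ψ hp h (i + 1) 0
  rw [pow_zero] at key
  by_cases hd : p ^ i ∣ a
  swap
  · rw [if_neg hd] at e
    rw [pow_dvd_iff_le_vp hp ha0] at hd
    rw [cf_eq_zero ψ e, norm_zero]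
    positivity
  rw [if_pos hd] at e
  have hv := (pow_dvd_iff_le_vp hp ha0).1 hd
  have hq := dvd_div_iff hp ha0 hd
  by_cases h6 : 6 ∣ i + 1
  · have c3 : (((i + 1) / 3 : ℕ) : ℝ) = ((i + 1 : ℕ) : ℝ) / 3 := by
      rw [Nat.cast_div (by omega) (by norm_num), Nat.cast_ofNat]
    rw [gs_prime_zero h6 hp h, hq] at e
    rw [if_pos h6]
    split_ifs with c1 c2
    · refine (key (i + 1) ?_).trans_eq ?_
      · rw [e, if_pos c1, norm_mul, norm_nm_pow, Real.rpow_add q0, Real.rpow_one]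
        gcongr
        exact norm_sub_one hp.ne_zero
      · rw [c3]; congr 1; push_cast; ring
    · refine (key i ?_).trans_eq ?_
      · rw [e, if_neg c1, norm_mul, norm_nm_pow]
        simp
      · rw [c3]; congr 1; push_cast; ring
    · omega
  · rw [if_neg h6]
    split_ifs with c1
    · refine (key (i + 1 / 2) ?_).trans_eq ?_
      · rw [e, norm_mul, norm_nm_pow, Real.rpow_add q0]
        gcongr
        exact norm_gs_le h6 hp h _
      · congr 1; push_cast; ring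
    · rw [gs_dvd h6 hp h (hq.2 (by omega)), mul_zero] at e
      rw [cf_eq_zero ψ e, norm_zero]

theorem ram_one_le {M : O} (hM : Adm M) (ψ : Chr M) {a p : O} (hp : Prime p) (h : PO p)
    (ha0 : a ≠ 0) (i : ℕ) :
    ‖cf ψ a (p ^ i) p‖ ≤
      if i = vp p a then nr p ^ ((((i / 3 : ℕ) : ℝ) + i) / 2) else
        if i % 6 = 1 ∧ i < vp p a then nr p ^ ((((i / 3 : ℕ) : ℝ) + i + 1) / 2) else 0 := by
  classical
  have q1 := one_le_nr hp.ne_zero
  have q0 := nr_pos hp.ne_zero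
  have e := Fc_prime hp h i a
  have key := fun c => norm_cf (a := a) (c := c) hM ψ hp h i 1
  rw [pow_one] at key
  by_cases hd : p ^ i ∣ a
  swap
  · rw [if_neg hd, mul_zero] at e
    rw [cf_eq_zero ψ e, norm_zero]
    positivity
  rw [if_pos hd] at e
  have hv := (pow_dvd_iff_le_vp hp ha0).1 hd
  have hq := dvd_div_iff hp ha0 hd
  have b : ∀ c : ℝ, ‖gs (i + 5) p (a / p ^ i)‖ ≤ nr p ^ c →
      ‖Fc (p ^ i) p a‖ ≤ nr p ^ (1 / 2 + (i + c)) := fun c hc => by
    rw [e, norm_mul, norm_mul, norm_nm_pow, Real.rpow_add q0, Real.rpow_add q0, Complex.norm_conj]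
    gcongr
    exact norm_gs_le (by norm_num) hp h _
  split_ifs with c1 c2
  · refine (key _ (b (1 / 2) ?_)).trans_eq (by congr 1; push_cast; ring)
    by_cases h6 : 6 ∣ i + 5
    · rw [gs_prime_zero h6 hp h, hq, if_neg (by omega), zero_sub, norm_neg, norm_one]
      exact Real.one_le_rpow q1 (by norm_num)
    · exact norm_gs_le h6 hp h _
  · refine (key _ (b 1 ?_)).trans_eq (by congr 1; push_cast; ring)
    rw [gs_prime_zero (by omega) hp h, hq, if_pos (by omega), Real.rpow_one]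
    exact norm_sub_one hp.ne_zero
  · rw [gs_dvd (by omega) hp h (hq.2 (by omega)), mul_zero, mul_zero] at e
    rw [cf_eq_zero ψ e, norm_zero]

end Crest.Agent.R17.PB2
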