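import Crest.Agent.R17.LZero
import Crest.Agent.R17.Rows
import Crest.Agent.R17.PDefsAuxB2

/-!
# Row 17, module M15: the probe (definitions, arithmetic of the coefficients)

Parameters: `A = B^{13/16}` (rows), `X = B^{23/48}` (plain sum), `K₀` prime slots of total length
`B^{1/6}`; the dual length is `K = B · B^{1/6} · X / A = B^{5/6}`.  Heuristically
`Ia a = Mob ψ a B · ∏ slot_i(a) · conj (Pln 1 a X) · gw(N a/A)`; the coefficients `cf` are defined in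
such a way that the dual side of `∑_a xiR(a) Ia(a)` is exactly a completed theta sum times a Gauss
sum average.
-/

set_option autoImplicit false

noncomputable section

namespace Crest.Agent.R17

open scoped ComplexConjugate

open Classical in
/-- Indicator of the rows: primary and coprime to `M`. -/
def xiR (M a : O) : ℂ := if Primary a ∧ IsCoprime a M then 1 else 0

open Classical in
/-- The coefficient of the pair `(n, x)` in the row `a`; for `n` squarefree and `n, x, a` pairwise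
coprime it is `μ(n) ψ(n) conj χ_n(a) χ_x(a)`. -/
def cf {M : O} (ψ : Chr M) (a n x : O) : ℂ :=
  if Primary x ∧ IsCoprime x M then
    th n * ev ψ n * Gf n * sym n (-1) * Rs n x *
      ft (n * x) (fun k => sym n k * conj (gs 5 x k)) a / ((Real.sqrt (nr n) * nr x : ℝ) : ℂ)
  else 0

def Apar (B : ℝ) : ℝ := B ^ (13 / 16 : ℝ)
def Xpar (B : ℝ) : ℝ := B ^ (23 / 48 : ℝ)

/-- The test function of the row `a`. -/
def Phi (B : ℝ) (a : O) (m y : ℝ) : ℂ :=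
  Wc (m / B) 0 * (gw (nr a * B / (Apar B * m)) : ℂ) * Wc (y / Xpar B) 0

open Classical in
/-- The row sum with mark `z` and compensation `π`. -/
def Irow {M : O} (ψ : Chr M) (B : ℝ) (a z π : O) : ℂ :=
  ∑' v : O × O, if z ∣ v.1 then cf ψ a v.1 v.2 * Phi B a (nr v.1 / nr z) (nr v.2 * nr π) else 0

/-- Half-width (exponent) of the slot windows. -/
def kapS (K₀ : ℕ) : ℝ := 1 / (24 * (K₀ : ℝ) ^ 2)
/-- Exponent of the centre of slot `i`; `∑_{i < K₀} ell K₀ i = 1/6`,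
`1/(8K₀) ≤ ell - kapS`, `ell + kapS ≤ 5/(24 K₀)`. -/
def ell (K₀ : ℕ) (i : ℕ) : ℝ := 1 / (6 * (K₀ : ℝ)) + kapS K₀ * (2 * i + 1 - K₀)
/-- Centre of slot `i`. -/
def Pw (K₀ : ℕ) (B : ℝ) (i : ℕ) : ℝ := B ^ ell K₀ i

open Classical in
/-- The primes of slot `i`. -/
def Pset (M : O) (K₀ : ℕ) (B : ℝ) (i : ℕ) : Finset O :=
  (ball ⌊B ^ (ell K₀ i + kapS K₀)⌋₊).filter
    (fun p => Prime p ∧ Primary p ∧ ¬ p ∣ M ∧ B ^ (ell K₀ i - kapS K₀) < nr p)

/-- The weight of a prime in slot `i`. -/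
def cw (K₀ : ℕ) (B : ℝ) (i : ℕ) (p : O) : ℂ := Wc (nr p / Pw K₀ B i) 0

/-- The slot sum of the row `a`. -/
def slt (M : O) (K₀ : ℕ) (B : ℝ) (i : ℕ) (a : O) : ℂ := slot (Pset M K₀ B i) (cw K₀ B i) a

/-- The contribution of the row `a`; `J` is the set of compensated slots. -/
def Ia {M : O} (ψ : Chr M) (K₀ : ℕ) (B : ℝ) (a : O) : ℂ :=
  ∑ p ∈ Fintype.piFinset (fun i : Fin K₀ => Pset M K₀ B i), ∑ J : Finset (Fin K₀),
    (∏ i : Fin K₀, cw K₀ B i (p i)) * (∏ i ∈ Jᶜ, -conj (ev ψ (p i))) *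
      Irow ψ B a (∏ i ∈ Jᶜ, p i) (∏ i ∈ J, p i)

/-- The total mass of the slots. -/
def Pt (M : O) (K₀ : ℕ) (B : ℝ) : ℂ := ∏ i : Fin K₀, ∑ p ∈ Pset M K₀ B i, cw K₀ B i p

/-- The common size `A^{1/6} X B^{1/6}` of all the terms. -/
def NrmB (B : ℝ) : ℝ := Apar B ^ (1 / 6 : ℝ) * Xpar B * B ^ (1 / 6 : ℝ)

open Classical in
/-- Sixth-power free rows `r ≠ 1`. -/
def RS (M : O) (A : ℝ) : Finset O :=
  (rows A).filter (fun r => Primary r ∧ IsCoprime r M ∧ r ≠ 1 ∧ ∀ p ∈ pf r, vp p r < 6)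

/-! ## A. slots -/

theorem PA.kap_nonneg (K₀ : ℕ) : 0 ≤ kapS K₀ := by unfold kapS; positivity

theorem PA.kap_pos {K₀ : ℕ} (h : 1 ≤ K₀) : 0 < kapS K₀ := by
  have : (0 : ℝ) < K₀ := by exact_mod_cast h
  unfold kapS; positivity

theorem PA.sum_odd (K : ℕ) : ∑ i ∈ Finset.range K, (2 * (i : ℝ) + 1) = (K : ℝ) ^ 2 := by
  induction K with
  | zero => simp
  | succ k ih => rw [Finset.sum_range_succ, ih]; push_cast; ring

theorem sum_ell {K₀ : ℕ} (h : 1 ≤ K₀) : ∑ i : Fin K₀, ell K₀ i = 1 / 6 := by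
  have hK : (0 : ℝ) < K₀ := by exact_mod_cast h
  rw [Fin.sum_univ_eq_sum_range (fun i => ell K₀ i) K₀]
  unfold ell
  rw [Finset.sum_add_distrib, ← Finset.mul_sum, Finset.sum_sub_distrib, PA.sum_odd]
  simp only [Finset.sum_const, Finset.card_range, nsmul_eq_mul]
  field_simp
  ring
theorem ell_bounds {K₀ i : ℕ} (h : i < K₀) :
    1 / (8 * (K₀ : ℝ)) ≤ ell K₀ i - kapS K₀ ∧ ell K₀ i + kapS K₀ ≤ 5 / (24 * (K₀ : ℝ)) := by
  have hi : (i : ℝ) + 1 ≤ K₀ := by exact_mod_cast h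
  have hi0 : (0 : ℝ) ≤ i := Nat.cast_nonneg i
  have hK : (0 : ℝ) < K₀ := by linarith
  have hk := PA.kap_nonneg K₀
  have e1 : 1 / (8 * (K₀ : ℝ)) = 1 / (6 * (K₀ : ℝ)) - kapS K₀ * K₀ := by
    unfold kapS; field_simp; ring
  have e2 : 5 / (24 * (K₀ : ℝ)) = 1 / (6 * (K₀ : ℝ)) + kapS K₀ * K₀ := by
    unfold kapS; field_simp; ring
  rw [e1, e2]
  unfold ell
  constructor
  · nlinarith [mul_nonneg hk hi0]
  · nlinarith [mul_nonneg hk (sub_nonneg.2 hi)]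
theorem prod_Pw {K₀ : ℕ} (h : 1 ≤ K₀) {B : ℝ} (hB : 0 < B) :
    ∏ i : Fin K₀, Pw K₀ B i = B ^ (1 / 6 : ℝ) := by
  rw [← sum_ell h, Real.rpow_sum_of_pos hB]
  rfl
theorem mem_Pset {M p : O} {K₀ i : ℕ} {B : ℝ} (hB : 0 < B) : p ∈ Pset M K₀ B i ↔
    Prime p ∧ Primary p ∧ ¬ p ∣ M ∧ B ^ (ell K₀ i - kapS K₀) < nr p ∧
      nr p ≤ B ^ (ell K₀ i + kapS K₀) := by
  classical
  rw [Pset, Finset.mem_filter, mem_ball, Nat.le_floor_iff (by positivity)]
  tauto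

theorem PA.ell_step (K₀ : ℕ) {i j : ℕ} (h : i < j) : ell K₀ i + kapS K₀ ≤ ell K₀ j - kapS K₀ := by
  have hi : (i : ℝ) + 1 ≤ j := by exact_mod_cast h
  unfold ell
  nlinarith [mul_nonneg (PA.kap_nonneg K₀) (sub_nonneg.2 hi)]

theorem disjoint_Pset (M : O) (K₀ : ℕ) {B : ℝ} (hB : 1 ≤ B) {i j : ℕ} (h : i ≠ j) :
    Disjoint (Pset M K₀ B i) (Pset M K₀ B j) := by
  have hB0 : 0 < B := one_pos.trans_le hB
  wlog hij : i < j generalizing i j
  · exact (this h.symm (by omega)).symm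
  rw [Finset.disjoint_left]
  intro p h1 h2
  rw [mem_Pset hB0] at h1 h2
  have := Real.rpow_le_rpow_of_exponent_le hB (PA.ell_step K₀ hij)
  linarith [h1.2.2.2.2, h2.2.2.2.1]
theorem norm_cw_le (K₀ : ℕ) (B : ℝ) (i : ℕ) (p : O) : ‖cw K₀ B i p‖ ≤ 1 := by
  simpa [cw] using norm_Wc_le (nr p / Pw K₀ B i) 0

theorem PA.Pw_pos (K₀ : ℕ) {B : ℝ} (hB : 0 < B) (i : ℕ) : 0 < Pw K₀ B i := by
  unfold Pw; positivity

theorem PA.one_le_Pw {K₀ i : ℕ} (h : i < K₀) {B : ℝ} (hB : 1 ≤ B) : 1 ≤ Pw K₀ B i := by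
  refine Real.one_le_rpow hB ?_
  have h1 := (ell_bounds h).1
  have h2 := PA.kap_nonneg K₀
  have h3 : 0 ≤ 1 / (8 * (K₀ : ℝ)) := by positivity
  linarith

theorem PA.Pw_le {K₀ i : ℕ} (h : i < K₀) {B : ℝ} (hB : 1 ≤ B) : Pw K₀ B i ≤ B := by
  refine Real.rpow_le_self_of_one_le hB ?_
  have h1 := (ell_bounds h).2
  have h2 := PA.kap_nonneg K₀
  have hK : (1 : ℝ) ≤ K₀ := by exact_mod_cast (show 1 ≤ K₀ by omega)
  have h3 : 5 / (24 * (K₀ : ℝ)) ≤ 1 := by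
    rw [div_le_one (by positivity)]; linarith
  linarith

theorem PA.norm_Wc_mul {y P : ℝ} (hy : 0 < y) (hP : 0 < P) (σ : ℝ) :
    ‖Wc (y / P) 0‖ * y ^ σ = ‖Wc (y / P) σ‖ * P ^ σ := by
  rw [norm_Wc, norm_Wc, Real.rpow_def_of_pos hy, Real.rpow_def_of_pos hP, ← Real.exp_add,
    ← Real.exp_add, Real.log_div hy.ne' hP.ne']
  congr 1
  simp only [Complex.zero_re, Complex.ofReal_re]
  ring

open Classical in
/-- the indicator of the non-zero elements -/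
def PA.ind (n : O) : ℂ := if n = 0 then 0 else 1

theorem PA.polyB_ind : PolyB PA.ind 1 0 := by
  refine ⟨by simp [PA.ind], fun n => ?_⟩
  unfold PA.ind
  split_ifs <;> simp

theorem PA.ind_mul {n : O} (hn : n ≠ 0) (z : ℂ) : PA.ind n * z = z := by simp [PA.ind, hn]

/-- `∑_p |cw p| N p^{σ} ≪ P^{1+σ}` and `|cw p| N p^σ ≪ P^σ`. -/
theorem sum_cw_le (b : ℝ) : ∃ C : ℝ, 0 < C ∧ ∀ (M : O) (K₀ i : ℕ) (B σ : ℝ), 0 < B → |σ| ≤ b →
    ∑ p ∈ Pset M K₀ B i, ‖cw K₀ B i p‖ * nr p ^ σ ≤ C * Pw K₀ B i ^ (1 + σ) ∧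
    ∀ p : O, p ≠ 0 → ‖cw K₀ B i p‖ * nr p ^ σ ≤ C * Pw K₀ B i ^ σ := by
  obtain ⟨C, hC, h⟩ := tsum_norm_Sm_le 0 0 b le_rfl
  refine ⟨C + Real.exp (b ^ 2 / 4), by positivity, fun M K₀ i B σ hB hσ => ⟨?_, fun p hp => ?_⟩⟩
  · have hP := PA.Pw_pos K₀ hB i
    have h1 := h PA.ind 1 _ (σ : ℂ) PA.polyB_ind hP (by simpa using hσ)
    have h2 : ∑ p ∈ Pset M K₀ B i, ‖cw K₀ B i p‖ * nr p ^ σ =
        (∑ p ∈ Pset M K₀ B i, ‖PA.ind p * Wc (nr p / Pw K₀ B i) σ‖) * Pw K₀ B i ^ σ := by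
      rw [Finset.sum_mul]
      refine Finset.sum_congr rfl fun p hp => ?_
      have hp0 := ((mem_Pset hB).1 hp).1.ne_zero
      rw [PA.ind_mul hp0, cw, PA.norm_Wc_mul (nr_pos hp0) hP]
    have h3 := ((summable_Sm PA.polyB_ind hP (σ : ℂ)).sum_le_tsum (Pset M K₀ B i)
      fun _ _ => norm_nonneg _).trans (h1.trans
        (mul_le_mul_of_nonneg_left (min_le_left _ _) (by positivity)))
    rw [zero_add, Real.rpow_one, mul_one] at h3
    rw [h2, Real.rpow_add hP, Real.rpow_one]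
    calc _ ≤ C * Pw K₀ B i * Pw K₀ B i ^ σ := by gcongr
      _ = C * (Pw K₀ B i * Pw K₀ B i ^ σ) := by ring
      _ ≤ _ := by gcongr; linarith [Real.exp_pos (b ^ 2 / 4)]
  · have hP := PA.Pw_pos K₀ hB i
    rw [cw, PA.norm_Wc_mul (nr_pos hp) hP]
    gcongr
    refine (norm_Wc_le _ _).trans ?_
    have : σ ^ 2 ≤ b ^ 2 := sq_le_sq' (by linarith [(abs_le.1 hσ).1]) (abs_le.1 hσ).2
    have h2 : Real.exp ((σ : ℂ).re ^ 2 / 4) ≤ Real.exp (b ^ 2 / 4) := by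
      rw [Complex.ofReal_re]; gcongr
    linarith
/-- The primes far from the centre are negligible. -/
theorem sum_cw_tail {ε : ℝ} (hε : 0 < ε) (J : ℝ) : ∃ C : ℝ, 0 < C ∧
    ∀ (K₀ i : ℕ) (B : ℝ) (S : Finset O), 1 ≤ B → i < K₀ →
      (∀ p ∈ S, p ≠ 0 ∧ (nr p ≤ Pw K₀ B i * B ^ (-ε) ∨ Pw K₀ B i * B ^ ε ≤ nr p)) →
      ∑ p ∈ S, ‖cw K₀ B i p‖ ≤ C * B ^ (-J) := by
  obtain ⟨C, hC, h⟩ := WeightB.term_le ((|J| + 1) / ε) 0 0 (by positivity)
  obtain ⟨C', hC', h'⟩ := WeightB.tsum_g_le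
  refine ⟨C * C', by positivity, fun K₀ i B S hB hi hS => ?_⟩
  have hB0 : 0 < B := one_pos.trans_le hB
  have hP := PA.Pw_pos K₀ hB0 i
  have e : (B ^ ε) ^ (-((|J| + 1) / ε)) = B ^ (-(|J| + 1)) := by
    rw [← Real.rpow_mul hB0.le]; congr 1; field_simp
  have h1 : ∀ p ∈ S, ‖cw K₀ B i p‖ ≤ C * B ^ (-(|J| + 1)) * WeightB.g (Pw K₀ B i) p := by
    intro p hp
    obtain ⟨hp0, hp1⟩ := hS p hp
    have := h PA.ind 1 (Pw K₀ B i) (B ^ ε) 0 PA.polyB_ind hP (Real.one_le_rpow hB hε.le)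
      (by simp) p fun _ => by
        rcases hp1 with h2 | h2
        · right
          rw [div_le_iff₀ hP, ← Real.rpow_neg hB0.le, mul_comm]
          exact h2
        · left
          rw [le_div_iff₀ hP, mul_comm]
          exact h2
    rwa [PA.ind_mul hp0, e, Real.rpow_zero, mul_one, mul_one] at this
  refine (Finset.sum_le_sum h1).trans ?_
  rw [← Finset.mul_sum]
  have h2 := ((WeightB.summable_g hP).sum_le_tsum S fun n _ => WeightB.g_nonneg hP n).trans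
    ((h' _ hP).trans (mul_le_mul_of_nonneg_left (PA.Pw_le hi hB) hC'.le))
  have h3 : B ^ (-(|J| + 1)) * B ≤ B ^ (-J) := by
    rw [← Real.rpow_add_one hB0.ne']
    exact Real.rpow_le_rpow_of_exponent_le hB (by linarith [le_abs_self J])
  calc _ ≤ C * B ^ (-(|J| + 1)) * (C' * B) := by gcongr
    _ = C * C' * (B ^ (-(|J| + 1)) * B) := by ring
    _ ≤ _ := by gcongr

theorem PA.Wc_zero (y : ℝ) : Wc y 0 = ((Real.exp (-(Real.log y) ^ 2) : ℝ) : ℂ) := by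
  simp [Wc]

theorem PA.slot_lower {M : O} {K₀ i : ℕ} {B : ℝ} (hB : 1 ≤ B) (h2 : 2 ≤ B ^ kapS K₀) :
    Real.exp (-1) * (primesIn M (Pw K₀ B i)).card ≤ ‖∑ p ∈ Pset M K₀ B i, cw K₀ B i p‖ := by
  have hB0 : 0 < B := one_pos.trans_le hB
  have hP := PA.Pw_pos K₀ hB0 i
  have hsub : primesIn M (Pw K₀ B i) ⊆ Pset M K₀ B i := by
    intro p hp
    rw [mem_primesIn hP.le] at hp
    obtain ⟨a1, a2, a3, a4, a5⟩ := hp
    refine (mem_Pset hB0).2 ⟨a1, a2, a3, lt_of_le_of_lt ?_ a4, a5.trans ?_⟩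
    · exact Real.rpow_le_rpow_of_exponent_le hB (by linarith [PA.kap_nonneg K₀])
    · rw [Real.rpow_add hB0, mul_comm]
      exact mul_le_mul_of_nonneg_left h2 hP.le
  simp only [cw, PA.Wc_zero]
  rw [← Complex.ofReal_sum, Complex.norm_real, Real.norm_eq_abs,
    abs_of_nonneg (Finset.sum_nonneg fun _ _ => (Real.exp_pos _).le)]
  refine le_trans ?_
    (Finset.sum_le_sum_of_subset_of_nonneg hsub fun _ _ _ => (Real.exp_pos _).le)
  rw [mul_comm, ← nsmul_eq_mul]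
  refine Finset.card_nsmul_le_sum _ _ _ fun p hp => ?_
  rw [mem_primesIn hP.le] at hp
  obtain ⟨-, -, -, a4, a5⟩ := hp
  have b1 : 1 ≤ nr p / Pw K₀ B i := (one_le_div hP).2 a4.le
  have b2 : nr p / Pw K₀ B i ≤ 2 := (div_le_iff₀ hP).2 a5
  have b3 := Real.log_nonneg b1
  have b4 := Real.log_le_sub_one_of_pos (one_pos.trans_le b1)
  refine Real.exp_le_exp.2 ?_
  nlinarith

theorem Pt_lower {M : O} (hM : Adm M) {K₀ : ℕ} (h : 1 ≤ K₀) {ε : ℝ} (hε : 0 < ε) :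
    ∃ B₀ : ℝ, ∀ B ≥ B₀, B ^ (1 / 6 - ε) ≤ ‖Pt M K₀ B‖ := by
  have hK : (0 : ℝ) < K₀ := by exact_mod_cast h
  obtain ⟨P₀, hP₀⟩ := card_primesIn_ge hM.1 (show 0 < 3 * ε by positivity)
  obtain ⟨P₁, hP₁⟩ := detector_const (C := Real.exp 1) (show 0 < 3 * ε by positivity)
  obtain ⟨B₁, hB₁⟩ := detector_const (C := max P₀ P₁) (show 0 < 1 / (8 * (K₀ : ℝ)) by positivity)
  obtain ⟨B₂, hB₂⟩ := detector_const (C := 2) (PA.kap_pos h)
  refine ⟨max 1 (max B₁ B₂), fun B hB => ?_⟩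
  simp only [ge_iff_le, max_le_iff] at hB
  obtain ⟨hB, hB1, hB2⟩ := hB
  have hB0 : 0 < B := one_pos.trans_le hB
  have key : ∀ i : Fin K₀, Pw K₀ B i ^ (1 - 6 * ε) ≤ ‖∑ p ∈ Pset M K₀ B i, cw K₀ B i p‖ := by
    intro i
    have hP := PA.Pw_pos K₀ hB0 i
    have h1 : max P₀ P₁ ≤ Pw K₀ B i := (hB₁ B hB1).trans
      (Real.rpow_le_rpow_of_exponent_le hB (by linarith [(ell_bounds i.2).1, PA.kap_nonneg K₀]))
    rw [max_le_iff] at h1
    refine le_trans ?_ (PA.slot_lower hB (hB₂ B hB2))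
    refine le_trans ?_ (mul_le_mul_of_nonneg_left (hP₀ _ h1.1) (Real.exp_pos _).le)
    rw [Real.exp_neg, le_inv_mul_iff₀ (Real.exp_pos _),
      show 1 - 3 * ε = 3 * ε + (1 - 6 * ε) by ring, Real.rpow_add hP]
    exact mul_le_mul_of_nonneg_right (hP₁ _ h1.2) (by positivity)
  rw [Pt, norm_prod]
  refine le_trans (le_of_eq ?_) (Finset.prod_le_prod
    (fun i _ => (Real.rpow_pos_of_pos (PA.Pw_pos K₀ hB0 i) _).le) fun i _ => key i)
  rw [Real.finsetProd_rpow Finset.univ (fun i : Fin K₀ => Pw K₀ B i)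
    fun i _ => (PA.Pw_pos K₀ hB0 i).le, prod_Pw h hB0, ← Real.rpow_mul hB0.le]
  congr 1
  ring

theorem PA.ev_one_chr {M n : O} (h : IsCoprime n M) : ev (1 : Chr M) n = 1 :=
  MulChar.one_apply (isUnit_mk_iff.2 h)

/-- Class bound for a slot (`Prm_class` for the trivial character and `sum_cw_tail`). -/
theorem slt_class {M : O} (hM : Adm M) {K₀ : ℕ} {ε : ℝ} (hε : 0 < ε) : ∃ C : ℝ, 0 < C ∧
    ∀ (B σ T : ℝ) (i : ℕ) (a : O), 1 ≤ B → i < K₀ → ¬ Exc M a → nr a ≤ B → 1 / 2 ≤ σ → σ ≤ 1 →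
      ZF M a σ T → Real.log B + 3 ≤ T → ‖slt M K₀ B i a‖ ≤ C * B ^ ε * Pw K₀ B i ^ σ := by
  classical
  rcases Nat.eq_zero_or_pos K₀ with rfl | hK
  · exact ⟨1, one_pos, fun _ _ _ _ _ _ h => absurd h (Nat.not_lt_zero _)⟩
  obtain ⟨C, hC, h⟩ := Prm_class hM hε
  obtain ⟨C', hC', h'⟩ := sum_cw_tail (PA.kap_pos hK) 0
  refine ⟨C + C', by positivity, fun B σ T i a hB hi ha haB hσ hσ1 hZ hT => ?_⟩
  have hB0 : 0 < B := one_pos.trans_le hB
  have hP := PA.Pw_pos K₀ hB0 i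
  have h1 := h B (Pw K₀ B i) 0 σ T 1 a hB ha haB hσ hσ1 hZ (by simpa using hT)
    (by simpa using hB0.le) hP (PA.Pw_le hi hB)
  rw [Complex.ofReal_zero, zero_mul] at h1
  set f : O → ℂ := fun p => if Prime p then rc (1 : Chr M) a p * Wc (nr p / Pw K₀ B i) 0 else 0
    with hf
  have hfn : Summable fun p => ‖f p‖ := by
    refine Summable.of_nonneg_of_le (fun _ => norm_nonneg _) (fun p => ?_)
      (summable_Sm (polyB_rc hM (1 : Chr M) a) hP 0)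
    simp only [hf]
    split_ifs
    · exact le_rfl
    · rw [norm_zero]; exact norm_nonneg _
  have hfs : Summable f := hfn.of_norm
  have e1 : ∑ p ∈ Pset M K₀ B i, f p = slt M K₀ B i a := by
    refine Finset.sum_congr rfl fun p hp => ?_
    obtain ⟨a1, a2, a3, -⟩ := (mem_Pset hB0).1 hp
    simp only [hf, if_pos a1, rc, if_pos a2,
      PA.ev_one_chr (a1.irreducible.coprime_iff_not_dvd.2 a3), cw]
    ring
  have e2 : slt M K₀ B i a = Prm (1 : Chr M) a (Pw K₀ B i) 0 -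
      ∑' p : ↑((Pset M K₀ B i : Set O)ᶜ), f p := by
    rw [← e1, eq_sub_iff_add_eq]
    exact hfs.sum_add_tsum_compl
  have h2 : ‖∑' p : ↑((Pset M K₀ B i : Set O)ᶜ), f p‖ ≤ C' := by
    refine (norm_tsum_le_tsum_norm (hfn.subtype _)).trans ?_
    refine (hfn.subtype _).tsum_le_of_sum_le fun S => ?_
    have h3 := h' K₀ i B ((S.map (Function.Embedding.subtype _)).filter fun p => f p ≠ 0) hB hi
      fun p hp => by
        rw [Finset.mem_filter, Finset.mem_map] at hp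
        obtain ⟨⟨⟨q, hq⟩, -, rfl⟩, hp⟩ := hp
        simp only [Function.Embedding.subtype_apply] at hp ⊢
        have a1 : Prime q := by
          by_contra hc
          exact hp (by simp only [hf, if_neg hc])
        have a2 : Primary q := by
          by_contra hc
          exact hp (by simp only [hf, rc, if_neg hc, zero_mul, ite_self])
        have a3 : ¬ q ∣ M := by
          intro hc
          refine hp ?_
          simp only [hf, rc, ev_eq_zero (1 : Chr M)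
            (fun hco => a1.irreducible.coprime_iff_not_dvd.1 hco hc), zero_mul, ite_self]
        refine ⟨a1.ne_zero, ?_⟩
        by_contra hc
        rw [not_or, not_le, not_le, Pw, ← Real.rpow_add hB0, ← Real.rpow_add hB0] at hc
        exact hq ((mem_Pset hB0).2 ⟨a1, a2, a3, by simpa only [sub_eq_add_neg] using hc.1, hc.2.le⟩)
    rw [neg_zero, Real.rpow_zero, mul_one] at h3
    refine le_trans ?_ h3
    rw [Finset.sum_filter, Finset.sum_map]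
    refine Finset.sum_le_sum fun p _ => ?_
    simp only [Function.Embedding.subtype_apply, Function.comp]
    split_ifs with hp
    · simp only [hf]
      split_ifs
      · rw [norm_mul, cw]
        exact mul_le_of_le_one_left (norm_nonneg _) (norm_rc_le hM _ _ _)
      · simp
    · rw [not_not.1 hp, norm_zero]
  have h4 : 1 ≤ B ^ ε * Pw K₀ B i ^ σ :=
    one_le_mul_of_one_le_of_one_le (Real.one_le_rpow hB hε.le)
      (Real.one_le_rpow (PA.one_le_Pw hi hB) (by linarith))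
  rw [e2]
  refine (norm_sub_le _ _).trans ?_
  calc _ ≤ C * B ^ ε * Pw K₀ B i ^ σ + C' * 1 := by rw [mul_one]; exact add_le_add h1 h2
    _ ≤ C * B ^ ε * Pw K₀ B i ^ σ + C' * (B ^ ε * Pw K₀ B i ^ σ) := by gcongr
    _ = _ := by ring

theorem PA.prod_slot {M : O} {κ : Type} (Z : κ → ℝ) (Ps : κ → Finset O) (c : κ → O → ℂ)
    (hc : ∀ i p, ‖c i p‖ ≤ 1) (I : Finset κ)
    (h : ∀ i ∈ I, ∀ p ∈ Ps i, Prime p ∧ Primary p ∧ ¬ p ∣ M ∧ nr p ≤ Z i)
    (hd : (I : Set κ).PairwiseDisjoint Ps) :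
    ∃ (Zs : Finset O) (c' : O → ℂ), (∀ z ∈ Zs, (SP M z ∧ nr z ≤ ∏ i ∈ I, Z i) ∧
      ∀ p, Prime p → Primary p → p ∣ z → ∃ i ∈ I, p ∈ Ps i) ∧
      (∀ z, ‖c' z‖ ≤ 1) ∧ ∀ a, ∏ i ∈ I, slot (Ps i) (c i) a = slot Zs c' a := by
  classical
  induction I using Finset.induction_on with
  | empty =>
    refine ⟨{1}, fun _ => 1, fun z hz => ?_, fun _ => by simp, fun a => by simp [slot]⟩
    rw [Finset.mem_singleton.1 hz]
    exact ⟨⟨⟨primary_one, squarefree_one, isCoprime_one_left⟩, by simp [nr]⟩,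
      fun p hp _ h1 => absurd h1 hp.not_dvd_one⟩
  | insert j I hj ih =>
    obtain ⟨Zs, c', h1, h2, h3⟩ := ih (fun i hi => h i (Finset.mem_insert_of_mem hi))
      (hd.subset (by simp))
    have hj' := h j (Finset.mem_insert_self _ _)
    have hnd : ∀ p ∈ Ps j, ∀ z ∈ Zs, ¬ p ∣ z := by
      intro p hp z hz hpz
      obtain ⟨i, hi, hpi⟩ := (h1 z hz).2 p (hj' p hp).1 (hj' p hp).2.1 hpz
      have hne : j ≠ i := fun e => hj (e ▸ hi)
      exact Finset.disjoint_left.1 (hd (by simp) (by simp [hi]) hne) hp hpi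
    set F : O × O → O := fun v => v.1 * v.2 with hF
    have hinj : Set.InjOn F ↑(Ps j ×ˢ Zs) := by
      rintro ⟨p, z⟩ hv ⟨q, w⟩ hw e
      rw [Finset.mem_coe, Finset.mem_product] at hv hw
      simp only [hF] at e hv hw
      have hp := hj' p hv.1
      have hq := hj' q hw.1
      have hpq : p = q := by
        rcases hp.1.dvd_or_dvd (e ▸ dvd_mul_right p z : p ∣ q * w) with h4 | h4
        · exact BasicB.eq_of_dvd hp.1 hq.1 hp.2.1 hq.2.1 h4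
        · exact absurd h4 (hnd p hv.1 w hw.2)
      subst hpq
      rw [mul_left_cancel₀ hp.1.ne_zero e]
    refine ⟨(Ps j ×ˢ Zs).image F, fun w => c j (Function.invFunOn F ↑(Ps j ×ˢ Zs) w).1 *
      c' (Function.invFunOn F ↑(Ps j ×ˢ Zs) w).2, fun w hw => ?_, fun w => ?_, fun a => ?_⟩
    · obtain ⟨⟨p, z⟩, hv, rfl⟩ := Finset.mem_image.1 hw
      rw [Finset.mem_product] at hv
      obtain ⟨a1, a2, a3, a4⟩ := hj' p hv.1
      obtain ⟨⟨⟨b1, b2, b3⟩, b4⟩, b5⟩ := h1 z hv.2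
      simp only [hF] at *
      refine ⟨⟨⟨a2.mul b1, squarefree_mul_iff.2 ⟨?_, a1.squarefree, b2⟩,
        (a1.irreducible.coprime_iff_not_dvd.2 a3).mul_left b3⟩, ?_⟩, fun q q1 q2 q3 => ?_⟩
      · exact (a1.irreducible.coprime_iff_not_dvd.2 (hnd p hv.1 z hv.2)).isRelPrime
      · rw [Finset.prod_insert hj, nr_mul]
        exact mul_le_mul a4 b4 (Nat.cast_nonneg _) ((Nat.cast_nonneg _).trans a4)
      · rcases q1.dvd_or_dvd q3 with h4 | h4
        · exact ⟨j, Finset.mem_insert_self _ _, BasicB.eq_of_dvd q1 a1 q2 a2 h4 ▸ hv.1⟩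
        · obtain ⟨i, hi, hq⟩ := b5 q q1 q2 h4
          exact ⟨i, Finset.mem_insert_of_mem hi, hq⟩
    · rw [norm_mul]
      exact mul_le_one₀ (hc _ _) (norm_nonneg _) (h2 _)
    · rw [Finset.prod_insert hj, h3, slot, slot, slot, Finset.sum_image hinj,
        Finset.sum_mul_sum, Finset.sum_product]
      refine Finset.sum_congr rfl fun p hp => Finset.sum_congr rfl fun z hz => ?_
      have hv : (p, z) ∈ (↑(Ps j ×ˢ Zs) : Set (O × O)) := by
        rw [Finset.mem_coe, Finset.mem_product]; exact ⟨hp, hz⟩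
      rw [hinj.leftInvOn_invFunOn hv]
      simp only [hF]
      rw [sym_mul_left (hj' p hp).1.ne_zero (h1 z hz).1.1.1.ne_zero, map_mul]
      ring

open Classical in
/-- A product of disjoint prime slots is one slot over squarefree products. -/
theorem prod_slot_eq {M : O} (hM : Adm M) {ι : Type} (I : Finset ι) (Z : ι → ℝ) (Ps : ι → Finset O)
    (c : ι → O → ℂ)
    (h : ∀ i ∈ I, ∀ p ∈ Ps i, Prime p ∧ Primary p ∧ ¬ p ∣ M ∧ nr p ≤ Z i)
    (hd : (I : Set ι).PairwiseDisjoint Ps) (hc : ∀ i p, ‖c i p‖ ≤ 1) :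
    ∃ (Zs : Finset O) (c' : O → ℂ), (∀ z ∈ Zs, SP M z ∧ nr z ≤ ∏ i ∈ I, Z i) ∧
      (∀ z, ‖c' z‖ ≤ 1) ∧ ∀ a, ∏ i ∈ I, slot (Ps i) (c i) a = slot Zs c' a := by
  have _ := hM
  obtain ⟨Zs, c', h1, h2, h3⟩ := PA.prod_slot Z Ps c hc I h hd
  exact ⟨Zs, c', fun z hz => (h1 z hz).1, h2, h3⟩

/-! ## B. the coefficients `cf` -/

theorem PB1_th_one : th 1 = 1 := by
  have h := sq1_cu primary_one squarefree_one primary_one
  simp only [one_pow, mul_one] at h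
  rw [th, if_pos ⟨primary_one, h.2.2⟩, h.1, h.2.1]
  simp [arg, nr]

theorem PB1_norm_th_le (n : O) : ‖th n‖ ≤ Real.sqrt (nr n) := by
  unfold th
  split_ifs with h
  · obtain ⟨e, hm, hs, hd⟩ := eq_sq1_mul_cu h.1 h.2
    have h0 : 0 < Real.sqrt (nr (sq1 n)) := Real.sqrt_pos.2 (nr_pos hm.ne_zero)
    rw [norm_mul, norm_mul, norm_div, norm_gc hm hs, Complex.norm_conj, norm_arg h.1.ne_zero,
      Complex.norm_real, Complex.norm_real, Real.norm_of_nonneg h0.le,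
      Real.norm_of_nonneg (Real.sqrt_nonneg _), div_self h0.ne', one_mul, mul_one]
    refine Real.sqrt_le_sqrt ?_
    have : cu n ∣ n := by
      conv_rhs => rw [e]
      exact Dvd.dvd.mul_left (dvd_pow_self _ (by norm_num)) _
    exact_mod_cast nm_le_of_dvd this h.1.ne_zero
  · simp

theorem PB1_cub_cube {m d m' d' : O} (hm : Primary m) (hd : Primary d)
    (h : IsCoprime (m * d ^ 3) (m' * d' ^ 3)) : cub (m * d ^ 3) (m' * d' ^ 3) = cub m m' := by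
  have h1 : IsCoprime d (m' * d' ^ 3) :=
    (IsCoprime.pow_left_iff (by norm_num : 0 < 3)).1 h.of_mul_left_right
  have h2 : IsCoprime m d' :=
    (IsCoprime.pow_right_iff (by norm_num : 0 < 3)).1 h.of_mul_left_left.of_mul_right_right
  rw [cub_mul_left hm.ne_zero (pow_ne_zero _ hd.ne_zero), cub_pow_left hd.ne_zero,
    cub_pow_three hd h1, mul_one, cub_mul_right, cub_pow_right, cub_pow_three hm h2, mul_one]

theorem PB1_th_eq {m d : O} (hm : Primary m) (hs : Squarefree m) (hd : Primary d) :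
    th (m * d ^ 3) = gc m 1 / (Real.sqrt (nr m) : ℂ) * (Real.sqrt (nr d) : ℂ) *
      conj (arg (m * d ^ 3)) := by
  obtain ⟨h1, h2, h3⟩ := sq1_cu hm hs hd
  rw [th, if_pos ⟨hm.mul (hd.pow 3), h3⟩, h1, h2]

theorem PB1_th_zero {m n : O} (hm : Primary m) (hn : Primary n) (h : IsCoprime m n)
    (h2 : ¬ ∀ p ∈ pf m, vp p m % 3 ≠ 2) : th (m * n) = 0 := by
  rw [th, if_neg]
  rintro ⟨-, h3⟩
  refine h2 fun p hp => ?_
  have hp' := BasicB.of_mem_pf hp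
  have := h3 p (by rw [pf_mul hm.ne_zero hn.ne_zero]; exact Finset.mem_union_left _ hp)
  rw [vp_mul hp'.1 hm.ne_zero hn.ne_zero, (vp_eq_zero_iff hp'.1 hn.ne_zero).2 fun hpn =>
    hp'.1.not_isUnit (h.isUnit_of_dvd' hp'.2.2 hpn), add_zero] at this
  exact this

theorem PB1_th_mul {m n : O} (hm : Primary m) (hn : Primary n) (h : IsCoprime m n) :
    th (m * n) = cub m n * cub n m * th m * th n := by
  by_cases h1 : ∀ p ∈ pf m, vp p m % 3 ≠ 2
  swap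
  · rw [PB1_th_zero hm hn h h1, show th m = 0 by rw [th, if_neg fun h' => h1 h'.2]]; ring
  by_cases h2 : ∀ p ∈ pf n, vp p n % 3 ≠ 2
  swap
  · rw [mul_comm m n, PB1_th_zero hn hm h.symm h2,
      show th n = 0 by rw [th, if_neg fun h' => h2 h'.2]]; ring
  obtain ⟨e₁, hm₁, hs₁, hd₁⟩ := eq_sq1_mul_cu hm h1
  obtain ⟨e₂, hm₂, hs₂, hd₂⟩ := eq_sq1_mul_cu hn h2
  generalize sq1 m = a at e₁ hm₁ hs₁
  generalize cu m = b at e₁ hd₁
  generalize sq1 n = c at e₂ hm₂ hs₂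
  generalize cu n = d at e₂ hd₂
  subst e₁ e₂
  have hac : IsCoprime a c := h.of_mul_left_left.of_mul_right_left
  have e : a * b ^ 3 * (c * d ^ 3) = a * c * (b * d) ^ 3 := by ring
  have ha := arg_mul (a * b ^ 3) (c * d ^ 3)
  rw [PB1_cub_cube hm₁ hd₁ h, PB1_cub_cube hm₂ hd₂ h.symm, PB1_th_eq hm₁ hs₁ hd₁,
    PB1_th_eq hm₂ hs₂ hd₂]
  rw [e] at ha ⊢
  rw [PB1_th_eq (hm₁.mul hm₂) ((squarefree_mul_iff).2 ⟨hac.isRelPrime, hs₁, hs₂⟩) (hd₁.mul hd₂), ha,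
    gc_mul hm₁ hm₂ hac, nr_mul, nr_mul, Real.sqrt_mul (Nat.cast_nonneg _),
    Real.sqrt_mul (Nat.cast_nonneg _), map_mul]
  push_cast
  ring

theorem PB1_norm_gs_le (j : ℕ) {n : O} (hn : n ≠ 0) (k : O) : ‖gs j n k‖ ≤ nr n := by
  unfold gs
  refine (norm_sum_le _ _).trans ?_
  refine (Finset.sum_le_card_nsmul _ _ 1 fun x _ => ?_).trans ?_
  · rw [norm_mul, norm_eq, mul_one, norm_pow]
    exact pow_le_one₀ (norm_nonneg _) (norm_sym_le _ _)
  · rw [card_res hn]; simp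

theorem PB1_norm_ft_le {q : O} (hq : q ≠ 0) {f : O → ℂ} {C : ℝ} (hf : ∀ x, ‖f x‖ ≤ C) (a : O) :
    ‖ft q f a‖ ≤ nr q * C := by
  unfold ft
  refine (norm_sum_le _ _).trans ?_
  refine (Finset.sum_le_card_nsmul _ _ C fun x _ => ?_).trans ?_
  · rw [norm_mul, norm_eq, mul_one]; exact hf x
  · rw [card_res hq]; simp

theorem PB1_norm_Rs {m n : O} (hm : IsCoprime m 2) (hn : IsCoprime n 2) : ‖Rs m n‖ = 1 := by
  rw [Rs, norm_mul, norm_mul, Complex.norm_conj, Complex.norm_conj, norm_g4 (hm.mul_left hn),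
    norm_g4 hm, norm_g4 hn]; norm_num

theorem PB1_ft_const (q : O) (c : ℂ) (f : O → ℂ) (a : O) :
    ft q (fun k => c * f k) a = c * ft q f a := by
  unfold ft
  rw [Finset.mul_sum]
  exact Finset.sum_congr rfl fun x _ => by ring

theorem PB1_per (n x : O) (k k' : O) (h : n * x ∣ k - k') :
    sym n k * conj (gs 5 x k) = sym n k' * conj (gs 5 x k') := by
  rw [sym_congr ((rad_dvd n).trans ((dvd_mul_right n x).trans h)),
    gs_congr 5 ((dvd_mul_left x n).trans h)]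

theorem PB1_twist {n x y : O} (hn : PO n) (hx : PO x) (h : IsCoprime y x) (k : O) :
    sym n (y * k) * conj (gs 5 x (y * k)) =
      sym n y * conj (sym x y) * (sym n k * conj (gs 5 x k)) := by
  rw [sym_mul_right hn, mul_comm y k, gs_mul_unit 5 hx h, map_mul, Complex.conj_conj,
    conj_sym hx.1]
  ring

theorem PB1_mul_conj {n y : O} (hn : Primary n) (h : IsCoprime n y) :
    sym n y * conj (sym n y) = 1 := by
  rw [mul_comm]; exact Gauss_conj_mul (norm_sym hn h)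

theorem PB1_ft_row {n x y : O} (hn : PO n) (hx : PO x) (h : IsCoprime y (n * x)) (a : O) :
    ft (n * x) (fun k => sym n k * conj (gs 5 x k)) (a * y) =
      conj (sym n y) * sym x y * ft (n * x) (fun k => sym n k * conj (gs 5 x k)) a := by
  have hq : n * x ≠ 0 := mul_ne_zero hn.1.ne_zero hx.1.ne_zero
  have h1 := sum_res_affine hq (fun k => sym n k * conj (gs 5 x k) * eq (a * k) (n * x))
    (fun k k' hk => by
      rw [PB1_per n x k k' hk, eq_congr (show n * x ∣ a * k - a * k' by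
        rw [← mul_sub]; exact hk.mul_left a)]) h 0
  have h2 := PB1_mul_conj hn.1 h.of_mul_right_left.symm
  have h3 := PB1_mul_conj hx.1 h.of_mul_right_right.symm
  unfold ft
  rw [← h1, Finset.mul_sum]
  refine Finset.sum_congr rfl fun k _ => ?_
  rw [add_zero, PB1_twist hn hx h.of_mul_right_right, mul_assoc a y k]
  linear_combination (-(sym n k * conj (gs 5 x k) * eq (a * (y * k)) (n * x))) *
    (sym x y * conj (sym x y) * h2 + h3)

theorem PB1_ft_mul {n₁ x₁ n₂ x₂ : O} (h₁ : PO n₁) (h₂ : PO n₂) (h₃ : PO x₁) (h₄ : PO x₂)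
    (h : IsCoprime (n₁ * x₁) (n₂ * x₂)) (a : O) :
    ft (n₁ * n₂ * (x₁ * x₂)) (fun k => sym (n₁ * n₂) k * conj (gs 5 (x₁ * x₂) k)) a =
      sym n₁ n₂ * sym n₂ n₁ * Rs n₁ x₂ * Rs n₂ x₁ *
        ft (n₁ * x₁) (fun k => sym n₁ k * conj (gs 5 x₁ k)) a *
        ft (n₂ * x₂) (fun k => sym n₂ k * conj (gs 5 x₂ k)) a := by
  have hxx : IsCoprime x₁ x₂ := h.of_mul_left_right.of_mul_right_right
  have hq₁ : n₁ * x₁ ≠ 0 := mul_ne_zero h₁.1.ne_zero h₃.1.ne_zero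
  have hq₂ : n₂ * x₂ ≠ 0 := mul_ne_zero h₂.1.ne_zero h₄.1.ne_zero
  have e1 : (fun k => sym (n₁ * n₂) k * conj (gs 5 (x₁ * x₂) k)) =
      fun k => (sym x₁ x₂ * sym x₂ x₁) *
        ((sym n₁ k * conj (gs 5 x₁ k)) * (sym n₂ k * conj (gs 5 x₂ k))) := by
    funext k
    rw [sym_mul_left h₁.1.ne_zero h₂.1.ne_zero, gs_mul 5 h₃ h₄ hxx, ← conj_sym h₃.1,
      ← conj_sym h₄.1]
    simp only [map_mul, Complex.conj_conj]
    ring
  rw [e1, PB1_ft_const, show n₁ * n₂ * (x₁ * x₂) = n₁ * x₁ * (n₂ * x₂) by ring,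
    ft_mul hq₁ hq₂ h _ _ (PB1_per n₁ x₁) (PB1_per n₂ x₂)]
  simp only [PB1_twist h₁ h₃ h.symm.of_mul_right_right, PB1_twist h₂ h₄ h.of_mul_right_right]
  rw [PB1_ft_const, PB1_ft_const, sym_mul_right h₁, sym_mul_right h₂, sym_mul_right h₃,
    sym_mul_right h₄, sym_recip h₁ h₄, sym_recip h₂ h₃, map_mul, map_mul]
  have a1 := PB1_mul_conj h₃.1 hxx
  have a2 := PB1_mul_conj h₄.1 hxx.symm
  have a3 := PB1_mul_conj h₃.1 h.of_mul_left_right.of_mul_right_left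
  have a4 := PB1_mul_conj h₄.1 h.of_mul_left_left.of_mul_right_right.symm
  generalize ft (n₁ * x₁) _ a = F₁
  generalize ft (n₂ * x₂) _ a = F₂
  have : sym x₁ x₂ * conj (sym x₁ x₂) * (sym x₂ x₁ * conj (sym x₂ x₁)) *
      (sym x₁ n₂ * conj (sym x₁ n₂)) * (sym x₂ n₁ * conj (sym x₂ n₁)) = 1 := by
    rw [a1, a2, a3, a4]; norm_num
  linear_combination (sym n₁ n₂ * sym n₂ n₁ * Rs n₁ x₂ * Rs n₂ x₁ * F₁ * F₂) * this

theorem cf_one {M : O} (ψ : Chr M) (a : O) : cf ψ a 1 1 = 1 := by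
  have h : ft 1 (fun k => sym 1 k * conj (gs 5 1 k)) a = 1 := by
    have := sum_res_eq_char (one_ne_zero (α := O)) a
    simp only [one_dvd, if_true, nm_one, Nat.cast_one] at this
    simpa [ft] using this
  rw [cf, if_pos ⟨primary_one, isCoprime_one_left⟩, PB1_th_one, ev_one, Gf_one, sym_one_left,
    Rs_one_left isCoprime_one_left, mul_one (1 : O), h]
  simp [nr]
theorem cf_support {M : O} (ψ : Chr M) {a n x : O} (h : cf ψ a n x ≠ 0) :
    Primary n ∧ IsCoprime n M ∧ Primary x ∧ IsCoprime x M := by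
  unfold cf at h
  split_ifs at h with hx
  · refine ⟨?_, ?_, hx⟩
    · by_contra hn
      exact h (by rw [show th n = 0 by rw [th, if_neg fun h' => hn h'.1]]; simp)
    · by_contra hn
      exact h (by rw [ev_eq_zero ψ hn]; simp)
  · exact absurd rfl h
theorem norm_cf_le {M : O} (hM : Adm M) (ψ : Chr M) (a n x : O) :
    ‖cf ψ a n x‖ ≤ nr n * nr x := by
  by_cases h0 : cf ψ a n x = 0
  · rw [h0, norm_zero]; positivity
  obtain ⟨hn, hnM, hx, hxM⟩ := cf_support ψ h0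
  have hn' := PO.of_adm hM hn hnM
  have hx' := PO.of_adm hM hx hxM
  have h1 : 0 < Real.sqrt (nr n) := Real.sqrt_pos.2 (nr_pos hn.ne_zero)
  have h2 : 0 < nr x := nr_pos hx.ne_zero
  have h3 : ‖ft (n * x) (fun k => sym n k * conj (gs 5 x k)) a‖ ≤ nr (n * x) * nr x :=
    PB1_norm_ft_le (mul_ne_zero hn.ne_zero hx.ne_zero) (fun k => by
      rw [norm_mul, Complex.norm_conj]
      exact (mul_le_of_le_one_left (norm_nonneg _) (norm_sym_le _ _)).trans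
        (PB1_norm_gs_le 5 hx.ne_zero k)) a
  rw [cf, if_pos ⟨hx, hxM⟩, norm_div, Complex.norm_real, Real.norm_of_nonneg (by positivity),
    div_le_iff₀ (by positivity), norm_mul, norm_mul, norm_mul, norm_mul, norm_mul,
    norm_ev hM.1 ψ hnM, norm_Gf hn', PB1_norm_Rs hn'.2 hx'.2,
    norm_sym hn isCoprime_one_right.neg_right]
  rw [nr_mul] at h3
  calc ‖th n‖ * 1 * 1 * 1 * 1 * ‖ft (n * x) (fun k => sym n k * conj (gs 5 x k)) a‖
      = ‖th n‖ * ‖ft (n * x) (fun k => sym n k * conj (gs 5 x k)) a‖ := by ring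
    _ ≤ Real.sqrt (nr n) * (nr n * nr x * nr x) :=
      mul_le_mul (PB1_norm_th_le n) h3 (norm_nonneg _) h1.le
    _ = _ := by ring
/-- Multiplicativity (`ft_mul`, `gs_mul`, `gs_mul_unit`, `gc_mul`, `Gf_mul`, `sym_recip`,
`quad_recip`, `Rs_mul_left`). -/
theorem cf_mul {M : O} (hM : Adm M) (ψ : Chr M) (a : O) {n₁ x₁ n₂ x₂ : O} (h₁ : Primary n₁)
    (h₂ : Primary n₂) (h₃ : Primary x₁) (h₄ : Primary x₂) (h : IsCoprime (n₁ * x₁) (n₂ * x₂)) :
    cf ψ a (n₁ * n₂) (x₁ * x₂) = cf ψ a n₁ x₁ * cf ψ a n₂ x₂ := by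
  by_cases hc : IsCoprime n₁ M ∧ IsCoprime x₁ M ∧ IsCoprime n₂ M ∧ IsCoprime x₂ M
  swap
  · have e1 : cf ψ a (n₁ * n₂) (x₁ * x₂) = 0 := by
      by_contra h0
      obtain ⟨-, a1, -, a2⟩ := cf_support ψ h0
      exact hc ⟨a1.of_mul_left_left, a2.of_mul_left_left, a1.of_mul_left_right,
        a2.of_mul_left_right⟩
    rw [e1]
    symm
    by_contra h0
    obtain ⟨-, a1, -, a2⟩ := cf_support ψ (left_ne_zero_of_mul h0)
    obtain ⟨-, a3, -, a4⟩ := cf_support ψ (right_ne_zero_of_mul h0)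
    exact hc ⟨a1, a2, a3, a4⟩
  obtain ⟨c₁, c₃, c₂, c₄⟩ := hc
  have p₁ := PO.of_adm hM h₁ c₁
  have p₂ := PO.of_adm hM h₂ c₂
  have p₃ := PO.of_adm hM h₃ c₃
  have p₄ := PO.of_adm hM h₄ c₄
  have hnn : IsCoprime n₁ n₂ := h.of_mul_left_left.of_mul_right_left
  have key : cub n₁ n₂ * cub n₂ n₁ * Rs n₁ n₂ * (sym n₁ n₂ * sym n₂ n₁) = 1 := by
    have b1 := sym_pow_three h₁ n₂
    have b2 := sym_pow_three h₂ n₁
    have b3 := quad_recip p₁ p₂
    have b4 := quad_sq h₂ hnn.symm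
    have b5 := Rs_sq p₁.2 p₂.2
    rw [← sym_sq h₁, ← sym_sq h₂]
    calc _ = sym n₁ n₂ ^ 3 * sym n₂ n₁ ^ 3 * Rs n₁ n₂ := by ring
      _ = Rs n₁ n₂ ^ 2 * quad n₂ n₁ ^ 2 := by rw [b1, b2, b3]; ring
      _ = 1 := by rw [b4, b5, mul_one]
  have r1 := Rs_sq p₁.2 p₄.2
  have r2 := Rs_sq p₂.2 p₃.2
  have hR : Rs (n₁ * n₂) (x₁ * x₂) = Rs n₁ x₁ * Rs n₁ x₂ * (Rs n₂ x₁ * Rs n₂ x₂) := by
    rw [Rs_mul_left p₁.2 p₂.2 (p₃.mul p₄).2, Rs_comm n₁, Rs_comm n₂,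
      Rs_mul_left p₃.2 p₄.2 p₁.2, Rs_mul_left p₃.2 p₄.2 p₂.2, Rs_comm x₁ n₁, Rs_comm x₂ n₁,
      Rs_comm x₁ n₂, Rs_comm x₂ n₂]
  rw [cf, cf, cf, if_pos ⟨h₃.mul h₄, c₃.mul_left c₄⟩, if_pos ⟨h₃, c₃⟩, if_pos ⟨h₄, c₄⟩,
    PB1_th_mul h₁ h₂ hnn, ev_mul, Gf_mul p₁ p₂, sym_mul_left h₁.ne_zero h₂.ne_zero, hR,
    PB1_ft_mul p₁ p₂ p₃ p₄ h, nr_mul, nr_mul, Real.sqrt_mul (Nat.cast_nonneg _), div_mul_div_comm]
  generalize ft (n₁ * x₁) _ a = F₁
  generalize ft (n₂ * x₂) _ a = F₂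
  congr 1
  · have : cub n₁ n₂ * cub n₂ n₁ * Rs n₁ n₂ * (sym n₁ n₂ * sym n₂ n₁) * Rs n₁ x₂ ^ 2 *
        Rs n₂ x₁ ^ 2 = 1 := by rw [key, r1, r2]; norm_num
    linear_combination (th n₁ * ev ψ n₁ * Gf n₁ * sym n₁ (-1) * Rs n₁ x₁ * F₁ *
      (th n₂ * ev ψ n₂ * Gf n₂ * sym n₂ (-1) * Rs n₂ x₂ * F₂)) * this
  · push_cast; ring
theorem cf_row_mul {M : O} (hM : Adm M) (ψ : Chr M) (a : O) {n x y : O}
    (h : IsCoprime y (n * x)) : cf ψ (a * y) n x = conj (sym n y) * sym x y * cf ψ a n x := by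
  by_cases hc : Primary n ∧ IsCoprime n M ∧ Primary x ∧ IsCoprime x M
  swap
  · have e : ∀ b, cf ψ b n x = 0 := fun b => by
      by_contra h0
      exact hc (cf_support ψ h0)
    rw [e, e, mul_zero]
  obtain ⟨hn, hnM, hx, hxM⟩ := hc
  rw [cf, cf, if_pos ⟨hx, hxM⟩, if_pos ⟨hx, hxM⟩,
    PB1_ft_row (PO.of_adm hM hn hnM) (PO.of_adm hM hx hxM) h]
  ring
/-- Local values at a prime not dividing the row. -/
theorem cf_unram {M : O} (hM : Adm M) (ψ : Chr M) {a p : O} (hp : Prime p) (hp' : Primary p)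
    (hpM : ¬ p ∣ M) (ha : ¬ p ∣ a) (i j : ℕ) :
    cf ψ a (p ^ i) (p ^ j) =
      if i = 0 then sym p a ^ j else if i = 1 ∧ j = 0 then -(ev ψ p * conj (sym p a)) else 0 :=
  (if_pos (PB2.supp hp hp' hpM j)).trans (PB2.unram ψ hp (PB2.po_of hM hp hp' hpM) ha i j)
/-- Local values at a prime dividing the row: vanishing. -/
theorem cf_ram_zero {M : O} (hM : Adm M) (ψ : Chr M) {a p : O} (hp : Prime p) (hp' : Primary p)
    (hpM : ¬ p ∣ M) (ha : p ∣ a) {i j : ℕ} (h : (i = 0 ∧ 1 ≤ j) ∨ 2 ≤ j) :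
    cf ψ a (p ^ i) (p ^ j) = 0 :=
  (if_pos (PB2.supp hp hp' hpM j)).trans (PB2.ram_zero ψ hp (PB2.po_of hM hp hp' hpM) ha h)
theorem cf_ram_one_one {M : O} (hM : Adm M) (ψ : Chr M) {a p : O} (hp : Prime p) (hp' : Primary p)
    (hpM : ¬ p ∣ M) (ha : p ∣ a) (ha0 : a ≠ 0) :
    cf ψ a p p = if vp p a = 1 then ev ψ p else -((nr p : ℂ) - 1) * ev ψ p :=
  (if_pos ⟨hp', hp.coprime_iff_not_dvd.2 hpM⟩).trans
    (PB2.ram_one_one ψ hp (PB2.po_of hM hp hp' hpM) ha ha0)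
/-- Local sizes, `j = 0`. -/
theorem norm_cf_ram_zero {M : O} (hM : Adm M) (ψ : Chr M) {a p : O} (hp : Prime p)
    (hp' : Primary p) (hpM : ¬ p ∣ M) (ha0 : a ≠ 0) {i : ℕ} (hi : 1 ≤ i) :
    ‖cf ψ a (p ^ i) 1‖ ≤
      if 6 ∣ i then
        (if i ≤ vp p a then nr p ^ (2 * i / 3 : ℝ) else
          if i = vp p a + 1 then nr p ^ (2 * i / 3 - 1 : ℝ) else 0)
      else if i = vp p a + 1 then nr p ^ ((((i / 3 : ℕ) : ℝ) + i - 1) / 2) else 0 :=
  (congrArg norm (if_pos ⟨primary_one, isCoprime_one_left⟩)).trans_le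
    (PB2.ram_zero_le hM ψ hp (PB2.po_of hM hp hp' hpM) ha0 hi)
/-- Local sizes, `j = 1`. -/
theorem norm_cf_ram_one {M : O} (hM : Adm M) (ψ : Chr M) {a p : O} (hp : Prime p)
    (hp' : Primary p) (hpM : ¬ p ∣ M) (ha0 : a ≠ 0) {i : ℕ} (hi : 1 ≤ i) :
    ‖cf ψ a (p ^ i) p‖ ≤
      if i = vp p a then nr p ^ ((((i / 3 : ℕ) : ℝ) + i) / 2) else
        if i % 6 = 1 ∧ i < vp p a then nr p ^ ((((i / 3 : ℕ) : ℝ) + i + 1) / 2) else 0 :=
  (congrArg norm (if_pos ⟨hp', hp.coprime_iff_not_dvd.2 hpM⟩)).trans_le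
    (PB2.ram_one_le hM ψ hp (PB2.po_of hM hp hp' hpM) ha0 i)

end Crest.Agent.R17
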