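import Crest.Agent.R17.Gauss

/-!
# Row 17: cubic reciprocity and its supplements
-/

set_option autoImplicit false

noncomputable section

namespace Crest.Agent.R17.RecipA

open scoped ComplexConjugate

/-! ## conjugation -/

theorem cj_eq (z : O) : cj z = (starRingAut : O ≃+* O) z := by
  ext <;> simp [cj, sub_eq_add_neg]

theorem cj_cj (z : O) : cj (cj z) = z := by
  ext <;> simp [cj]

theorem prime_cj {p : O} (hp : Prime p) : Prime (cj p) := by
  rw [cj_eq]
  exact (MulEquiv.prime_iff (starRingAut : O ≃+* O)).2 hp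

theorem primary_cj {p : O} (h : Primary p) : Primary (cj p) := by
  have := map_dvd (starRingAut : O ≃+* O) h
  rwa [map_sub, map_one, map_ofNat, ← cj_eq] at this

/-! ## algebraic integers -/

theorem omC_cube : omC ^ 3 = 1 := by
  rw [← ι_om, ← map_pow, om_cube, map_one]

theorem omC_ne : omC ≠ 0 := fun h => by simpa [h] using omC_cube

theorem eq_omC_pow {z : ℂ} (h : z ^ 3 = 1) : ∃ j : ℕ, z = omC ^ j := by
  have : (z - 1) * ((z - omC) * (z - omC ^ 2)) = 0 := by
    linear_combination h + (z - z ^ 2) * omC_mul + (z - 1) * omC_cube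
  rcases mul_eq_zero.1 this with h1 | h1
  · exact ⟨0, by rw [pow_zero]; exact sub_eq_zero.1 h1⟩
  · rcases mul_eq_zero.1 h1 with h2 | h2
    · exact ⟨1, by rw [pow_one]; exact sub_eq_zero.1 h2⟩
    · exact ⟨2, sub_eq_zero.1 h2⟩

theorem int_of_pow {z : ℂ} {n : ℕ} (hn : 0 < n) (h : z ^ n = 1) : IsIntegral ℤ z :=
  IsIntegral.of_pow hn (h ▸ isIntegral_one)

theorem int_ι (z : O) : IsIntegral ℤ (ι z) := by
  have h : ι z = algebraMap ℤ ℂ z.re + algebraMap ℤ ℂ z.im * omC := rfl
  rw [h]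
  exact isIntegral_algebraMap.add (isIntegral_algebraMap.mul (int_of_pow (by norm_num) omC_cube))

theorem not_unit {q : O} (hq : Prime q) {α : ℂ} (hα : IsIntegral ℤ α) : ι q * α ≠ 1 := by
  intro h
  have h0 : (nm q : ℂ) = ι q * conj (ι q) := by rw [← ι_cj, ← map_mul, mul_cj, map_natCast]
  have h1 : (nm q : ℂ) * (α * conj α) = 1 := by
    have := congrArg conj h
    rw [map_mul, map_one] at this
    rw [h0]
    linear_combination conj (ι q) * conj α * h + this
  have h2 : IsIntegral ℤ (α * conj α) :=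
    hα.mul (hα.map ((starRingEnd ℂ).toIntAlgHom))
  have hn : (nm q : ℚ) ≠ 0 := Nat.cast_ne_zero.2 fun e => hq.ne_zero (nm_eq_zero.1 e)
  have h3 : α * conj α = algebraMap ℚ ℂ ((nm q : ℚ)⁻¹) := by
    rw [map_inv₀, map_natCast]
    exact eq_inv_of_mul_eq_one_right h1
  rw [h3, isIntegral_algebraMap_iff (algebraMap ℚ ℂ).injective] at h2
  obtain ⟨y, hy⟩ := IsIntegrallyClosed.isIntegral_iff.1 h2
  have h4 : (nm q : ℤ) * y = 1 := by
    have : ((nm q : ℤ) * y : ℤ) = (1 : ℚ) := by
      push_cast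
      rw [show (y : ℚ) = (nm q : ℚ)⁻¹ from hy, mul_inv_cancel₀ hn]
    exact_mod_cast this
  have h5 : nm q = 1 := by
    have := Int.eq_one_of_mul_eq_one_right (Int.natCast_nonneg _) h4
    exact_mod_cast this
  exact hq.not_isUnit (isUnit_iff_nm.2 h5)

theorem dvd_of_int {q a : O} (hq : Prime q) {α : ℂ} (hα : IsIntegral ℤ α) (h : ι a = ι q * α) :
    q ∣ a := by
  by_contra hn
  obtain ⟨u, v, e⟩ := (hq.irreducible.coprime_iff_not_dvd).2 hn
  refine not_unit hq ((int_ι u).add ((int_ι v).mul hα)) ?_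
  have := congrArg ι e
  rw [map_add, map_mul, map_mul, map_one, h] at this
  linear_combination this

theorem sum_pow_prime {l : ℕ} (hl : l.Prime) (n : ℕ) (s : Finset O) (f : O → ℂ)
    (hf : ∀ x, IsIntegral ℤ (f x)) :
    ∃ α, IsIntegral ℤ α ∧ (∑ x ∈ s, f x) ^ l ^ n = ∑ x ∈ s, f x ^ l ^ n + l * α := by
  classical
  induction s using Finset.induction_on with
  | empty => exact ⟨0, isIntegral_zero, by simp [hl.ne_zero]⟩
  | insert a s ha ih =>
    obtain ⟨α, hα, e⟩ := ih
    obtain ⟨r, hr⟩ := exists_add_pow_prime_pow_eq hl (⟨f a, hf a⟩ : integralClosure ℤ ℂ)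
      ⟨∑ x ∈ s, f x, IsIntegral.sum _ fun x _ => hf x⟩ n
    have hr' := congrArg Subtype.val hr
    push_cast at hr'
    refine ⟨α + f a * (∑ x ∈ s, f x) * r,
      hα.add (((hf a).mul (IsIntegral.sum _ fun x _ => hf x)).mul r.2), ?_⟩
    rw [Finset.sum_insert ha, Finset.sum_insert ha, hr', e]
    ring

theorem exists_char {q : O} (hq : Prime q) : ∃ l f : ℕ, l.Prime ∧ q ∣ (l : O) ∧ nm q = l ^ f := by
  have h1 : ∀ n : ℕ, n ≠ 0 → q ∣ (n : O) → ∃ l : ℕ, l.Prime ∧ q ∣ (l : O) := by
    intro n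
    induction n using Nat.recOnMul with
    | zero => intro h; exact absurd rfl h
    | one => intro _ h; exact absurd (isUnit_of_dvd_one (by simpa using h)) hq.not_isUnit
    | prime p hp => intro _ h; exact ⟨p, hp, h⟩
    | mul a b iha ihb =>
      intro h0 h
      rw [Nat.cast_mul] at h
      rcases hq.dvd_or_dvd h with h | h
      · exact iha (left_ne_zero_of_mul h0) h
      · exact ihb (right_ne_zero_of_mul h0) h
  obtain ⟨l, hl, h⟩ := h1 (nm q) (fun e => hq.ne_zero (nm_eq_zero.1 e)) ⟨cj q, (mul_cj q).symm⟩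
  have h2 := nm_dvd_of_dvd h
  rw [nm_natCast] at h2
  obtain ⟨f, -, hf⟩ := (Nat.dvd_prime_pow hl).1 h2
  exact ⟨l, f, hl, h, hf⟩

theorem eq_nat_mul (k : ℕ) (x n : O) : eq (k * x) n = eq x n ^ k := by
  induction k with
  | zero => simp [eq]
  | succ k ih => rw [Nat.cast_succ, add_mul, one_mul, eq_add, ih, pow_succ]

theorem cub_pow_succ {n : O} (hn : Primary n) (a : O) (k : ℕ) : cub n a ^ (3 * k + 1) = cub n a := by
  by_cases h : IsCoprime n a
  · rw [pow_succ, pow_mul, cub_pow_three hn h, one_pow, one_mul]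
  · rw [(cub_eq_zero_iff hn).2 h, pow_succ, mul_zero]

theorem int_term {p : O} (h : Primary p) (x : O) : IsIntegral ℤ (cub p x * eq (1 * x) p) := by
  refine IsIntegral.mul ?_ ?_
  · by_cases hc : IsCoprime p x
    · exact int_of_pow (by norm_num) (cub_pow_three h hc)
    · rw [(cub_eq_zero_iff h).2 hc]
      exact isIntegral_zero
  · refine int_of_pow (n := nm p) (Nat.pos_of_ne_zero fun e => h.ne_zero (nm_eq_zero.1 e)) ?_
    rw [← eq_nat_mul, eq_congr (y := 0) ⟨cj p * (1 * x), by rw [← mul_cj]; ring⟩]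
    simp [eq]

/-- The Frobenius acting on the cubic Gauss sum. -/
theorem frob {p q : O} (hp : Prime p) (hp' : Primary p) (hq : Prime q) (hq' : Primary q)
    (h1 : IsCoprime q (p * nm p)) (h2 : IsCoprime (nm q : O) p) :
    cub q (p * nm p) = conj (cub p (nm q)) := by
  obtain ⟨l, f, hl, ⟨c, hc⟩, hf⟩ := exists_char hq
  obtain ⟨k, hk⟩ : ∃ k, nm q = 3 * k + 1 := ⟨nm q / 3, by have := nm_prime_mod hq hq'; omega⟩
  have hk' : (nm q - 1) / 3 = k := by omega
  obtain ⟨α, hα, e⟩ := sum_pow_prime hl f (res p) _ (int_term hp')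
  have hg : IsIntegral ℤ (gc p 1) := IsIntegral.sum _ fun x _ => int_term hp' x
  have e1 : ∑ x ∈ res p, (cub p x * eq (1 * x) p) ^ l ^ f = conj (cub p (nm q)) * gc p 1 := by
    rw [← gc_mul_unit hp' h2, gc]
    refine Finset.sum_congr rfl fun x _ => ?_
    rw [mul_pow, ← eq_nat_mul, ← hf, one_mul, one_mul]
    nth_rewrite 1 [hk]
    rw [cub_pow_succ hp']
  have e2 : gc p 1 ^ 3 = ι (-(p * nm p)) := by
    rw [gc_prime_cube hp hp', map_neg, map_mul, map_natCast, neg_mul]
  have e3 : (l : ℂ) = ι q * ι c := by rw [← map_mul, ← hc, map_natCast]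
  rw [e1, ← hf, hk, pow_succ, pow_mul, e3] at e
  change (gc p 1 ^ 3) ^ k * gc p 1 = _ at e
  obtain ⟨j, hj⟩ : ∃ j : ℕ, conj (cub p (nm q)) = omC ^ j :=
    eq_omC_pow (by rw [← map_pow, cub_pow_three hp' h2.symm, map_one])
  have h3 : q ∣ -(p * nm p) * ((-(p * nm p)) ^ k - om ^ j) := by
    refine dvd_of_int hq (((int_ι c).mul hα).mul (hg.pow 2)) ?_
    rw [map_mul, map_sub, map_pow, map_pow, ι_om, ← hj, ← e2]
    rw [← hk] at e
    linear_combination gc p 1 ^ 2 * e
  have h4 := h1.neg_right.dvd_of_dvd_mul_left h3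
  rw [← hk', ← cub1_eq_pow_iff hq hq', ← cub_prime hq hq', neg_eq_neg_one_mul, cub_mul_right,
    cub_neg_one, one_mul] at h4
  rw [h4, hj]

theorem recip_prime {p q : O} (hp : Prime p) (hp' : Primary p) (hq : Prime q) (hq' : Primary q)
    (h : IsCoprime q (nm p)) : cub q p = cub p q := by
  rw [← mul_cj] at h
  have c1 : IsCoprime q p := h.of_mul_right_left
  have c2 : IsCoprime q (cj p) := h.of_mul_right_right
  have c3 : IsCoprime p (cj q) := by
    have : IsCoprime ((starRingAut : O ≃+* O) (cj p)) ((starRingAut : O ≃+* O) q) :=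
      c2.symm.map ((starRingAut : O ≃+* O) : O →+* O)
    rwa [← cj_eq, ← cj_eq, cj_cj] at this
  have a1 := frob hp hp' hq hq' (by rw [← mul_cj]; exact c1.mul_right h)
    (by rw [← mul_cj]; exact c1.mul_left c3.symm)
  have a2 := frob hq hq' hp hp' (by rw [← mul_cj]; exact c1.symm.mul_right (c1.symm.mul_right c3))
    (by rw [← mul_cj]; exact h.symm)
  rw [← mul_cj, ← mul_cj, conj_cub] at a1 a2
  simp only [cub_mul_right] at a1 a2
  have b1 := cub_pow_three hq' c1
  have b2 := cub_pow_three hq' c2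
  have b3 := cub_pow_three hp' c1.symm
  have b4 := cub_pow_three hp' c3
  generalize cub q p = a at *
  generalize cub q (cj p) = b at *
  generalize cub p q = c at *
  generalize cub p (cj q) = d at *
  have d1 : a * (a * b * c * d) = 1 := by
    linear_combination c * d * a1 + d ^ 3 * b3 + b4
  have d2 : c * (a * b * c * d) = 1 := by
    linear_combination a * b * a2 + b ^ 3 * b1 + b2
  exact mul_right_cancel₀ (right_ne_zero_of_mul_eq_one d1) (d1.trans d2.symm)

theorem recip_coprime {p : O} (hp : Prime p) (hp' : Primary p) {m : O} (hm : Primary m) :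
    IsCoprime m (nm p) → cub m p = cub p m := by
  refine Primary.induction (P := fun m => IsCoprime m (nm p) → cub m p = cub p m) (by simp)
    (fun q n hq hq' hn ih h => ?_) hm
  rw [cub_mul_left hq.ne_zero hn.ne_zero, cub_mul_right, ih h.of_mul_left_right,
    recip_prime hp hp' hq hq' h.of_mul_left_left]

theorem recip_cj {p : O} (hp : Prime p) (hp' : Primary p) : cub (cj p) p = cub p (cj p) := by
  by_cases h : p ∣ cj p
  · rw [← hp'.eq_of_associated (primary_cj hp') (hp.associated_of_dvd (prime_cj hp) h)]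
  have c1 : IsCoprime p (cj p) := (hp.irreducible.coprime_iff_not_dvd).2 h
  have ht : Primary (-(p + cj p)) := by
    obtain ⟨a, ha⟩ := hp'
    obtain ⟨b, hb⟩ := primary_cj ⟨a, ha⟩
    exact ⟨-a - b - 1, by linear_combination -ha - hb⟩
  have hc : IsCoprime (-(p + cj p)) (nm p) := by
    rw [← mul_cj]
    refine (IsCoprime.mul_right ?_ ?_).neg_left
    · simpa [add_comm] using c1.symm.add_mul_left_left 1
    · simpa using c1.add_mul_left_left 1
  have e1 : cub p (cj p) = cub (-(p + cj p)) p := by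
    rw [recip_coprime hp hp' ht hc, neg_eq_neg_one_mul, cub_mul_right, cub_neg_one, one_mul]
    exact cub_congr ((rad_dvd p).trans ⟨-1, by ring⟩)
  have e2 : cj (-(p + cj p)) = -(p + cj p) := by
    ext <;> simp [cj]
  have e3 : conj (cub (-(p + cj p)) p) = cub (-(p + cj p)) p := by
    rw [← cub_cj, e2, ← one_mul (cub _ p), ← cub_neg_one (-(p + cj p)), ← cub_mul_right]
    exact cub_congr ((rad_dvd _).trans ⟨-1, by ring⟩)
  have e4 := cub_cj p (cj p)
  rw [cj_cj] at e4
  rw [e4, e1, e3]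

theorem recip_primes {p q : O} (hp : Prime p) (hp' : Primary p) (hq : Prime q) (hq' : Primary q) :
    cub q p = cub p q := by
  by_cases h : q ∣ (nm p : O)
  · rw [← mul_cj] at h
    rcases hq.dvd_or_dvd h with h | h
    · rw [hq'.eq_of_associated hp' (hq.associated_of_dvd hp h)]
    · rw [hq'.eq_of_associated (primary_cj hp') (hq.associated_of_dvd (prime_cj hp) h)]
      exact recip_cj hp hp'
  · exact recip_prime hp hp' hq hq' ((hq.irreducible.coprime_iff_not_dvd).2 h)

theorem recip {m n : O} (hm : Primary m) (hn : Primary n) : cub m n = cub n m := by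
  refine Primary.induction (P := fun m => cub m n = cub n m) (by simp)
    (fun q m hq hq' hm ih => ?_) hm
  rw [cub_mul_left hq.ne_zero hm.ne_zero, cub_mul_right, ih]
  congr 1
  refine Primary.induction (P := fun n => cub q n = cub n q) (by simp)
    (fun p n hp hp' hn ih => ?_) hn
  rw [cub_mul_left hp.ne_zero hn.ne_zero, cub_mul_right, ih, recip_primes hp hp' hq hq']

/-! ## supplements -/

theorem cub_om {n : O} (hn : Primary n) : ∃ k, nm n = 3 * k + 1 ∧ cub n om = omC ^ k := by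
  refine Primary.induction (P := fun n => ∃ k, nm n = 3 * k + 1 ∧ cub n om = omC ^ k)
    ⟨0, by simp, by simp⟩ (fun p n hp hp' hn ih => ?_) hn
  obtain ⟨k, hk, e⟩ := ih
  obtain ⟨j, hj⟩ : ∃ j, nm p = 3 * j + 1 := ⟨nm p / 3, by have := nm_prime_mod hp hp'; omega⟩
  have e1 : cub p om = omC ^ j := by
    rw [cub_prime hp hp', cub1_eq_pow_iff hp hp', show (nm p - 1) / 3 = j by omega, sub_self]
    exact dvd_zero _
  refine ⟨3 * (j * k) + j + k, by rw [nm_mul, hj, hk]; ring, ?_⟩
  rw [cub_mul_left hp.ne_zero hn.ne_zero, e, e1, pow_add, pow_add, pow_mul, omC_cube, one_pow,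
    one_mul]

theorem om_congr {n n' : O} (hn : Primary n) (hn' : Primary n') (h : 3 * lam ∣ n - n') :
    cub n om = cub n' om := by
  obtain ⟨k, hk, e⟩ := cub_om hn
  obtain ⟨k', hk', e'⟩ := cub_om hn'
  obtain ⟨w, hw⟩ := h
  rw [show 3 * lam = ⟨3, 6⟩ from rfl] at hw
  have h1 : n.re = n'.re + 3 * (w.re - 2 * w.im) := by
    have := congrArg QuadraticAlgebra.re hw
    simp at this
    linarith
  have h2 : n.im = n'.im + 3 * (2 * w.re - w.im) := by
    have := congrArg QuadraticAlgebra.im hw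
    simp at this
    linarith
  have h3 := nm_cast n
  have h4 := nm_cast n'
  rw [h1, h2, hk] at h3
  rw [hk'] at h4
  push_cast at h3 h4
  obtain ⟨T, hT⟩ : ∃ T : ℤ, 3 * (k : ℤ) = 3 * (k' + 3 * T) :=
    ⟨n'.im * w.re - n'.re * w.im + 3 * (w.re ^ 2 - w.re * w.im + w.im ^ 2), by
      linear_combination h3 - h4⟩
  rw [e, e', pow_eq_pow_mod k omC_cube, pow_eq_pow_mod k' omC_cube]
  congr 1
  omega

theorem nine_dvd {z : O} (h : (9 : O) ∣ z) : 3 * lam ∣ z :=
  Dvd.dvd.trans ⟨-lam, by linear_combination 3 * lam_sq⟩ h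

theorem unit_congr {n n' u : O} (hn : Primary n) (hn' : Primary n') (h : (9 : O) ∣ n - n')
    (hu : IsUnit u) : cub n u = cub n' u := by
  obtain ⟨k, -, rfl⟩ := isUnit_iff_pow.1 hu
  rw [cub_pow_right, cub_pow_right, neg_eq_neg_one_mul, cub_mul_right, cub_mul_right, cub_neg_one,
    cub_neg_one, om_congr hn hn' (nine_dvd h)]

theorem lam_eq {n y u : O} (hn : Primary n) (hu : IsUnit u) (hy : Primary (u * y))
    (e : n - om = lam * y) : cub n lam * cub (u * y) om = cub n u * cub n om := by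
  obtain ⟨v, hv⟩ := hu.exists_left_inv
  have e1 : cub (u * y) om = cub n (u * y) := by
    rw [recip hn hy]
    exact cub_congr ((rad_dvd _).trans ⟨-(lam * v), by linear_combination -e + lam * y * hv⟩)
  have e2 : cub n om = cub n (lam * y) := by
    rw [← one_mul (cub n om), ← cub_neg_one n, ← cub_mul_right]
    exact cub_congr ((rad_dvd _).trans ⟨-1, by linear_combination e⟩)
  rw [e1, e2, cub_mul_right, cub_mul_right]
  ring

theorem lam_congr {n n' : O} (hn : Primary n) (hn' : Primary n') (h : (9 : O) ∣ n - n') :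
    cub n lam = cub n' lam := by
  have hl : lam = 1 + 2 * om := rfl
  obtain ⟨z, hz⟩ := id hn'
  obtain ⟨w, hw⟩ := id h
  have e' : n' - om = lam * (om ^ 2 - lam * z) := by
    linear_combination hz + z * lam_sq - om ^ 2 * hl - om_sq_add - 2 * om_cube
  have e : n - om = lam * (om ^ 2 - lam * z + 3 * lam * (-w)) := by
    linear_combination e' + hw + 3 * w * lam_sq
  have hnd : ¬ lam ∣ om ^ 2 - lam * z := fun hd =>
    prime_lam.not_isUnit (isUnit_of_dvd_one (by
      have h1 : lam ∣ om ^ 2 := by simpa using dvd_add hd (dvd_mul_right lam z)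
      have := h1.mul_right om
      rwa [← pow_succ, om_cube] at this))
  obtain ⟨u, hu, hy'⟩ := exists_unit_primary hnd
  have hy : Primary (u * (om ^ 2 - lam * z + 3 * lam * (-w))) := by
    obtain ⟨t, ht⟩ := hy'
    exact ⟨t - u * lam * w, by linear_combination ht⟩
  have a := lam_eq hn hu hy e
  have a' := lam_eq hn' hu hy' e'
  rw [unit_congr hn hn' h hu, om_congr hn hn' (nine_dvd h), ← a',
    om_congr hy hy' ⟨-(u * w), by ring⟩] at a
  obtain ⟨k, -, hk⟩ := cub_om hy'
  exact mul_right_cancel₀ (by rw [hk]; exact pow_ne_zero _ omC_ne) a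

theorem periodic {c n n' : O} (hc : c ≠ 0) (hn : Primary n) (hn' : Primary n')
    (h : 9 * c ∣ n - n') : cub n c = cub n' c := by
  obtain ⟨u, j, hu, e⟩ := exists_eq_unit_lam_primary hc
  have h0 : Primary (∏ p ∈ pf c, p ^ vp p c) :=
    Primary.prod fun p hp => ((mem_pf hc).1 hp).2.1.pow _
  generalize ∏ p ∈ pf c, p ^ vp p c = c₀ at e h0
  have h9 : (9 : O) ∣ n - n' := (dvd_mul_right _ _).trans h
  have hd : rad c₀ ∣ n - n' :=
    (rad_dvd _).trans (((e ▸ dvd_mul_left _ _ : c₀ ∣ c).mul_left 9).trans h)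
  rw [e]
  simp only [cub_mul_right, cub_pow_right]
  rw [unit_congr hn hn' h9 hu, lam_congr hn hn' h9, recip hn h0, recip hn' h0, cub_congr hd]

end Crest.Agent.R17.RecipA
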