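import Crest.Agent.R17.RecipG4

/-! Quadratic reciprocity in `O` from the evaluation of quadratic Gauss sums. -/

set_option autoImplicit false

noncomputable section

namespace Crest.Agent.R17.RecipB

open Complex
open scoped Real ComplexConjugate

def Q (a n : O) : ℂ := ∑ x ∈ res n, eq (a * x ^ 2) n

theorem Q_one {n : O} (hn : n ≠ 0) : Q 1 n = (Real.sqrt (nr n) : ℂ) * G4 n := by
  simp only [Q, one_mul, sum_sq_eq' hn]

theorem Q_crt {m n : O} (hm : m ≠ 0) (hn : n ≠ 0) (h : IsCoprime m n) :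
    Q 1 (m * n) = Q n m * Q m n := by
  rw [Q, sum_res_crt hm hn h _ fun x y hxy => eq_congr (hxy.trans ⟨x + y, by ring⟩), Q, Q,
    Finset.sum_mul_sum]
  refine Finset.sum_congr rfl fun x _ => Finset.sum_congr rfl fun y _ => ?_
  rw [← eq_crt hm hn]
  exact eq_congr ⟨2 * x * y, by ring⟩

theorem quad_prime {p : O} (hp : Prime p) (h : Primary p) (a : O) : quad p a = quad1 p a := by
  rw [quad, pf_prime hp h, Finset.prod_singleton, vp_self hp, pow_one]

theorem ne_neg_two {p : O} (h : PO p) : p ≠ -2 := by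
  rintro rfl
  exact prime_neg_two.not_isUnit (h.2.isUnit_of_dvd' dvd_rfl ⟨-1, by ring⟩)

theorem field_facts {p : O} (hp : Prime p) (h : PO p) :
    quad p 2 = (ZMod.χ₈ (nm p : ZMod 8) : ℤ) ∧
      ∀ f : O → ℂ, (∀ x y, p ∣ x - y → f x = f y) →
        ∑ x ∈ res p, f (x ^ 2) = ∑ x ∈ res p, (quad p x + 1) * f x := by
  classical
  have hp0 := hp.ne_zero
  have : Fact (p ≠ 0) := ⟨hp0⟩
  have : (Ideal.span {p}).IsMaximal :=
    PrincipalIdealRing.isMaximal_of_irreducible hp.irreducible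
  let : Field (O ⧸ Ideal.span {p}) := Ideal.Quotient.field _
  let : Fintype (O ⧸ Ideal.span {p}) := Fintype.ofFinite _
  have hc : Fintype.card (O ⧸ Ideal.span {p}) = nm p := by
    rw [← Nat.card_eq_fintype_card, card_quot hp0]
  have h6 := (nm_prime_mod_six hp h.1 (ne_neg_two h)).1
  have hF : ringChar (O ⧸ Ideal.span {p}) ≠ 2 := by
    rw [Ne, FiniteField.even_card_iff_char_two, hc]
    omega
  have hq : ∀ a, quad p a =
      (quadraticChar (O ⧸ Ideal.span {p}) (Ideal.Quotient.mk _ a) : ℤ) := by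
    intro a
    rw [quad_prime hp h.1, quad1]
    by_cases ha : p ∣ a
    · rw [if_pos ha, Ideal.Quotient.eq_zero_iff_mem.2 (Ideal.mem_span_singleton.2 ha)]
      simp
    · have ha' : Ideal.Quotient.mk (Ideal.span {p}) a ≠ 0 := fun h0 =>
        ha (Ideal.mem_span_singleton.1 (Ideal.Quotient.eq_zero_iff_mem.1 h0))
      rw [if_neg ha, quadraticChar_eq_pow_of_char_ne_two hF ha', hc,
        show nm p / 2 = (nm p - 1) / 2 by omega, ← map_pow,
        ← map_one (Ideal.Quotient.mk (Ideal.span {p})), Ideal.Quotient.mk_eq_mk_iff_sub_mem,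
        Ideal.mem_span_singleton]
      split_ifs <;> simp
  refine ⟨?_, fun f hf => ?_⟩
  · rw [hq, map_ofNat, quadraticChar_two hF, hc]
  · let g : O ⧸ Ideal.span {p} → ℂ := fun t => f (Quotient.out t)
    have hg : ∀ x, g (Ideal.Quotient.mk _ x) = f x := fun x => hf _ _
      (Ideal.mem_span_singleton.1 ((Ideal.Quotient.mk_eq_mk_iff_sub_mem _ _).1
        (Ideal.Quotient.mk_out _)))
    have h1 := sum_res_eq_quot hp0 fun t => g (t ^ 2)
    have h2 := sum_res_eq_quot hp0 fun t =>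
      (((quadraticChar (O ⧸ Ideal.span {p}) t : ℤ) : ℂ) + 1) * g t
    simp only [← map_pow, hg, ← hq] at h1 h2
    rw [h1, h2, ← Finset.sum_fiberwise Finset.univ (fun t : O ⧸ Ideal.span {p} => t ^ 2)]
    refine Finset.sum_congr rfl fun t _ => ?_
    rw [Finset.sum_congr rfl (g := fun _ => g t) fun x hx => by rw [(Finset.mem_filter.1 hx).2],
      Finset.sum_const, nsmul_eq_mul]
    have h3 := quadraticChar_card_sqrts hF t
    rw [Set.toFinset_ofPred] at h3
    congr 1
    exact_mod_cast h3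

theorem Q_prime {p : O} (hp : Prime p) (h : PO p) {a : O} (ha : IsCoprime a p) :
    Q a p = quad p a * gs 3 p 1 := by
  have h1 := (field_facts hp h).2 (fun x => eq (a * x) p) fun x y hxy =>
    eq_congr (by rw [← mul_sub]; exact hxy.mul_left _)
  have h2 := sum_res_eq_char hp.ne_zero a
  rw [if_neg fun hd => hp.not_isUnit (ha.isUnit_of_dvd' hd dvd_rfl)] at h2
  have h3 := gs_mul_unit 3 h ha 1
  rw [one_mul, sym_pow_three h.1, conj_quad] at h3
  rw [← h3, Q, h1, gs]
  simp only [add_mul, one_mul, Finset.sum_add_distrib, h2, add_zero,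
    sym_pow_add_six h.1 _ three_ne_zero, sym_pow_three h.1]

theorem sqrt_ne {n : O} (hn : n ≠ 0) : (Real.sqrt (nr n) : ℂ) ≠ 0 := by
  exact_mod_cast (Real.sqrt_pos.2 (nr_pos hn)).ne'

theorem sqrt_mul (m n : O) :
    (Real.sqrt (nr (m * n)) : ℂ) = (Real.sqrt (nr m) : ℂ) * (Real.sqrt (nr n) : ℂ) := by
  rw [nr_mul, Real.sqrt_mul (Nat.cast_nonneg _), ofReal_mul]

theorem gs_prime {p : O} (hp : Prime p) (h : PO p) :
    gs 3 p 1 = (Real.sqrt (nr p) : ℂ) * G4 p := by
  rw [← Q_one hp.ne_zero, Q_prime hp h isCoprime_one_left, quad_one_right, one_mul]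

theorem quad_eq_zero {n a : O} (hn : Primary n) (h : ¬ IsCoprime n a) : quad n a = 0 := by
  rw [← sym_pow_three hn, (sym_eq_zero_iff hn).2 h]
  simp

theorem RS_eq {m n : O} (hm : IsCoprime m 2) (hn : IsCoprime n 2) {c : ℂ}
    (h : G4 (m * n) = c * G4 m * G4 n) : RS m n = c := by
  rw [RS, h]
  linear_combination (c * (G4 n * conj (G4 n))) * G4_mul_conj hm + c * G4_mul_conj hn

theorem recip_prime {p q : O} (hp : Prime p) (h : PO p) (hq : Prime q) (h' : PO q) :
    quad p q = RS p q * quad q p := by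
  by_cases hc : IsCoprime p q
  · have h1 := Q_crt hp.ne_zero hq.ne_zero hc
    rw [Q_one (mul_ne_zero hp.ne_zero hq.ne_zero), Q_prime hp h hc.symm, Q_prime hq h' hc,
      gs_prime hp h, gs_prime hq h', sqrt_mul] at h1
    have h2 : G4 (p * q) = quad p q * quad q p * G4 p * G4 q :=
      mul_left_cancel₀ (mul_ne_zero (sqrt_ne hp.ne_zero) (sqrt_ne hq.ne_zero))
        (by rw [h1]; ring)
    rw [RS_eq h.2 h'.2 h2]
    linear_combination (-quad p q) * quad_sq h'.1 hc.symm
  · rw [quad_eq_zero h.1 hc, quad_eq_zero h'.1 fun h0 => hc h0.symm, mul_zero]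

theorem PO_induction {P : O → Prop} (h1 : P 1)
    (hmul : ∀ p n, Prime p → PO p → PO n → P n → P (p * n)) {n : O} (hn : PO n) : P n :=
  Primary.induction (P := fun n => IsCoprime n 2 → P n) (fun _ => h1)
    (fun p n hp hp' hn ih h => hmul p n hp ⟨hp', h.of_mul_left_left⟩ ⟨hn, h.of_mul_left_right⟩
      (ih h.of_mul_left_right)) hn.1 hn.2

theorem recip {m n : O} (hm : PO m) (hn : PO n) : quad m n = RS m n * quad n m := by
  refine PO_induction (P := fun m => quad m n = RS m n * quad n m) ?_ ?_ hm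
  · rw [quad_one_left, RS_one_left hn.2, quad_one_right, one_mul]
  · intro p m hp hp' hm ih
    have h : quad p n = RS p n * quad n p := by
      refine PO_induction (P := fun n => quad p n = RS p n * quad n p) ?_ ?_ hn
      · rw [quad_one_left, RS_comm, RS_one_left hp'.2, quad_one_right, one_mul]
      · intro q n hq hq' hn ih
        rw [quad_mul_right hp', quad_mul_left hq.ne_zero hn.1.ne_zero, ih,
          recip_prime hp hp' hq hq', RS_mul_right hp'.2 hq'.2 hn.2]
        ring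
    rw [quad_mul_left hp.ne_zero hm.1.ne_zero, quad_mul_right hn, ih, h,
      RS_mul_left hp'.2 hm.2 hn.2]
    ring

theorem gam_three {n : O} (hn : PO n) (hs : Squarefree n) : gam 3 n = G4 n := by
  refine PO_induction (P := fun n => Squarefree n → gam 3 n = G4 n) ?_ ?_ hn hs
  · intro _
    rw [gam_one, G4_one]
  · intro p n hp hp' hn ih hs
    have hc : IsCoprime p n := (squarefree_mul_iff.1 hs).1.isCoprime
    have h1 := ih (squarefree_mul_iff.1 hs).2.2
    rw [gam, div_eq_iff (sqrt_ne hn.1.ne_zero)] at h1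
    rw [gam, div_eq_iff (sqrt_ne (hp'.mul hn).1.ne_zero), gs_mul 3 hp' hn hc, h1, gs_prime hp hp',
      sym_pow_three hp'.1, sym_pow_three hn.1, recip hp' hn, sqrt_mul, G4_mul hp'.2 hn.2]
    linear_combination (RS p n * G4 p * G4 n * (Real.sqrt (nr p) : ℂ) * (Real.sqrt (nr n) : ℂ)) *
      quad_sq hn.1 hc.symm

theorem quad_of_prime {c : O} (hc : IsCoprime c 2)
    (h : ∀ p, Prime p → PO p → quad p c = RS c p) {n : O} (hn : PO n) : quad n c = RS c n := by
  refine PO_induction (P := fun n => quad n c = RS c n) ?_ ?_ hn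
  · rw [quad_one_left, RS_comm, RS_one_left hc]
  · intro p n hp hp' hn ih
    rw [quad_mul_left hp.ne_zero hn.1.ne_zero, ih, h p hp hp', RS_mul_right hc hp'.2 hn.2]

theorem quad_neg_one {n : O} (hn : PO n) : quad n (-1) = RS (-1) n := by
  refine quad_of_prime isCoprime_one_left.neg_left (fun p hp h => ?_) hn
  refine (RS_eq isCoprime_one_left.neg_left h.2 ?_).symm
  have h1 : Q (-1) p = conj (Q 1 p) := by
    rw [Q, Q, map_sum]
    exact Finset.sum_congr rfl fun x _ => by rw [← eq_neg, neg_mul]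
  rw [Q_prime hp h isCoprime_one_left.neg_left, Q_one hp.ne_zero, gs_prime hp h, map_mul,
    conj_ofReal] at h1
  rw [neg_one_mul, G4_neg, G4_neg, G4_one, map_one, mul_one]
  exact mul_left_cancel₀ (sqrt_ne hp.ne_zero) (by rw [← h1]; ring)

theorem lam_odd : IsCoprime lam 2 := ⟨1, -om, by decide⟩

theorem quad_lam {n : O} (hn : PO n) : quad n lam = RS lam n := by
  refine quad_of_prime lam_odd (fun p hp h => ?_) hn
  refine (RS_eq lam_odd h.2 ?_).symm
  have hl := prime_lam.ne_zero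
  have hc : IsCoprime lam p := (prime_lam.coprime_iff_not_dvd).2 h.1.not_lam_dvd
  have h1 := Q_crt hl hp.ne_zero hc
  have h2 : Q p lam = Q 1 lam := Finset.sum_congr rfl fun x _ => eq_congr (by
    rw [← sub_mul]
    exact ((show lam ∣ 3 from ⟨-lam, by linear_combination lam_sq⟩).trans h.1).mul_right _)
  rw [h2, Q_one (mul_ne_zero hl hp.ne_zero), Q_one hl, Q_prime hp h hc, gs_prime hp h,
    sqrt_mul] at h1
  exact mul_left_cancel₀ (mul_ne_zero (sqrt_ne hl) (sqrt_ne hp.ne_zero)) (by rw [h1]; ring)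

theorem quad_om {n : O} (hn : PO n) : quad n om = 1 := by
  have h : om = om ^ 2 * om ^ 2 := by linear_combination (-om) * om_cube
  have hu : IsCoprime n (om ^ 2) := ⟨0, om, by linear_combination om_cube⟩
  rw [h, quad_mul_right hn, ← sq, quad_sq hn.1 hu]

theorem quad_two {n : O} (hn : PO n) : quad n 2 = (ZMod.χ₈ (nm n : ZMod 8) : ℤ) := by
  refine PO_induction (P := fun n => quad n 2 = (ZMod.χ₈ (nm n : ZMod 8) : ℤ)) ?_ ?_ hn
  · simp
  · intro p n hp hp' hn ih
    rw [quad_mul_left hp.ne_zero hn.1.ne_zero, ih, (field_facts hp hp').1, nm_mul, Nat.cast_mul,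
      map_mul, Int.cast_mul]

theorem nm_congr {n n' : O} (h : (8 : O) ∣ n - n') : (nm n : ZMod 8) = nm n' := by
  obtain ⟨h1, h2⟩ := (int_dvd_iff 8 _).1 h
  have h3 : (n.re : ZMod 8) = n'.re := (ZMod.intCast_eq_intCast_iff_dvd_sub _ _ 8).2 (by
    simpa using h1.neg_right)
  have h4 : (n.im : ZMod 8) = n'.im := (ZMod.intCast_eq_intCast_iff_dvd_sub _ _ 8).2 (by
    simpa using h2.neg_right)
  rw [← Int.cast_natCast, nm_cast, ← Int.cast_natCast, nm_cast]
  push_cast
  rw [h3, h4]

theorem gen_induction {P : O → Prop} (hmul : ∀ a b, a ≠ 0 → b ≠ 0 → P a → P b → P (a * b))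
    (h1 : P 1) (hneg : P (-1)) (hom : P om) (hlam : P lam)
    (hp : ∀ p, Prime p → Primary p → P p) {a : O} (ha : a ≠ 0) : P a := by
  have hpow : ∀ b, b ≠ 0 → P b → ∀ k : ℕ, P (b ^ k) := fun b hb h k => by
    induction k with
    | zero => simpa using h1
    | succ k ih => rw [pow_succ]; exact hmul _ _ (pow_ne_zero _ hb) hb ih h
  obtain ⟨u, j, hu, h⟩ := exists_eq_unit_lam_primary ha
  have hn : Primary (∏ p ∈ pf a, p ^ vp p a) :=
    Primary.prod fun p hp => ((mem_pf ha).1 hp).2.1.pow _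
  have hl := prime_lam.ne_zero
  have hom0 : om ≠ 0 := by decide
  rw [h]
  refine hmul _ _ (mul_ne_zero hu.ne_zero (pow_ne_zero _ hl)) hn.ne_zero
    (hmul _ _ hu.ne_zero (pow_ne_zero _ hl) ?_ (hpow _ hl hlam _))
    (Primary.induction h1 (fun p n hp' hp'' hn ih =>
      hmul _ _ hp'.ne_zero hn.ne_zero (hp p hp' hp'') ih) hn)
  obtain ⟨k, -, rfl⟩ := isUnit_iff_pow.1 hu
  refine hpow _ (neg_ne_zero.2 hom0) ?_ _
  rw [← neg_one_mul]
  exact hmul _ _ (by simp) hom0 hneg hom

theorem po_or {p : O} (hp : Prime p) (h : Primary p) : p = -2 ∨ PO p := by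
  by_cases h2 : p ∣ 2
  · exact Or.inl (h.eq_of_associated ⟨-1, by ring⟩
      (hp.associated_of_dvd prime_neg_two h2.neg_right))
  · exact Or.inr ⟨h, (hp.coprime_iff_not_dvd).2 h2⟩

theorem quad_neg_two_congr {n n' : O} (hn : PO n) (hn' : PO n') (h : (8 : O) ∣ n - n') :
    quad n (-2) = quad n' (-2) := by
  rw [← neg_one_mul, quad_mul_right hn, quad_mul_right hn', quad_neg_one hn, quad_neg_one hn',
    quad_two hn, quad_two hn', nm_congr h,
    RS_congr (m' := -1) (by simp) ((show (4 : O) ∣ 8 from ⟨2, by norm_num⟩).trans h)]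

theorem quad_po_congr {c n n' : O} (hc : PO c) (hn : PO n) (hn' : PO n') (h : (4 : O) ∣ n - n')
    (h' : c ∣ n - n') : quad n c = quad n' c := by
  rw [recip hn hc, recip hn' hc, RS_congr (n' := c) h (by simp),
    quad_congr ((rad_dvd c).trans h')]

theorem quad_periodic {c n n' : O} (hc : c ≠ 0) (hn : PO n) (hn' : PO n')
    (h : 4 * c ∣ n - n') : quad n c = quad n' c := by
  refine gen_induction (P := fun c => 4 * c ∣ n - n' → quad n c = quad n' c) ?_ ?_ ?_ ?_ ?_ ?_ hc h
  · intro a b _ _ ha hb h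
    rw [quad_mul_right hn, quad_mul_right hn', ha (Dvd.dvd.trans ⟨b, by ring⟩ h),
      hb (Dvd.dvd.trans ⟨a, by ring⟩ h)]
  · intro _
    rw [quad_one_right, quad_one_right]
  · intro h
    rw [quad_neg_one hn, quad_neg_one hn', RS_congr (m' := -1) (by simp) (dvd_of_mul_right_dvd h)]
  · intro _
    rw [quad_om hn, quad_om hn']
  · intro h
    rw [quad_lam hn, quad_lam hn', RS_congr (m' := lam) (by simp) (dvd_of_mul_right_dvd h)]
  · intro p hp hp' h
    rcases po_or hp hp' with rfl | h2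
    · exact quad_neg_two_congr hn hn' (Dvd.dvd.trans ⟨-1, by ring⟩ h)
    · exact quad_po_congr h2 hn hn' (dvd_of_mul_right_dvd h) (dvd_of_mul_left_dvd h)

end Crest.Agent.R17.RecipB
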