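import Crest.Agent.R17.Gauss
import Crest.Agent.R17.RecipAuxA
import Crest.Agent.R17.RecipQuad

/-!
# Row 17, module M2 (part B): reciprocity laws

Cubic reciprocity with its supplements, quadratic reciprocity in `O` (through the evaluation of
quadratic Gauss sums by theta inversion), the sign `Rs` and the class function `Gf`.
-/

set_option autoImplicit false

noncomputable section

namespace Crest.Agent.R17

open scoped ComplexConjugate

/-- Cubic reciprocity. -/
theorem cub_recip {m n : O} (hm : Primary m) (hn : Primary n) : cub m n = cub n m :=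
  RecipA.recip hm hn

/-- Supplements: `(ω/n)₃` and `(λ/n)₃` only depend on `n` modulo `9`. -/
theorem cub_om_congr {n n' : O} (hn : Primary n) (hn' : Primary n') (h : (9 : O) ∣ n - n') :
    cub n om = cub n' om := RecipA.om_congr hn hn' (RecipA.nine_dvd h)
theorem cub_lam_congr {n n' : O} (hn : Primary n) (hn' : Primary n') (h : (9 : O) ∣ n - n') :
    cub n lam = cub n' lam := RecipA.lam_congr hn hn' h

/-- `n ↦ (c/n)₃` is periodic modulo `9c` on primary elements. -/
theorem cub_periodic {c n n' : O} (hc : c ≠ 0) (hn : Primary n) (hn' : Primary n')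
    (h : 9 * c ∣ n - n') : cub n c = cub n' c := RecipA.periodic hc hn hn' h

/-- `n ↦ (c/n)₂` is periodic modulo `4c` on odd primary elements. -/
theorem quad_periodic {c n n' : O} (hc : c ≠ 0) (hn : PO n) (hn' : PO n')
    (h : 4 * c ∣ n - n') : quad n c = quad n' c :=
  RecipB.quad_periodic hc hn hn' h

/-- The quadratic Gauss sum as a function of the class modulo `4`:
`g4 n = (1/2) ∑_{y mod 2} e(-n y² / 4)`. -/
def g4 (n : O) : ℂ := (1 / 2) * ∑ y ∈ res 2, eq (-(n * y ^ 2)) 4

theorem g4_congr {n n' : O} (h : (4 : O) ∣ n - n') : g4 n = g4 n' :=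
  RecipB.G4_congr h
theorem norm_g4 {n : O} (hn : IsCoprime n 2) : ‖g4 n‖ = 1 :=
  RecipB.norm_G4 hn
theorem g4_mul_sq {n y : O} (hy : IsCoprime y 2) : g4 (n * y ^ 2) = g4 n :=
  RecipB.G4_mul_sq hy
theorem g4_one : g4 1 = 1 :=
  RecipB.G4_one
/-- Evaluation of the quadratic Gauss sum. -/
theorem gam_three {n : O} (hn : PO n) (hs : Squarefree n) : gam 3 n = g4 n :=
  RecipB.gam_three hn hs

/-- The reciprocity sign; a function of the classes modulo `4`. -/
def Rs (m n : O) : ℂ := g4 (m * n) * conj (g4 m) * conj (g4 n)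

theorem Rs_congr {m m' n n' : O} (hm : (4 : O) ∣ m - m') (hn : (4 : O) ∣ n - n') :
    Rs m n = Rs m' n' :=
  RecipB.RS_congr hm hn
theorem Rs_comm (m n : O) : Rs m n = Rs n m :=
  RecipB.RS_comm m n
theorem Rs_sq {m n : O} (hm : IsCoprime m 2) (hn : IsCoprime n 2) : Rs m n ^ 2 = 1 :=
  RecipB.RS_sq hm hn
theorem Rs_mul_left {m m' n : O} (hm : IsCoprime m 2) (hm' : IsCoprime m' 2) (hn : IsCoprime n 2) :
    Rs (m * m') n = Rs m n * Rs m' n :=
  RecipB.RS_mul_left hm hm' hn
theorem Rs_one_left {n : O} (hn : IsCoprime n 2) : Rs 1 n = 1 :=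
  RecipB.RS_one_left hn
theorem Rs_self {n : O} (hn : PO n) : Rs n n = sym n (-1) := by
  rw [sym, cub_neg_one, map_one, mul_one, RecipB.quad_neg_one hn]
  exact RecipB.RS_self_eq hn.2
/-- Quadratic reciprocity. -/
theorem quad_recip {m n : O} (hm : PO m) (hn : PO n) : quad m n = Rs m n * quad n m :=
  RecipB.recip hm hn
/-- Sextic reciprocity. -/
theorem sym_recip {m n : O} (hm : PO m) (hn : PO n) : sym m n = Rs m n * sym n m := by
  rw [sym, sym, quad_recip hm hn, cub_recip hm.1 hn.1, mul_assoc]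

theorem RecipB.sym_per {M n n' : O} (h72 : (72 : O) ∣ M) (hn : PO n) (hn' : PO n')
    (h : M ∣ n - n') {a : O} (ha : a ≠ 0) (hp : ∀ p ∈ pf a, p ∣ M) : sym n a = sym n' a := by
  have h4 : (4 : O) ∣ n - n' := ((show (4 : O) ∣ 72 from ⟨18, by norm_num⟩).trans h72).trans h
  have h8 : (8 : O) ∣ n - n' := ((show (8 : O) ∣ 72 from ⟨9, by norm_num⟩).trans h72).trans h
  have h9 : (9 : O) ∣ n - n' := ((show (9 : O) ∣ 72 from ⟨8, by norm_num⟩).trans h72).trans h
  refine RecipB.gen_induction (P := fun a => (∀ p ∈ pf a, p ∣ M) → sym n a = sym n' a)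
    ?_ ?_ ?_ ?_ ?_ ?_ ha hp
  · intro a b ha hb iha ihb hp
    rw [pf_mul ha hb] at hp
    rw [sym_mul_right hn, sym_mul_right hn', iha fun p h => hp p (Finset.mem_union_left _ h),
      ihb fun p h => hp p (Finset.mem_union_right _ h)]
  · intro _
    rw [sym_one_right, sym_one_right]
  · intro _
    rw [← Rs_self hn, ← Rs_self hn', Rs_congr h4 h4]
  · intro _
    rw [sym, sym, RecipB.quad_om hn, RecipB.quad_om hn', cub_om_congr hn.1 hn'.1 h9]
  · intro _
    rw [sym, sym, RecipB.quad_lam hn, RecipB.quad_lam hn', cub_lam_congr hn.1 hn'.1 h9,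
      RecipB.RS_congr (m' := lam) (by simp) h4]
  · intro p hp hp' hM
    have hd : rad p ∣ n - n' :=
      (rad_dvd p).trans ((hM p ((mem_pf hp.ne_zero).2 ⟨hp, hp', dvd_rfl⟩)).trans h)
    rcases RecipB.po_or hp hp' with rfl | h2
    · rw [sym, sym, RecipB.quad_neg_two_congr hn hn' h8, cub_recip hn.1 hp', cub_recip hn'.1 hp',
        cub_congr hd]
    · rw [sym_recip hn h2, sym_recip hn' h2, Rs_congr (n' := p) h4 (by simp), sym_congr hd]

/-- `n ↦ χ_n(a)` is periodic modulo `72 · rad a` on odd primary elements. -/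
theorem sym_periodic {a n n' : O} (ha : a ≠ 0) (hn : PO n) (hn' : PO n')
    (h : 72 * rad a ∣ n - n') : sym n a = sym n' a :=
  RecipB.sym_per (dvd_mul_right _ _) hn hn' h ha fun _ hp =>
    (Finset.dvd_prod_of_mem (fun p => p) hp).mul_left _

/-- If all primes of `s` divide `M` then `n ↦ χ_n(s)` is a character modulo `M`. -/
theorem exists_chr_sym {M s : O} (hM : Adm M) (hs : s ≠ 0) (h : ∀ p ∈ pf s, p ∣ M) :
    ∃ ν : Chr M, ∀ n, Primary n → IsCoprime n M → ev ν n = sym n s := by
  have h72 := hM.2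
  have hM1 : ¬ IsUnit M := fun hu => prime_lam.not_isUnit (isUnit_of_dvd_unit
    ((show lam ∣ 72 from ⟨-24 * lam, by linear_combination 24 * lam_sq⟩).trans h72) hu)
  have h0 : ∀ n, IsCoprime n M → n ≠ 0 := by
    rintro n hn rfl
    exact hM1 (isCoprime_zero_left.1 hn)
  have hu1 : ∀ u n : O, IsUnit u → n ≠ 0 → sym (u * n) s = sym n s := fun u n hu hn => by
    have : pf u = ∅ := by simpa using pf_unit_mul (n := 1) hu
    rw [sym_mul_left hu.ne_zero hn, sym_eq_prod u, this, Finset.prod_empty, one_mul]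
  obtain ⟨ν, hν⟩ := exists_chr (M := M) (fun n => sym n s) (sym_one_left s)
    (fun m n hm hn => sym_mul_left (h0 m hm) (h0 n hn) s) (fun m n hm hmn => by
      have hn : IsCoprime n M := by
        obtain ⟨t, ht⟩ := hmn
        rw [sub_eq_iff_eq_add'.1 ht] at hm
        exact hm.of_add_mul_left_left
      have hl : ¬ lam ∣ m := fun hd => prime_lam.not_isUnit (hm.isUnit_of_dvd' hd
        ((show lam ∣ 72 from ⟨-24 * lam, by linear_combination 24 * lam_sq⟩).trans h72))
      obtain ⟨u, hu, hum⟩ := exists_unit_primary hl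
      have hd : M ∣ u * m - u * n := by
        rw [← mul_sub]
        exact hmn.mul_left _
      have hun : Primary (u * n) := by
        have h3 := ((show (3 : O) ∣ 72 from ⟨24, by norm_num⟩).trans h72).trans hd
        have := dvd_sub hum h3
        rwa [show u * m - 1 - (u * m - u * n) = u * n - 1 by ring] at this
      have hc : ∀ x, IsCoprime x M → IsCoprime (u * x) M := fun x hx =>
        (isCoprime_mul_unit_left_left hu x M).2 hx
      show sym m s = sym n s
      rw [← hu1 u m hu (h0 m hm), ← hu1 u n hu (h0 n hn)]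
      exact RecipB.sym_per h72 (PO.of_adm hM hum (hc m hm)) (PO.of_adm hM hun (hc n hn)) hd hs h)
  exact ⟨ν, fun n _ hn => hν n hn⟩

/-- The class function `G(n) = (2/n)₃ · g4 n` (a function of `n` modulo `4`). -/
def Gf (n : O) : ℂ := cub n 2 * g4 n

theorem Gf_congr {n n' : O} (hn : PO n) (hn' : PO n') (h : (4 : O) ∣ n - n') : Gf n = Gf n' := by
  have h2 : Primary (-2) := ⟨-1, by ring⟩
  have key : ∀ n, Primary n → cub n 2 = cub (-2) n := fun n hn => by
    rw [← cub_recip hn h2, ← neg_one_mul (2 : O), cub_mul_right, cub_neg_one, one_mul]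
  rw [Gf, Gf, g4_congr h, key n hn.1, key n' hn'.1,
    cub_congr (((rad_dvd (-2)).trans ⟨-2, by ring⟩).trans h)]
theorem norm_Gf {n : O} (hn : PO n) : ‖Gf n‖ = 1 := by
  rw [Gf, norm_mul, norm_cub hn.1 hn.2, norm_g4 hn.2, one_mul]
theorem Gf_mul {m n : O} (hm : PO m) (hn : PO n) : Gf (m * n) = Gf m * Gf n * Rs m n := by
  have h : g4 (m * n) = g4 m * g4 n * Rs m n := RecipB.G4_mul hm.2 hn.2
  rw [Gf, Gf, Gf, cub_mul_left hm.1.ne_zero hn.1.ne_zero, h]
  ring
theorem Gf_one : Gf 1 = 1 := by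
  rw [Gf, g4_one, cub_one_left, one_mul]
/-- The conversion of Möbius coefficients into theta coefficients. -/
theorem mu_gam_five {n : O} (hn : PO n) (hs : Squarefree n) :
    mu n * gam 5 n = Gf n * th n := by
  have hth : ∀ n, Primary n → Squarefree n →
      th n = gc n 1 / (Real.sqrt (nr n) : ℂ) * conj (arg n) := fun n hn hs => by
    obtain ⟨h1, h2, h3⟩ := sq1_cu hn hs primary_one
    rw [one_pow, mul_one] at h1 h2 h3
    rw [th, if_pos ⟨hn, h3⟩, h1, h2]
    simp [nr]
  rw [hth n hn.1 hs]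
  refine RecipB.PO_induction (P := fun n => Squarefree n →
    mu n * gam 5 n = Gf n * (gc n 1 / (Real.sqrt (nr n) : ℂ) * conj (arg n))) ?_ ?_ hn hs
  · intro _
    simp [Gf_one, arg]
  · intro p n hp hp' hn ih hs
    have hc : IsCoprime p n := (squarefree_mul_iff.1 hs).1.isCoprime
    have h1 := ih (squarefree_mul_iff.1 hs).2.2
    have h2 := mu_gam_five_prime hp hp'
    have h3 : sym p 4 = cub p 2 := by
      rw [← sym_sq hp'.1, ← sym_pow_right hp']
      norm_num
    rw [h3, gam_three hp' hp.squarefree, ← Gf, gam.eq_1 2, gs_two hp'.1] at h2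
    have h4 : gam 5 (p * n) = sym p n ^ 5 * sym n p ^ 5 * gam 5 p * gam 5 n := by
      rw [gam, gam, gam, gs_mul 5 hp' hn hc, RecipB.sqrt_mul]
      ring
    have h5 : sym p n ^ 5 * sym n p ^ 5 = Rs p n * (cub p n * cub n p) := by
      have hR := Rs_sq hp'.2 hn.2
      have h6 := sym_pow_six hn.1 hc.symm
      rw [← sym_sq hp'.1, ← sym_sq hn.1, sym_recip hp' hn]
      generalize Rs p n = R at *
      generalize sym n p = t at *
      linear_combination (R ^ 5 * t ^ 4) * h6 + (R ^ 3 * t ^ 4) * hR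
    rw [mu_mul hp'.1 hn.1 hc, mu_prime hp hp'.1, h4, h5, Gf_mul hp' hn, gc_mul hp'.1 hn.1 hc,
      arg_mul, map_mul, RecipB.sqrt_mul]
    calc _ = Rs p n * (cub p n * cub n p) * (-gam 5 p) * (mu n * gam 5 n) := by ring
      _ = _ := by rw [h1, h2]; ring

end Crest.Agent.R17
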