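import Crest.Agent.R17.Gauss
import Crest.Agent.R17.RecipLS

/-! The class function `G4` modulo `4` and the reciprocity sign. -/

set_option autoImplicit false

noncomputable section

namespace Crest.Agent.R17.RecipB

open Complex
open scoped Real ComplexConjugate

def G4 (n : O) : ℂ := (1 / 2) * ∑ y ∈ res 2, eq (-(n * y ^ 2)) 4

def RS (m n : O) : ℂ := G4 (m * n) * conj (G4 m) * conj (G4 n)

def Ip (k : ZMod 4) : ℂ := I ^ k.val

theorem Ip_zero : Ip 0 = 1 := by simp [Ip]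

theorem Ip_add (a b : ZMod 4) : Ip (a + b) = Ip a * Ip b := by
  rw [Ip, Ip, Ip, ← pow_add, ZMod.val_add, ← Complex.I_pow_eq_pow_mod]

theorem norm_Ip (a : ZMod 4) : ‖Ip a‖ = 1 := by simp [Ip]

theorem conj_Ip (a : ZMod 4) : conj (Ip a) = Ip (-a) := by
  have h1 : Ip a * conj (Ip a) = 1 := by rw [mul_conj, normSq_eq_norm_sq, norm_Ip]; simp
  have h2 : Ip (-a) * Ip a = 1 := by rw [← Ip_add, neg_add_cancel, Ip_zero]
  rw [← one_mul (conj (Ip a)), ← h2, mul_assoc, h1, mul_one]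

theorem eq4 (x : O) : eq x 4 = Ip (x.im : ZMod 4) := by
  have h := eC_ι_div x 4
  have h4 : ((4 : ℝ) : ℂ) = 4 := by norm_num
  rw [h4] at h
  rw [eq, map_ofNat, h, show 2 * π * I * (x.im : ℂ) / 4 = x.im * (π / 2 * I) by ring,
    Complex.exp_int_mul, Complex.exp_pi_div_two_mul_I, Ip, ← zpow_natCast, ZMod.val_intCast]
  have h1 : I ^ (4 : ℤ) = 1 := by exact_mod_cast Complex.I_pow_four
  conv_lhs => rw [← Int.emod_add_mul_ediv x.im 4, zpow_add₀ I_ne_zero, zpow_mul, h1, one_zpow,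
    mul_one]
  rfl

theorem int_dvd_iff (c : ℤ) (z : O) : (c : O) ∣ z ↔ c ∣ z.re ∧ c ∣ z.im := by
  constructor
  · rintro ⟨w, rfl⟩
    simp
  · rintro ⟨⟨a, ha⟩, ⟨b, hb⟩⟩
    exact ⟨⟨a, b⟩, by ext <;> simp [ha, hb]⟩

theorem two_dvd_iff (z : O) : (2 : O) ∣ z ↔ 2 ∣ z.re ∧ 2 ∣ z.im := int_dvd_iff 2 z

theorem sum_res_two (f : O → ℂ) (hf : ∀ x y, (2 : O) ∣ x - y → f x = f y) :
    ∑ y ∈ res 2, f y = f ⟨0, 0⟩ + f ⟨1, 0⟩ + f ⟨0, 1⟩ + f ⟨1, 1⟩ := by
  rw [sum_res_eq two_ne_zero f hf {⟨0, 0⟩, ⟨1, 0⟩, ⟨0, 1⟩, ⟨1, 1⟩}]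
  · rw [Finset.sum_insert (by decide), Finset.sum_insert (by decide), Finset.sum_insert (by decide),
      Finset.sum_singleton]
    ring
  · intro x
    refine ⟨⟨x.re % 2, x.im % 2⟩, ⟨?_, ?_⟩, ?_⟩
    · rcases Int.emod_two_eq_zero_or_one x.re with h | h <;>
        rcases Int.emod_two_eq_zero_or_one x.im with h' | h' <;> simp [h, h']
    · rw [two_dvd_iff]
      simp only [QuadraticAlgebra.re_sub, QuadraticAlgebra.im_sub]
      omega
    · rintro r ⟨hr, h⟩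
      rw [two_dvd_iff] at h
      simp only [QuadraticAlgebra.re_sub, QuadraticAlgebra.im_sub] at h
      simp only [Finset.mem_insert, Finset.mem_singleton] at hr
      rcases hr with rfl | rfl | rfl | rfl <;> ext <;> simp only at h ⊢ <;> omega

theorem sq_per (n x y : O) (h : (2 : O) ∣ x - y) : eq (-(n * x ^ 2)) 4 = eq (-(n * y ^ 2)) 4 := by
  obtain ⟨t, ht⟩ := h
  exact eq_congr ⟨-(t ^ 2 + t * y) * n, by rw [sub_eq_iff_eq_add.1 ht]; ring⟩

theorem G4_eq (n : O) :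
    G4 n = 1 / 2 * (Ip 0 + Ip (-n.im) + Ip n.re + Ip (n.im - n.re)) := by
  rw [G4, sum_res_two _ (sq_per n)]
  simp only [eq4]
  congr 3
  · congr 2 <;> simp [sq]
  · simp [sq]
  · simp [sq]
    ring

theorem sum_sq_eq' {n : O} (hn : n ≠ 0) :
    ∑ x ∈ res n, eq (x ^ 2) n = (Real.sqrt (nr n) : ℂ) * G4 n := by
  rw [sum_sq_eq hn, G4_eq, sum_res_two]
  · simp only [eq4]
    rw [add_right_comm]
    congr 4
    · congr 2 <;> simp [sq, cj]
    · simp [sq, cj]
    · simp [sq, cj]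
  · intro x y h
    obtain ⟨t, ht⟩ := h
    exact eq_congr ⟨(t ^ 2 + t * y) * cj n, by rw [sub_eq_iff_eq_add.1 ht]; ring⟩

theorem G4_congr {n n' : O} (h : (4 : O) ∣ n - n') : G4 n = G4 n' := by
  unfold G4
  refine congrArg (fun t => 1 / 2 * t) (Finset.sum_congr rfl fun y _ => eq_congr ?_)
  rw [show -(n * y ^ 2) - -(n' * y ^ 2) = (n - n') * (-y ^ 2) by ring]
  exact h.mul_right _

theorem G4_mul_sq {n y : O} (hy : IsCoprime y 2) : G4 (n * y ^ 2) = G4 n := by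
  unfold G4
  rw [← sum_res_affine two_ne_zero _ (sq_per n) hy 0]
  refine congrArg (fun t => 1 / 2 * t) (Finset.sum_congr rfl fun t _ => ?_)
  rw [show n * y ^ 2 * t ^ 2 = n * (y * t + 0) ^ 2 by ring]

theorem G4_neg (n : O) : G4 (-n) = conj (G4 n) := by
  unfold G4
  rw [map_mul, map_sum, show conj (1 / 2 : ℂ) = 1 / 2 by rw [map_div₀, map_one, map_ofNat]]
  refine congrArg (fun t => 1 / 2 * t) (Finset.sum_congr rfl fun t _ => ?_)
  rw [← eq_neg, neg_mul]

def Od (a b : ZMod 4) : Prop := 2 * a ≠ 0 ∨ 2 * b ≠ 0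

instance (a b : ZMod 4) : Decidable (Od a b) := by unfold Od; infer_instance

def tau (a b : ZMod 4) : ZMod 4 :=
  if (a = 1 ∧ b = 2) ∨ (a = 2 ∧ b = 3) ∨ (a = 1 ∧ b = 3) then 1
  else if (a = 3 ∧ b = 2) ∨ (a = 2 ∧ b = 1) ∨ (a = 3 ∧ b = 1) then 3 else 0

def Ig (k : ZMod 4) : GaussianInt := (⟨0, 1⟩ : GaussianInt) ^ k.val

theorem Ip_eq (k : ZMod 4) : Ip k = GaussianInt.toComplex (Ig k) := by
  rw [Ip, Ig, map_pow, GaussianInt.toComplex_def']
  simp

theorem tab0 : ∀ a b : ZMod 4, Od a b → Ig 0 + Ig (-b) + Ig a + Ig (b - a) = 2 * Ig (tau a b) := by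
  decide

def rho (a b c d : ZMod 4) : ZMod 4 :=
  tau (a * c - b * d) (a * d + b * c - b * d) - tau a b - tau c d

theorem tab1 : ∀ a b c d : ZMod 4, Od a b → Od c d → rho a b c d + rho a b c d = 0 := by
  decide +kernel

theorem tab2 : ∀ a b c d e f : ZMod 4, Od a b → Od c d → Od e f →
    rho (a * c - b * d) (a * d + b * c - b * d) e f = rho a b e f + rho c d e f := by
  decide +kernel

theorem od_of {n : O} (hn : IsCoprime n 2) : Od n.re n.im := by
  by_contra h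
  simp only [Od, not_or, not_not] at h
  have h1 := (ZMod.intCast_zmod_eq_zero_iff_dvd (2 * n.re) 4).1 (by exact_mod_cast h.1)
  have h2 := (ZMod.intCast_zmod_eq_zero_iff_dvd (2 * n.im) 4).1 (by exact_mod_cast h.2)
  have h3 : (2 : O) ∣ n := (two_dvd_iff n).2 ⟨by omega, by omega⟩
  exact prime_neg_two.not_isUnit (hn.isUnit_of_dvd' h3 dvd_rfl).neg

theorem G4_odd {n : O} (hn : IsCoprime n 2) : G4 n = Ip (tau n.re n.im) := by
  have h := congrArg GaussianInt.toComplex (tab0 _ _ (od_of hn))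
  simp only [map_add, map_mul, map_ofNat, ← Ip_eq] at h
  rw [G4_eq, h]
  ring

theorem norm_G4 {n : O} (hn : IsCoprime n 2) : ‖G4 n‖ = 1 := by rw [G4_odd hn, norm_Ip]

theorem G4_mul_conj {n : O} (hn : IsCoprime n 2) : G4 n * conj (G4 n) = 1 := by
  rw [mul_conj, normSq_eq_norm_sq, norm_G4 hn]; simp

theorem G4_one : G4 1 = 1 := by
  rw [G4_odd isCoprime_one_left]
  have : tau ((1 : O).re : ZMod 4) ((1 : O).im : ZMod 4) = 0 := by decide
  rw [this, Ip_zero]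

theorem re_mul4 (m n : O) : ((m * n).re : ZMod 4) = m.re * n.re - m.im * n.im := by
  simp; ring

theorem im_mul4 (m n : O) : ((m * n).im : ZMod 4) = m.re * n.im + m.im * n.re - m.im * n.im := by
  simp; ring

theorem RS_odd {m n : O} (hm : IsCoprime m 2) (hn : IsCoprime n 2) :
    RS m n = Ip (rho m.re m.im n.re n.im) := by
  rw [RS, G4_odd hm, G4_odd hn, G4_odd (hm.mul_left hn), conj_Ip, conj_Ip, ← Ip_add, ← Ip_add, rho,
    re_mul4, im_mul4]
  congr 1
  ring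

theorem RS_congr {m m' n n' : O} (hm : (4 : O) ∣ m - m') (hn : (4 : O) ∣ n - n') :
    RS m n = RS m' n' := by
  have h : (4 : O) ∣ m * n - m' * n' := by
    rw [show m * n - m' * n' = (m - m') * n + m' * (n - n') by ring]
    exact (hm.mul_right _).add (hn.mul_left _)
  rw [RS, RS, G4_congr hm, G4_congr hn, G4_congr h]

theorem RS_comm (m n : O) : RS m n = RS n m := by
  rw [RS, RS, mul_comm m n]
  ring

theorem RS_sq {m n : O} (hm : IsCoprime m 2) (hn : IsCoprime n 2) : RS m n ^ 2 = 1 := by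
  rw [RS_odd hm hn, sq, ← Ip_add, tab1 _ _ _ _ (od_of hm) (od_of hn), Ip_zero]

theorem RS_mul_left {m m' n : O} (hm : IsCoprime m 2) (hm' : IsCoprime m' 2) (hn : IsCoprime n 2) :
    RS (m * m') n = RS m n * RS m' n := by
  rw [RS_odd hm hn, RS_odd hm' hn, RS_odd (hm.mul_left hm') hn, re_mul4, im_mul4,
    tab2 _ _ _ _ _ _ (od_of hm) (od_of hm') (od_of hn), Ip_add]

theorem RS_mul_right {m n n' : O} (hm : IsCoprime m 2) (hn : IsCoprime n 2) (hn' : IsCoprime n' 2) :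
    RS m (n * n') = RS m n * RS m n' := by
  rw [RS_comm, RS_mul_left hn hn' hm, RS_comm n, RS_comm n']

theorem RS_one_left {n : O} (hn : IsCoprime n 2) : RS 1 n = 1 := by
  rw [RS, one_mul, G4_one, map_one, mul_one, G4_mul_conj hn]

theorem G4_mul {m n : O} (hm : IsCoprime m 2) (hn : IsCoprime n 2) :
    G4 (m * n) = G4 m * G4 n * RS m n := by
  rw [RS]
  linear_combination (-G4 (m * n) * (G4 n * conj (G4 n))) * G4_mul_conj hm -
    G4 (m * n) * G4_mul_conj hn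

theorem RS_self_eq {n : O} (hn : IsCoprime n 2) : RS n n = RS (-1) n := by
  have h : G4 (n * n) = 1 := by rw [← G4_one, ← G4_mul_sq (n := 1) hn, one_mul, sq]
  rw [RS, RS, h, neg_one_mul, G4_neg, G4_neg, G4_one]
  simp

end Crest.Agent.R17.RecipB
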