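import Crest.Agent.R17.ReflAux

/-!
# Row 17, modules M5/M6 (owner helper42): the reflection formula for completed cubic-theta sums
-/

set_option autoImplicit false

noncomputable section

namespace Crest.Agent.R17

open scoped ComplexConjugate
open MeasureTheory

namespace ReflA

theorem norm_g4_le (n : O) : ‖g4 n‖ ≤ 2 := by
  unfold g4
  have h2 : (2 : O) ≠ 0 := by decide
  have hc : (res 2).card = 4 := by
    rw [card_res h2]; exact nm_natCast 2
  rw [norm_mul]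
  have : ‖∑ y ∈ res 2, eq (-(n * y ^ 2)) 4‖ ≤ 4 := by
    refine (norm_sum_le _ _).trans ?_
    simp [norm_eq, hc]
  have h1 : ‖(1 / 2 : ℂ)‖ = 1 / 2 := by simp
  rw [h1]; linarith

theorem norm_Rs_le (m n : O) : ‖Rs m n‖ ≤ 8 := by
  unfold Rs
  rw [norm_mul, norm_mul, Complex.norm_conj, Complex.norm_conj]
  have a := norm_g4_le (m * n)
  have b := norm_g4_le m
  have c := norm_g4_le n
  calc ‖g4 (m * n)‖ * ‖g4 m‖ * ‖g4 n‖ ≤ 2 * 2 * 2 := by gcongr
    _ = 8 := by norm_num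

/-- Finite Fourier coefficient. -/
def fc (q : O) (f : O → ℂ) (b : O) : ℂ := ((nm q : ℂ))⁻¹ * ft q (fun x => f (-x)) b

theorem fourier {q : O} (hq : q ≠ 0) (f : O → ℂ) (hf : ∀ x y, q ∣ x - y → f x = f y) (x : O) :
    f x = ∑ b ∈ res q, fc q f b * eq (x * b) q := by
  have h := ft_ft hq (fun x => f (-x)) (fun x y h => hf _ _ (by
    have : -x - -y = -(x - y) := by ring
    rw [this]; exact (dvd_neg).2 h)) x
  have hn : (nm q : ℂ) ≠ 0 := by
    have : nm q ≠ 0 := fun h => hq (nm_eq_zero.1 h)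
    exact_mod_cast this
  simp only [neg_neg] at h
  have : f x = (nm q : ℂ)⁻¹ * ft q (ft q fun x => f (-x)) x := by
    rw [h]; field_simp
  rw [this]
  conv_lhs => unfold ft
  rw [Finset.mul_sum]
  refine Finset.sum_congr rfl fun b _ => ?_
  unfold fc ft
  ring

theorem norm_fc_le {q : O} (hq : q ≠ 0) {f : O → ℂ} {B : ℝ} (hf : ∀ x, ‖f x‖ ≤ B) (b : O) :
    ‖fc q f b‖ ≤ B := by
  unfold fc ft
  have hn : (0 : ℝ) < nm q := nr_pos hq
  rw [norm_mul, norm_inv, Complex.norm_natCast]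
  have : ‖∑ x ∈ res q, f (-x) * eq (b * x) q‖ ≤ nm q * B := by
    refine (norm_sum_le _ _).trans ?_
    calc ∑ x ∈ res q, ‖f (-x) * eq (b * x) q‖ ≤ ∑ _x ∈ res q, B :=
          Finset.sum_le_sum fun x _ => by rw [norm_mul, norm_eq, mul_one]; exact hf _
      _ = nm q * B := by rw [Finset.sum_const, card_res hq, nsmul_eq_mul]
  calc ((nm q : ℝ))⁻¹ * ‖∑ x ∈ res q, f (-x) * eq (b * x) q‖ ≤ ((nm q : ℝ))⁻¹ * (nm q * B) := by
        gcongr
    _ = B := by field_simp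

theorem exists_reduced {q : O} (hq : q ≠ 0) (b : O) :
    ∃ g b₀ β₀ : O, g ≠ 0 ∧ b = g * b₀ ∧ q = g * β₀ ∧ IsCoprime b₀ β₀ := by
  classical
  obtain ⟨b₀, hb⟩ := EuclideanDomain.gcd_dvd_left b q
  obtain ⟨β₀, hβ⟩ := EuclideanDomain.gcd_dvd_right b q
  have hg : EuclideanDomain.gcd b q ≠ 0 := fun h => hq (by rw [hβ, h, zero_mul])
  refine ⟨_, b₀, β₀, hg, hb, hβ, EuclideanDomain.gcdA b q, EuclideanDomain.gcdB b q, ?_⟩
  have h := EuclideanDomain.gcd_eq_gcd_ab b q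
  apply mul_left_cancel₀ hg
  set g := EuclideanDomain.gcd b q
  set s := EuclideanDomain.gcdA b q
  set t := EuclideanDomain.gcdB b q
  calc g * (s * b₀ + t * β₀) = (g * b₀) * s + (g * β₀) * t := by ring
    _ = b * s + q * t := by rw [← hb, ← hβ]
    _ = g * 1 := by rw [← h, mul_one]

open Classical in
theorem sum_class {q : O} (hq : q ≠ 0) (x : O) (F : O → ℂ) :
    ∑ c : res q, (if q ∣ x - (c : O) then F c else 0) = F (x % q) := by
  obtain ⟨r, ⟨hr, hxr⟩, huniq⟩ := exists_unique_res hq x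
  have hm : x % q ∈ res q := (mem_res hq).2 (mod_congr hq (by
    have := dvd_sub_mod' x q
    have h2 : x % q - x = -(x - x % q) := by ring
    rw [h2]; exact (dvd_neg).2 this))
  have hx : x % q = r := huniq _ ⟨hm, dvd_sub_mod' x q⟩
  rw [Finset.sum_eq_single ⟨r, hr⟩]
  · rw [if_pos hxr, hx]
  · intro c _ hc
    rw [if_neg]
    intro h
    exact hc (Subtype.ext (huniq _ ⟨c.2, h⟩))
  · simp

open Classical in
/-- The periodic factor modulo `r₀ M`. -/
def Phi (r₀ : O) (φ : O → ℂ) (k x : O) : ℂ :=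
  if h : ∃ n, Primary n ∧ x = r₀ * n then φ h.choose * cub h.choose r₀ * Rs h.choose k else 0

theorem Phi_mul {r₀ : O} (hr : r₀ ≠ 0) (φ : O → ℂ) (k : O) {n : O} (hn : Primary n) :
    Phi r₀ φ k (r₀ * n) = φ n * cub n r₀ * Rs n k := by
  have h : ∃ m, Primary m ∧ r₀ * n = r₀ * m := ⟨n, hn, rfl⟩
  have : h.choose = n := (mul_left_cancel₀ hr h.choose_spec.2).symm
  unfold Phi
  rw [dif_pos h, this]

theorem Phi_of_not {r₀ : O} (φ : O → ℂ) (k : O) {x : O} (h : ¬ ∃ n, Primary n ∧ x = r₀ * n) :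
    Phi r₀ φ k x = 0 := by
  unfold Phi; rw [dif_neg h]

theorem norm_Phi_le (r₀ : O) {φ : O → ℂ} (hφ : ∀ n, ‖φ n‖ ≤ 1) (k x : O) : ‖Phi r₀ φ k x‖ ≤ 8 := by
  unfold Phi
  split_ifs with h
  · rw [norm_mul, norm_mul]
    have a := hφ h.choose
    have b := norm_cub_le h.choose r₀
    have c := norm_Rs_le h.choose k
    calc ‖φ h.choose‖ * ‖cub h.choose r₀‖ * ‖Rs h.choose k‖ ≤ 1 * 1 * 8 := by gcongr
      _ = 8 := by norm_num
  · simp

theorem Phi_congr_k (r₀ : O) (φ : O → ℂ) {k k' : O} (h : (4 : O) ∣ k - k') :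
    Phi r₀ φ k = Phi r₀ φ k' := by
  funext x
  unfold Phi
  split_ifs with h'
  · rw [Rs_congr (show (4 : O) ∣ h'.choose - h'.choose by simp) h]
  · rfl

theorem dvd72 {M d : O} (hM : Adm M) (e : O) (h : d * e = 72) : d ∣ M :=
  (Dvd.intro e h).trans hM.2

theorem Phi_per {M r₀ : O} (hM : Adm M) (hr : r₀ ≠ 0) (hpf : pf r₀ = ∅) {φ : O → ℂ}
    (hφ : PerB M φ) (k x y : O) (h : r₀ * M ∣ x - y) : Phi r₀ φ k x = Phi r₀ φ k y := by
  have key : ∀ x y : O, r₀ * M ∣ x - y → ∀ n, Primary n → x = r₀ * n →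
      ∃ m, Primary m ∧ y = r₀ * m ∧ M ∣ n - m := by
    rintro x y ⟨t, ht⟩ n hn rfl
    refine ⟨n - M * t, ?_, by linear_combination -ht, ⟨t, by ring⟩⟩
    obtain ⟨s, hs⟩ := dvd72 hM (d := 3) 24 (by norm_num)
    obtain ⟨e, he⟩ := hn
    exact ⟨e - s * t, by rw [hs]; linear_combination he⟩
  by_cases hx : ∃ n, Primary n ∧ x = r₀ * n
  · obtain ⟨n, hn, rfl⟩ := hx
    obtain ⟨m, hm, rfl, hnm⟩ := key _ _ h n hn rfl
    rw [Phi_mul hr φ k hn, Phi_mul hr φ k hm, hφ.2.1 n m hnm,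
      cub_congr9 hr hn hm ((dvd72 hM 8 (by norm_num)).trans hnm) (by simp [rad, hpf]),
      Rs_congr ((dvd72 hM 18 (by norm_num)).trans hnm) (show (4 : O) ∣ k - k by simp)]
  · rw [Phi_of_not φ k hx, Phi_of_not φ k]
    rintro ⟨n, hn, hy⟩
    have h' : r₀ * M ∣ y - x := by
      have : y - x = -(x - y) := by ring
      rw [this]; exact (dvd_neg).2 h
    obtain ⟨m, hm, hx', -⟩ := key _ _ h' n hn hy
    exact hx ⟨m, hm, hx'⟩

theorem coprime_r0 {r₀ n : O} (hr : r₀ ≠ 0) (hpf : pf r₀ = ∅) (hn : Primary n) : IsCoprime n r₀ :=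
  isCoprime_of_disjoint_pf hn hr (by simp [hpf])

theorem mul_conj_of_norm {z : ℂ} (h : ‖z‖ = 1) : z * conj z = 1 := by
  rw [Complex.mul_conj, Complex.normSq_eq_norm_sq, h]; simp

open Classical in
/-- Step 1: rewriting the sum in terms of `tauh`. -/
theorem step1 {M r₀ : O} {c : ℂ} (hM : Adm M) (hr : r₀ ≠ 0) (hpf : pf r₀ = ∅) (hc : c ≠ 0)
    (hth : ∀ n, Primary n → tauh (r₀ * n) = c * conj (cub n r₀) * th n) {φ : O → ℂ}
    (hφ : PerB M φ) {h r₁ z : O} (hh : PO h) (h1 : PO r₁) (hz : Primary z) {X : ℝ} (s : ℂ) :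
    (∑' n : O, if z ∣ n then th n * φ n * sym n (r₁ * h) * Wc (nr n / X) s else 0) =
      c⁻¹ * conj (sym r₁ r₀) * conj (sym h r₀) * ∑' x : O, tauh x * Phi r₀ φ (r₁ * h) x *
        (sym r₁ x * sym h x * if z ∣ x then 1 else 0) * Wc (nr x / (X * nr r₀)) s := by
  rw [← tsum_mul_left]
  have hinj : Function.Injective fun n : O => r₀ * n := fun a b hab => mul_left_cancel₀ hr hab
  symm
  rw [← hinj.tsum_eq]
  · refine tsum_congr fun n => ?_
    symm
    by_cases hn : Primary n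
    · have hzr : z ∣ r₀ * n ↔ z ∣ n :=
        ⟨fun h => (coprime_r0 hr hpf hz).dvd_of_dvd_mul_left h, fun h => h.mul_left _⟩
      by_cases hzn : z ∣ n
      · rw [if_pos hzn, if_pos (hzr.2 hzn), Phi_mul hr φ _ hn, hth n hn]
        by_cases hcop : IsCoprime n M
        · have hpo : PO n := PO.of_adm hM hn hcop
          have hW : nr (r₀ * n) / (X * nr r₀) = nr n / X := by
            rw [nr_mul]; have := (nr_pos hr).ne'; field_simp
          rw [hW, sym_recip hpo (h1.mul hh), sym_mul_left h1.1.ne_zero hh.1.ne_zero,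
            sym_mul_right h1, sym_mul_right hh]
          have e1 := mul_conj_of_norm (norm_sym h1.1 (coprime_r0 hr hpf h1.1))
          have e2 := mul_conj_of_norm (norm_sym hh.1 (coprime_r0 hr hpf hh.1))
          have e3 := mul_conj_of_norm (norm_cub hn (coprime_r0 hr hpf hn))
          have e4 : c⁻¹ * c = 1 := inv_mul_cancel₀ hc
          calc th n * φ n * (Rs n (r₁ * h) * (sym r₁ n * sym h n)) * Wc (nr n / X) s
              = (c⁻¹ * c) * (sym r₁ r₀ * conj (sym r₁ r₀)) * (sym h r₀ * conj (sym h r₀)) *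
                (cub n r₀ * conj (cub n r₀)) *
                (th n * φ n * (Rs n (r₁ * h) * (sym r₁ n * sym h n)) * Wc (nr n / X) s) := by
                rw [e1, e2, e3, e4]; ring
            _ = _ := by ring
        · rw [hφ.2.2 n hcop]; simp
      · rw [if_neg hzn, if_neg (fun h => hzn (hzr.1 h))]; simp
    · have h0 : th n = 0 := by unfold th; rw [if_neg (fun h => hn h.1)]
      rw [Phi_of_not φ _ (by
        rintro ⟨m, hm, e⟩
        exact hn ((mul_left_cancel₀ hr e) ▸ hm)), h0]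
      simp
  · intro x hx
    by_contra hx'
    apply hx
    beta_reduce
    rw [Phi_of_not φ _ (by rintro ⟨m, -, e⟩; exact hx' ⟨m, e.symm⟩)]
    simp

theorem summable_tauh {f : O → ℂ} {B : ℝ} (hf : ∀ x, ‖f x‖ ≤ B) {X : ℝ} (hX : 0 < X) (s : ℂ) :
    Summable fun x : O => tauh x * f x * Wc (nr x / X) s := by
  obtain ⟨C, hC⟩ := polyB_tauh
  have hB : 0 ≤ B := (norm_nonneg _).trans (hf 0)
  have : PolyB (fun x => tauh x * f x) (C * B) 1 := by
    refine ⟨by simp [hC.1], fun n => ?_⟩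
    rw [norm_mul]
    calc ‖tauh n‖ * ‖f n‖ ≤ (C * nr n ^ (1 : ℝ)) * B :=
          mul_le_mul (hC.2 n) (hf n) (norm_nonneg _) ((norm_nonneg _).trans (hC.2 n))
      _ = C * B * nr n ^ (1 : ℝ) := by ring
  exact (summable_Sm this hX s).of_norm

theorem norm_ft_le (q : O) {f : O → ℂ} (hf : ∀ x, ‖f x‖ ≤ 1) (k : O) :
    ‖ft q f k‖ ≤ (res q).card := by
  unfold ft
  refine (norm_sum_le _ _).trans ?_
  calc ∑ x ∈ res q, ‖f x * eq (k * x) q‖ ≤ ∑ _x ∈ res q, (1 : ℝ) :=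
        Finset.sum_le_sum fun x _ => by rw [norm_mul, norm_eq, mul_one]; exact hf _
    _ = _ := by simp

theorem IsChr_norm_le {D : O} {ψ : O → ℂ} (h : IsChr D ψ) (x : O) : ‖ψ x‖ ≤ 1 := by
  by_cases hx : IsCoprime x D
  · exact (h.norm x hx).le
  · rw [h.zero x hx]; simp

open Classical in
/-- Step 2: the three finite expansions. -/
theorem step2 {q : O} (hq : q ≠ 0) {Φ : O → ℂ} (hΦ : ∀ x y, q ∣ x - y → Φ x = Φ y)
    {h r₁ z : O} (hh : PO h) (hz : PO z) (hzs : Squarefree z) {coef : O → ℂ}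
    (hcoef : ∀ x, sym h x = ∑ r ∈ pdiv (rad h), coef r * ft r (psiH h r) x) {X : ℝ} (hX : 0 < X)
    (s : ℂ) :
    ∑' x : O, tauh x * Φ x * (sym r₁ x * sym h x * if z ∣ x then 1 else 0) * Wc (nr x / X) s =
      ∑ b ∈ res q, ∑ r ∈ pdiv (rad h), ∑ za ∈ pdiv z,
        fc q Φ b * coef r * (((nr z)⁻¹ : ℝ) : ℂ) * ∑' x : O, tauh x * eq (x * b) q *
          (sym r₁ x * ft r (psiH h r) x * ft za (fun a => sym za a ^ 6) x) * Wc (nr x / X) s := by
  have hsum : ∀ b, ∀ r ∈ pdiv (rad h), ∀ za, Summable fun x : O =>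
      fc q Φ b * coef r * (((nr z)⁻¹ : ℝ) : ℂ) * (tauh x * eq (x * b) q *
          (sym r₁ x * ft r (psiH h r) x * ft za (fun a => sym za a ^ 6) x) * Wc (nr x / X) s) := by
    intro b r hr za
    refine Summable.mul_left _ ?_
    have hr' := (mem_pdiv (primary_rad h).ne_zero).1 hr
    have hrpo : PO r := hh.of_dvd hr'.1 (hr'.2.trans (rad_dvd h))
    have := summable_tauh (f := fun x => eq (x * b) q *
      (sym r₁ x * ft r (psiH h r) x * ft za (fun a => sym za a ^ 6) x))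
      (B := 1 * (1 * (res r).card * (res za).card)) (fun x => by
        rw [norm_mul, norm_mul, norm_mul, norm_eq]
        have a1 := norm_sym_le r₁ x
        have a2 := norm_ft_le r (IsChr_norm_le (isChr_psiH h hrpo)) x
        have a3 := norm_ft_le za (f := fun a => sym za a ^ 6) (fun a => by
          rw [norm_pow]; exact pow_le_one₀ (norm_nonneg _) (norm_sym_le _ _)) x
        gcongr) hX s
    refine this.congr fun x => ?_
    ring
  simp_rw [← tsum_mul_left]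
  have e1 : ∀ b, ∑ r ∈ pdiv (rad h), ∑ za ∈ pdiv z, ∑' x : O,
      fc q Φ b * coef r * (((nr z)⁻¹ : ℝ) : ℂ) * (tauh x * eq (x * b) q *
          (sym r₁ x * ft r (psiH h r) x * ft za (fun a => sym za a ^ 6) x) * Wc (nr x / X) s) =
      ∑' x : O, ∑ r ∈ pdiv (rad h), ∑ za ∈ pdiv z,
      fc q Φ b * coef r * (((nr z)⁻¹ : ℝ) : ℂ) * (tauh x * eq (x * b) q *
          (sym r₁ x * ft r (psiH h r) x * ft za (fun a => sym za a ^ 6) x) * Wc (nr x / X) s) := by
    intro b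
    rw [Summable.tsum_finsetSum (fun r hr => summable_sum fun za _ => hsum b r hr za)]
    refine Finset.sum_congr rfl fun r hr => ?_
    rw [Summable.tsum_finsetSum (fun za _ => hsum b r hr za)]
  simp_rw [e1]
  rw [← Summable.tsum_finsetSum (fun b _ => summable_sum fun r hr => summable_sum fun za _ =>
    hsum b r hr za)]
  refine tsum_congr fun x => ?_
  rw [fourier hq Φ hΦ x, hcoef x, mark_eq_sum hz hzs x]
  simp only [Finset.mul_sum, Finset.sum_mul]
  rw [Finset.sum_comm, Finset.sum_congr rfl (fun r _ => Finset.sum_comm), Finset.sum_comm]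
  refine Finset.sum_congr rfl fun b _ => Finset.sum_congr rfl fun r _ =>
    Finset.sum_congr rfl fun za _ => ?_
  ring

end ReflA

open Classical in
/-- **Reflection.**  `r₁` is the generic (squarefree) part of the dual row, `h` the frozen part
(powerful part and prefix), `z` the mark; `r ∣ rad h` and `za ∣ z` are the active parts. -/
theorem reflection {M : O} (hM : Adm M) :
    ∃ (I : Type) (_ : Fintype I) (C : ℝ) (cI : I → ℝ) (Kr : ℂ → ℂ → ℂ) (V : ℝ → ℂ → ℂ),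
      (∀ i, 0 < cI i) ∧ KernelOK Kr V ∧
      ∀ (φ : O → ℂ), PerB M φ → ∀ h : O, Primary h → IsCoprime h M →
        ∃ (ρ ρ' b : I → O → O → ℂ),
          (∀ i r x, ‖ρ i r x‖ ≤ 1) ∧ (∀ i r x, ‖ρ' i r x‖ ≤ 1) ∧ (∀ i r, DualB C h r (b i r)) ∧
          ∀ r₁ z : O, SP (M * h) r₁ → SP (M * h * r₁) z → ∀ X : ℝ, 0 < X → ∀ s : ℂ,
            (∑' n : O, if z ∣ n then th n * φ n * sym n (r₁ * h) * Wc (nr n / X) s else 0) =
              ∑ i, ∑ r ∈ pdiv (rad h), ∑ za ∈ pdiv z,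
                ρ i r r₁ * ρ' i r za *
                  ((nr z / nr za)⁻¹ * (X / (nr r₁ * nr r * nr za)) * (Real.sqrt (nr za))⁻¹ : ℝ) *
                  ∑' ν : O, b i r ν * quad r₁ ν * sym za ν ^ 4 *
                    V (nr ν * X / (cI i * (nr r₁ * nr r * nr za) ^ 2)) s := by
  obtain ⟨r₀, c, hr₀, hpf, hc, hth⟩ := tauh_eq_th
  obtain ⟨CB, hCB, hB⟩ := Bc_support
  have hq : r₀ * M ≠ 0 := mul_ne_zero hr₀ hM.1
  set q := r₀ * M with hqdef
  choose g b₀ β₀ hg hb hβ hcop using ReflA.exists_reduced hq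
  have hβ0 : ∀ b, β₀ b ≠ 0 := fun b h => hq (by rw [hβ b, h, mul_zero])
  have hβq : ∀ b, β₀ b ∣ q := fun b => ⟨g b, by rw [hβ b]; ring⟩
  have hr0pos := nr_pos hr₀
  refine ⟨res q × res q × res q, inferInstance, ‖c⁻¹‖ * c1 * nr r₀ * 8 * CB,
    fun i => nr (β₀ i.1) ^ 2 / (c2 * nr r₀), Kr0, Vr,
    fun i => div_pos (pow_pos (nr_pos (hβ0 _)) 2) (mul_pos c2_pos hr0pos), kernelOK_Kr0, ?_⟩
  intro φ hφ h hh hhM
  have hhpo : PO h := PO.of_adm hM hh hhM
  obtain ⟨coef, hcoef, hcoefb⟩ := sym_eq_sum hhpo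
  have copq : ∀ n, Primary n → IsCoprime n M → IsCoprime n q := fun n hn hnM =>
    (ReflA.coprime_r0 hr₀ hpf hn).mul_right hnM
  have hrd : ∀ r ∈ pdiv (rad h), PO r ∧ r ∣ h := fun r hr => by
    have hr' := (mem_pdiv (primary_rad h).ne_zero).1 hr
    exact ⟨hhpo.of_dvd hr'.1 (hr'.2.trans (rad_dvd h)), hr'.2.trans (rad_dvd h)⟩
  have hcore : ∀ b r : O, ∃ (ρ ρ' : O → ℂ) (ω : ℂ), (∀ x, ‖ρ x‖ ≤ 1) ∧ (∀ x, ‖ρ' x‖ ≤ 1) ∧
      ‖ω‖ ≤ 1 ∧ (r ∈ pdiv (rad h) → ∀ r₁ za b' : O, PO r₁ → Squarefree r₁ → PO za →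
      Squarefree za → IsCoprime r₁ r →
      IsCoprime r₁ za → IsCoprime r za → IsCoprime r₁ (β₀ b) → IsCoprime za (β₀ b) →
      β₀ b ∣ b' - b₀ b * (r₁ * r * za) ^ 2 → ∀ X : ℝ, 0 < X → ∀ s : ℂ,
      ∑' x : O, tauh x * eq (x * b₀ b) (β₀ b) *
          (sym r₁ x * ft r (psiH h r) x * ft za (fun a => sym za a ^ 6) x) * Wc (nr x / X) s =
        ρ r₁ * ρ' za * ω * ((c1 * X / (nr r₁ * nr r * nr za) * Real.sqrt (nr za) : ℝ) : ℂ) *
          ∑' ν : O, Bc b' (β₀ b) ν * ft r (dualChr r (psiH h r)) (-ν) * quad r₁ ν * sym za ν ^ 4 *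
            Vr (c2 * X / (nr (β₀ b) * (nr r₁ * nr r * nr za)) ^ 2 * nr ν) s) := by
    intro b r
    by_cases hr : r ∈ pdiv (rad h)
    · obtain ⟨hpo, hdvd⟩ := hrd r hr
      have hc' : IsCoprime r (β₀ b) :=
        (copq r hpo.1 (hhM.of_isCoprime_of_dvd_left hdvd)).of_isCoprime_of_dvd_right (hβq b)
      obtain ⟨ρ, ρ', ω, h1, h2, h3, h4⟩ := refl_core (h := h) (hβ0 b) (hcop b) hpo hc'
      exact ⟨ρ, ρ', ω, h1, h2, h3, fun _ => h4⟩
    · exact ⟨0, 0, 0, by simp, by simp, by simp, fun h => absurd h hr⟩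
  choose ρ ρ' ω hρ hρ' hω hcore using hcore
  refine ⟨fun i r x => if q ∣ x - (i.2.1 : O) then conj (sym x r₀) * ρ i.1 r x else 0,
    fun i r x => if q ∣ x - (i.2.2 : O) then ρ' i.1 r x else 0,
    fun i r ν => if r ∈ pdiv (rad h) then
      c⁻¹ * conj (sym h r₀) * ((c1 * nr r₀ : ℝ) : ℂ) *
        ReflA.fc q (ReflA.Phi r₀ φ (i.2.1 * h)) i.1 * ω i.1 r *
        Bc (b₀ i.1 * (i.2.1 * r * i.2.2) ^ 2) (β₀ i.1) ν *
        (coef r * ft r (dualChr r (psiH h r)) (-ν)) else 0, ?_, ?_, ?_, ?_⟩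
  · intro i r x
    beta_reduce
    split_ifs
    · rw [norm_mul, Complex.norm_conj]
      exact mul_le_one₀ (norm_sym_le _ _) (norm_nonneg _) (hρ _ _ _)
    · simp
  · intro i r x
    beta_reduce
    split_ifs
    · exact hρ' _ _ _
    · simp
  · intro i r ν hν
    beta_reduce at hν ⊢
    have hr : r ∈ pdiv (rad h) := by
      by_contra hr; rw [if_neg hr] at hν; exact hν rfl
    rw [if_pos hr] at hν ⊢
    have hBc : Bc (b₀ i.1 * (i.2.1 * r * i.2.2) ^ 2) (β₀ i.1) ν ≠ 0 := by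
      intro h0; rw [h0] at hν; simp at hν
    obtain ⟨u, j, n, d, hu, hn, hns, hd, hνe, hbd⟩ := hB _ _ _ hBc
    refine ⟨u, j, n, d, hu, hn, hns, hd, hνe, ?_⟩
    have a1 : ‖conj (sym h r₀)‖ ≤ 1 := by rw [Complex.norm_conj]; exact norm_sym_le _ _
    have a2 : ‖((c1 * nr r₀ : ℝ) : ℂ)‖ = c1 * nr r₀ := by
      rw [Complex.norm_real, Real.norm_of_nonneg (mul_pos c1_pos hr0pos).le]
    have a3 := ReflA.norm_fc_le hq (ReflA.norm_Phi_le r₀ hφ.1 (i.2.1 * h)) i.1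
    have a4 := hω i.1 r
    have a5 := hcoefb r hr ν
    have hc1 := c1_pos
    rw [norm_mul, norm_mul, norm_mul, norm_mul, norm_mul, norm_mul, a2]
    calc _ ≤ ‖c⁻¹‖ * 1 * (c1 * nr r₀) * 8 * 1 * (CB * (3 : ℝ) ^ ((j : ℝ) / 6) * Real.sqrt (nr d)) *
          ∏ p ∈ (pf r).filter (fun p => vp p h % 6 = 4),
            ((Real.sqrt (nr p))⁻¹ + if p ∣ ν then Real.sqrt (nr p) else 0) := by gcongr
      _ = _ := by ring
  · intro r₁ z h1 hz X hX s
    have h1M : IsCoprime r₁ M := h1.2.2.of_mul_right_left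
    have h1h : IsCoprime r₁ h := h1.2.2.of_mul_right_right
    have hzM : IsCoprime z M := hz.2.2.of_mul_right_left.of_mul_right_left
    have hzh : IsCoprime z h := hz.2.2.of_mul_right_left.of_mul_right_right
    have hz1 : IsCoprime z r₁ := hz.2.2.of_mul_right_right
    have h1po : PO r₁ := PO.of_adm hM h1.1 h1M
    have hzpo : PO z := PO.of_adm hM hz.1 hzM
    have h4q : (4 : O) ∣ q := (ReflA.dvd72 hM 18 (by norm_num)).mul_left _
    rw [ReflA.step1 hM hr₀ hpf hc hth hφ hhpo h1po hz.1,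
      ReflA.step2 hq (ReflA.Phi_per hM hr₀ hpf hφ _) hhpo hzpo hz.2.1 hcoef (mul_pos hX hr0pos),
      Fintype.sum_prod_type, Finset.mul_sum, ← Finset.sum_coe_sort (res q)]
    refine Finset.sum_congr rfl fun b _ => ?_
    conv_rhs => rw [Finset.sum_comm]
    rw [Finset.mul_sum]
    refine Finset.sum_congr rfl fun r hr => ?_
    conv_rhs => rw [Finset.sum_comm]
    rw [Finset.mul_sum]
    refine Finset.sum_congr rfl fun za hza => ?_
    obtain ⟨hrpo, hrh⟩ := hrd r hr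
    have hza' := (mem_pdiv hz.1.ne_zero).1 hza
    have hzapo : PO za := hzpo.of_dvd hza'.1 hza'.2
    have hPhi : ReflA.Phi r₀ φ (r₁ * h) = ReflA.Phi r₀ φ (r₁ % q * h) :=
      ReflA.Phi_congr_k _ _ (by
        have : r₁ * h - r₁ % q * h = (r₁ - r₁ % q) * h := by ring
        rw [this]; exact (h4q.trans (dvd_sub_mod' r₁ q)).mul_right _)
    have heq : ∀ x, eq (x * b) q = eq (x * b₀ b) (β₀ b) := fun x => by
      rw [← eq_mul_mul (hg b) (x * b₀ b) (β₀ b), ← hβ b]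
      congr 1
      conv_lhs => rw [hb b]
      ring
    have hb' : β₀ b ∣ b₀ b * (r₁ % q * r * (za % q)) ^ 2 - b₀ b * (r₁ * r * za) ^ 2 := by
      refine (hβq b).trans ?_
      obtain ⟨t₁, ht₁⟩ := dvd_sub_mod' r₁ q
      obtain ⟨t₂, ht₂⟩ := dvd_sub_mod' za q
      have e1 : r₁ % q = r₁ - q * t₁ := by rw [← ht₁]; ring
      have e2 : za % q = za - q * t₂ := by rw [← ht₂]; ring
      rw [e1, e2]
      exact ⟨b₀ b * r ^ 2 * (-(t₁ * za) - r₁ * t₂ + q * t₁ * t₂) *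
        (2 * r₁ * za + q * (-(t₁ * za) - r₁ * t₂ + q * t₁ * t₂)), by ring⟩
    have hmain := hcore b r hr r₁ za _ h1po h1.2.1 hzapo (hz.2.1.squarefree_of_dvd hza'.2)
      (h1h.of_isCoprime_of_dvd_right hrh) (hz1.of_isCoprime_of_dvd_left hza'.2).symm
      ((hzh.of_isCoprime_of_dvd_left hza'.2).of_isCoprime_of_dvd_right hrh).symm
      ((copq r₁ h1.1 h1M).of_isCoprime_of_dvd_right (hβq b))
      ((copq za hza'.1 (hzM.of_isCoprime_of_dvd_left hza'.2)).of_isCoprime_of_dvd_right (hβq b))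
      hb' (X * nr r₀) (mul_pos hX hr0pos) s
    simp_rw [heq]
    rw [hmain, Fintype.sum_prod_type]
    simp only [if_pos hr]
    have hV : ∀ ν : O, nr ν * X / (nr (β₀ b) ^ 2 / (c2 * nr r₀) * (nr r₁ * nr r * nr za) ^ 2) =
        c2 * (X * nr r₀) / (nr (β₀ b) * (nr r₁ * nr r * nr za)) ^ 2 * nr ν := fun ν => by
      have := c2_pos.ne'
      have := hr0pos.ne'
      field_simp
    simp_rw [hV]
    set F : O → O → ℂ := fun c₁ c₃ => conj (sym r₁ r₀) * ρ b r r₁ * ρ' b r za *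
      (((nr z / nr za)⁻¹ * (X / (nr r₁ * nr r * nr za)) * (Real.sqrt (nr za))⁻¹ : ℝ) : ℂ) *
      ∑' ν : O, c⁻¹ * conj (sym h r₀) * ((c1 * nr r₀ : ℝ) : ℂ) *
        ReflA.fc q (ReflA.Phi r₀ φ (c₁ * h)) b * ω b r *
        Bc (b₀ b * (c₁ * r * c₃) ^ 2) (β₀ b) ν *
        (coef r * ft r (dualChr r (psiH h r)) (-ν)) * quad r₁ ν * sym za ν ^ 4 *
        Vr (c2 * (X * nr r₀) / (nr (β₀ b) * (nr r₁ * nr r * nr za)) ^ 2 * nr ν) s with hF
    have hcol : F (r₁ % q) (za % q) = ∑ c₁ : res q, ∑ c₃ : res q,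
        (if q ∣ r₁ - (c₁ : O) then (if q ∣ za - (c₃ : O) then F c₁ c₃ else 0) else 0) := by
      rw [← ReflA.sum_class hq r₁ (fun c₁ => F c₁ (za % q))]
      refine Finset.sum_congr rfl fun c₁ _ => ?_
      split_ifs
      · rw [ReflA.sum_class hq za (fun c₃ => F c₁ c₃)]
      · simp
    transitivity F (r₁ % q) (za % q)
    · rw [hF, hPhi]
      beta_reduce
      rw [← tsum_mul_left, ← tsum_mul_left, ← tsum_mul_left, ← tsum_mul_left]
      refine tsum_congr fun ν => ?_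
      have hs : (nr z)⁻¹ * (c1 * (X * nr r₀) / (nr r₁ * nr r * nr za) * Real.sqrt (nr za)) =
          ((nr z / nr za)⁻¹ * (X / (nr r₁ * nr r * nr za)) * (Real.sqrt (nr za))⁻¹) *
            (c1 * nr r₀) := by
        have p1 := nr_pos hza'.1.ne_zero
        have p2 := Real.sqrt_pos.2 p1
        have p3 := Real.mul_self_sqrt p1.le
        have p4 := (nr_pos hz.1.ne_zero).ne'
        have p5 := (nr_pos h1.1.ne_zero).ne'
        have p6 := (nr_pos hrpo.1.ne_zero).ne'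
        set t := Real.sqrt (nr za)
        rw [← p3]
        field_simp
      have hs' := congrArg (fun x : ℝ => (x : ℂ)) hs
      simp only [Complex.ofReal_mul (nr z)⁻¹, Complex.ofReal_mul _ (c1 * nr r₀)] at hs'
      linear_combination (c⁻¹ * conj (sym r₁ r₀) * conj (sym h r₀) *
        ReflA.fc q (ReflA.Phi r₀ φ (r₁ % q * h)) b * coef r * ρ b r r₁ * ρ' b r za * ω b r *
        Bc (b₀ b * (r₁ % q * r * (za % q)) ^ 2) (β₀ b) ν * ft r (dualChr r (psiH h r)) (-ν) *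
        quad r₁ ν * sym za ν ^ 4 *
        Vr (c2 * (X * nr r₀) / (nr (β₀ b) * (nr r₁ * nr r * nr za)) ^ 2 * nr ν) s) * hs'
    · rw [hcol]
      refine Finset.sum_congr rfl fun c₁ _ => Finset.sum_congr rfl fun c₃ _ => ?_
      split_ifs <;> simp [hF]

end Crest.Agent.R17
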