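import Crest.Agent.R17.Recip
import Crest.Agent.R17.Weight

/-!
# Row 17: the predicates in the statement of the reflection formula
-/

set_option autoImplicit false

noncomputable section

namespace Crest.Agent.R17

open scoped ComplexConjugate
open MeasureTheory

open Classical in
/-- Size and support of the dual coefficients: `b` is supported on the elements `u λ^j n d³`
(`n` squarefree) and bounded there by `C 3^{j/6} √(N d)` times the Ramanujan factors at the active
primes `p ∣ r` with `v_p(h) ≡ 4 (mod 6)`. -/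
def DualB (C : ℝ) (h r : O) (b : O → ℂ) : Prop :=
  ∀ ν, b ν ≠ 0 → ∃ (u : O) (j : ℕ) (n d : O), IsUnit u ∧ Primary n ∧ Squarefree n ∧ Primary d ∧
    ν = u * lam ^ j * (n * d ^ 3) ∧
    ‖b ν‖ ≤ C * (3 : ℝ) ^ ((j : ℝ) / 6) * Real.sqrt (nr d) *
      ∏ p ∈ (pf r).filter (fun p => vp p h % 6 = 4),
        ((Real.sqrt (nr p))⁻¹ + if p ∣ ν then Real.sqrt (nr p) else 0)

/-- The reflected kernel `V x s` has, on every line `Re t = σ ∈ ℕ`, a Mellin representation whose
density is integrable with polynomial dependence on the twist `s`. -/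
def KernelOK (Kr : ℂ → ℂ → ℂ) (V : ℝ → ℂ → ℂ) : Prop :=
  ∀ (σ : ℕ) (B : ℝ), ∃ (C : ℝ) (J : ℕ), ∀ s : ℂ, |s.re| ≤ B →
    Integrable (fun u : ℝ => Kr (σ + u * Complex.I) s) ∧
    (∫ u : ℝ, ‖Kr (σ + u * Complex.I) s‖) ≤ C * (1 + |s.im|) ^ J ∧
    ∀ x : ℝ, 0 < x →
      V x s = ∫ u : ℝ, Kr (σ + u * Complex.I) s * (x : ℂ) ^ (-((σ : ℂ) + u * Complex.I))

end Crest.Agent.R17
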