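import Crest.Agent.R17.PDefs

/-!
# Row 17, `RowB`, part A: rows multiplied by a sixth power; bounds for the one-variable sums
-/

set_option autoImplicit false

noncomputable section

namespace Crest.Agent.R17.RB

open scoped ComplexConjugate

/-! ## A1: the row `a e⁶` -/

open Classical in
/-- (`rc_mul_row`, `sym_pow_right`, `sym_pow_six`, `sym_eq_zero_iff`.) -/
theorem rc_mul_six {M : O} (hM : Adm M) (ν : Chr M) (a e n : O) :
    rc ν (a * e ^ 6) n = if IsCoprime n e then rc ν a n else 0 := by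
  by_cases h1 : Primary n ∧ IsCoprime n M
  · rw [rc_mul_row hM, sym_pow_right (PO.of_adm hM h1.1 h1.2)]
    split_ifs with h
    · rw [sym_pow_six h1.1 h, map_one, mul_one]
    · rw [(sym_eq_zero_iff h1.1).2 h]
      simp
  · have h0 : ∀ b, rc ν b n = 0 := fun b => by
      by_cases hn : Primary n
      · exact rc_eq_zero ν fun h => h1 ⟨hn, h.of_mul_right_left⟩
      · exact LBA.rc_neg ν b hn
    simp [h0]

theorem not_exc_mul_six {M r e : O} (hr : ¬ Exc M r) (he : e ≠ 0) : ¬ Exc M (r * e ^ 6) := by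
  have hr0 := ne_zero_of_not_exc hr
  refine fun h => hr fun p hp hpM => ?_
  have hp' := (mem_pf hr0).1 hp
  have := h p ((mem_pf (mul_ne_zero hr0 (pow_ne_zero 6 he))).2
    ⟨hp'.1, hp'.2.1, hp'.2.2.mul_right _⟩) hpM
  rw [vp_mul hp'.1 hr0 (pow_ne_zero 6 he), vp_pow hp'.1 he] at this
  omega

theorem cond_mul_six_le (M : O) {r e : O} (hr : r ≠ 0) (he : e ≠ 0) :
    cond M (r * e ^ 6) ≤ ∏ p ∈ pf r, nr p := by
  classical
  unfold cond
  refine Finset.prod_le_prod_of_subset_of_one_le (fun p hp => ?_) (fun _ _ => Nat.cast_nonneg _)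
    fun p hp _ => one_le_nr ((mem_pf hr).1 hp).1.ne_zero
  rw [Finset.mem_filter, mem_pf (mul_ne_zero hr (pow_ne_zero 6 he))] at hp
  obtain ⟨⟨a1, a2, -⟩, -, a4⟩ := hp
  refine (mem_pf hr).2 ⟨a1, a2, by_contra fun h => a4 ?_⟩
  rw [vp_mul a1 hr (pow_ne_zero 6 he), vp_pow a1 he, (vp_eq_zero_iff a1 hr).2 h]
  omega

theorem not_exc_of_RS {M r : O} {B : ℝ} (h : r ∈ RS M B) : ¬ Exc M r := by
  classical
  obtain ⟨-, h1, h2, h3, h4⟩ := Finset.mem_filter.1 h
  intro hE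
  refine h3 (h1.eq_prod.trans (Finset.prod_eq_one fun p hp => ?_))
  have hp' := (mem_pf h1.ne_zero).1 hp
  have a1 := hE p hp fun hd => hp'.1.not_isUnit (h2.isUnit_of_dvd' hp'.2.2 hd)
  have a2 := h4 p hp
  rw [show vp p r = 0 by omega, pow_zero]

open Classical in
theorem A1_Lser_prime {M : O} (hM : Adm M) (ν : Chr M) (a : O) {p : O} (hp : Prime p)
    (hp' : Primary p) {s : ℂ} (hs : 1 < s.re) :
    Lser ν (a * p ^ 6) s = (1 - rc ν a p * (nr p : ℂ) ^ (-s)) * Lser ν a s := by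
  have hc := LBA.cm_term hM ν a hs
  have hf : Summable fun n => rc ν a n * (nr n : ℂ) ^ (-s) := hc.summable.of_norm
  have h1 : ∑' n : O, (if p ∣ n then rc ν a n * (nr n : ℂ) ^ (-s) else 0) =
      rc ν a p * (nr p : ℂ) ^ (-s) * Lser ν a s := by
    rw [← (mul_right_injective₀ hp.ne_zero).tsum_eq
      (f := fun n => if p ∣ n then rc ν a n * (nr n : ℂ) ^ (-s) else 0), Lser, ← tsum_mul_left]
    · refine tsum_congr fun c => (if_pos (dvd_mul_right p c)).trans ?_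
      by_cases hc' : Primary c
      · exact hc.mul p c hp' hc'
      · rw [hc.zero c hc', hc.zero _ fun h => hc' (hp'.of_mul h), mul_zero]
    · intro k hk
      obtain ⟨c, rfl⟩ : p ∣ k := by_contra fun h => hk (if_neg h)
      exact ⟨c, rfl⟩
  have h2 : Summable fun n : O => if p ∣ n then rc ν a n * (nr n : ℂ) ^ (-s) else 0 :=
    hf.indicator {n | p ∣ n}
  rw [sub_mul, one_mul, ← h1, Lser, Lser, ← hf.tsum_sub h2]
  refine tsum_congr fun n => ?_
  rw [rc_mul_six hM]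
  by_cases h : p ∣ n
  · rw [if_neg fun h' => hp.irreducible.coprime_iff_not_dvd.1 h'.symm h, if_pos h]
    simp
  · rw [if_pos (hp.irreducible.coprime_iff_not_dvd.2 h).symm, if_neg h, sub_zero]

theorem A1_Lc_prime {M a : O} (hM : Adm M) (ν : Chr M) (ha : ¬ Exc M a) {p : O} (hp : Prime p)
    (hp' : Primary p) (s : ℂ) :
    Lc ν (a * p ^ 6) s = (1 - rc ν a p * (nr p : ℂ) ^ (-s)) * Lc ν a s := by
  have ha' := not_exc_mul_six ha hp.ne_zero
  have h1 := isL_Lc hM ν (ne_zero_of_not_exc ha)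
  have h2 := isL_Lc hM ν (ne_zero_of_not_exc ha')
  refine LBB.eq_of_eq_right' (L' := fun s => (1 - rc ν a p * (nr p : ℂ) ^ (-s)) * Lc ν a s)
    (h2.2.2 (not_princ_of_not_exc hM ν ha')) (Differentiable.mul ?_
      (h1.2.2 (not_princ_of_not_exc hM ν ha))) (fun s hs => ?_) s
  · exact ((differentiable_neg.const_cpow
      (Or.inl (Complex.ofReal_ne_zero.2 (nr_pos hp.ne_zero).ne'))).const_mul _).const_sub 1
  · rw [h1.2.1 s hs, h2.2.1 s hs, A1_Lser_prime hM ν a hp hp' hs]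

/-- For a primary prime `p`: `Lc ν (a p⁶) s = (1 - rc ν a p N p^{-s}) Lc ν a s` (split `Lser ν a`
according to `p ∣ n`, then `LBB.eq_of_eq_right'`); induct with `Primary.induction`. -/
theorem zf_mul_six {M r e : O} (hM : Adm M) (hr : ¬ Exc M r) (he : Primary e) {σ T : ℝ}
    (hσ : 0 ≤ σ) (h : ZF M r σ T) : ZF M (r * e ^ 6) σ T := by
  refine Primary.induction (P := fun e => ZF M (r * e ^ 6) σ T) (by simpa using h)
    (fun p n hp hp' hn ih ν s hs ht => ?_) he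
  rw [show r * (p * n) ^ 6 = r * n ^ 6 * p ^ 6 by ring,
    A1_Lc_prime hM ν (not_exc_mul_six hr hn.ne_zero) hp hp']
  refine mul_ne_zero (sub_ne_zero.2 fun e => ?_) (ih ν s hs ht)
  have h1 := LBA.norm_term_le hM ν (r * n ^ 6) s p
  have h2 : (2 : ℝ) ≤ nr p := by exact_mod_cast CountAux.two_le_nm hp
  rw [← e, norm_one] at h1
  exact absurd (Real.rpow_lt_one_of_one_lt_of_neg (by linarith) (by linarith)) (not_lt.2 h1)

/-! ## A2: the Möbius sum with the Gaussian factor, and the plain sum -/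

/-- The Möbius sum with the Gaussian factor. -/
def Mb {M : O} (ψ : Chr M) (a : O) (Y D : ℝ) : ℂ :=
  ∑' n : O, mu n * rc ψ a n * (Wc (nr n / D) 0 * (gw (Y * D / nr n) : ℂ))

theorem A2_norm_Sm_le (σ : ℝ) : ∃ C : ℝ, 0 < C ∧ ∀ (b : O → ℂ) (D : ℝ) (s : ℂ), PolyB b 1 0 →
    0 < D → |s.re| ≤ σ → ∑' n : O, ‖b n * Wc (nr n / D) s‖ ≤ C * min D (D ^ 2) := by
  obtain ⟨C, hC, h⟩ := tsum_norm_Sm_le 1 0 σ le_rfl
  refine ⟨C, hC, fun b D s hb hD hs => (h b 1 D s hb hD hs).trans_eq ?_⟩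
  rw [mul_one, zero_add, Real.rpow_one, abs_one, one_add_one_eq_two, Real.rpow_two]

theorem A2_le_mul_rpow {D B θ : ℝ} (hD : 0 < D) (hDB : D ≤ B) (hB : 1 ≤ B) (h0 : 0 ≤ θ)
    (h1 : θ ≤ 1) : D ≤ B * D ^ θ := by
  have e : D = D ^ (1 - θ) * D ^ θ := by
    rw [← Real.rpow_add hD, sub_add_cancel, Real.rpow_one]
  have h2 : D ^ (1 - θ) ≤ B :=
    (Real.rpow_le_rpow hD.le hDB (by linarith)).trans
      (Real.rpow_le_self_of_one_le hB (by linarith))
  calc D = D ^ (1 - θ) * D ^ θ := e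
    _ ≤ _ := mul_le_mul_of_nonneg_right h2 (by positivity)

theorem A2_c_ge : (1 : ℝ) ≤ 2 * Real.pi / Real.sqrt 3 := by
  have h3 : 0 < Real.sqrt 3 := Real.sqrt_pos.2 (by norm_num)
  have h4 : Real.sqrt 3 ≤ 2 := Real.sqrt_le_iff.2 ⟨by norm_num, by norm_num⟩
  rw [le_div_iff₀ h3]
  linarith [Real.pi_gt_three]

/-- Trivial bound (`gw ≤ 1`, `tsum_norm_Sm_le`). -/
theorem Mb_triv {M : O} (hM : Adm M) : ∃ C : ℝ, 0 < C ∧ ∀ (ψ : Chr M) (a : O) (Y D : ℝ),
    0 ≤ Y → 0 < D → ‖Mb ψ a Y D‖ ≤ C * min D (D ^ 2) := by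
  obtain ⟨C, hC, h⟩ := A2_norm_Sm_le 0
  refine ⟨C, hC, fun ψ a Y D hY hD => ?_⟩
  have hb := polyB_mu_rc hM ψ a
  refine (tsum_of_norm_bounded (summable_Sm hb hD 0).hasSum fun n => ?_).trans
    (h _ D 0 hb hD (by simp))
  rw [← mul_assoc, norm_mul]
  refine mul_le_of_le_one_right (norm_nonneg _) ?_
  have h1 : 0 ≤ Y * D / nr n := by positivity
  rw [Complex.norm_real, gw, Real.norm_of_nonneg (Real.exp_pos _).le, Real.exp_le_one_iff]
  nlinarith [A2_c_ge]

open MeasureTheory in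
/-- Mellin representation of the Gaussian factor. -/
theorem A2_rep {b : O → ℂ} (hb : PolyB b 1 0) {Y D η : ℝ} (hY : 0 < Y) (hD : 0 < D)
    (hη : 0 < η) :
    ∑' n : O, b n * (Wc (nr n / D) 0 * (gw (Y * D / nr n) : ℂ)) =
      (1 / (2 * Real.pi) : ℂ) * ∫ u : ℝ, Complex.Gamma (η + u * Complex.I) *
        ((2 * Real.pi / Real.sqrt 3 * Y : ℝ) : ℂ) ^ (-(η + u * Complex.I)) *
          Sm b D (η + u * Complex.I) := by
  have hc : 0 < 2 * Real.pi / Real.sqrt 3 * Y := mul_pos (one_pos.trans_le A2_c_ge) hY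
  generalize hcY : 2 * Real.pi / Real.sqrt 3 * Y = K at hc
  have hK : (K : ℂ) ≠ 0 := Complex.ofReal_ne_zero.2 hc.ne'
  have hW : Integrable fun u : ℝ => ‖Complex.Gamma (η + u * Complex.I)‖ := by
    simpa using integrable_Gamma_mul_pow hη 0
  have hn : ∀ (n : O) (u : ℝ), ‖Complex.Gamma (η + u * Complex.I) *
      (K : ℂ) ^ (-(η + u * Complex.I)) * (b n * Wc (nr n / D) (η + u * Complex.I))‖ =
      K ^ (-η) * ‖b n * Wc (nr n / D) η‖ * ‖Complex.Gamma (η + u * Complex.I)‖ := by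
    intro n u
    rw [norm_mul, norm_mul, norm_mul, norm_mul, Complex.norm_cpow_eq_rpow_re_of_pos hc, norm_Wc,
      norm_Wc]
    simp only [Complex.add_re, Complex.neg_re, Complex.ofReal_re, Complex.mul_re, Complex.I_re,
      Complex.ofReal_im, Complex.I_im, mul_zero, zero_mul, sub_self, add_zero]
    ring
  have hG : Continuous fun u : ℝ => Complex.Gamma (η + u * Complex.I) := by
    refine continuous_iff_continuousAt.2 fun u => ?_
    refine ContinuousAt.comp (f := fun u : ℝ => (η : ℂ) + u * Complex.I)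
      (Complex.differentiableAt_Gamma _ fun m hm => ?_).continuousAt (by fun_prop)
    have := congrArg Complex.re hm
    have hm := Nat.cast_nonneg (α := ℝ) m
    simp at this
    linarith
  have hi : ∀ n : O, Integrable fun u : ℝ => Complex.Gamma (η + u * Complex.I) *
      (K : ℂ) ^ (-(η + u * Complex.I)) * (b n * Wc (nr n / D) (η + u * Complex.I)) := by
    intro n
    refine (hW.const_mul _).mono' (Continuous.aestronglyMeasurable ?_)
      (Filter.Eventually.of_forall fun u => (hn n u).le)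
    refine (hG.mul (Continuous.const_cpow (by fun_prop) (Or.inl hK))).mul
      (continuous_const.mul ?_)
    unfold Wc
    fun_prop
  simp only [Sm, ← tsum_mul_left]
  rw [← integral_tsum_of_summable_integral_norm hi, ← tsum_mul_left]
  · refine tsum_congr fun n => ?_
    by_cases h0 : n = 0
    · simp [h0, hb.1]
    have hy := div_pos (nr_pos h0) hD
    rw [gw_eq_integral (div_pos (mul_pos hY hD) (nr_pos h0)) hη, ← mul_assoc, mul_left_comm,
      ← integral_const_mul]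
    congr 2
    funext u
    have e1 : 2 * Real.pi / Real.sqrt 3 * (Y * D / nr n) = K / (nr n / D) := by
      rw [← hcY, div_div_eq_mul_div]
      ring
    have e2 := Wc_add hy 0 (η + u * Complex.I)
    rw [zero_add] at e2
    rw [e1, e2, Complex.ofReal_div K, Complex.div_cpow_ofReal_nonneg hc.le hy.le,
      Complex.cpow_neg ((nr n / D : ℝ) : ℂ), div_inv_eq_mul]
    ring
  · simp only [hn, integral_const_mul]
    exact ((summable_Sm hb hD η).mul_left _).mul_right _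

/-- The pointwise bound for the integrand. -/
theorem A2_pt {M : O} (hM : Adm M) {ε η : ℝ} (hε : 0 < ε) (hη : 0 < η) (hη1 : η ≤ 1) :
    ∃ C : ℝ, 0 < C ∧ ∀ (ψ : Chr M) (a : O) (B σ D u : ℝ), Real.exp 21 ≤ B → ¬ Exc M a →
      nr a ≤ B ^ 9 → 1 / 2 ≤ σ → σ ≤ 1 → ZF M a σ (Real.log B ^ 2) → 0 < D → D ≤ B →
      ‖Complex.Gamma (η + u * Complex.I)‖ * ‖Mob ψ a D (η + u * Complex.I)‖ ≤
        C * B ^ ε * D ^ σ * Real.exp (-(1 / 2) * |u|) := by
  obtain ⟨C₁, hC₁, h₁⟩ := norm_Gamma_le_exp (σ₀ := η) (σ₁ := η) hη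
  obtain ⟨C₂, hC₂, h₂⟩ := Mob_class hM (ε := ε / 10) (by positivity)
  obtain ⟨C₃, hC₃, h₃⟩ := A2_norm_Sm_le 1
  refine ⟨C₁ * (C₂ * Real.exp 1 + C₃), by positivity,
    fun ψ a B σ D u hB ha haB hσ0 hσ1 hz hD hDB => ?_⟩
  have hB1 : 1 ≤ B := (Real.one_le_exp (by norm_num)).trans hB
  have hB0 : 0 < B := one_pos.trans_le hB1
  have hL : 21 ≤ Real.log B := (Real.le_log_iff_exp_le hB0).2 hB
  have hBε : 1 ≤ B ^ ε := Real.one_le_rpow hB1 hε.le
  have hDσ : 0 < D ^ σ := Real.rpow_pos_of_pos hD σ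
  have hre : ((η : ℂ) + u * Complex.I).re = η := by simp
  have him : ((η : ℂ) + u * Complex.I).im = u := by simp
  have hΓ := h₁ (η + u * Complex.I) hre.ge hre.le
  rw [him] at hΓ
  have hu := abs_nonneg u
  have hb := polyB_mu_rc hM ψ a
  rcases le_total |u| (Real.log B ^ 2 / 2) with h | h
  · have hR : B ^ 2 ≤ B ^ 10 := pow_le_pow_right₀ hB1 (by norm_num)
    have hLB : Real.log B ≤ B := (Real.log_le_sub_one_of_pos hB0).trans (by linarith)
    have he : Real.exp (η / 2) ≤ B := (Real.exp_le_exp.2 (by linarith)).trans hB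
    have h4 := h₂ (B ^ 10) (D * Real.exp (η / 2)) u σ _ ψ a (one_le_pow₀ hB1) ha
      (haB.trans (pow_le_pow_right₀ hB1 (by norm_num))) hσ0 hσ1 hz
      (by rw [Real.log_pow]; push_cast; nlinarith) (by nlinarith) (by positivity)
      ((mul_le_mul hDB he (Real.exp_pos _).le hB0.le).trans (by nlinarith))
    have e1 : (B ^ 10) ^ (ε / 10) = B ^ ε := by
      rw [← Real.rpow_natCast, ← Real.rpow_mul hB0.le]
      congr 1
      push_cast
      ring
    rw [e1, Real.mul_rpow hD.le (Real.exp_pos _).le, ← Real.exp_mul] at h4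
    have h5 := WeightB.norm_Sm_eq (fun n => mu n * rc ψ a n) hb.1 hD (η + u * Complex.I)
    rw [hre, him, ← Mob_eq_Sm, ← Mob_eq_Sm] at h5
    have h6 : Real.exp (η ^ 2 / 4) * Real.exp (η / 2 * σ) ≤ Real.exp 1 := by
      rw [← Real.exp_add]
      exact Real.exp_le_exp.2 (by nlinarith)
    have h7 : ‖Mob ψ a D (η + u * Complex.I)‖ ≤ C₂ * Real.exp 1 * (B ^ ε * D ^ σ) := by
      rw [h5]
      calc _ ≤ Real.exp (η ^ 2 / 4) * (C₂ * B ^ ε * (D ^ σ * Real.exp (η / 2 * σ))) :=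
            mul_le_mul_of_nonneg_left h4 (Real.exp_pos _).le
        _ = C₂ * (Real.exp (η ^ 2 / 4) * Real.exp (η / 2 * σ)) * (B ^ ε * D ^ σ) := by ring
        _ ≤ _ := by gcongr
    have h8 : Real.exp (-|u|) ≤ Real.exp (-(1 / 2) * |u|) := Real.exp_le_exp.2 (by linarith)
    calc _ ≤ C₁ * Real.exp (-(1 / 2) * |u|) * ((C₂ * Real.exp 1 + C₃) * (B ^ ε * D ^ σ)) := by
          refine mul_le_mul (hΓ.trans (mul_le_mul_of_nonneg_left h8 hC₁.le)) (h7.trans ?_)
            (norm_nonneg _) (by positivity)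
          gcongr
          linarith
      _ = _ := by ring
  · have h4 : ‖Mob ψ a D (η + u * Complex.I)‖ ≤ C₃ * (B * D ^ σ) := by
      refine (norm_tsum_le_tsum_norm (summable_Sm hb hD _)).trans
        ((h₃ _ D _ hb hD (by rw [hre, abs_of_pos hη]; exact hη1)).trans ?_)
      exact mul_le_mul_of_nonneg_left ((min_le_left _ _).trans
        (A2_le_mul_rpow hD hDB hB1 (by linarith) hσ1)) hC₃.le
    have h5 : Real.exp (-|u|) * B ≤ Real.exp (-(1 / 2) * |u|) := by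
      nth_rw 1 [← Real.exp_log hB0]
      rw [← Real.exp_add]
      exact Real.exp_le_exp.2 (by nlinarith)
    calc _ ≤ C₁ * Real.exp (-|u|) * (C₃ * (B * D ^ σ)) :=
          mul_le_mul hΓ h4 (norm_nonneg _) (by positivity)
      _ = C₁ * C₃ * 1 * D ^ σ * (Real.exp (-|u|) * B) := by ring
      _ ≤ _ := by
          gcongr
          linarith [mul_pos hC₂ (Real.exp_pos 1)]

open MeasureTheory in
theorem A2_int : Integrable fun u : ℝ => Real.exp (-(1 / 2) * |u|) := by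
  have h : IntegrableOn (fun u : ℝ => Real.exp (-(1 / 2) * u)) (Set.Ioi 0) :=
    exp_neg_integrableOn_Ioi 0 (by norm_num)
  have h1 : IntegrableOn (fun u : ℝ => Real.exp (-(1 / 2) * |u|)) (Set.Ioi 0) :=
    h.congr_fun (fun x hx => by simp only [abs_of_pos (Set.mem_Ioi.1 hx)]) measurableSet_Ioi
  have h2 : IntegrableOn (fun u : ℝ => Real.exp (-(1 / 2) * |u|)) (Set.Iic 0) := by
    rw [← Measure.map_neg_eq_self (volume : Measure ℝ)]
    let m : MeasurableEmbedding fun x : ℝ => -x := (Homeomorph.neg ℝ).measurableEmbedding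
    rw [m.integrableOn_map_iff]
    simp_rw [Function.comp_def, abs_neg, Set.neg_preimage, Set.neg_Iic, neg_zero]
    exact Iff.mpr integrableOn_Ici_iff_integrableOn_Ioi h1
  rw [← integrableOn_univ, ← Set.Iic_union_Ioi (a := (0 : ℝ))]
  exact h2.union h1

/-- `gw_eq_integral` on the line `Re = η` (`η` small): `Mb = (1/2π) ∫ Γ(η+iu) (c Y)^{-η-iu}
Mob ψ a D (η+iu) du`, `c = 2π/√3 ≥ 1`; `WeightB.norm_Sm_eq` moves `η` into the scale.
For `D ≤ 1` or `B ≤ B₀` use `Mb_triv`.  Otherwise `‖Γ(η+iu)‖ ‖Mob‖ ≤ C e^{-|u|/2} B^ε D^σ` for all `u`: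
`Mob_class` with `R = B^{10}` for `|u| ≤ (log B)²/2`, and `norm_Gamma_le_exp` with the trivial bound
`‖Mob‖ ≤ C D ≤ C B`, `e^{-(log B)²/4} B ≤ C` beyond. -/
theorem Mb_le {M : O} (hM : Adm M) {ε : ℝ} (hε : 0 < ε) : ∃ C : ℝ, 0 < C ∧
    ∀ (ψ : Chr M) (a : O) (B σ Y D : ℝ), 1 ≤ B → ¬ Exc M a → nr a ≤ B ^ 9 → 1 / 2 ≤ σ → σ ≤ 1 →
      ZF M a σ (Real.log B ^ 2) → B⁻¹ ≤ Y → 0 < D → D ≤ B →
      ‖Mb ψ a Y D‖ ≤ C * B ^ ε * D ^ σ := by
  obtain ⟨η, hη, hη1, hη2⟩ : ∃ η : ℝ, 0 < η ∧ η ≤ 1 ∧ η ≤ ε / 2 :=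
    ⟨min 1 (ε / 2), lt_min one_pos (by positivity), min_le_left _ _, min_le_right _ _⟩
  obtain ⟨C₁, hC₁, h₁⟩ := A2_pt hM (ε := ε / 2) (by positivity) hη hη1
  obtain ⟨C₂, hC₂, h₂⟩ := Mb_triv hM
  obtain ⟨I, hI⟩ : ∃ I : ℝ, ∫ u : ℝ, Real.exp (-(1 / 2) * |u|) = I := ⟨_, rfl⟩
  have hI0 : 0 ≤ I := hI ▸ MeasureTheory.integral_nonneg fun u => (Real.exp_pos _).le
  refine ⟨‖(1 / (2 * Real.pi) : ℂ)‖ * (C₁ * I) + C₂ * Real.exp 21, by positivity,
    fun ψ a B σ Y D hB ha haB hσ0 hσ1 hz hY hD hDB => ?_⟩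
  have hB0 : 0 < B := one_pos.trans_le hB
  have hY0 : 0 < Y := (inv_pos.2 hB0).trans_le hY
  have hBε : 1 ≤ B ^ ε := Real.one_le_rpow hB hε.le
  have hDσ : 0 < D ^ σ := Real.rpow_pos_of_pos hD σ
  rcases le_total B (Real.exp 21) with h | h
  · have h3 : D ≤ Real.exp 21 * D ^ σ :=
      (A2_le_mul_rpow hD hDB hB (by linarith) hσ1).trans (mul_le_mul_of_nonneg_right h hDσ.le)
    calc _ ≤ C₂ * (Real.exp 21 * D ^ σ) := (h₂ ψ a Y D hY0.le hD).trans
          (mul_le_mul_of_nonneg_left ((min_le_left _ _).trans h3) hC₂.le)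
      _ = C₂ * Real.exp 21 * 1 * D ^ σ := by ring
      _ ≤ _ := by
          gcongr
          exact le_add_of_nonneg_left (by positivity)
  · have hK : B⁻¹ ≤ 2 * Real.pi / Real.sqrt 3 * Y := hY.trans
      (le_mul_of_one_le_left hY0.le A2_c_ge)
    have hK0 := (inv_pos.2 hB0).trans_le hK
    have h3 : (2 * Real.pi / Real.sqrt 3 * Y) ^ (-η) ≤ B ^ (ε / 2) := by
      refine (Real.rpow_le_rpow_of_nonpos (inv_pos.2 hB0) hK (by linarith)).trans ?_
      rw [Real.inv_rpow hB0.le, ← Real.rpow_neg hB0.le, neg_neg]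
      exact Real.rpow_le_rpow_of_exponent_le hB hη2
    have e : B ^ (ε / 2) * B ^ (ε / 2) = B ^ ε := by
      rw [← Real.rpow_add hB0, add_halves]
    rw [Mb, A2_rep (polyB_mu_rc hM ψ a) hY0 hD hη, norm_mul]
    have h4 := MeasureTheory.norm_integral_le_of_norm_le (A2_int.const_mul (C₁ * B ^ ε * D ^ σ))
      (f := fun u : ℝ => Complex.Gamma (η + u * Complex.I) *
        ((2 * Real.pi / Real.sqrt 3 * Y : ℝ) : ℂ) ^ (-(η + u * Complex.I)) *
          Sm (fun n => mu n * rc ψ a n) D (η + u * Complex.I))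
      (Filter.Eventually.of_forall fun u => by
        have h5 := h₁ ψ a B σ D u h ha haB hσ0 hσ1 hz hD hDB
        have h6 : (-((η : ℂ) + u * Complex.I)).re = -η := by simp
        rw [norm_mul, norm_mul, Complex.norm_cpow_eq_rpow_re_of_pos hK0, h6, ← Mob_eq_Sm,
          mul_right_comm]
        calc _ ≤ C₁ * B ^ (ε / 2) * D ^ σ * Real.exp (-(1 / 2) * |u|) * B ^ (ε / 2) :=
              mul_le_mul h5 h3 (by positivity) (by positivity)
          _ = C₁ * (B ^ (ε / 2) * B ^ (ε / 2)) * D ^ σ * Real.exp (-(1 / 2) * |u|) := by ring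
          _ = _ := by rw [e])
    rw [MeasureTheory.integral_const_mul, hI] at h4
    calc _ ≤ ‖(1 / (2 * Real.pi) : ℂ)‖ * (C₁ * B ^ ε * D ^ σ * I) :=
          mul_le_mul_of_nonneg_left h4 (norm_nonneg _)
      _ = ‖(1 / (2 * Real.pi) : ℂ)‖ * (C₁ * I) * B ^ ε * D ^ σ := by ring
      _ ≤ _ := by
          gcongr
          exact le_add_of_nonneg_right (by positivity)

/-- `Pln_class'` with `R = B^9`, `τ = 0` for `B ≥ B₀`; trivial bound for `B ≤ B₀`
(`‖Pln‖ ≤ C N ≤ C B₀ N^{1-σ}`, `one_le_cond`). -/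
theorem Pln_le {M : O} (hM : Adm M) {ε : ℝ} (hε : 0 < ε) : ∃ C : ℝ, 0 < C ∧
    ∀ (ν : Chr M) (a : O) (B σ N : ℝ), 1 ≤ B → ¬ Exc M a → nr a ≤ B ^ 9 → 1 / 2 ≤ σ → σ ≤ 1 →
      ZF M a σ (Real.log B ^ 2) → 0 < N → N ≤ B →
      ‖Pln ν a N 0‖ ≤ C * B ^ ε * N ^ (1 - σ) * cond M a ^ (σ - 1 / 2) := by
  obtain ⟨C₁, hC₁, h₁⟩ := Pln_class' hM (ε := ε / 9) (by positivity)
  obtain ⟨C₂, hC₂, h₂⟩ := A2_norm_Sm_le 0
  refine ⟨C₁ + C₂ * Real.exp 28, by positivity, fun ν a B σ N hB ha haB hσ0 hσ1 hz hN hNB => ?_⟩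
  have hB0 : 0 < B := one_pos.trans_le hB
  have hBε : 1 ≤ B ^ ε := Real.one_le_rpow hB hε.le
  have hNσ : 0 < N ^ (1 - σ) := Real.rpow_pos_of_pos hN _
  have hc : 1 ≤ cond M a ^ (σ - 1 / 2) := Real.one_le_rpow (one_le_cond M a) (by linarith)
  rcases le_total B (Real.exp 28) with h | h
  · have h3 : N ≤ Real.exp 28 * N ^ (1 - σ) :=
      (A2_le_mul_rpow hN hNB hB (by linarith) (by linarith)).trans
        (mul_le_mul_of_nonneg_right h hNσ.le)
    have hb := polyB_rc hM ν a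
    calc _ ≤ C₂ * (Real.exp 28 * N ^ (1 - σ)) :=
          (norm_tsum_le_tsum_norm (summable_Sm hb hN 0)).trans ((h₂ _ N 0 hb hN (by simp)).trans
            (mul_le_mul_of_nonneg_left ((min_le_left _ _).trans h3) hC₂.le))
      _ = C₂ * Real.exp 28 * 1 * N ^ (1 - σ) * 1 := by ring
      _ ≤ _ := by
          gcongr
          exact le_add_of_nonneg_left hC₁.le
  · have hL : 28 ≤ Real.log B := (Real.le_log_iff_exp_le hB0).2 h
    have h4 := h₁ (B ^ 9) N 0 σ _ ν a (one_le_pow₀ hB) ha haB hσ0 hσ1 hz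
      (by rw [Real.log_pow, abs_zero]; push_cast; nlinarith) (by rw [abs_zero]; positivity) hN
      (hNB.trans (le_self_pow₀ hB (by norm_num)))
    have e1 : (B ^ 9) ^ (ε / 9) = B ^ ε := by
      rw [← Real.rpow_natCast, ← Real.rpow_mul hB0.le]
      congr 1
      push_cast
      ring
    rw [e1, abs_zero, add_zero, one_pow, mul_one, Complex.ofReal_zero, zero_mul] at h4
    refine h4.trans ?_
    gcongr
    exact le_add_of_nonneg_right (by positivity)

end Crest.Agent.R17.RB
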