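import Crest.Agent.R17.RowBAuxA

/-!
# Row 17, `RowB`, part C: the sum over the pairs which are prime to the row
-/

set_option autoImplicit false

noncomputable section

namespace Crest.Agent.R17.RB

open scoped ComplexConjugate

open Classical in
/-- The unramified coefficient. -/
def gd {M : O} (ψ : Chr M) (a : O) (v : O × O) : ℂ :=
  if IsCoprime v.1 v.2 then mu v.1 * rc ψ a v.1 * conj (rc (1 : Chr M) a v.2) else 0

/-- The sum over the unramified pairs. -/
def Gd {M : O} (ψ : Chr M) (a : O) (Y D X : ℝ) : ℂ :=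
  ∑' v : O × O, gd ψ a v *
    (Wc (nr v.1 / D) 0 * (gw (Y * D / nr v.1) : ℂ) * Wc (nr v.2 / X) 0)

theorem C1_gd_mul {M : O} (ψ : Chr M) (a : O) {n₁ x₁ n₂ x₂ : O} (h₁ : Primary n₁)
    (h₂ : Primary n₂) (h₃ : Primary x₁) (h₄ : Primary x₂) (h : IsCoprime (n₁ * x₁) (n₂ * x₂)) :
    gd ψ a (n₁ * n₂, x₁ * x₂) = gd ψ a (n₁, x₁) * gd ψ a (n₂, x₂) := by
  simp only [gd]
  by_cases hc : IsCoprime n₁ x₁ ∧ IsCoprime n₂ x₂
  · rw [if_pos hc.1, if_pos hc.2, if_pos ((hc.1.mul_right
      h.of_mul_left_left.of_mul_right_right).mul_left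
        (h.of_mul_left_right.of_mul_right_left.symm.mul_right hc.2)),
      mu_mul h₁ h₂ h.of_mul_left_left.of_mul_right_left, rc_mul ψ a h₁ h₂, rc_mul 1 a h₃ h₄,
      map_mul]
    ring
  · rw [if_neg fun h' => hc ⟨h'.of_mul_left_left.of_mul_right_left,
      h'.of_mul_left_right.of_mul_right_right⟩]
    rcases not_and_or.1 hc with hc | hc <;> rw [if_neg hc] <;> simp

theorem C1_gd_loc {M : O} (ψ : Chr M) (a : O) {p : O} (hp : Prime p) (hp' : Primary p)
    (hpM : ¬ p ∣ M) (i j : ℕ) : gd ψ a (p ^ i, p ^ j) =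
      if i = 0 then sym p a ^ j else if i = 1 ∧ j = 0 then -(ev ψ p * conj (sym p a)) else 0 := by
  simp only [gd]
  by_cases hi : i = 0
  · subst hi
    rw [if_pos rfl, pow_zero, if_pos isCoprime_one_left, mu_one, rc_one, LBA.rc_pos _ _ (hp'.pow j),
      PA.ev_one_chr (hp.coprime_iff_not_dvd.2 hpM).pow_left, sym_pow_left hp.ne_zero]
    simp
  rw [if_neg hi]
  by_cases hj : i = 1 ∧ j = 0
  · obtain ⟨rfl, rfl⟩ := hj
    rw [if_pos (And.intro rfl rfl), pow_zero, pow_one, if_pos isCoprime_one_right, mu_prime hp hp',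
      rc_one, LBA.rc_pos _ _ hp']
    simp
  rw [if_neg hj]
  split_ifs with hc
  · have hj0 : j = 0 := by
      by_contra hj0
      exact hp.not_isUnit (hc.isUnit_of_dvd' (dvd_pow_self p hi) (dvd_pow_self p hj0))
    rw [BasicB.mu_of_not fun hs => hp.not_isUnit (hs p (by
      rw [← sq]; exact pow_dvd_pow p (by omega))), zero_mul, zero_mul]
  · rfl

theorem C1_ind {M : O} (hM : Adm M) (ψ : Chr M) (a : O) (s : Finset O) :
    ∀ n x : O, Primary n → Primary x → IsCoprime (n * x) (M * a) → pf (n * x) ⊆ s →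
      cf ψ a n x = gd ψ a (n, x) := by
  classical
  induction s using Finset.induction_on with
  | empty =>
    intro n x hn hx _ hs
    have h1 := (hn.mul hx).eq_prod
    rw [Finset.subset_empty.1 hs, Finset.prod_empty] at h1
    rw [hn.eq_one_of_isUnit (IsUnit.of_mul_eq_one _ h1),
      hx.eq_one_of_isUnit (IsUnit.of_mul_eq_one_right _ h1), cf_one]
    simp [gd, isCoprime_one_left, mu_one, rc_one]
  | insert p s _ ih =>
    intro n x hn hx h hs
    by_cases hp : p ∈ pf (n * x)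
    swap
    · exact ih n x hn hx h ((Finset.subset_insert_iff_of_notMem hp).1 hs)
    obtain ⟨p1, p2, p3⟩ := BasicB.of_mem_pf hp
    have p4 : ¬ p ∣ M * a := fun h' => p1.not_isUnit (h.isUnit_of_dvd' p3 h')
    obtain ⟨i, n', a1, rfl⟩ := WfDvdMonoid.max_power_factor hn.ne_zero p1.irreducible
    obtain ⟨j, x', a2, rfl⟩ := WfDvdMonoid.max_power_factor hx.ne_zero p1.irreducible
    have hn' := (p2.pow i).of_mul hn
    have hx' := (p2.pow j).of_mul hx
    have a3 : ¬ p ∣ n' * x' := fun h' => (p1.dvd_or_dvd h').elim a1 a2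
    have a4 := p1.coprime_iff_not_dvd.2 a3
    have a5 : n' * x' ∣ p ^ i * n' * (p ^ j * x') :=
      mul_dvd_mul (dvd_mul_left _ _) (dvd_mul_left _ _)
    have a6 := (a4.pow_left (m := i)).mul_left (a4.pow_left (m := j))
    rw [cf_mul hM ψ a (p2.pow i) hn' (p2.pow j) hx' a6,
      C1_gd_mul ψ a (p2.pow i) hn' (p2.pow j) hx' a6,
      cf_unram hM ψ p1 p2 (fun h' => p4 (h'.mul_right a)) (fun h' => p4 (h'.mul_left M)),
      C1_gd_loc ψ a p1 p2 (fun h' => p4 (h'.mul_right a)),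
      ih n' x' hn' hx' (h.of_isCoprime_of_dvd_left a5) fun q hq => ?_]
    obtain ⟨q1, q2, q3⟩ := BasicB.of_mem_pf hq
    refine (Finset.mem_insert.1 (hs ((mem_pf (hn.mul hx).ne_zero).2
      ⟨q1, q2, q3.trans a5⟩))).resolve_left ?_
    rintro rfl
    exact a3 q3

/-- `cf` on the pairs prime to the row (both sides vanish unless `n, x` are primary and prime to
`M`; otherwise induct over the primes of `n x` with `cf_mul`, `cf_unram`). -/
theorem cf_eq_gd {M : O} (hM : Adm M) (ψ : Chr M) {a n x : O} (h : IsCoprime (n * x) a) :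
    cf ψ a n x = gd ψ a (n, x) := by
  by_cases hc : Primary n ∧ IsCoprime n M ∧ Primary x ∧ IsCoprime x M
  · exact C1_ind hM ψ a _ n x hc.1 hc.2.2.1 ((hc.2.1.mul_left hc.2.2.2).mul_right h) le_rfl
  · have h0 : ∀ (ν : Chr M) (m : O), rc ν a m ≠ 0 → Primary m ∧ IsCoprime m M := fun ν m hm =>
      ⟨by_contra fun h' => hm (LBA.rc_neg ν a h'),
        by_contra fun h' => hm (rc_eq_zero ν fun h'' => h' h''.of_mul_right_left)⟩
    rw [show cf ψ a n x = 0 from by_contra fun h' => hc (cf_support ψ h')]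
    symm
    by_contra h'
    simp only [gd] at h'
    split_ifs at h'
    · have h1 := h0 _ _ (right_ne_zero_of_mul (left_ne_zero_of_mul h'))
      have h2 := h0 _ _ ((map_ne_zero _).1 (right_ne_zero_of_mul h'))
      exact hc ⟨h1.1, h1.2, h2⟩
    · exact h' rfl

theorem C1_tsum_dvd {e : O} (he : e ≠ 0) (F : O → ℂ) [DecidablePred (e ∣ ·)] :
    ∑' m : O, (if e ∣ m then F m else 0) = ∑' m : O, F (e * m) := by
  rw [← (mul_right_injective₀ he).tsum_eq (f := fun k => if e ∣ k then F k else 0)]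
  · exact tsum_congr fun c => if_pos (dvd_mul_right e c)
  · intro k hk
    obtain ⟨c, rfl⟩ : e ∣ k := by_contra fun h => hk (if_neg h)
    exact ⟨c, rfl⟩

open Classical in
theorem C1_sieve {A B : O → ℂ} (hA : Summable fun n => nr n * ‖A n‖) (hB : Summable fun n => ‖B n‖)
    (hA0 : ∀ n, ¬ Primary n → A n = 0) (hB0 : B 0 = 0) :
    ∑' v : O × O, (if IsCoprime v.1 v.2 then A v.1 * B v.2 else 0) =
      ∑' d : O, if Primary d then mu d * ((∑' n, A (d * n)) * ∑' x, B (d * x)) else 0 := by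
  set f : O × O → O → ℂ := fun v d =>
    if Primary d ∧ d ∣ v.1 ∧ d ∣ v.2 then mu d * (A v.1 * B v.2) else 0 with hf
  have f0 : ∀ v, ∀ d ∉ pdiv v.1, f v d = 0 := fun v d hd => by
    simp only [hf]
    split_ifs with h
    · rw [hA0 v.1 fun h' => hd ((mem_pdiv h'.ne_zero).2 ⟨h.1, h.2.1⟩), zero_mul, mul_zero]
    · rfl
  have hA' : Summable fun n => ‖A n‖ := hA.of_nonneg_of_le (fun _ => norm_nonneg _) fun n => by
    by_cases hn : Primary n
    · exact le_mul_of_one_le_left (norm_nonneg _) (one_le_nr hn.ne_zero)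
    · rw [hA0 n hn, norm_zero, mul_zero]
  have hs : Summable (Function.uncurry f) := by
    refine Summable.of_norm ((summable_prod_of_nonneg fun _ => norm_nonneg _).2
      ⟨fun v => summable_of_ne_finset_zero (s := pdiv v.1) fun d hd => norm_eq_zero.2 (f0 v d hd),
        ?_⟩)
    refine Summable.of_nonneg_of_le (fun _ => tsum_nonneg fun _ => norm_nonneg _) (fun v => ?_)
      ((hA.mul_of_nonneg hB (fun _ => by positivity) fun _ => norm_nonneg _).mul_left 8)
    refine (tsum_eq_sum (s := pdiv v.1) fun d hd => norm_eq_zero.2 (f0 v d hd)).trans_le ?_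
    refine (Finset.sum_le_card_nsmul _ _ (‖A v.1‖ * ‖B v.2‖) fun d _ => ?_).trans ?_
    · simp only [hf]
      split_ifs
      · rw [norm_mul, norm_mul]
        exact mul_le_of_le_one_left (by positivity) (norm_mu_le d)
      · rw [norm_zero]; positivity
    · by_cases hn : Primary v.1
      · have h1 : ((pdiv v.1).card : ℝ) ≤ 7 * nr v.1 + 1 := by
          exact_mod_cast (Finset.card_filter_le _ _).trans (card_ball_le (nm v.1))
        have h2 := one_le_nr hn.ne_zero
        rw [nsmul_eq_mul, mul_assoc, ← mul_assoc 8]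
        exact mul_le_mul_of_nonneg_right (by linarith) (by positivity)
      · simp [hA0 _ hn]
  calc _ = ∑' v, ∑' d, f v d := tsum_congr fun v => ?_
    _ = ∑' d, ∑' v, f v d := hs.tsum_comm.symm
    _ = _ := tsum_congr fun d => ?_
  · rw [tsum_eq_sum (f0 v)]
    by_cases hn : Primary v.1
    swap
    · simp [hf, hA0 _ hn]
    by_cases hx : v.2 = 0
    · simp [hf, hx, hB0]
    rw [← boole_mul, ← sum_mu_coprime hn hx, Finset.sum_filter, Finset.sum_mul]
    refine Finset.sum_congr rfl fun d hd => ?_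
    obtain ⟨h1, h2⟩ := (mem_pdiv hn.ne_zero).1 hd
    simp [hf, h1, h2]
  · split_ifs with hd
    · rw [← C1_tsum_dvd hd.ne_zero, ← C1_tsum_dvd hd.ne_zero, tsum_mul_tsum_of_summable_norm,
        ← tsum_mul_left]
      · refine tsum_congr fun v => ?_
        by_cases h1 : d ∣ v.1 <;> by_cases h2 : d ∣ v.2 <;> simp [hf, hd, h1, h2]
      · exact hA'.of_nonneg_of_le (fun _ => norm_nonneg _) fun n => by split_ifs <;> simp
      · exact hB.of_nonneg_of_le (fun _ => norm_nonneg _) fun n => by split_ifs <;> simp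
    · simp [hf, hd]

theorem C1_mu_rc {M : O} (hM : Adm M) (ψ : Chr M) (a : O) {d : O} (hd : Primary d) (n : O) :
    mu (d * n) * rc ψ a (d * n) = mu d * rc ψ a d * (mu n * rc ψ (a * d ^ 6) n) := by
  rw [LBA.rc_mul' ψ a hd, rc_mul_six hM]
  split_ifs with h
  · by_cases hn : Primary n
    · rw [mu_mul hd hn h.symm]; ring
    · simp [LBA.rc_neg ψ a hn]
  · simp [mu_mul_of_not_coprime fun h' : IsCoprime d n => h h'.symm]

open Classical in
/-- Remove the coprimality condition: `1_{(n,x)=1} = ∑_{d ∣ n, d ∣ x} μ(d)` (`sum_mu_coprime`),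
`n = d n'`, `x = d x'`, `μ(d n') rc ψ a (d n') = μ(d) rc ψ a d · μ(n') rc ψ (a d⁶) n'`
(`mu_mul`, `mu_mul_of_not_coprime`, `rc_mul_six`), `conj_Wc`.  Everything converges absolutely:
`card (pdiv n) ≤ 7 N n + 1`, `summable_Sm`. -/
theorem Gd_eq {M : O} (hM : Adm M) (ψ : Chr M) (a : O) {Y D X : ℝ} (hY : 0 ≤ Y) (hD : 0 < D)
    (hX : 0 < X) : Gd ψ a Y D X =
      ∑' d : O, (mu d * mu d * rc ψ a d * conj (rc (1 : Chr M) a d)) *
        (Mb ψ (a * d ^ 6) Y (D / nr d) * conj (Pln (1 : Chr M) a (X / nr d) 0)) := by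
  have h := C1_sieve
    (A := fun n => mu n * rc ψ a n * (Wc (nr n / D) 0 * (gw (Y * D / nr n) : ℂ)))
    (B := fun x => conj (rc (1 : Chr M) a x) * Wc (nr x / X) 0) ?_ ?_
    (fun n hn => by simp [LBA.rc_neg ψ a hn]) (by simp [rc_zero])
  · refine Eq.trans (tsum_congr fun v => ?_) (h.trans (tsum_congr fun d => ?_))
    · unfold gd
      split_ifs
      · ring
      · rw [zero_mul]
    · split_ifs with hd
      · have e1 : ∀ (n : O) (Z : ℝ), nr (d * n) / Z = nr n / (Z / nr d) := fun n Z => by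
          rw [nr_mul, div_div_eq_mul_div, mul_comm]
        have e2 : ∀ n : O, Y * D / nr (d * n) = Y * (D / nr d) / nr n := fun n => by
          rw [nr_mul, ← mul_div_assoc, div_div]
        simp only [C1_mu_rc hM ψ a hd, LBA.rc_mul' 1 a hd, e1, e2, Mb, Pln, map_mul,
          Complex.conj_tsum, conj_Wc, map_zero, mul_assoc, tsum_mul_left]
        ring
      · simp [LBA.rc_neg ψ a hd]
  · refine (summable_Sm (b := fun n => (nr n : ℂ) * (mu n * rc ψ a n)) (H := 1) (B := 1)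
      ⟨by simp [rc_zero], fun n => ?_⟩ hD 0).of_nonneg_of_le (fun _ => by positivity) fun n => ?_
    · have := (polyB_mu_rc hM ψ a).2 n
      rw [Real.rpow_zero, mul_one] at this
      rw [norm_mul, Complex.norm_real, Real.norm_of_nonneg (by positivity), Real.rpow_one, one_mul]
      exact mul_le_of_le_one_right (by positivity) this
    · have h1 : gw (Y * D / nr n) ≤ 1 := gw_le_one (by positivity)
      rw [← mul_assoc, norm_mul, mul_assoc (nr n : ℂ), norm_mul (nr n : ℂ), Complex.norm_real,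
        Complex.norm_real, Real.norm_of_nonneg (gw_pos _).le, Real.norm_of_nonneg (by positivity)]
      exact mul_le_mul_of_nonneg_left (mul_le_of_le_one_right (norm_nonneg _) h1) (by positivity)
  · exact summable_Sm (b := fun x => conj (rc (1 : Chr M) a x)) (H := 1) (B := 0)
      ⟨by simp [rc_zero], fun n => by simpa using norm_rc_le hM 1 a n⟩ hX 0

/-- In `Gd_eq` only primary `d` contribute.  With `η = min ε 1 / 3`:
`‖Mb ψ (a d⁶) Y (D/N d)‖ ≤ C B^{2η} D^σ N d^{-σ-η}` (if `D/N d ≥ 1`: `N d ≤ B`, `Mb_le`, `zf_mul_six`;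
if `D/N d ≤ 1`: `Mb_triv`, `(D/N d)² ≤ (D/N d)^{σ+η}`), `Pln_le`, `cond_mul_six_le`,
`summable_nr_rpow` with exponent `1 + η`. -/
theorem Gd_le {M : O} (hM : Adm M) {ε : ℝ} (hε : 0 < ε) : ∃ C : ℝ, 0 < C ∧
    ∀ (ψ : Chr M) (r e : O) (B σ Y D X : ℝ), 1 ≤ B → ¬ Exc M r → Primary e →
      nr (r * e ^ 6) ≤ B ^ 3 → 1 / 2 ≤ σ → σ ≤ 1 → ZF M r σ (Real.log B ^ 2) → B⁻¹ ≤ Y →
      0 < D → D ≤ B → 0 < X → X ≤ B →
      ‖Gd ψ (r * e ^ 6) Y D X‖ ≤
        C * B ^ ε * D ^ σ * X ^ (1 - σ) * (∏ p ∈ pf r, nr p) ^ (σ - 1 / 2) := by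
  obtain ⟨η, hη0, hη1, hη2⟩ : ∃ η : ℝ, 0 < η ∧ η ≤ 1 / 3 ∧ 3 * η ≤ ε :=
    ⟨min ε 1 / 3, by positivity, by linarith [min_le_right ε 1], by linarith [min_le_left ε 1]⟩
  obtain ⟨C₁, hC₁, H₁⟩ := Mb_le hM hη0
  obtain ⟨C₂, hC₂, H₂⟩ := Mb_triv hM
  obtain ⟨C₃, hC₃, H₃⟩ := Pln_le hM hη0
  have hs := summable_nr_rpow (σ := 1 + η) (by linarith)
  have hS : 0 ≤ ∑' n : O, nr n ^ (-(1 + η)) := tsum_nonneg fun _ => by positivity
  have hs' := hs.hasSum
  generalize ∑' n : O, nr n ^ (-(1 + η)) = S at hS hs'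
  refine ⟨(C₁ + C₂) * C₃ * (1 + S), by positivity,
    fun ψ r e B σ Y D X hB hr he hre hσ hσ1 hZ hY hD hDB hX hXB => ?_⟩
  have hB0 : 0 < B := one_pos.trans_le hB
  have hY0 : 0 ≤ Y := (inv_pos.2 hB0).le.trans hY
  have hr0 : r ≠ 0 := by
    rintro rfl
    exact hr fun p hp => by simp at hp
  have hP : 0 ≤ ∏ p ∈ pf r, nr p := Finset.prod_nonneg fun _ _ => Nat.cast_nonneg _
  have hBη : 1 ≤ B ^ η := Real.one_le_rpow hB hη0.le
  obtain ⟨Q, hQ⟩ : ∃ Q, Q = (∏ p ∈ pf r, nr p) ^ (σ - 1 / 2) := ⟨_, rfl⟩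
  have hQ0 : 0 ≤ Q := hQ ▸ Real.rpow_nonneg hP _
  rw [← hQ]
  obtain ⟨K, hK⟩ : ∃ K, K = (C₁ + C₂) * C₃ * (B ^ η * B ^ η * B ^ η) * D ^ σ * X ^ (1 - σ) * Q :=
    ⟨_, rfl⟩
  have hK0 : 0 ≤ K := by rw [hK]; positivity
  have key : ∀ d : O, ‖(mu d * mu d * rc ψ (r * e ^ 6) d * conj (rc (1 : Chr M) (r * e ^ 6) d)) *
      (Mb ψ (r * e ^ 6 * d ^ 6) Y (D / nr d) * conj (Pln (1 : Chr M) (r * e ^ 6) (X / nr d) 0))‖ ≤
      K * nr d ^ (-(1 + η)) := fun d => by
    by_cases hd : Primary d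
    swap
    · rw [LBA.rc_neg ψ _ hd, mul_zero, zero_mul, zero_mul, norm_zero]
      positivity
    have hn1 := one_le_nr hd.ne_zero
    have hn := nr_pos hd.ne_zero
    have h1 : ‖mu d * mu d * rc ψ (r * e ^ 6) d * conj (rc (1 : Chr M) (r * e ^ 6) d)‖ ≤ 1 := by
      rw [norm_mul, norm_mul, norm_mul, Complex.norm_conj]
      exact mul_le_one₀ (mul_le_one₀ (mul_le_one₀ (norm_mu_le d) (norm_nonneg _) (norm_mu_le d))
        (norm_nonneg _) (norm_rc_le hM _ _ _)) (norm_nonneg _) (norm_rc_le hM _ _ _)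
    have h2 : ‖Mb ψ (r * e ^ 6 * d ^ 6) Y (D / nr d)‖ ≤
        (C₁ + C₂) * (B ^ η * B ^ η) * D ^ σ * (nr d ^ (-σ) * nr d ^ (-η)) := by
      have e1 : (D / nr d) ^ σ = D ^ σ * nr d ^ (-σ) := by
        rw [Real.div_rpow hD.le hn.le, Real.rpow_neg hn.le, div_eq_mul_inv]
      rcases le_total (nr d) D with h | h
      · have hed := he.mul hd
        have e2 : r * e ^ 6 * d ^ 6 = r * (e * d) ^ 6 := by ring
        have h3 : nr (r * e ^ 6 * d ^ 6) ≤ B ^ 9 := by
          rw [nr_mul, nr_pow, show B ^ 9 = B ^ 3 * B ^ 6 by ring]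
          exact mul_le_mul hre (pow_le_pow_left₀ hn.le (h.trans hDB) 6) (by positivity)
            (by positivity)
        have h4 := H₁ ψ (r * e ^ 6 * d ^ 6) B σ Y (D / nr d) hB
          (by rw [e2]; exact not_exc_mul_six hr hed.ne_zero) h3 hσ hσ1
          (by rw [e2]; exact zf_mul_six hM hr hed (by linarith) hZ) hY (by positivity)
          ((div_le_self hD.le hn1).trans hDB)
        have h5 : 1 ≤ B ^ η * nr d ^ (-η) := by
          rw [Real.rpow_neg hn.le, ← div_eq_mul_inv, one_le_div (by positivity)]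
          exact Real.rpow_le_rpow hn.le (h.trans hDB) hη0.le
        rw [e1] at h4
        calc _ ≤ C₁ * B ^ η * (D ^ σ * nr d ^ (-σ)) * 1 := by rwa [mul_one]
          _ ≤ (C₁ + C₂) * B ^ η * (D ^ σ * nr d ^ (-σ)) * (B ^ η * nr d ^ (-η)) := by
              gcongr
              linarith
          _ = _ := by ring
      · have h3 : 0 < D / nr d := by positivity
        have h4 : (D / nr d) ^ 2 ≤ (D / nr d) ^ σ * (D / nr d) ^ η := by
          rw [← Real.rpow_add h3, ← Real.rpow_two]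
          exact Real.rpow_le_rpow_of_exponent_ge h3 ((div_le_one hn).2 h) (by linarith)
        have h5 : (D / nr d) ^ η ≤ B ^ η * nr d ^ (-η) := by
          rw [Real.div_rpow hD.le hn.le, Real.rpow_neg hn.le, div_eq_mul_inv]
          gcongr
        calc _ ≤ C₂ * ((D / nr d) ^ σ * (D / nr d) ^ η) * 1 := by
              rw [mul_one]
              exact (H₂ ψ _ Y _ hY0 h3).trans
                (mul_le_mul_of_nonneg_left ((min_le_right _ _).trans h4) hC₂.le)
          _ ≤ (C₁ + C₂) * ((D / nr d) ^ σ * (B ^ η * nr d ^ (-η))) * B ^ η := by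
              gcongr
              linarith
          _ = _ := by rw [e1]; ring
    have h3 : ‖Pln (1 : Chr M) (r * e ^ 6) (X / nr d) 0‖ ≤
        C₃ * B ^ η * (X ^ (1 - σ) * nr d ^ (-(1 - σ))) * Q := by
      rw [hQ]
      have h4 := H₃ 1 (r * e ^ 6) B σ (X / nr d) hB (not_exc_mul_six hr he.ne_zero)
        (hre.trans (pow_le_pow_right₀ hB (by norm_num))) hσ hσ1
        (zf_mul_six hM hr he (by linarith) hZ) (by positivity) ((div_le_self hX.le hn1).trans hXB)
      rw [Real.div_rpow hX.le hn.le, div_eq_mul_inv (X ^ (1 - σ)), ← Real.rpow_neg hn.le] at h4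
      refine h4.trans (mul_le_mul_of_nonneg_left (Real.rpow_le_rpow ?_
        (cond_mul_six_le M hr0 he.ne_zero) (by linarith)) (by positivity))
      exact Finset.prod_nonneg fun _ _ => Nat.cast_nonneg _
    have e3 : nr d ^ (-(1 + η)) = nr d ^ (-σ) * nr d ^ (-η) * nr d ^ (-(1 - σ)) := by
      rw [← Real.rpow_add hn, ← Real.rpow_add hn]
      congr 1
      ring
    rw [norm_mul, norm_mul (Mb _ _ _ _), Complex.norm_conj]
    refine (mul_le_of_le_one_left (by positivity) h1).trans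
      ((mul_le_mul h2 h3 (norm_nonneg _) (by positivity)).trans (le_of_eq ?_))
    rw [e3, hK]
    ring
  rw [Gd_eq hM ψ _ hY0 hD hX]
  refine (tsum_of_norm_bounded (hs'.mul_left K) key).trans ?_
  have h6 : B ^ η * B ^ η * B ^ η ≤ B ^ ε := by
    rw [← Real.rpow_add hB0, ← Real.rpow_add hB0]
    exact Real.rpow_le_rpow_of_exponent_le hB (by linarith)
  calc K * S ≤ (C₁ + C₂) * C₃ * B ^ ε * D ^ σ * X ^ (1 - σ) * Q * (1 + S) := by
        refine mul_le_mul ?_ (by linarith) hS (by positivity)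
        rw [hK]
        exact mul_le_mul_of_nonneg_right (mul_le_mul_of_nonneg_right (mul_le_mul_of_nonneg_right
          (mul_le_mul_of_nonneg_left h6 (by positivity)) (by positivity)) (by positivity))
          (by positivity)
    _ = _ := by ring

end Crest.Agent.R17.RB
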