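import Crest.Agent.R17.PConv

/-!
# Row 17, `RowB`, part D: the local sums
-/

set_option autoImplicit false

noncomputable section

namespace Crest.Agent.R17.RB

open scoped ComplexConjugate

/-- The weight of the local term `(i, j)`. -/
def wl (σ : ℝ) (p : O) (i j : ℕ) : ℝ := nr p ^ (-(i * σ + j * (1 - σ)))

/-- A ramified local factor vanishes outside `i ≤ v + 1`, `j ≤ 1`
(`cf_ram_zero`, `norm_cf_ram_zero`, `norm_cf_ram_one`). -/
theorem cfL_ram_eq_zero {M : O} (hM : Adm M) (ψ : Chr M) {a p : O} (hp : Prime p)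
    (hp' : Primary p) (hpM : ¬ p ∣ M) (ha : p ∣ a) (ha0 : a ≠ 0) {i j : ℕ}
    (h : vp p a + 2 ≤ i ∨ 2 ≤ j) : cfL ψ a p i j = 0 := by
  unfold cfL
  by_cases hj : 2 ≤ j
  · exact cf_ram_zero hM ψ hp hp' hpM ha (Or.inr hj)
  have hi : vp p a + 2 ≤ i := h.resolve_right hj
  refine norm_le_zero_iff.1 ?_
  obtain rfl | rfl : j = 0 ∨ j = 1 := by omega
  · have h := norm_cf_ram_zero hM ψ hp hp' hpM ha0 (i := i) (by omega)
    rw [if_neg (by omega : ¬ i ≤ vp p a), if_neg (by omega : ¬ i = vp p a + 1),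
      if_neg (by omega : ¬ i = vp p a + 1), ite_self] at h
    rwa [pow_zero]
  · have h := norm_cf_ram_one hM ψ hp hp' hpM ha0 (i := i) (by omega)
    rw [if_neg (by omega : ¬ i = vp p a), if_neg (by omega)] at h
    rwa [pow_one]

theorem D_wl_pos (σ : ℝ) {p : O} (hp : p ≠ 0) (i j : ℕ) : 0 < wl σ p i j :=
  Real.rpow_pos_of_pos (nr_pos hp) _

theorem D_step {q x y z w X : ℝ} (hq : 1 ≤ q) (hX : X ≤ q ^ x) (h : x + y ≤ z + w) :
    X * q ^ y ≤ q ^ z * q ^ w := by
  have hq0 : 0 < q := by linarith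
  refine (mul_le_mul_of_nonneg_right hX (Real.rpow_nonneg hq0.le _)).trans ?_
  rw [← Real.rpow_add hq0, ← Real.rpow_add hq0]
  exact Real.rpow_le_rpow_of_exponent_le hq h

theorem D_sum_le {T S : Finset (ℕ × ℕ)} {f : ℕ × ℕ → ℝ} {B : ℝ} (hB : 0 ≤ B)
    (h0 : ∀ e, e ∉ S → f e = 0) (h : ∀ e, f e ≤ B) : ∑ e ∈ T, f e ≤ S.card * B := by
  classical
  rw [← Finset.sum_subset (Finset.inter_subset_left (s₁ := T) (s₂ := S))
    fun e he he' => h0 e fun h => he' (Finset.mem_inter.2 ⟨he, h⟩)]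
  refine (Finset.sum_le_card_nsmul _ _ B fun e _ => h e).trans ?_
  rw [nsmul_eq_mul]
  exact mul_le_mul_of_nonneg_right
    (Nat.cast_le.2 (Finset.card_le_card Finset.inter_subset_right)) hB

/-- Every term of a ramified local factor is at most `N p^m`, `m = ⌊v/6⌋`, with the gain
`N p^{-(σ-1/2)}` when `i > j`.  (At `σ = 1/2` the exponents are: `(6k,0)`, `6k ≤ v`: `k`;
`(v+1,0)`: `m` resp. `(⌊(v+1)/3⌋-1)/2`; `(v,1)`: `(⌊v/3⌋-1)/2`; `(6k+1,1)`, `6k+1 < v`: `k`; and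
`wl σ = wl (1/2) · N p^{-(i-j)(σ-1/2)}`; the term `(0,1)` vanishes.) -/
theorem cfL_ram_le {M : O} (hM : Adm M) (ψ : Chr M) {a p : O} (hp : Prime p)
    (hp' : Primary p) (hpM : ¬ p ∣ M) (ha : p ∣ a) (ha0 : a ≠ 0) {σ : ℝ} (h1 : 1 / 2 ≤ σ)
    (h2 : σ ≤ 1) (i j : ℕ) : ‖cfL ψ a p i j‖ * wl σ p i j ≤
      nr p ^ (vp p a / 6 : ℕ) * if j < i then nr p ^ (-(σ - 1 / 2)) else 1 := by
  have hq : 1 ≤ nr p := one_le_nr hp.ne_zero
  have hq0 : 0 < nr p := by linarith
  have hn : 0 ≤ nr p ^ (vp p a / 6 : ℕ) * if j < i then nr p ^ (-(σ - 1 / 2)) else 1 := by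
    split_ifs <;> positivity
  have hz : ∀ {X : ℝ}, X ≤ 0 → X * wl σ p i j ≤
      nr p ^ (vp p a / 6 : ℕ) * if j < i then nr p ^ (-(σ - 1 / 2)) else 1 := fun hX =>
    (mul_nonpos_of_nonpos_of_nonneg hX (D_wl_pos σ hp.ne_zero i j).le).trans hn
  by_cases h0 : (i = 0 ∧ 1 ≤ j) ∨ 2 ≤ j
  · exact hz (by rw [cfL, cf_ram_zero hM ψ hp hp' hpM ha h0, norm_zero])
  by_cases hi : i = 0
  · obtain rfl : j = 0 := by omega
    subst hi
    rw [cfL_zero, norm_one, wl]
    simpa using one_le_pow₀ hq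
  have hi1 : 1 ≤ i := by omega
  have hi' : (1 : ℝ) ≤ i := by exact_mod_cast hi1
  have hδ : 0 ≤ σ - 1 / 2 := by linarith
  have hiδ : σ - 1 / 2 ≤ i * (σ - 1 / 2) := le_mul_of_one_le_left hδ hi'
  obtain rfl | rfl : j = 0 ∨ j = 1 := by omega
  · have h := norm_cf_ram_zero hM ψ hp hp' hpM ha0 hi1
    rw [cfL, pow_zero]
    rw [if_pos (by omega : 0 < i), wl, ← Real.rpow_natCast] at hz ⊢
    split_ifs at h with h3 h4 h5 h6
    · refine D_step hq h ?_
      have : i ≤ 6 * (vp p a / 6) := by omega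
      have : (i : ℝ) ≤ 6 * (vp p a / 6 : ℕ) := by exact_mod_cast this
      push_cast
      linarith
    · refine D_step hq h ?_
      have : i ≤ 6 * (vp p a / 6) + 6 := by omega
      have : (i : ℝ) ≤ 6 * (vp p a / 6 : ℕ) + 6 := by exact_mod_cast this
      push_cast
      linarith
    · exact hz h
    · refine D_step hq h ?_
      have : i / 3 ≤ 2 * (vp p a / 6) + 1 := by omega
      have : ((i / 3 : ℕ) : ℝ) ≤ 2 * (vp p a / 6 : ℕ) + 1 := by exact_mod_cast this
      push_cast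
      linarith
    · exact hz h
  · have h := norm_cf_ram_one hM ψ hp hp' hpM ha0 hi1
    rw [cfL, pow_one]
    have hw : ∃ w : ℝ, (if 1 < i then nr p ^ (-(σ - 1 / 2)) else 1) = nr p ^ w ∧
        -((i - 1) * (σ - 1 / 2)) ≤ w := by
      split_ifs with h1i
      · refine ⟨_, rfl, neg_le_neg (le_mul_of_one_le_left hδ ?_)⟩
        have : (2 : ℝ) ≤ i := by exact_mod_cast h1i
        linarith
      · exact ⟨0, (Real.rpow_zero _).symm, by linarith⟩
    obtain ⟨w, hw, hw'⟩ := hw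
    rw [hw, wl, ← Real.rpow_natCast] at hz ⊢
    split_ifs at h with h3 h4
    · refine D_step hq h ?_
      have : i / 3 ≤ 2 * (vp p a / 6) + 1 := by omega
      have : ((i / 3 : ℕ) : ℝ) ≤ 2 * (vp p a / 6 : ℕ) + 1 := by exact_mod_cast this
      push_cast
      linarith
    · refine D_step hq h ?_
      have : i / 3 ≤ 2 * (vp p a / 6) := by omega
      have : ((i / 3 : ℕ) : ℝ) ≤ 2 * (vp p a / 6 : ℕ) := by exact_mod_cast this
      push_cast
      linarith
    · exact hz h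

theorem D_le {M : O} (hM : Adm M) (ψ : Chr M) {a p : O} (hp : Prime p)
    (hp' : Primary p) (hpM : ¬ p ∣ M) (ha : p ∣ a) (ha0 : a ≠ 0) {σ : ℝ} (h1 : 1 / 2 ≤ σ)
    (h2 : σ ≤ 1) (i j : ℕ) : ‖cfL ψ a p i j‖ * wl σ p i j ≤ nr p ^ (vp p a / 6 : ℕ) := by
  have hq : 1 ≤ nr p := one_le_nr hp.ne_zero
  refine (cfL_ram_le hM ψ hp hp' hpM ha ha0 h1 h2 i j).trans
    (mul_le_of_le_one_right (by positivity) ?_)
  split_ifs
  · exact Real.rpow_le_one_of_one_le_of_nonpos hq (by linarith)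
  · exact le_rfl

/-- The local sum at a prime of the row which is not an error prime (`2 (v+2)` terms). -/
theorem sum_ram_le {M : O} (hM : Adm M) (ψ : Chr M) {a p : O} (hp : Prime p)
    (hp' : Primary p) (hpM : ¬ p ∣ M) (ha : p ∣ a) (ha0 : a ≠ 0) {σ : ℝ} (h1 : 1 / 2 ≤ σ)
    (h2 : σ ≤ 1) (T : Finset (ℕ × ℕ)) :
    ∑ e ∈ T, ‖cfL ψ a p e.1 e.2‖ * wl σ p e.1 e.2 ≤
      2 * (vp p a + 2) * nr p ^ (vp p a / 6 : ℕ) := by
  refine (D_sum_le (S := Finset.range (vp p a + 2) ×ˢ Finset.range 2)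
    (B := nr p ^ (vp p a / 6 : ℕ)) (by positivity) (fun e he => ?_)
    fun e => D_le hM ψ hp hp' hpM ha ha0 h1 h2 e.1 e.2).trans (le_of_eq ?_)
  · simp only [Finset.mem_product, Finset.mem_range, not_and_or, not_lt] at he
    rw [cfL_ram_eq_zero hM ψ hp hp' hpM ha ha0 he, norm_zero, zero_mul]
  · rw [Finset.card_product, Finset.card_range, Finset.card_range]
    push_cast
    ring

theorem D_wl_succ_left (σ : ℝ) {p : O} (hp : p ≠ 0) (i j : ℕ) :
    wl σ p i j = wl σ p (i + 1) j * nr p ^ σ := by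
  rw [wl, wl, ← Real.rpow_add (nr_pos hp)]
  congr 1
  push_cast
  ring

theorem D_wl_succ_right {σ : ℝ} (h2 : σ ≤ 1) {p : O} (hp : p ≠ 0) (i j : ℕ) :
    wl σ p i (j + 1) ≤ wl σ p i j := by
  refine Real.rpow_le_rpow_of_exponent_le (one_le_nr hp) ?_
  push_cast
  linarith

/-- The local sum at an error prime which divides the row (at most `3 (v+2)` terms, each a sum of
three; `‖L (i+1) j‖ wl i j = N p^σ ‖L (i+1) j‖ wl (i+1) j`; the case `(i+1, j) = (1, 1)` uses
`cf_ram_one_one`: size `N p^{σ-1}` if `v = 1` and `≤ N p^σ` if `v ≥ 2`). -/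
theorem sum_err_ram_le {M : O} (hM : Adm M) (ψ : Chr M) {a p : O} (hp : Prime p)
    (hp' : Primary p) (hpM : ¬ p ∣ M) (ha : p ∣ a) (ha0 : a ≠ 0) {σ : ℝ} (h1 : 1 / 2 ≤ σ)
    (h2 : σ ≤ 1) {c t : ℂ} (hc : ‖c‖ ≤ 1) (ht : ‖t‖ ≤ 1) (T : Finset (ℕ × ℕ)) :
    ∑ e ∈ T, ‖Eloc c t (cfL ψ a p) e.1 e.2‖ * wl σ p e.1 e.2 ≤
      9 * (vp p a + 2) * nr p ^ (vp p a / 6 : ℕ) *
        nr p ^ (((vp p a % 6 - 1 : ℕ) : ℝ) * (σ - 1 / 2)) * nr p ^ (1 / 2 : ℝ) := by
  have hq : 1 ≤ nr p := one_le_nr hp.ne_zero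
  have hq0 : 0 < nr p := by linarith
  have hδ : 0 ≤ σ - 1 / 2 := by linarith
  have hv : 1 ≤ vp p a := Nat.one_le_iff_ne_zero.2 fun h => (vp_eq_zero_iff hp ha0).1 h ha
  set m : ℝ := nr p ^ (vp p a / 6 : ℕ) with hm
  set g : ℝ := nr p ^ (((vp p a % 6 - 1 : ℕ) : ℝ) * (σ - 1 / 2)) with hg
  set s : ℝ := nr p ^ (1 / 2 : ℝ) with hs
  have hm1 : 1 ≤ m := one_le_pow₀ hq
  have hg1 : 1 ≤ g := Real.one_le_rpow hq (by positivity)
  have hs1 : 1 ≤ s := Real.one_le_rpow hq (by positivity)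
  have hms : m * s ≤ m * g * s :=
    mul_le_mul_of_nonneg_right (le_mul_of_one_le_right (by linarith) hg1) (by linarith)
  have hmB : m ≤ m * g * s := (le_mul_of_one_le_right (by linarith) hs1).trans hms
  have hL := D_le hM ψ hp hp' hpM ha ha0 h1 h2
  have hA : ∀ i j : ℕ, ‖cfL ψ a p (i + 1) j‖ * wl σ p i j ≤ m * g * s := by
    intro i j
    by_cases hij : j < i + 1
    · have h := cfL_ram_le hM ψ hp hp' hpM ha ha0 h1 h2 (i + 1) j
      rw [if_pos hij] at h
      rw [D_wl_succ_left σ hp.ne_zero, ← mul_assoc]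
      refine (mul_le_mul_of_nonneg_right h (by positivity)).trans (le_trans (le_of_eq ?_) hms)
      rw [mul_assoc, ← Real.rpow_add hq0, hs]
      congr 2
      ring
    by_cases hj : 2 ≤ j
    · rw [cfL_ram_eq_zero hM ψ hp hp' hpM ha ha0 (Or.inr hj), norm_zero, zero_mul]
      linarith
    obtain rfl : j = 1 := by omega
    obtain rfl : i = 0 := by omega
    have hψ := norm_ev_le hM.1 ψ p
    rw [cfL, zero_add, pow_one, cf_ram_one_one hM ψ hp hp' hpM ha ha0, wl]
    split_ifs with hv1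
    · refine le_trans (mul_le_one₀ hψ (by positivity)
        (Real.rpow_le_one_of_one_le_of_nonpos hq ?_)) (hm1.trans hmB)
      push_cast
      linarith
    · have h3 : ‖-((nr p : ℂ) - 1) * ev ψ p‖ ≤ nr p ^ (1 : ℝ) := by
        rw [norm_mul, norm_neg, Real.rpow_one,
          show ((nr p : ℝ) : ℂ) - 1 = ((nr p - 1 : ℝ) : ℂ) by push_cast; rfl, Complex.norm_real,
          Real.norm_of_nonneg (by linarith)]
        exact (mul_le_of_le_one_right (by linarith) hψ).trans (by linarith)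
      rw [hm, hg, hs, ← Real.rpow_natCast, ← Real.rpow_add hq0]
      refine D_step hq h3 ?_
      by_cases hm0 : vp p a / 6 = 0
      · have : 1 ≤ vp p a % 6 - 1 := by omega
        have : (1 : ℝ) ≤ (vp p a % 6 - 1 : ℕ) := by exact_mod_cast this
        have := le_mul_of_one_le_left hδ this
        rw [hm0]
        push_cast at this ⊢
        linarith
      · have : 1 ≤ vp p a / 6 := by omega
        have : (1 : ℝ) ≤ (vp p a / 6 : ℕ) := by exact_mod_cast this
        have : 0 ≤ ((vp p a % 6 - 1 : ℕ) : ℝ) * (σ - 1 / 2) := by positivity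
        push_cast at this ⊢
        linarith
  have hB : ∀ i j : ℕ, ‖if j = 0 then 0 else cfL ψ a p i (j - 1)‖ * wl σ p i j ≤ m * g * s := by
    intro i j
    cases j with
    | zero =>
      rw [if_pos rfl, norm_zero, zero_mul]
      linarith
    | succ j =>
      rw [if_neg j.succ_ne_zero, Nat.add_sub_cancel]
      exact (mul_le_mul_of_nonneg_left (D_wl_succ_right h2 hp.ne_zero i j)
        (norm_nonneg _)).trans ((hL i j).trans hmB)
  refine (D_sum_le (S := Finset.range (vp p a + 2) ×ˢ Finset.range 3)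
    (B := 3 * (m * g * s)) (by linarith) (fun e he => ?_) fun e => ?_).trans (le_of_eq ?_)
  · simp only [Finset.mem_product, Finset.mem_range, not_and_or, not_lt] at he
    rw [Eloc, cfL_ram_eq_zero hM ψ hp hp' hpM ha ha0 (i := e.1 + 1) (by omega),
      cfL_ram_eq_zero hM ψ hp hp' hpM ha ha0 (i := e.1) (j := e.2) (by omega),
      cfL_ram_eq_zero hM ψ hp hp' hpM ha ha0 (i := e.1) (j := e.2 - 1) (by omega)]
    simp
  · have hw := (D_wl_pos σ hp.ne_zero e.1 e.2).le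
    have h3 : ‖Eloc c t (cfL ψ a p) e.1 e.2‖ ≤ ‖cfL ψ a p (e.1 + 1) e.2‖ +
        ‖if e.2 = 0 then 0 else cfL ψ a p e.1 (e.2 - 1)‖ + ‖cfL ψ a p e.1 e.2‖ := by
      refine (norm_sub_le _ _).trans (add_le_add ((norm_add_le _ _).trans
        (add_le_add ?_ le_rfl)) ?_) <;> rw [norm_mul]
      · exact mul_le_of_le_one_left (norm_nonneg _) hc
      · exact mul_le_of_le_one_left (norm_nonneg _) ht
    refine (mul_le_mul_of_nonneg_right h3 hw).trans ?_
    have := hA e.1 e.2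
    have := hB e.1 e.2
    have := (hL e.1 e.2).trans hmB
    rw [add_mul, add_mul]
    linarith
  · rw [Finset.card_product, Finset.card_range, Finset.card_range]
    push_cast
    ring

/-- The local sum at an error prime which does not divide the row (`cf_unram`: only the terms
`(1,0)` and `(1,1)` survive, both of modulus `1`). -/
theorem sum_err_unram_le {M : O} (hM : Adm M) (ψ : Chr M) {a p : O} (hp : Prime p)
    (hp' : Primary p) (hpM : ¬ p ∣ M) (ha : ¬ p ∣ a) {σ : ℝ} (h1 : 1 / 2 ≤ σ)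
    (h2 : σ ≤ 1) (T : Finset (ℕ × ℕ)) :
    ∑ e ∈ T, ‖Eloc (-conj (ev ψ p)) (conj (sym p a)) (cfL ψ a p) e.1 e.2‖ * wl σ p e.1 e.2 ≤
      2 * nr p ^ (-(1 / 2) : ℝ) := by
  have hq : 1 ≤ nr p := one_le_nr hp.ne_zero
  have hχ : ‖sym p a‖ = 1 := norm_sym hp' (hp.coprime_iff_not_dvd.2 ha)
  have hψ : ‖ev ψ p‖ = 1 := norm_ev hM.1 ψ (hp.coprime_iff_not_dvd.2 hpM)
  have hχ' : conj (sym p a) * sym p a = 1 := by
    rw [Complex.conj_mul', hχ]
    simp
  have hψ' : conj (ev ψ p) * ev ψ p = 1 := by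
    rw [Complex.conj_mul', hψ]
    simp
  have hL : ∀ i j, cfL ψ a p i j = if i = 0 then sym p a ^ j else
      if i = 1 ∧ j = 0 then -(ev ψ p * conj (sym p a)) else 0 :=
    cf_unram hM ψ hp hp' hpM ha
  have h0 : ∀ e : ℕ × ℕ, e ∉ ({(1, 0), (1, 1)} : Finset (ℕ × ℕ)) →
      Eloc (-conj (ev ψ p)) (conj (sym p a)) (cfL ψ a p) e.1 e.2 = 0 := by
    rintro ⟨i, j⟩ he
    simp only [Finset.mem_insert, Finset.mem_singleton, Prod.mk.injEq] at he
    simp only [Eloc, hL]
    rcases i with _ | i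
    · rcases j with _ | j
      · simp only [zero_add, one_ne_zero, and_self, if_true, if_false, pow_zero]
        linear_combination conj (sym p a) * hψ'
      · simp only [zero_add, one_ne_zero, if_true, if_false, j.succ_ne_zero, and_false,
          Nat.add_sub_cancel, pow_succ]
        linear_combination -(sym p a ^ j) * hχ'
    · rw [if_neg (by omega), if_neg (by omega), if_neg i.succ_ne_zero, if_neg i.succ_ne_zero,
        if_neg (by omega : ¬ (i + 1 = 1 ∧ j = 0))]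
      split_ifs with h3 h4
      · simp
      · omega
      · simp
  refine (D_sum_le (S := {(1, 0), (1, 1)}) (B := nr p ^ (-(1 / 2) : ℝ)) (by positivity)
    (fun e he => by rw [h0 e he, norm_zero, zero_mul]) fun e => ?_).trans (le_of_eq ?_)
  · by_cases he : e ∈ ({(1, 0), (1, 1)} : Finset (ℕ × ℕ))
    · simp only [Finset.mem_insert, Finset.mem_singleton] at he
      rcases he with rfl | rfl
      · have : ‖Eloc (-conj (ev ψ p)) (conj (sym p a)) (cfL ψ a p) 1 0‖ = 1 := by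
          simp [Eloc, hL, hχ, hψ]
        rw [this, one_mul]
        refine Real.rpow_le_rpow_of_exponent_le hq ?_
        push_cast
        linarith
      · have : ‖Eloc (-conj (ev ψ p)) (conj (sym p a)) (cfL ψ a p) 1 1‖ = 1 := by
          simp [Eloc, hL, hχ, hψ]
        rw [this, one_mul]
        refine Real.rpow_le_rpow_of_exponent_le hq ?_
        push_cast
        linarith
    · rw [h0 e he, norm_zero, zero_mul]
      positivity
  · rw [Finset.card_pair (by simp)]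
    norm_num

end Crest.Agent.R17.RB
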