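import Crest.Agent.R17.RowBAuxC
import Crest.Agent.R17.RowBAuxD

/-!
# Row 17, `RowB`, part E: splitting off the primes of the row and the error primes
-/

set_option autoImplicit false

noncomputable section

namespace Crest.Agent.R17.RB

open scoped ComplexConjugate

/-- The element with given exponents at the primes of `H`. -/
def pw (H : Finset O) (e : H → ℕ) : O := ∏ p : H, (p : O) ^ e p

open Classical in
theorem pw_eq (H : Finset O) (e : H → ℕ) :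
    pw H e = ∏ p ∈ H, p ^ (if h : p ∈ H then e ⟨p, h⟩ else 0) := by
  rw [pw, ← Finset.prod_coe_sort H]
  exact Finset.prod_congr rfl fun p _ => by rw [dif_pos p.2]

theorem primary_pw {H : Finset O} (hH : ∀ p ∈ H, Prime p ∧ Primary p) (e : H → ℕ) :
    Primary (pw H e) := Primary.prod fun p _ => (hH p p.2).2.pow _

open Classical in
theorem vp_pw {H : Finset O} (hH : ∀ p ∈ H, Prime p ∧ Primary p) (e : H → ℕ) {q : O}
    (hq : Prime q) (hq' : Primary q) : vp q (pw H e) = if h : q ∈ H then e ⟨q, h⟩ else 0 := by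
  rw [pw_eq, vp_prod_pow hH _ hq hq']
  split_ifs <;> rfl

theorem vp_pw_mul {H : Finset O} (hH : ∀ p ∈ H, Prime p ∧ Primary p) (e : H → ℕ) {n : O}
    (hn : Primary n) (h : ∀ p ∈ H, ¬ p ∣ n) (q : H) : vp q (pw H e * n) = e q := by
  obtain ⟨h1, h2⟩ := hH q q.2
  rw [vp_mul h1 (primary_pw hH e).ne_zero hn.ne_zero, vp_pw hH e h1 h2, dif_pos q.2,
    (vp_eq_zero_iff h1 hn.ne_zero).2 (h q q.2), add_zero]

theorem vp_pw_mul' {H : Finset O} (hH : ∀ p ∈ H, Prime p ∧ Primary p) (e : H → ℕ) {n : O}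
    (hn : Primary n) {q : O} (hq : Prime q) (hq' : Primary q) (h : q ∉ H) :
    vp q (pw H e * n) = vp q n := by
  rw [vp_mul hq (primary_pw hH e).ne_zero hn.ne_zero, vp_pw hH e hq hq', dif_neg h, zero_add]

theorem pf_pw {H : Finset O} (hH : ∀ p ∈ H, Prime p ∧ Primary p) (e : H → ℕ) :
    pf (pw H e) ⊆ H := fun q hq => by
  by_contra h
  have := BasicB.vp_ne_zero hq
  rw [vp_pw hH e (BasicB.pf_sub hq).1 (BasicB.pf_sub hq).2, dif_neg h] at this
  exact this rfl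

theorem exists_pw {H : Finset O} (hH : ∀ p ∈ H, Prime p ∧ Primary p) {n : O} (hn : Primary n) :
    ∃ (e : H → ℕ) (m : O), Primary m ∧ (∀ p ∈ H, ¬ p ∣ m) ∧ n = pw H e * m := by
  have hp := primary_pw hH fun p => vp p n
  obtain ⟨m, hm⟩ : pw H (fun p => vp p n) ∣ n := by
    refine (hp.dvd_iff_vp hn.ne_zero).2 fun q hq => ?_
    rw [vp_pw hH _ (BasicB.pf_sub hq).1 (BasicB.pf_sub hq).2, dif_pos (pf_pw hH _ hq)]
  have hm' : Primary m := hp.of_mul (hm ▸ hn)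
  refine ⟨_, m, hm', fun q hq => ?_, hm⟩
  obtain ⟨h1, h2⟩ := hH q hq
  have := congrArg (vp q) hm
  rw [vp_mul h1 hp.ne_zero hm'.ne_zero, vp_pw hH _ h1 h2, dif_pos hq] at this
  exact (vp_eq_zero_iff h1 hm'.ne_zero).1 (by simpa using this)

theorem nr_pw_rpow {H : Finset O} (e : H → ℕ) (s : ℝ) :
    nr (pw H e) ^ s = ∏ p : H, nr (p : O) ^ (e p * s) := by
  have : nr (pw H e) = ∏ p : H, nr ((p : O) ^ e p) := by
    rw [nr, pw, nm_prod, Nat.cast_prod]
  rw [this, ← Real.finsetProd_rpow _ _ fun p _ => Nat.cast_nonneg _]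
  exact Finset.prod_congr rfl fun p _ => CountAux.nr_pow_rpow _ _ _

/-- The pairs prime to `H`. -/
def Cop (H : Finset O) (v : O × O) : Prop :=
  (Primary v.1 ∧ ∀ p ∈ H, ¬ p ∣ v.1) ∧ Primary v.2 ∧ ∀ p ∈ H, ¬ p ∣ v.2

/-- The splitting map. -/
def spl (H : Finset O) (w : (H → ℕ × ℕ) × {v : O × O // Cop H v}) : O × O :=
  (pw H (fun p => (w.1 p).1) * w.2.1.1, pw H (fun p => (w.1 p).2) * w.2.1.2)

theorem spl_injective {H : Finset O} (hH : ∀ p ∈ H, Prime p ∧ Primary p) :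
    Function.Injective (spl H) := by
  rintro ⟨e, ⟨n, x⟩, hv⟩ ⟨e', ⟨n', x'⟩, hv'⟩ h
  simp only [spl, Prod.mk.injEq] at h
  have he : e = e' := by
    funext q
    ext
    · rw [← vp_pw_mul hH (fun p => (e p).1) hv.1.1 hv.1.2 q, h.1,
        vp_pw_mul hH (fun p => (e' p).1) hv'.1.1 hv'.1.2 q]
    · rw [← vp_pw_mul hH (fun p => (e p).2) hv.2.1 hv.2.2 q, h.2,
        vp_pw_mul hH (fun p => (e' p).2) hv'.2.1 hv'.2.2 q]
  subst he
  have h1 : n = n' := mul_left_cancel₀ (primary_pw hH _).ne_zero h.1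
  have h2 : x = x' := mul_left_cancel₀ (primary_pw hH _).ne_zero h.2
  subst h1 h2
  rfl

theorem mem_range_spl {H : Finset O} (hH : ∀ p ∈ H, Prime p ∧ Primary p) {v : O × O}
    (h : Primary v.1 ∧ Primary v.2) : v ∈ Set.range (spl H) := by
  obtain ⟨e, n, hn, hn', h1⟩ := exists_pw hH h.1
  obtain ⟨k, x, hx, hx', h2⟩ := exists_pw hH h.2
  exact ⟨(fun p => (e p, k p), ⟨(n, x), ⟨hn, hn'⟩, hx, hx'⟩), Prod.ext h1.symm h2.symm⟩

open Classical in
theorem cfE_spl {M : O} (hM : Adm M) (ψ : Chr M) {a : O} (ha : a ≠ 0) (t : O → ℂ) {Z : Finset O}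
    (hZ : ∀ p ∈ Z, Prime p ∧ Primary p)
    (w : (↥(Z ∪ pf a) → ℕ × ℕ) × {v : O × O // Cop (Z ∪ pf a) v}) :
    cfE ψ a t Z (spl _ w) = (∏ p : ↥(Z ∪ pf a), cfLE ψ a t Z p (w.1 p).1 (w.1 p).2) *
      gd ψ (a * (∏ p ∈ Z, p) ^ 6) w.2.1 := by
  obtain ⟨e, ⟨n, x⟩, ⟨hn, hn'⟩, hx, hx'⟩ := w
  simp only at hn hn' hx hx'
  set H := Z ∪ pf a with hHdef
  have hH : ∀ p ∈ H, Prime p ∧ Primary p := fun p hp => by
    rcases Finset.mem_union.1 hp with hp | hp
    exacts [hZ p hp, BasicB.pf_sub hp]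
  have hG : ∀ p ∈ pf n ∪ pf x, Prime p ∧ Primary p := fun p hp => by
    rcases Finset.mem_union.1 hp with hp | hp <;> exact BasicB.pf_sub hp
  have hd : Disjoint H (pf n ∪ pf x) := Finset.disjoint_left.2 fun p hp hp' => by
    rcases Finset.mem_union.1 hp' with hp' | hp'
    exacts [hn' p hp (BasicB.of_mem_pf hp').2.2, hx' p hp (BasicB.of_mem_pf hp').2.2]
  have hc : ∀ y : O, Primary y → (∀ p ∈ H, ¬ p ∣ y) → IsCoprime y (∏ p ∈ Z, p) :=
    fun y hy hy' => IsCoprime.prod_right fun p hp =>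
      ((hZ p hp).1.irreducible.coprime_iff_not_dvd.2 (hy' p (Finset.mem_union_left _ hp))).symm
  have hca : IsCoprime (n * x) a := by
    refine (LBC.isCoprime_iff (hn.mul hx) ha).2 fun p hp h => ?_
    rcases (BasicB.pf_sub hp).1.dvd_or_dvd h with h | h
    exacts [hn' p (Finset.mem_union_right _ hp) h, hx' p (Finset.mem_union_right _ hp) h]
  have e1 : gd ψ (a * (∏ p ∈ Z, p) ^ 6) (n, x) = cf ψ a n x := by
    rw [cf_eq_gd hM ψ hca]
    simp only [gd, rc_mul_six hM, if_pos (hc n hn hn'), if_pos (hc x hx hx')]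
  have e2 := (cfE_empty hM ψ a t (n, x)).symm
  rw [cfE_eq ψ a t hn hx hG (Finset.empty_subset _) Finset.subset_union_left
    Finset.subset_union_right] at e2
  simp only [spl]
  rw [e1, e2, cfE_eq ψ a t ((primary_pw hH _).mul hn) ((primary_pw hH _).mul hx)
    (H := H ∪ (pf n ∪ pf x)) (fun p hp => by
      rcases Finset.mem_union.1 hp with hp | hp
      exacts [hH p hp, hG p hp])
    (Finset.subset_union_left.trans Finset.subset_union_left) (by
      rw [pf_mul (primary_pw hH _).ne_zero hn.ne_zero]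
      exact Finset.union_subset_union (pf_pw hH _) Finset.subset_union_left) (by
      rw [pf_mul (primary_pw hH _).ne_zero hx.ne_zero]
      exact Finset.union_subset_union (pf_pw hH _) Finset.subset_union_right),
    Finset.prod_union hd, ← Finset.prod_coe_sort H]
  congr 1
  · exact Finset.prod_congr rfl fun p _ => by
      rw [vp_pw_mul hH _ hn hn' p, vp_pw_mul hH _ hx hx' p]
  · refine Finset.prod_congr rfl fun p hp => ?_
    have h1 : p ∉ H := Finset.disjoint_right.1 hd hp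
    have h2 : p ∉ Z := fun h => h1 (Finset.mem_union_left _ h)
    rw [vp_pw_mul' hH _ hn (hG p hp).1 (hG p hp).2 h1,
      vp_pw_mul' hH _ hx (hG p hp).1 (hG p hp).2 h1]
    simp only [cfLE, if_neg h2, Finset.notMem_empty, if_false]

open Classical in
theorem cop_of_gd {M : O} (ψ : Chr M) {a : O} {Z : Finset O} (hZ : ∀ p ∈ Z, Prime p ∧ Primary p)
    {v : O × O} (h : gd ψ (a * (∏ p ∈ Z, p) ^ 6) v ≠ 0) : Cop (Z ∪ pf a) v := by
  have key : ∀ (ν : Chr M) (y : O), rc ν (a * (∏ p ∈ Z, p) ^ 6) y ≠ 0 →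
      Primary y ∧ ∀ p ∈ Z ∪ pf a, ¬ p ∣ y := fun ν y hy => by
    refine ⟨by_contra fun h' => hy (LBA.rc_neg ν _ h'), fun p hp hd => ?_⟩
    have hc : IsCoprime y (M * (a * (∏ p ∈ Z, p) ^ 6)) := by_contra fun h' => hy (rc_eq_zero ν h')
    rcases Finset.mem_union.1 hp with hp | hp
    · exact (hZ p hp).1.not_isUnit (hc.isUnit_of_dvd' hd
        (((Finset.dvd_prod_of_mem _ hp).trans (dvd_pow_self _ (by norm_num))).mul_left _
          |>.mul_left _))
    · exact (BasicB.pf_sub hp).1.not_isUnit (hc.isUnit_of_dvd' hd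
        (((BasicB.of_mem_pf hp).2.2.mul_right _).mul_left _))
  unfold gd at h
  split_ifs at h with hc
  · refine ⟨key ψ _ fun h' => h (by rw [h']; ring), key 1 _ fun h' => h (by rw [h', map_zero]; ring)⟩
  · exact absurd rfl h

theorem Phi_eq {B y₁ y₂ : ℝ} (a : O) (m y : ℝ) :
    Phi B a (y₁ * m) (y₂ * y) = Wc (m / (B / y₁)) 0 *
      (gw (nr a / Apar B * (B / y₁) / m) : ℂ) * Wc (y / (Xpar B / y₂)) 0 := by
  unfold Phi
  rw [div_div_eq_mul_div, div_div_eq_mul_div, mul_comm m y₁, mul_comm y y₂, div_mul_div_comm,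
    div_div, mul_assoc (Apar B)]

open Classical in
theorem pair_eq {M : O} (hM : Adm M) (ψ : Chr M) {a : O} (ha : a ≠ 0) (t : O → ℂ) {Z : Finset O}
    (hZ : ∀ p ∈ Z, Prime p ∧ Primary p) {B : ℝ} (hB : 0 < B) :
    pairF (cfE ψ a t Z) (Phi B a) = ∑' e : ↥(Z ∪ pf a) → ℕ × ℕ,
      (∏ p : ↥(Z ∪ pf a), cfLE ψ a t Z p (e p).1 (e p).2) *
        Gd ψ (a * (∏ p ∈ Z, p) ^ 6) (nr a / Apar B) (B / nr (pw _ fun p => (e p).1))
          (Xpar B / nr (pw _ fun p => (e p).2)) := by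
  have hH : ∀ p ∈ Z ∪ pf a, Prime p ∧ Primary p := fun p hp => by
    rcases Finset.mem_union.1 hp with hp | hp
    exacts [hZ p hp, BasicB.pf_sub hp]
  have hs := ((summable_cfE hM ψ a t hZ hB).of_norm).comp_injective (spl_injective hH)
  unfold pairF
  rw [← (spl_injective hH).tsum_eq fun v hv => mem_range_spl hH
    (by_contra fun h => hv (by simp only [cfE_of_not ψ a t Z h, zero_mul]))]
  refine hs.tsum_prod.trans (tsum_congr fun e => ?_)
  unfold Gd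
  rw [← tsum_mul_left, ← (Subtype.val_injective (p := Cop (Z ∪ pf a))).tsum_eq fun v hv =>
    ⟨⟨v, cop_of_gd ψ hZ fun h => hv (by simp only [h, zero_mul, mul_zero])⟩, rfl⟩]
  refine tsum_congr fun w => ?_
  simp only [Function.comp]
  rw [cfE_spl hM ψ ha t hZ (e, w), mul_assoc]
  simp only [spl, nr_mul, Phi_eq]

theorem sum_pi_le {ι β : Type} [Fintype ι] (f : ι → β → ℝ) (b : ι → ℝ) (h0 : ∀ i x, 0 ≤ f i x)
    (h : ∀ i (T : Finset β), ∑ x ∈ T, f i x ≤ b i) (S : Finset (ι → β)) :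
    ∑ e ∈ S, ∏ i, f i (e i) ≤ ∏ i, b i := by
  classical
  calc ∑ e ∈ S, ∏ i, f i (e i)
      ≤ ∑ e ∈ Fintype.piFinset (fun i => S.image fun e => e i), ∏ i, f i (e i) :=
        Finset.sum_le_sum_of_subset_of_nonneg
          (fun e he => Fintype.mem_piFinset.2 fun i => Finset.mem_image_of_mem _ he)
          fun e _ _ => Finset.prod_nonneg fun i _ => h0 i _
    _ = ∏ i, ∑ x ∈ S.image fun e => e i, f i x := (Finset.prod_univ_sum _ _).symm
    _ ≤ _ := Finset.prod_le_prod (fun i _ => Finset.sum_nonneg fun x _ => h0 i x)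
        fun i _ => h i _

open Classical in
theorem pair_le {M : O} (hM : Adm M) (ψ : Chr M) {a : O} (ha : a ≠ 0) (t : O → ℂ) {Z : Finset O}
    (hZ : ∀ p ∈ Z, Prime p ∧ Primary p) {B σ K : ℝ} (hB : 0 < B) (hK : 0 ≤ K) (b : O → ℝ)
    (hG : ∀ y₁ y₂ : ℝ, 1 ≤ y₁ → 1 ≤ y₂ →
      ‖Gd ψ (a * (∏ p ∈ Z, p) ^ 6) (nr a / Apar B) (B / y₁) (Xpar B / y₂)‖ ≤
        K * (y₁ ^ (-σ) * y₂ ^ (-(1 - σ))))
    (hb : ∀ p ∈ Z ∪ pf a, ∀ T : Finset (ℕ × ℕ),
      ∑ e ∈ T, ‖cfLE ψ a t Z p e.1 e.2‖ * wl σ p e.1 e.2 ≤ b p) :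
    ‖pairF (cfE ψ a t Z) (Phi B a)‖ ≤ K * ∏ p ∈ Z ∪ pf a, b p := by
  have hH : ∀ p ∈ Z ∪ pf a, Prime p ∧ Primary p := fun p hp => by
    rcases Finset.mem_union.1 hp with hp | hp
    exacts [hZ p hp, BasicB.pf_sub hp]
  let f : ↥(Z ∪ pf a) → ℕ × ℕ → ℝ := fun p e => ‖cfLE ψ a t Z p e.1 e.2‖ * wl σ p e.1 e.2
  have h0 : ∀ p e, 0 ≤ f p e := fun p e =>
    mul_nonneg (norm_nonneg _) (Real.rpow_nonneg (Nat.cast_nonneg _) _)
  have h1 := sum_pi_le f (fun p => b p) h0 fun p T => hb p p.2 T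
  have h2 : ∀ e : ↥(Z ∪ pf a) → ℕ × ℕ, 0 ≤ ∏ p, f p (e p) := fun e =>
    Finset.prod_nonneg fun p _ => h0 p _
  have h3 : Summable fun e : ↥(Z ∪ pf a) → ℕ × ℕ => ∏ p, f p (e p) := summable_of_sum_le h2 h1
  rw [pair_eq hM ψ ha t hZ hB, ← Finset.prod_coe_sort (Z ∪ pf a)]
  refine (tsum_of_norm_bounded (h3.hasSum.mul_left K) fun e => ?_).trans
    (mul_le_mul_of_nonneg_left (h3.tsum_le_of_sum_le h1) hK)
  rw [norm_mul, norm_prod]
  refine (mul_le_mul_of_nonneg_left (hG _ _ (one_le_nr (primary_pw hH _).ne_zero)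
    (one_le_nr (primary_pw hH _).ne_zero))
    (Finset.prod_nonneg fun _ _ => norm_nonneg _)).trans (le_of_eq ?_)
  rw [mul_left_comm, nr_pw_rpow, nr_pw_rpow, ← Finset.prod_mul_distrib, ← Finset.prod_mul_distrib]
  congr 1
  refine Finset.prod_congr rfl fun p _ => ?_
  simp only [f, wl]
  rw [← Real.rpow_add (nr_pos (hH p p.2).1.ne_zero)]
  congr 2
  ring

end Crest.Agent.R17.RB
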