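import Crest.Agent.R17.PDefs

/-!
# Row 17, module M15b: absolute convergence of the probe and the long rows
-/

set_option autoImplicit false

noncomputable section

namespace Crest.Agent.R17

theorem RT.rpow_neg_nat {u : ℝ} (hu : 0 ≤ u) (k : ℕ) : u ^ (-(k : ℝ)) = (u ^ k)⁻¹ := by
  rw [Real.rpow_neg hu, Real.rpow_natCast]

theorem RT.Apar_pos {B : ℝ} (hB : 0 < B) : 0 < Apar B := by unfold Apar; positivity
theorem RT.Xpar_pos {B : ℝ} (hB : 0 < B) : 0 < Xpar B := by unfold Xpar; positivity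

theorem RT.norm_Phi_le {J : ℝ} (hJ : 0 ≤ J) : ∃ C : ℝ, 0 < C ∧ ∀ (B : ℝ) (a : O) (m y : ℝ),
    0 < B → 0 < m → 0 < y → ‖Phi B a m y‖ ≤
      C * (if a = 0 then 1 else (Apar B / nr a) ^ J) * (((m / B) ^ 3)⁻¹ * ((y / Xpar B) ^ 3)⁻¹) := by
  obtain ⟨C₁, h₁, H₁⟩ := norm_Wc_le_rpow (-((3 : ℕ) : ℝ)) 0
  obtain ⟨C₂, h₂, H₂⟩ := norm_Wc_le_rpow (-(J + (3 : ℕ))) 0
  obtain ⟨C₃, h₃, H₃⟩ := gw_le_rpow J
  refine ⟨(C₁ + C₂ * C₃) * C₁, by positivity, fun B a m y hB hm hy => ?_⟩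
  have hA := RT.Apar_pos hB
  have hX := RT.Xpar_pos hB
  have hu : 0 < m / B := by positivity
  have hv : 0 < y / Xpar B := by positivity
  have e2 := H₁ (y / Xpar B) 0 hv (by simp)
  rw [RT.rpow_neg_nat hv.le] at e2
  have e1 : ‖Wc (m / B) 0‖ * gw (nr a * B / (Apar B * m)) ≤
      (C₁ + C₂ * C₃) * (if a = 0 then 1 else (Apar B / nr a) ^ J) * ((m / B) ^ 3)⁻¹ := by
    split_ifs with ha
    · have e := H₁ (m / B) 0 hu (by simp)
      rw [RT.rpow_neg_nat hu.le] at e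
      have g1 : gw (nr a * B / (Apar B * m)) ≤ 1 := gw_le_one (by positivity)
      calc _ ≤ C₁ * ((m / B) ^ 3)⁻¹ * 1 := by gcongr; exact (gw_pos _).le
        _ ≤ _ := by
          rw [mul_one, mul_one]
          gcongr
          nlinarith [mul_pos h₂ h₃]
    · have ha' := nr_pos ha
      have e := H₂ (m / B) 0 hu (by simp)
      have g1 := H₃ (nr a * B / (Apar B * m)) (by positivity) hJ
      have e3 : (nr a * B / (Apar B * m)) ^ (-J) = (Apar B / nr a) ^ J * (m / B) ^ J := by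
        rw [← Real.mul_rpow (by positivity) hu.le, Real.rpow_neg (by positivity),
          ← Real.inv_rpow (by positivity)]
        congr 1
        field_simp
      have e4 : (m / B) ^ (-(J + (3 : ℕ))) * (m / B) ^ J = ((m / B) ^ 3)⁻¹ := by
        rw [← Real.rpow_add hu, ← RT.rpow_neg_nat hu.le]
        congr 1
        ring
      rw [e3] at g1
      calc _ ≤ C₂ * (m / B) ^ (-(J + (3 : ℕ))) * (C₃ * ((Apar B / nr a) ^ J * (m / B) ^ J)) := by
            gcongr; exact (gw_pos _).le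
        _ = C₂ * C₃ * (Apar B / nr a) ^ J * ((m / B) ^ (-(J + (3 : ℕ))) * (m / B) ^ J) := by ring
        _ ≤ _ := by
          rw [e4]
          gcongr
          linarith
  rw [Phi, norm_mul, norm_mul, Complex.norm_real, Real.norm_of_nonneg (gw_pos _).le]
  have hw : 0 ≤ (if a = 0 then 1 else (Apar B / nr a) ^ J) := by split_ifs <;> positivity
  calc _ ≤ (C₁ + C₂ * C₃) * (if a = 0 then 1 else (Apar B / nr a) ^ J) * ((m / B) ^ 3)⁻¹ *
        (C₁ * ((y / Xpar B) ^ 3)⁻¹) := by gcongr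
    _ = _ := by ring

theorem RT.pt {M : O} (hM : Adm M) (ψ : Chr M) {J : ℝ} (hJ : 0 ≤ J) : ∃ C : ℝ, 0 < C ∧
    ∀ (B : ℝ) (a n x z π : O), 0 < B → z ≠ 0 → π ≠ 0 →
      ‖cf ψ a n x * Phi B a (nr n / nr z) (nr x * nr π)‖ ≤
        C * (B * nr z * Xpar B) ^ 3 * ((if a = 0 then 1 else (Apar B / nr a) ^ J) *
          (nr n ^ (-2 : ℝ) * nr x ^ (-2 : ℝ))) := by
  obtain ⟨C, hC, H⟩ := RT.norm_Phi_le hJ
  refine ⟨C, hC, fun B a n x z π hB hz hπ => ?_⟩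
  have hA := RT.Apar_pos hB
  have hX := RT.Xpar_pos hB
  have hz' := nr_pos hz
  have hπ' := one_le_nr hπ
  have hw : 0 ≤ (if a = 0 then 1 else (Apar B / nr a) ^ J) := by split_ifs <;> positivity
  by_cases h0 : cf ψ a n x = 0
  · rw [h0, zero_mul, norm_zero]; positivity
  obtain ⟨hn, -, hx, -⟩ := cf_support ψ h0
  have hn' := nr_pos hn.ne_zero
  have hx' := nr_pos hx.ne_zero
  have e := H B a (nr n / nr z) (nr x * nr π) hB (by positivity) (by positivity)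
  have e2 : ((nr x * nr π / Xpar B) ^ 3)⁻¹ ≤ ((nr x / Xpar B) ^ 3)⁻¹ := by
    gcongr
    exact le_mul_of_one_le_right hx'.le hπ'
  have e3 : ∀ u : ℝ, 0 ≤ u → u ^ (-2 : ℝ) = (u ^ 2)⁻¹ := fun u hu => by
    rw [Real.rpow_neg hu, Real.rpow_two]
  rw [norm_mul, e3 _ hn'.le, e3 _ hx'.le]
  calc _ ≤ nr n * nr x * (C * (if a = 0 then 1 else (Apar B / nr a) ^ J) *
        (((nr n / nr z / B) ^ 3)⁻¹ * ((nr x / Xpar B) ^ 3)⁻¹)) := by
        refine mul_le_mul (norm_cf_le hM ψ a n x) (e.trans ?_) (norm_nonneg _) (by positivity)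
        gcongr
    _ = _ := by field_simp

theorem RT.summable_two : Summable fun v : O × O => nr v.1 ^ (-2 : ℝ) * nr v.2 ^ (-2 : ℝ) :=
  (summable_nr_rpow one_lt_two).mul_of_nonneg (summable_nr_rpow one_lt_two)
    (fun _ => by positivity) (fun _ => by positivity)

theorem RT.div_rpow_two {A : ℝ} (hA : 0 < A) (a : O) :
    (A / nr a) ^ (2 : ℝ) = A ^ 2 * nr a ^ (-2 : ℝ) := by
  rw [Real.div_rpow hA.le (by positivity), Real.rpow_neg (by positivity), Real.rpow_two,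
    div_eq_mul_inv]

theorem RT.summable_wt {A : ℝ} (hA : 0 < A) :
    Summable fun a : O => if a = 0 then (1 : ℝ) else (A / nr a) ^ (2 : ℝ) := by
  refine Summable.of_nonneg_of_le (fun a => by split_ifs <;> positivity) (fun a => ?_)
    ((hasSum_ite_eq (0 : O) (1 : ℝ)).summable.add
      ((summable_nr_rpow one_lt_two).mul_left (A ^ 2)))
  split_ifs
  · exact le_add_of_nonneg_right (by positivity)
  · rw [zero_add, RT.div_rpow_two hA]

theorem summable_probe {M : O} (hM : Adm M) (ψ : Chr M) {B : ℝ} (hB : 0 < B) {z π : O}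
    (hz : z ≠ 0) (hπ : π ≠ 0) : Summable (fun v : O × O × O =>
      ‖cf ψ v.1 v.2.1 v.2.2 * Phi B v.1 (nr v.2.1 / nr z) (nr v.2.2 * nr π)‖) := by
  obtain ⟨C, -, H⟩ := RT.pt hM ψ (J := 2) zero_le_two
  have hA := RT.Apar_pos hB
  exact Summable.of_nonneg_of_le (fun _ => norm_nonneg _)
    (fun v => H B v.1 v.2.1 v.2.2 z π hB hz hπ)
    (((RT.summable_wt hA).mul_of_nonneg RT.summable_two
      (fun a => by dsimp only; split_ifs <;> positivity) (fun _ => by positivity)).mul_left _)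

theorem RT.norm_Ia_le {M : O} (hM : Adm M) (ψ : Chr M) (K₀ : ℕ) {J : ℝ} (hJ : 0 ≤ J) :
    ∃ C : ℝ, 0 < C ∧ ∀ (B : ℝ) (a : O), 0 < B → ‖Ia ψ K₀ B a‖ ≤
      (C * ∑ p ∈ Fintype.piFinset (fun i : Fin K₀ => Pset M K₀ B i), ∑ S : Finset (Fin K₀),
        (B * nr (∏ i ∈ Sᶜ, p i) * Xpar B) ^ 3) * (if a = 0 then 1 else (Apar B / nr a) ^ J) := by
  obtain ⟨C, hC, H⟩ := RT.pt hM ψ hJ
  obtain ⟨Z, hZ⟩ : ∃ Z : ℝ, Z = ∑' v : O × O, nr v.1 ^ (-2 : ℝ) * nr v.2 ^ (-2 : ℝ) := ⟨_, rfl⟩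
  have hZ0 : 0 ≤ Z := by rw [hZ]; exact tsum_nonneg fun _ => by positivity
  refine ⟨C * (Z + 1), by positivity, fun B a hB => ?_⟩
  have hA := RT.Apar_pos hB
  have hX := RT.Xpar_pos hB
  have hw : 0 ≤ (if a = 0 then 1 else (Apar B / nr a) ^ J) := by split_ifs <;> positivity
  have hI : ∀ z π : O, z ≠ 0 → π ≠ 0 → ‖Irow ψ B a z π‖ ≤
      C * (Z + 1) * (B * nr z * Xpar B) ^ 3 * (if a = 0 then 1 else (Apar B / nr a) ^ J) := by
    intro z π hz hπ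
    have h1 := ((RT.summable_two.hasSum.mul_left
      (if a = 0 then 1 else (Apar B / nr a) ^ J)).mul_left (C * (B * nr z * Xpar B) ^ 3))
    rw [← hZ] at h1
    refine (tsum_of_norm_bounded h1 fun v => ?_).trans ?_
    · by_cases hv : z ∣ v.1
      · rw [if_pos hv]
        exact H B a v.1 v.2 z π hB hz hπ
      · rw [if_neg hv, norm_zero]
        positivity
    · calc _ = C * Z * (B * nr z * Xpar B) ^ 3 * (if a = 0 then 1 else (Apar B / nr a) ^ J) := by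
            ring
        _ ≤ _ := by gcongr; linarith
  rw [Ia, Finset.mul_sum, Finset.sum_mul]
  refine (norm_sum_le _ _).trans (Finset.sum_le_sum fun p hp => ?_)
  rw [Finset.mul_sum, Finset.sum_mul]
  refine (norm_sum_le _ _).trans (Finset.sum_le_sum fun S _ => ?_)
  have hp0 : ∀ i, p i ≠ 0 := fun i =>
    ((mem_Pset hB).1 (Fintype.mem_piFinset.1 hp i)).1.ne_zero
  have h1 : ‖∏ i : Fin K₀, cw K₀ B i (p i)‖ ≤ 1 := by
    rw [norm_prod]
    exact Finset.prod_le_one (fun _ _ => norm_nonneg _) fun i _ => norm_cw_le _ _ _ _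
  have h2 : ‖∏ i ∈ Sᶜ, -(starRingEnd ℂ) (ev ψ (p i))‖ ≤ 1 := by
    rw [norm_prod]
    refine Finset.prod_le_one (fun _ _ => norm_nonneg _) fun i _ => ?_
    rw [norm_neg, Complex.norm_conj]
    exact norm_ev_le hM.1 ψ _
  have h3 := hI (∏ i ∈ Sᶜ, p i) (∏ i ∈ S, p i) (Finset.prod_ne_zero_iff.2 fun i _ => hp0 i)
    (Finset.prod_ne_zero_iff.2 fun i _ => hp0 i)
  rw [norm_mul, norm_mul]
  calc _ ≤ 1 * 1 * ‖Irow ψ B a (∏ i ∈ Sᶜ, p i) (∏ i ∈ S, p i)‖ := by gcongr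
    _ ≤ _ := by rw [one_mul, one_mul]; exact h3

theorem summable_Ia {M : O} (hM : Adm M) (ψ : Chr M) (K₀ : ℕ) {B : ℝ} (hB : 0 < B) :
    Summable (fun a => ‖Ia ψ K₀ B a‖) := by
  obtain ⟨C, -, H⟩ := RT.norm_Ia_le hM ψ K₀ (J := 2) zero_le_two
  exact Summable.of_nonneg_of_le (fun _ => norm_nonneg _) (fun a => H B a hB)
    ((RT.summable_wt (RT.Apar_pos hB)).mul_left _)

theorem RT.nr_le {M p : O} {K₀ : ℕ} {B : ℝ} (hB : 1 ≤ B) {i : Fin K₀} (hp : p ∈ Pset M K₀ B i) :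
    nr p ≤ B := by
  refine ((mem_Pset (one_pos.trans_le hB)).1 hp).2.2.2.2.trans
    (Real.rpow_le_self_of_one_le hB ?_)
  have h1 := (ell_bounds i.2).2
  have hK : (1 : ℝ) ≤ K₀ := by exact_mod_cast (show 1 ≤ K₀ from i.pos)
  have h3 : 5 / (24 * (K₀ : ℝ)) ≤ 1 := by
    rw [div_le_one (by positivity)]; linarith
  linarith

theorem RT.card_le (M : O) {K₀ : ℕ} {B : ℝ} (hB : 1 ≤ B) (i : Fin K₀) :
    ((Pset M K₀ B i).card : ℝ) ≤ 8 * B := by
  have h4 : Pset M K₀ B i ⊆ ball ⌊B⌋₊ := fun p hp => mem_ball.2 (Nat.le_floor (RT.nr_le hB hp))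
  have h5 : (((Pset M K₀ B i).card : ℕ) : ℝ) ≤ ((7 * ⌊B⌋₊ + 1 : ℕ) : ℝ) :=
    Nat.cast_le.2 ((Finset.card_le_card h4).trans (card_ball_le _))
  have h6 := Nat.floor_le (zero_le_one.trans hB)
  push_cast at h5
  linarith

theorem RT.sum_le (M : O) (K₀ : ℕ) {B : ℝ} (hB : 1 ≤ B) :
    ∑ p ∈ Fintype.piFinset (fun i : Fin K₀ => Pset M K₀ B i), ∑ S : Finset (Fin K₀),
      (B * nr (∏ i ∈ Sᶜ, p i) * Xpar B) ^ 3 ≤ 16 ^ K₀ * B ^ (4 * K₀ + 6) := by
  have hB0 : 0 < B := one_pos.trans_le hB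
  have hX := RT.Xpar_pos hB0
  have hX1 : Xpar B ≤ B := Real.rpow_le_self_of_one_le hB (by norm_num)
  have h1 : ∀ p ∈ Fintype.piFinset (fun i : Fin K₀ => Pset M K₀ B i), ∑ S : Finset (Fin K₀),
      (B * nr (∏ i ∈ Sᶜ, p i) * Xpar B) ^ 3 ≤ 2 ^ K₀ * (B * B ^ K₀ * B) ^ 3 := by
    intro p hp
    have h2 : ∀ S ∈ (Finset.univ : Finset (Finset (Fin K₀))),
        (B * nr (∏ i ∈ Sᶜ, p i) * Xpar B) ^ 3 ≤ (B * B ^ K₀ * B) ^ 3 := by
      intro S _
      have h3 : nr (∏ i ∈ Sᶜ, p i) ≤ B ^ K₀ := by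
        rw [nr, nm_prod]
        push_cast
        refine (Finset.prod_le_prod (g := fun _ => B) (fun _ _ => by positivity)
          fun i _ => RT.nr_le hB (Fintype.mem_piFinset.1 hp i)).trans ?_
        rw [Finset.prod_const]
        exact pow_le_pow_right₀ hB ((Finset.card_le_univ _).trans_eq (Fintype.card_fin _))
      gcongr
    refine (Finset.sum_le_card_nsmul _ _ _ h2).trans_eq ?_
    simp
  refine (Finset.sum_le_card_nsmul _ _ _ h1).trans ?_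
  rw [nsmul_eq_mul, Fintype.card_piFinset]
  push_cast
  have h4 : ∏ i : Fin K₀, ((Pset M K₀ B i).card : ℝ) ≤ (8 * B) ^ K₀ := by
    refine (Finset.prod_le_prod (fun _ _ => by positivity) fun i _ => RT.card_le M hB i).trans_eq ?_
    simp
  calc _ ≤ (8 * B) ^ K₀ * (2 ^ K₀ * (B * B ^ K₀ * B) ^ 3) := by gcongr
    _ = _ := by
      rw [show (16 : ℝ) = 8 * 2 by norm_num, mul_pow, mul_pow 8]
      ring

/-- (`gw(N a B/(A m)) W(m/B)` is negligible: either `m ≥ B^{1+ε/2}` or the Gaussian is tiny.) -/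
theorem row_tail {M : O} (hM : Adm M) (ψ : Chr M) (K₀ : ℕ) {ε : ℝ} (hε : 0 < ε) :
    ∃ C : ℝ, 0 < C ∧ ∀ B : ℝ, 1 ≤ B →
      ∑' a : O, (if Apar B * B ^ ε < nr a then ‖Ia ψ K₀ B a‖ else 0) ≤ C := by
  obtain ⟨L, hL⟩ : ∃ L : ℝ, L = ((4 * K₀ + 8 : ℕ) : ℝ) / ε := ⟨_, rfl⟩
  have hL0 : 0 ≤ L := by rw [hL]; positivity
  obtain ⟨C, hC, H⟩ := RT.norm_Ia_le hM ψ K₀ (J := L + 2) (by positivity)
  have hZ : 0 ≤ ∑' n : O, nr n ^ (-2 : ℝ) := tsum_nonneg fun n => by positivity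
  refine ⟨C * 16 ^ K₀ * ∑' n : O, nr n ^ (-2 : ℝ) + 1, by positivity, fun B hB => ?_⟩
  have hB0 : 0 < B := one_pos.trans_le hB
  have hA := RT.Apar_pos hB0
  have hA1 : Apar B ≤ B := Real.rpow_le_self_of_one_le hB (by norm_num)
  have hBe : 0 < B ^ ε := by positivity
  have key : ∀ a : O, (if Apar B * B ^ ε < nr a then ‖Ia ψ K₀ B a‖ else 0) ≤
      C * 16 ^ K₀ * nr a ^ (-2 : ℝ) := by
    intro a
    split_ifs with h
    swap
    · positivity
    have ha' : 0 < nr a := lt_trans (by positivity) h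
    have ha : a ≠ 0 := by rintro rfl; simp at ha'
    have h1 := H B a hB0
    rw [if_neg ha, Real.rpow_add (by positivity), RT.div_rpow_two hA] at h1
    have h2 : (Apar B / nr a) ^ L ≤ (B ^ (4 * K₀ + 8))⁻¹ := by
      have h3 : Apar B / nr a ≤ B ^ (-ε) := by
        rw [Real.rpow_neg hB0.le, div_le_iff₀ ha', inv_mul_eq_div, le_div_iff₀ hBe]
        exact h.le
      refine (Real.rpow_le_rpow (by positivity) h3 hL0).trans_eq ?_
      rw [← Real.rpow_mul hB0.le, ← RT.rpow_neg_nat hB0.le, hL]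
      congr 1
      field_simp
    have h4 := RT.sum_le M K₀ hB
    refine h1.trans ?_
    calc _ ≤ C * (16 ^ K₀ * B ^ (4 * K₀ + 6)) *
          ((B ^ (4 * K₀ + 8))⁻¹ * (B ^ 2 * nr a ^ (-2 : ℝ))) := by gcongr
      _ = _ := by field_simp; ring
  have hs := (summable_nr_rpow one_lt_two).mul_left (C * 16 ^ K₀)
  refine ((Summable.of_nonneg_of_le (fun a => by split_ifs <;> positivity) key hs).tsum_le_tsum
    key hs).trans ?_
  rw [tsum_mul_left]
  linarith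

end Crest.Agent.R17
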