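import Crest.Agent.R17.Basic

/-!
# Row 17: residue characters modulo a prime (auxiliary to `Symbol.lean`)
-/

set_option autoImplicit false

noncomputable section

namespace Crest.Agent.R17
namespace SymbolAux

open scoped ComplexConjugate

theorem of_mem_pf {n p : O} (h : p ∈ pf n) :
    Prime p ∧ Primary p ∧ p ∣ n ∧ vp p n ≠ 0 := by
  have hn : n ≠ 0 := by
    rintro rfl
    simp at h
  obtain ⟨h1, h2, h3⟩ := (mem_pf hn).1 h
  exact ⟨h1, h2, h3, fun h0 => (vp_eq_zero_iff h1 hn).1 h0 h3⟩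

theorem prod_mul {m n : O} (hm : m ≠ 0) (hn : n ≠ 0) (f : O → ℂ) :
    ∏ p ∈ pf (m * n), f p ^ vp p (m * n) =
      (∏ p ∈ pf m, f p ^ vp p m) * ∏ p ∈ pf n, f p ^ vp p n := by
  classical
  have key : ∀ k : O, k ≠ 0 → pf k ⊆ pf (m * n) →
      ∏ p ∈ pf k, f p ^ vp p k = ∏ p ∈ pf (m * n), f p ^ vp p k := fun k hk hs =>
    Finset.prod_subset hs fun p hp hp' => by
      obtain ⟨h1, h2, -, -⟩ := of_mem_pf hp
      rw [(vp_eq_zero_iff h1 hk).2 fun h => hp' ((mem_pf hk).2 ⟨h1, h2, h⟩), pow_zero]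
  rw [key m hm (by rw [pf_mul hm hn]; exact Finset.subset_union_left),
    key n hn (by rw [pf_mul hm hn]; exact Finset.subset_union_right), ← Finset.prod_mul_distrib]
  refine Finset.prod_congr rfl fun p hp => ?_
  rw [vp_mul (of_mem_pf hp).1 hm hn, pow_add]

theorem not_coprime_iff {n a : O} (hn : Primary n) : ¬ IsCoprime n a ↔ ∃ p ∈ pf n, p ∣ a := by
  constructor
  · intro h
    by_contra hc
    push Not at hc
    apply h
    rw [hn.eq_prod]
    exact IsCoprime.prod_left fun p hp =>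
      ((of_mem_pf hp).1.coprime_iff_not_dvd.2 (hc p hp)).pow_left
  · rintro ⟨p, hp, hpa⟩ h
    obtain ⟨h1, -, h3, -⟩ := of_mem_pf hp
    exact h1.not_isUnit (h.isUnit_of_dvd' h3 hpa)

theorem prod_eq_zero_iff {n a : O} (hn : Primary n) (f : O → ℂ)
    (hf : ∀ p, Prime p → Primary p → (f p = 0 ↔ p ∣ a)) :
    ∏ p ∈ pf n, f p ^ vp p n = 0 ↔ ¬ IsCoprime n a := by
  rw [not_coprime_iff hn, Finset.prod_eq_zero_iff]
  refine exists_congr fun p => and_congr_right fun hp => ?_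
  obtain ⟨h1, h2, -, h4⟩ := of_mem_pf hp
  rw [pow_eq_zero_iff h4, hf p h1 h2]

theorem dvd_rad {n p : O} (h : p ∈ pf n) : p ∣ rad n := Finset.dvd_prod_of_mem _ h

theorem om_pow_mod (k : ℕ) : om ^ k = om ^ (k % 3) := pow_eq_pow_mod k om_cube

theorem omC_pow (k : ℕ) : omC ^ k = ι (om ^ k) := by rw [map_pow, ι_om]

theorem omC_cube : omC ^ 3 = 1 := by rw [omC_pow, om_cube, map_one]

theorem omC_ne_zero : omC ≠ 0 := by
  intro h
  simpa [h] using omC_cube

theorem norm_omC : ‖omC‖ = 1 := by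
  have := congrArg norm omC_cube
  rw [norm_pow, norm_one] at this
  exact (pow_eq_one_iff_of_nonneg (norm_nonneg _) (by norm_num)).1 this

theorem cj_om : cj om = om ^ 2 := by
  ext <;> simp [cj, om, pow_two]

theorem conj_omC : conj omC = omC ^ 2 := by rw [← ι_om, ← ι_cj, cj_om, map_pow]

variable {p : O}

theorem dvd_om_sub (hp : Prime p) (h : Primary p) {i j : ℕ} (hd : p ∣ om ^ i - om ^ j) :
    i % 3 = j % 3 := by
  have h3 : ¬ p ∣ 3 := fun h' => hp.not_isUnit (h.isCoprime_three.isUnit_of_dvd' dvd_rfl h')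
  have e := om_sq_add
  rw [om_pow_mod i, om_pow_mod j] at hd
  have hi := Nat.mod_lt i (show 0 < 3 by norm_num)
  have hj := Nat.mod_lt j (show 0 < 3 by norm_num)
  generalize i % 3 = a at *
  generalize j % 3 = b at *
  by_contra hne
  apply h3
  refine hd.trans ?_
  interval_cases a <;> interval_cases b <;> first
    | exact absurd rfl hne
    | exact ⟨1 - om ^ 2, by linear_combination (2 - om) * e⟩
    | exact ⟨1 - om, by linear_combination (2 - om) * e⟩
    | exact ⟨om ^ 2 - 1, by linear_combination (2 - om) * e⟩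
    | exact ⟨om - 1, by linear_combination (2 - om) * e⟩
    | exact ⟨om ^ 2 - om, by linear_combination (om ^ 2 - 3 * om + 3) * e⟩
    | exact ⟨om - om ^ 2, by linear_combination (om ^ 2 - 3 * om + 3) * e⟩

theorem four_le (hp : Prime p) (h : Primary p) : 4 ≤ nm p := by
  have h1 := nm_prime_mod hp h
  have h2 : nm p ≠ 1 := fun h' => hp.not_isUnit (isUnit_iff_nm.2 h')
  omega

theorem fermat (hp : Prime p) {a : O} (ha : ¬ p ∣ a) : p ∣ a ^ (nm p - 1) - 1 := by
  have := Fact.mk hp.ne_zero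
  have : (Ideal.span {p}).IsMaximal := PrincipalIdealRing.isMaximal_of_irreducible hp.irreducible
  let _ := Ideal.Quotient.field (Ideal.span {p})
  have := Fintype.ofFinite (O ⧸ Ideal.span {p})
  have h1 := FiniteField.pow_card_sub_one_eq_one (Ideal.Quotient.mk (Ideal.span {p}) a)
    (by rwa [Ne, Ideal.Quotient.eq_zero_iff_mem, Ideal.mem_span_singleton])
  rw [← Nat.card_eq_fintype_card, card_quot hp.ne_zero] at h1
  rw [← Ideal.mem_span_singleton, ← Ideal.Quotient.eq, map_pow, map_one]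
  exact h1

theorem exists_pow_ne (hp : Prime p) {e : ℕ} (he : e ≠ 0) (he' : e < nm p - 1) :
    ∃ a, ¬ p ∣ a ∧ ¬ p ∣ a ^ e - 1 := by
  have := Fact.mk hp.ne_zero
  have : (Ideal.span {p}).IsMaximal := PrincipalIdealRing.isMaximal_of_irreducible hp.irreducible
  let _ := Ideal.Quotient.field (Ideal.span {p})
  obtain ⟨g, hg⟩ := IsCyclic.exists_ofOrder_eq_natCard (α := (O ⧸ Ideal.span {p})ˣ)
  rw [Nat.card_units, card_quot hp.ne_zero] at hg
  obtain ⟨a, ha⟩ := Ideal.Quotient.mk_surjective (g : O ⧸ Ideal.span {p})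
  refine ⟨a, fun h => g.ne_zero ?_, fun h => pow_ne_one_of_lt_orderOf he (hg ▸ he') ?_⟩
  · rwa [← ha, Ideal.Quotient.eq_zero_iff_mem, Ideal.mem_span_singleton]
  · rw [← Ideal.mem_span_singleton, ← Ideal.Quotient.eq, map_pow, map_one, ha] at h
    exact Units.ext (by simpa using h)

theorem exists_cub (hp : Prime p) (h : Primary p) {a : O} (ha : ¬ p ∣ a) :
    ∃ k, p ∣ a ^ ((nm p - 1) / 3) - om ^ k := by
  have h1 := fermat hp ha
  have h2 := nm_prime_mod hp h
  rw [show nm p - 1 = (nm p - 1) / 3 * 3 by omega, pow_mul] at h1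
  generalize a ^ ((nm p - 1) / 3) = x at *
  have e : x ^ 3 - 1 = (x - om ^ 0) * ((x - om ^ 1) * (x - om ^ 2)) := by
    linear_combination (x ^ 2 - om * x + om - 1) * om_sq_add
  rw [e] at h1
  rcases hp.dvd_or_dvd h1 with h3 | h3
  · exact ⟨0, h3⟩
  · rcases hp.dvd_or_dvd h3 with h4 | h4
    exacts [⟨1, h4⟩, ⟨2, h4⟩]

theorem cub1_of_dvd (hp : Prime p) (h : Primary p) {a : O} {k : ℕ}
    (hk : p ∣ a ^ ((nm p - 1) / 3) - om ^ k) : cub1 p a = omC ^ k := by
  unfold cub1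
  rw [Finset.sum_eq_single (k % 3), if_pos (om_pow_mod k ▸ hk), ← pow_eq_pow_mod k omC_cube]
  · intro j hj hne
    refine if_neg fun hd => hne ?_
    have h1 := dvd_sub hk hd
    rw [sub_sub_sub_cancel_left] at h1
    rw [← dvd_om_sub hp h h1, Nat.mod_eq_of_lt (Finset.mem_range.1 hj)]
  · intro hn
    exact absurd (Finset.mem_range.2 (Nat.mod_lt _ (by norm_num))) hn

theorem not_dvd_of_cub (hp : Prime p) (h : Primary p) {a : O} {k : ℕ}
    (hk : p ∣ a ^ ((nm p - 1) / 3) - om ^ k) : ¬ p ∣ a := by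
  intro ha
  have h4 := four_le hp h
  have h1 : p ∣ a ^ ((nm p - 1) / 3) := dvd_pow ha (by omega)
  have h2 : p ∣ om := hp.dvd_of_dvd_pow ((dvd_sub_right h1).1 hk)
  exact hp.not_dvd_one (om_cube ▸ dvd_pow h2 (by norm_num))

theorem cub1_of_dvd_zero (hp : Prime p) (h : Primary p) {a : O} (ha : p ∣ a) : cub1 p a = 0 :=
  Finset.sum_eq_zero fun _ _ => if_neg fun hk => not_dvd_of_cub hp h hk ha

theorem cub1_eq_zero_iff (hp : Prime p) (h : Primary p) {a : O} : cub1 p a = 0 ↔ p ∣ a := by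
  refine ⟨fun h0 => by_contra fun ha => ?_, cub1_of_dvd_zero hp h⟩
  obtain ⟨k, hk⟩ := exists_cub hp h ha
  rw [cub1_of_dvd hp h hk] at h0
  exact pow_ne_zero _ omC_ne_zero h0

theorem cub1_iff (hp : Prime p) (h : Primary p) {a : O} (k : ℕ) :
    cub1 p a = omC ^ k ↔ p ∣ a ^ ((nm p - 1) / 3) - om ^ k := by
  refine ⟨fun h1 => ?_, cub1_of_dvd hp h⟩
  have ha : ¬ p ∣ a := fun ha => by
    rw [cub1_of_dvd_zero hp h ha] at h1
    exact pow_ne_zero _ omC_ne_zero h1.symm
  obtain ⟨j, hj⟩ := exists_cub hp h ha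
  rw [cub1_of_dvd hp h hj, omC_pow, omC_pow] at h1
  rwa [← ι_injective h1]

theorem cub1_one (hp : Prime p) (h : Primary p) : cub1 p 1 = 1 := by
  have := cub1_of_dvd hp h (a := 1) (k := 0) (by simp)
  simpa using this

theorem cub1_mul (hp : Prime p) (h : Primary p) (a b : O) :
    cub1 p (a * b) = cub1 p a * cub1 p b := by
  by_cases ha : p ∣ a
  · rw [cub1_of_dvd_zero hp h ha, cub1_of_dvd_zero hp h (ha.mul_right b), zero_mul]
  by_cases hb : p ∣ b
  · rw [cub1_of_dvd_zero hp h hb, cub1_of_dvd_zero hp h (hb.mul_left a), mul_zero]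
  obtain ⟨i, hi⟩ := exists_cub hp h ha
  obtain ⟨j, hj⟩ := exists_cub hp h hb
  rw [cub1_of_dvd hp h hi, cub1_of_dvd hp h hj, ← pow_add]
  refine cub1_of_dvd hp h ?_
  have := dvd_add (hi.mul_right (b ^ ((nm p - 1) / 3))) (hj.mul_left (om ^ i))
  convert this using 1
  rw [mul_pow, pow_add]; ring

theorem dvd_pow_sub_iff {a b c : O} (hab : p ∣ a - b) (e : ℕ) : p ∣ a ^ e - c ↔ p ∣ b ^ e - c := by
  have := hab.trans (sub_dvd_pow_sub_pow a b e)
  rw [show a ^ e - c = (a ^ e - b ^ e) + (b ^ e - c) by ring]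
  exact dvd_add_right this

theorem cub1_congr {a b : O} (hab : p ∣ a - b) : cub1 p a = cub1 p b := by
  unfold cub1
  refine Finset.sum_congr rfl fun k _ => ?_
  rw [propext (dvd_pow_sub_iff hab _)]

theorem cub1_cube (hp : Prime p) (h : Primary p) {a : O} (ha : ¬ p ∣ a) : cub1 p a ^ 3 = 1 := by
  obtain ⟨k, hk⟩ := exists_cub hp h ha
  rw [cub1_of_dvd hp h hk, ← pow_mul, mul_comm, pow_mul, omC_cube, one_pow]

theorem norm_cub1_le (hp : Prime p) (h : Primary p) (a : O) : ‖cub1 p a‖ ≤ 1 := by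
  by_cases ha : p ∣ a
  · simp [cub1_of_dvd_zero hp h ha]
  · obtain ⟨k, hk⟩ := exists_cub hp h ha
    rw [cub1_of_dvd hp h hk, norm_pow, norm_omC, one_pow]

theorem conj_cub1 (hp : Prime p) (h : Primary p) (a : O) : conj (cub1 p a) = cub1 p a ^ 2 := by
  by_cases ha : p ∣ a
  · simp [cub1_of_dvd_zero hp h ha]
  · obtain ⟨k, hk⟩ := exists_cub hp h ha
    rw [cub1_of_dvd hp h hk, map_pow, conj_omC, ← pow_mul, ← pow_mul, mul_comm]

/-! ### quadratic character -/

theorem quad1_eq_zero_iff {a : O} : quad1 p a = 0 ↔ p ∣ a := by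
  unfold quad1
  split_ifs with h1 h2 <;> simp [h1]

theorem quad1_one (hp : Prime p) : quad1 p 1 = 1 := by
  unfold quad1
  rw [if_neg hp.not_dvd_one, if_pos (by simp)]

theorem quad1_sq {a : O} (ha : ¬ p ∣ a) : quad1 p a ^ 2 = 1 := by
  unfold quad1
  rw [if_neg ha]
  split_ifs <;> simp

theorem norm_quad1_le (a : O) : ‖quad1 p a‖ ≤ 1 := by
  unfold quad1
  split_ifs <;> simp

theorem conj_quad1 (a : O) : conj (quad1 p a) = quad1 p a := by
  unfold quad1
  split_ifs <;> simp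

theorem quad1_congr {a b : O} (hab : p ∣ a - b) : quad1 p a = quad1 p b := by
  unfold quad1
  rw [propext (dvd_iff_dvd_of_dvd_sub hab), propext (dvd_pow_sub_iff hab _)]

theorem nm_mod_six (hp : Prime p) (h : Primary p) (h2 : ¬ p ∣ 2) : nm p % 6 = 1 ∧ 7 ≤ nm p :=
  nm_prime_mod_six hp h fun e => h2 (e ▸ (neg_dvd.2 dvd_rfl))

theorem quad1_mul (hp : Prime p) (h : Primary p) (h2 : ¬ p ∣ 2) (a b : O) :
    quad1 p (a * b) = quad1 p a * quad1 p b := by
  by_cases ha : p ∣ a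
  · rw [quad1_eq_zero_iff.2 ha, quad1_eq_zero_iff.2 (ha.mul_right b), zero_mul]
  by_cases hb : p ∣ b
  · rw [quad1_eq_zero_iff.2 hb, quad1_eq_zero_iff.2 (hb.mul_left a), mul_zero]
  have hab : ¬ p ∣ a * b := fun h' => (hp.dvd_or_dvd h').elim ha hb
  have h6 := (nm_mod_six hp h h2).1
  have key : ∀ c, ¬ p ∣ c → ¬ p ∣ c ^ ((nm p - 1) / 2) - 1 → p ∣ c ^ ((nm p - 1) / 2) + 1 := by
    intro c hc hc'
    have h1 := fermat hp hc
    rw [show nm p - 1 = (nm p - 1) / 2 * 2 by omega, pow_mul] at h1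
    generalize c ^ ((nm p - 1) / 2) = x at *
    rw [show x ^ 2 - 1 = (x + 1) * (x - 1) by ring] at h1
    exact (hp.dvd_or_dvd h1).resolve_right hc'
  have ka := key a ha
  have kb := key b hb
  unfold quad1
  rw [if_neg ha, if_neg hb, if_neg hab, mul_pow]
  generalize a ^ ((nm p - 1) / 2) = x at *
  generalize b ^ ((nm p - 1) / 2) = y at *
  by_cases hx : p ∣ x - 1 <;> by_cases hy : p ∣ y - 1
  · rw [if_pos hx, if_pos hy, if_pos, one_mul]
    convert dvd_add (hx.mul_right y) hy using 1; ring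
  · rw [if_pos hx, if_neg hy, if_neg, one_mul]
    intro h'
    apply hy
    convert dvd_sub h' (hx.mul_right y) using 1; ring
  · rw [if_neg hx, if_pos hy, if_neg, mul_one]
    intro h'
    apply hx
    convert dvd_sub h' (hy.mul_left x) using 1; ring
  · rw [if_neg hx, if_neg hy, if_pos]
    · norm_num
    · convert dvd_sub ((ka hx).mul_right y) (kb hy) using 1; ring

/-- a character of the residue field from a function -/
theorem exists_chr_prime (f : O → ℂ) (h1 : f 1 = 1) (hmul : ∀ a b, f (a * b) = f a * f b)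
    (hper : ∀ a b, p ∣ a - b → f a = f b) (h0 : ∀ a, ¬ IsCoprime a p → f a = 0) :
    ∃ χ : MulChar (O ⧸ Ideal.span {p}) ℂ, ∀ a, χ (Ideal.Quotient.mk _ a) = f a := by
  obtain ⟨ν, hν⟩ := exists_chr (M := p) f h1 (fun a b _ _ => hmul a b) fun a b _ h => hper a b h
  refine ⟨ν, fun a => ?_⟩
  by_cases ha : IsCoprime a p
  · exact hν a ha
  · rw [h0 a ha]; exact ev_eq_zero ν ha

theorem isUnit_mk_iff (a p : O) :
    IsUnit (Ideal.Quotient.mk (Ideal.span {p}) a) ↔ IsCoprime a p := by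
  constructor
  · intro h
    obtain ⟨y, hy⟩ := h.exists_left_inv
    obtain ⟨b, rfl⟩ := Ideal.Quotient.mk_surjective y
    rw [← map_mul, ← map_one (Ideal.Quotient.mk (Ideal.span {p})), Ideal.Quotient.eq,
      Ideal.mem_span_singleton] at hy
    obtain ⟨c, hc⟩ := hy
    exact ⟨b, -c, by linear_combination hc⟩
  · rintro ⟨b, c, h⟩
    refine IsUnit.of_mul_eq_one_right (Ideal.Quotient.mk _ b) ?_
    rw [← map_mul, ← map_one (Ideal.Quotient.mk (Ideal.span {p})), Ideal.Quotient.eq,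
      Ideal.mem_span_singleton]
    exact ⟨-c, by linear_combination h⟩

theorem chr_pow_eq_one_iff (χ : MulChar (O ⧸ Ideal.span {p}) ℂ) (j : ℕ) :
    χ ^ j = 1 ↔ ∀ a, IsCoprime a p → χ (Ideal.Quotient.mk _ a) ^ j = 1 := by
  rw [MulChar.eq_one_iff]
  constructor
  · intro h a ha
    have hu : IsUnit (Ideal.Quotient.mk (Ideal.span {p}) a) :=
      (isUnit_mk_iff a p).2 ha
    have := h hu.unit
    rwa [MulChar.pow_apply_coe, IsUnit.unit_spec] at this
  · intro h u
    obtain ⟨a, ha⟩ := Ideal.Quotient.mk_surjective (u : O ⧸ Ideal.span {p})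
    rw [MulChar.pow_apply_coe, ← ha]
    exact h a ((isUnit_mk_iff a p).1 (ha ▸ u.isUnit))

/-! ### conjugation -/

/-- conjugation as a ring automorphism -/
def cjE : O ≃+* O where
  toFun := cj
  invFun := cj
  left_inv z := by ext <;> simp [cj]
  right_inv z := by ext <;> simp [cj]
  map_mul' z w := by ext <;> simp [cj] <;> ring
  map_add' z w := by ext <;> simp [cj] <;> ring

theorem cjE_apply (z : O) : cjE z = cj z := rfl

theorem cj_cj (z : O) : cj (cj z) = z := cjE.left_inv z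

theorem nm_cj (z : O) : nm (cj z) = nm z := by
  apply Int.natCast_inj.mp; rw [nm_cast, nm_cast]; simp only [cj]; ring

theorem prime_cj (hp : Prime p) : Prime (cj p) := (MulEquiv.prime_iff cjE.toMulEquiv).2 hp

theorem primary_cj (h : Primary p) : Primary (cj p) := by
  have := map_dvd cjE h
  rwa [map_sub, map_one, map_ofNat] at this

theorem cj_mem_pf {n : O} (h : p ∈ pf n) : cj p ∈ pf (cj n) := by
  obtain ⟨h1, h2, h3, -⟩ := of_mem_pf h
  have hn : n ≠ 0 := by
    rintro rfl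
    simp at h
  exact (mem_pf ((map_ne_zero_iff cjE cjE.injective).2 hn)).2
    ⟨prime_cj h1, primary_cj h2, map_dvd cjE h3⟩

theorem vp_cj (p n : O) : vp (cj p) (cj n) = vp p n := multiplicity_map_eq cjE.toMulEquiv

theorem cub1_cj (hp : Prime p) (h : Primary p) (a : O) :
    cub1 (cj p) (cj a) = conj (cub1 p a) := by
  by_cases ha : p ∣ a
  · rw [cub1_of_dvd_zero hp h ha, map_zero]
    exact cub1_of_dvd_zero (prime_cj hp) (primary_cj h) (map_dvd cjE ha)
  · obtain ⟨k, hk⟩ := exists_cub hp h ha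
    rw [cub1_of_dvd hp h hk, map_pow, conj_omC, ← pow_mul]
    refine cub1_of_dvd (prime_cj hp) (primary_cj h) ?_
    have := map_dvd cjE hk
    rwa [map_sub, map_pow, map_pow, cjE_apply, cjE_apply, cjE_apply, cj_om, ← pow_mul,
      ← nm_cj p] at this

end SymbolAux
end Crest.Agent.R17
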