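import Crest.Agent.R17.Basic
import Crest.Agent.R17.SymbolAux

/-!
# Row 17, module M2 (part A): formal properties of the residue symbols

`cub n a = (a/n)₃`, `quad n a = (a/n)₂`, `sym n a = (a/n)₆`.  For a primary prime `p` the residue
ring `O/(p)` is a finite field with `N p` elements, and `cub1 p`, `quad1 p` are multiplicative
characters of it (`exists_mulChar_cub`, `exists_mulChar_sym`).
-/

set_option autoImplicit false

noncomputable section

namespace Crest.Agent.R17

open scoped ComplexConjugate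
open SymbolAux

/-! ## cubic symbol (denominator: any non-zero element; only its prime-to-`λ` part matters) -/

theorem cub_prime {p : O} (hp : Prime p) (h : Primary p) (a : O) : cub p a = cub1 p a := by
  rw [cub, pf_prime hp h, Finset.prod_singleton, vp_self hp, pow_one]
@[simp] theorem cub_one_left (a : O) : cub 1 a = 1 := by
  rw [cub, pf_one, Finset.prod_empty]
@[simp] theorem cub_one_right (n : O) : cub n 1 = 1 := by
  exact Finset.prod_eq_one fun p hp => by
    rw [cub1_one (of_mem_pf hp).1 (of_mem_pf hp).2.1, one_pow]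
theorem cub_mul_left {m n : O} (hm : m ≠ 0) (hn : n ≠ 0) (a : O) :
    cub (m * n) a = cub m a * cub n a := by
  exact prod_mul hm hn fun p => cub1 p a
theorem cub_pow_left {n : O} (hn : n ≠ 0) (k : ℕ) (a : O) : cub (n ^ k) a = cub n a ^ k := by
  induction k with
  | zero => simp
  | succ k ih => rw [pow_succ, cub_mul_left (pow_ne_zero _ hn) hn, ih, pow_succ]
theorem cub_unit_mul_left {u : O} (hu : IsUnit u) (n a : O) : cub (u * n) a = cub n a := by
  rcases eq_or_ne n 0 with rfl | hn
  · rw [mul_zero]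
  · have h : pf u = ∅ := by rw [← mul_one u, pf_unit_mul hu, pf_one]
    rw [cub_mul_left hu.ne_zero hn, cub, h, Finset.prod_empty, one_mul]
theorem cub_lam_mul_left (n a : O) : cub (lam * n) a = cub n a := by
  rcases eq_or_ne n 0 with rfl | hn
  · rw [mul_zero]
  · have h : pf lam = ∅ := Finset.eq_empty_of_forall_notMem fun p hp => by
      obtain ⟨h1, h2, h3, -⟩ := of_mem_pf hp
      exact h2.not_lam_dvd (h1.associated_of_dvd prime_lam h3).symm.dvd
    rw [cub_mul_left prime_lam.ne_zero hn, cub, h, Finset.prod_empty, one_mul]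
theorem cub_mul_right (n a b : O) : cub n (a * b) = cub n a * cub n b := by
  rw [cub, cub, cub, ← Finset.prod_mul_distrib]
  refine Finset.prod_congr rfl fun p hp => ?_
  rw [cub1_mul (of_mem_pf hp).1 (of_mem_pf hp).2.1, mul_pow]
theorem cub_pow_right (n a : O) (k : ℕ) : cub n (a ^ k) = cub n a ^ k := by
  induction k with
  | zero => simp
  | succ k ih => rw [pow_succ, cub_mul_right, ih, pow_succ]
theorem cub_congr {n a b : O} (h : rad n ∣ a - b) : cub n a = cub n b := by
  exact Finset.prod_congr rfl fun p hp => by rw [cub1_congr ((dvd_rad hp).trans h)]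
theorem cub_eq_zero_iff {n a : O} (hn : Primary n) : cub n a = 0 ↔ ¬ IsCoprime n a := by
  exact prod_eq_zero_iff hn (fun p => cub1 p a) fun p hp h => cub1_eq_zero_iff hp h
theorem cub_pow_three {n a : O} (hn : Primary n) (h : IsCoprime n a) : cub n a ^ 3 = 1 := by
  rw [cub, ← Finset.prod_pow]
  refine Finset.prod_eq_one fun p hp => ?_
  rw [← pow_mul, mul_comm, pow_mul, cub1_cube (of_mem_pf hp).1 (of_mem_pf hp).2.1
    fun hpa => (not_coprime_iff hn).2 ⟨p, hp, hpa⟩ h, one_pow]
theorem norm_cub_le (n a : O) : ‖cub n a‖ ≤ 1 := by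
  rw [cub, norm_prod]
  refine Finset.prod_le_one (fun _ _ => norm_nonneg _) fun p hp => ?_
  rw [norm_pow]
  exact pow_le_one₀ (norm_nonneg _) (norm_cub1_le (of_mem_pf hp).1 (of_mem_pf hp).2.1 a)
theorem norm_cub {n a : O} (hn : Primary n) (h : IsCoprime n a) : ‖cub n a‖ = 1 := by
  have := congrArg norm (cub_pow_three hn h)
  rw [norm_pow, norm_one] at this
  exact (pow_eq_one_iff_of_nonneg (norm_nonneg _) (by norm_num)).1 this
theorem conj_cub (n a : O) : conj (cub n a) = cub n a ^ 2 := by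
  rw [cub, map_prod, ← Finset.prod_pow]
  refine Finset.prod_congr rfl fun p hp => ?_
  rw [map_pow, conj_cub1 (of_mem_pf hp).1 (of_mem_pf hp).2.1, ← pow_mul, ← pow_mul, mul_comm]
theorem cub_neg_one (n : O) : cub n (-1) = 1 := by
  rw [show (-1 : O) = (-1) ^ 3 by norm_num, cub_pow_right, cub, ← Finset.prod_pow]
  refine Finset.prod_eq_one fun p hp => ?_
  rw [← pow_mul, mul_comm, pow_mul, cub1_cube (of_mem_pf hp).1 (of_mem_pf hp).2.1
    fun hpa => (of_mem_pf hp).1.not_dvd_one (dvd_neg.1 hpa), one_pow]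
/-- The defining congruence. -/
theorem cub1_eq_pow_iff {p a : O} (hp : Prime p) (h : Primary p) (k : ℕ) :
    cub1 p a = omC ^ k ↔ p ∣ a ^ ((nm p - 1) / 3) - om ^ k := by
  exact cub1_iff hp h k
theorem Symbol_exists_cub_ne {p : O} (hp : Prime p) (h : Primary p) :
    ∃ a, IsCoprime a p ∧ cub p a ≠ 1 := by
  have h4 := four_le hp h
  obtain ⟨a, ha, ha'⟩ := exists_pow_ne hp (e := (nm p - 1) / 3) (by omega) (by omega)
  refine ⟨a, (hp.coprime_iff_not_dvd.2 ha).symm, fun h1 => ha' ?_⟩
  rw [cub_prime hp h, ← pow_zero omC, cub1_iff hp h, pow_zero] at h1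
  exact h1
/-- `cub1 p` is a non-trivial (order three) character of the field `O/(p)`. -/
theorem exists_mulChar_cub {p : O} (hp : Prime p) (h : Primary p) :
    ∃ χ : MulChar (O ⧸ Ideal.span {p}) ℂ, orderOf χ = 3 ∧
      ∀ a, χ (Ideal.Quotient.mk _ a) = cub p a := by
  obtain ⟨χ, hχ⟩ := exists_chr_prime (p := p) (cub p) (cub_one_right p) (cub_mul_right p)
    (fun a b hab => cub_congr ((rad_dvd p).trans hab))
    fun a ha => (cub_eq_zero_iff h).2 fun h' => ha h'.symm
  refine ⟨χ, orderOf_eq_prime (p := 3) ((chr_pow_eq_one_iff χ 3).2 fun a ha => ?_) fun h1 => ?_,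
    hχ⟩
  · rw [hχ, cub_pow_three h ha.symm]
  · obtain ⟨a, ha, ha'⟩ := Symbol_exists_cub_ne hp h
    have := (chr_pow_eq_one_iff χ 1).1 (by rw [h1, one_pow]) a ha
    rw [pow_one, hχ] at this
    exact ha' this
theorem cub_cj (n a : O) : cub (cj n) (cj a) = conj (cub n a) := by
  rw [cub, cub, map_prod]
  symm
  refine Finset.prod_nbij' cj cj (fun p hp => cj_mem_pf hp) (fun p hp => ?_)
    (fun p _ => cj_cj p) (fun p _ => cj_cj p) fun p hp => ?_
  · have := cj_mem_pf hp
    rwa [cj_cj] at this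
  · rw [map_pow, vp_cj, cub1_cj (of_mem_pf hp).1 (of_mem_pf hp).2.1]

/-! ## quadratic and sextic symbols (denominator primary and odd, i.e. coprime to `6`) -/

/-- Primary and coprime to `2`. -/
def PO (n : O) : Prop := Primary n ∧ IsCoprime n 2

theorem PO.mul {m n : O} (hm : PO m) (hn : PO n) : PO (m * n) := by
  exact ⟨hm.1.mul hn.1, hm.2.mul_left hn.2⟩
theorem PO.of_dvd {m n : O} (hn : PO n) (hm : Primary m) (h : m ∣ n) : PO m := by
  exact ⟨hm, hn.2.of_isCoprime_of_dvd_left h⟩
theorem PO.of_adm {M n : O} (hM : Adm M) (hn : Primary n) (h : IsCoprime n M) : PO n := by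
  exact ⟨hn, h.of_isCoprime_of_dvd_right (Dvd.dvd.trans ⟨36, by norm_num⟩ hM.2)⟩

theorem Symbol_quad_prime {p : O} (hp : Prime p) (h : Primary p) (a : O) :
    quad p a = quad1 p a := by
  rw [quad, pf_prime hp h, Finset.prod_singleton, vp_self hp, pow_one]
theorem Symbol_quad_eq_zero_iff {n a : O} (hn : Primary n) : quad n a = 0 ↔ ¬ IsCoprime n a :=
  prod_eq_zero_iff hn (fun p => quad1 p a) fun _ _ _ => quad1_eq_zero_iff
theorem Symbol_norm_quad_le (n a : O) : ‖quad n a‖ ≤ 1 := by
  rw [quad, norm_prod]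
  refine Finset.prod_le_one (fun _ _ => norm_nonneg _) fun p _ => ?_
  rw [norm_pow]
  exact pow_le_one₀ (norm_nonneg _) (norm_quad1_le a)
theorem Symbol_quad_sq {n a : O} (hn : Primary n) (h : IsCoprime n a) : quad n a ^ 2 = 1 := by
  rw [quad, ← Finset.prod_pow]
  refine Finset.prod_eq_one fun p hp => ?_
  rw [← pow_mul, mul_comm, pow_mul, quad1_sq
    fun hpa => (not_coprime_iff hn).2 ⟨p, hp, hpa⟩ h, one_pow]

@[simp] theorem quad_one_left (a : O) : quad 1 a = 1 := by
  rw [quad, pf_one, Finset.prod_empty]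
@[simp] theorem sym_one_left (a : O) : sym 1 a = 1 := by
  simp [sym]
theorem quad_one_right (n : O) : quad n 1 = 1 := by
  exact Finset.prod_eq_one fun p hp => by rw [quad1_one (of_mem_pf hp).1, one_pow]
theorem sym_one_right (n : O) : sym n 1 = 1 := by
  simp [sym, quad_one_right]
theorem quad_mul_left {m n : O} (hm : m ≠ 0) (hn : n ≠ 0) (a : O) :
    quad (m * n) a = quad m a * quad n a := by
  exact prod_mul hm hn fun p => quad1 p a
theorem sym_mul_left {m n : O} (hm : m ≠ 0) (hn : n ≠ 0) (a : O) :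
    sym (m * n) a = sym m a * sym n a := by
  rw [sym, sym, sym, quad_mul_left hm hn, cub_mul_left hm hn, map_mul]; ring
theorem sym_pow_left {n : O} (hn : n ≠ 0) (k : ℕ) (a : O) : sym (n ^ k) a = sym n a ^ k := by
  induction k with
  | zero => simp
  | succ k ih => rw [pow_succ, sym_mul_left (pow_ne_zero _ hn) hn, ih, pow_succ]
theorem sym_eq_prod (n a : O) : sym n a = ∏ p ∈ pf n, sym p a ^ vp p n := by
  rw [sym, quad, cub, map_prod, ← Finset.prod_mul_distrib]
  refine Finset.prod_congr rfl fun p hp => ?_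
  obtain ⟨h1, h2, -, -⟩ := of_mem_pf hp
  rw [sym, cub_prime h1 h2, Symbol_quad_prime h1 h2, mul_pow, map_pow]
theorem quad_mul_right {n : O} (hn : PO n) (a b : O) : quad n (a * b) = quad n a * quad n b := by
  rw [quad, quad, quad, ← Finset.prod_mul_distrib]
  refine Finset.prod_congr rfl fun p hp => ?_
  obtain ⟨h1, h2, h3, -⟩ := of_mem_pf hp
  rw [quad1_mul h1 h2 (fun h => h1.not_isUnit (hn.2.isUnit_of_dvd' h3 h)), mul_pow]
theorem sym_mul_right {n : O} (hn : PO n) (a b : O) : sym n (a * b) = sym n a * sym n b := by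
  rw [sym, sym, sym, quad_mul_right hn, cub_mul_right, map_mul]; ring
theorem sym_pow_right {n : O} (hn : PO n) (a : O) (k : ℕ) : sym n (a ^ k) = sym n a ^ k := by
  induction k with
  | zero => simp [sym_one_right]
  | succ k ih => rw [pow_succ, sym_mul_right hn, ih, pow_succ]
theorem quad_congr {n a b : O} (h : rad n ∣ a - b) : quad n a = quad n b := by
  exact Finset.prod_congr rfl fun p hp => by rw [quad1_congr ((dvd_rad hp).trans h)]
theorem sym_congr {n a b : O} (h : rad n ∣ a - b) : sym n a = sym n b := by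
  rw [sym, sym, quad_congr h, cub_congr h]
theorem sym_eq_zero_iff {n a : O} (hn : Primary n) : sym n a = 0 ↔ ¬ IsCoprime n a := by
  rw [sym, mul_eq_zero, map_eq_zero, cub_eq_zero_iff hn, Symbol_quad_eq_zero_iff hn, or_self]
theorem norm_sym_le (n a : O) : ‖sym n a‖ ≤ 1 := by
  rw [sym, norm_mul, Complex.norm_conj]
  exact mul_le_one₀ (Symbol_norm_quad_le n a) (norm_nonneg _) (norm_cub_le n a)
theorem norm_sym {n a : O} (hn : Primary n) (h : IsCoprime n a) : ‖sym n a‖ = 1 := by
  have := congrArg norm (Symbol_quad_sq hn h)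
  rw [norm_pow, norm_one] at this
  rw [sym, norm_mul, Complex.norm_conj, norm_cub hn h,
    (pow_eq_one_iff_of_nonneg (norm_nonneg _) (by norm_num)).1 this, one_mul]
theorem norm_quad_le (n a : O) : ‖quad n a‖ ≤ 1 := by
  exact Symbol_norm_quad_le n a
theorem conj_quad (n a : O) : conj (quad n a) = quad n a := by
  rw [quad, map_prod]
  exact Finset.prod_congr rfl fun p _ => by rw [map_pow, conj_quad1]
theorem quad_sq {n a : O} (hn : Primary n) (h : IsCoprime n a) : quad n a ^ 2 = 1 := by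
  exact Symbol_quad_sq hn h
theorem sym_sq {n : O} (hn : Primary n) (a : O) : sym n a ^ 2 = cub n a := by
  rw [sym, conj_cub]
  by_cases h : IsCoprime n a
  · linear_combination cub n a ^ 4 * quad_sq hn h + cub n a * cub_pow_three hn h
  · rw [(cub_eq_zero_iff hn).2 h]; simp
theorem sym_pow_three {n : O} (hn : Primary n) (a : O) : sym n a ^ 3 = quad n a := by
  rw [sym, conj_cub]
  by_cases h : IsCoprime n a
  · linear_combination quad n a * cub n a ^ 6 * quad_sq hn h +
      quad n a * (cub n a ^ 3 + 1) * cub_pow_three hn h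
  · rw [(Symbol_quad_eq_zero_iff hn).2 h]; simp
theorem sym_pow_six {n a : O} (hn : Primary n) (h : IsCoprime n a) : sym n a ^ 6 = 1 := by
  rw [show 6 = 2 * 3 from rfl, pow_mul, sym_sq hn, cub_pow_three hn h]
theorem sym_pow_add_six {n : O} (hn : Primary n) (a : O) {j : ℕ} (hj : j ≠ 0) :
    sym n a ^ (j + 6) = sym n a ^ j := by
  by_cases h : IsCoprime n a
  · rw [pow_add, sym_pow_six hn h, mul_one]
  · rw [(sym_eq_zero_iff hn).2 h, zero_pow hj, zero_pow (by omega)]
theorem conj_sym {n : O} (hn : Primary n) (a : O) : conj (sym n a) = sym n a ^ 5 := by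
  rw [show 5 = 3 + 2 from rfl, pow_add, sym_pow_three hn, sym_sq hn, sym, map_mul, conj_quad,
    Complex.conj_conj]
/-- `sym p` is a character of exact order six of the field `O/(p)`. -/
theorem exists_mulChar_sym {p : O} (hp : Prime p) (h : PO p) :
    ∃ χ : MulChar (O ⧸ Ideal.span {p}) ℂ, orderOf χ = 6 ∧
      ∀ a, χ (Ideal.Quotient.mk _ a) = sym p a := by
  obtain ⟨χ, hχ⟩ := exists_chr_prime (p := p) (sym p) (sym_one_right p) (sym_mul_right h)
    (fun a b hab => sym_congr ((rad_dvd p).trans hab))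
    fun a ha => (sym_eq_zero_iff h.1).2 fun h' => ha h'.symm
  refine ⟨χ, orderOf_eq_of_pow_and_pow_div_prime (by norm_num)
    ((chr_pow_eq_one_iff χ 6).2 fun a ha => ?_) fun q hq hq6 h1 => ?_, hχ⟩
  · rw [hχ, sym_pow_six h.1 ha.symm]
  · have hq' : q = 2 ∨ q = 3 := by
      have := Nat.le_of_dvd (by norm_num) hq6
      interval_cases q <;> first | omega | exact absurd hq (by norm_num)
    rcases hq' with rfl | rfl
    · have h6 := nm_mod_six hp h.1 fun h' => hp.not_isUnit (h.2.isUnit_of_dvd' dvd_rfl h')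
      obtain ⟨a, ha, ha'⟩ := exists_pow_ne hp (e := (nm p - 1) / 2) (by omega) (by omega)
      have := (chr_pow_eq_one_iff χ 3).1 h1 a (hp.coprime_iff_not_dvd.2 ha).symm
      rw [hχ, sym_pow_three h.1, Symbol_quad_prime hp h.1, quad1, if_neg ha, if_neg ha'] at this
      norm_num at this
    · obtain ⟨a, ha, ha'⟩ := Symbol_exists_cub_ne hp h.1
      have := (chr_pow_eq_one_iff χ 2).1 h1 a ha
      rw [hχ, sym_sq h.1] at this
      exact ha' this
/-- A non-trivial power has mean zero. -/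
theorem sum_res_sym_pow {p : O} (hp : Prime p) (h : PO p) {j : ℕ} (hj : ¬ 6 ∣ j) :
    ∑ x ∈ res p, sym p x ^ j = 0 := by
  obtain ⟨χ, h6, hχ⟩ := exists_mulChar_sym hp h
  have := Fact.mk hp.ne_zero
  have := Fintype.ofFinite (O ⧸ Ideal.span {p})
  have hj0 : j ≠ 0 := by
    rintro rfl
    exact hj (dvd_zero _)
  have h1 : χ ^ j ≠ 1 := fun h' => hj (h6 ▸ orderOf_dvd_of_pow_eq_one h')
  rw [← MulChar.sum_eq_zero_of_ne_one h1, ← sum_res_eq_quot hp.ne_zero]
  exact Finset.sum_congr rfl fun x _ => by rw [MulChar.pow_apply' _ hj0, hχ]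
theorem exists_sym_pow_ne_one {p : O} (hp : Prime p) (h : PO p) {j : ℕ} (hj : ¬ 6 ∣ j) :
    ∃ x, IsCoprime x p ∧ sym p x ^ j ≠ 1 := by
  obtain ⟨χ, h6, hχ⟩ := exists_mulChar_sym hp h
  have h1 : χ ^ j ≠ 1 := fun h' => hj (h6 ▸ orderOf_dvd_of_pow_eq_one h')
  by_contra hc
  push Not at hc
  exact h1 ((chr_pow_eq_one_iff χ j).2 fun a ha => by rw [hχ, hc a ha])

end Crest.Agent.R17
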