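import Crest.Agent.R17.T2Mark

/-!
# Row 17, module T2: auxiliary lemmas for `ext_al` (helper33)
-/

set_option autoImplicit false

noncomputable section

namespace Crest.Agent.R17.T2AlB

open scoped ComplexConjugate

variable {M : O} {Ps : ℕ → Finset O} {P : ℕ → ℝ} {I : Finset ℕ}

theorem mem_sp' {X : ℝ} {n : O} : n ∈ sp M X ↔ SP M n ∧ nr n ≤ X := by
  by_cases hX : 0 ≤ X
  · exact mem_sp hX
  · rw [sp_eq_empty M (by linarith [not_le.1 hX] : X < 1)]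
    refine ⟨fun h => absurd h (Finset.notMem_empty n), fun h => absurd ?_ hX⟩
    exact (Nat.cast_nonneg _).trans h.2

open Classical in
/-- the coefficient on the primes of the slots -/
def kap (Ps : ℕ → Finset O) (P : ℕ → ℝ) (I : Finset ℕ) (s : ℂ) (p : O) : ℂ :=
  ∑ j ∈ I, if p ∈ Ps j then ((nr p / P j : ℝ) : ℂ) ^ s / 2 else 0

theorem kap_eq (h : Slots M Ps P I) (s : ℂ) {j : ℕ} (hj : j ∈ I) {p : O} (hp : p ∈ Ps j) :
    kap Ps P I s p = ((nr p / P j : ℝ) : ℂ) ^ s / 2 := by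
  classical
  rw [kap, Finset.sum_eq_single j]
  · rw [if_pos hp]
  · intro i hi hij
    exact if_neg fun hpi => Finset.disjoint_left.1 (h.disj i hi j hj hij) hpi hp
  · intro h'; exact absurd hj h'

theorem rpow_le_of {x σ B : ℝ} (hx : 0 < x) (h1 : -1 ≤ σ) (h0 : σ ≤ 0) (hB : 1 ≤ B)
    (hxB : 1 ≤ x * B) : x ^ σ ≤ B := by
  rcases le_total 1 x with h | h
  · exact (Real.rpow_le_one_of_one_le_of_nonpos h h0).trans hB
  · calc x ^ σ ≤ x ^ (-1 : ℝ) := Real.rpow_le_rpow_of_exponent_ge hx h h1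
      _ = x⁻¹ := Real.rpow_neg_one x
      _ ≤ B := by rw [inv_le_iff_one_le_mul₀' hx]; exact hxB

theorem norm_kap_le (h : Slots M Ps P I) (hd : Dy Ps P I) {s : ℂ} (h1 : -1 ≤ s.re)
    (h0 : s.re ≤ 0) (p : O) : ‖kap Ps P I s p‖ ≤ 1 := by
  classical
  by_cases hp : ∃ j ∈ I, p ∈ Ps j
  · obtain ⟨j, hj, hp⟩ := hp
    have hP : 0 < P j := lt_of_lt_of_le one_pos (h.one_le j hj)
    have hn : 0 < nr p := nr_pos (h.prime j hj p hp).1.ne_zero
    have hx : 0 < nr p / P j := div_pos hn hP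
    rw [kap_eq h s hj hp, norm_div, Complex.norm_cpow_eq_rpow_re_of_pos hx, Complex.norm_two,
      div_le_one two_pos]
    refine rpow_le_of hx h1 h0 one_le_two ?_
    rw [div_mul_eq_mul_div, one_le_div hP]
    linarith [hd j hj p hp]
  · rw [kap, Finset.sum_eq_zero fun j hj => if_neg fun h' => hp ⟨j, hj, h'⟩]
    simp

theorem cm_kap (h : Slots M Ps P I) (s : ℂ) {I' : Finset ℕ} (hI : I' ⊆ I) {z : O}
    (hz : z ∈ Zs Ps I') : 2 ^ I'.card * cm (kap Ps P I s) z = ((nr z / ZI P I' : ℝ) : ℂ) ^ s := by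
  induction I' using Finset.induction_on generalizing z with
  | empty =>
    rw [Zs_empty, Finset.mem_singleton] at hz
    subst hz
    have h1 : nr (1 : O) = 1 := by rw [nr, BasicA.nm_of_isUnit isUnit_one, Nat.cast_one]
    rw [cm_one, ZI_empty, h1]
    simp
  | insert j I' hj ih =>
    obtain ⟨p, hp, w, hw, rfl⟩ := (T2MarkA.mem_insert hj).1 hz
    have hI' : I' ⊆ I := (Finset.subset_insert j I').trans hI
    have hjI : j ∈ I := hI (Finset.mem_insert_self j I')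
    have h' := h.mono hI
    obtain ⟨⟨w1, -, -⟩, -, w5, -⟩ := T2MarkA.key (h.mono hI') hw
    obtain ⟨p1, p2, -, -⟩ := h.prime j hjI p hp
    have hc := T2MarkA.coprime hj h' hp w1.ne_zero w5
    have hZ : ZI P (insert j I') = P j * ZI P I' := Finset.prod_insert hj
    have hP : 0 < P j := lt_of_lt_of_le one_pos (h.one_le j hjI)
    have hZ' : 0 < ZI P I' := lt_of_lt_of_le one_pos (h.mono hI').one_le_ZI
    have e1 : cm (kap Ps P I s) p = kap Ps P I s p := by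
      rw [cm, pf_prime p1 p2, Finset.prod_singleton]
    have e2 : nr (p * w) / ZI P (insert j I') = (nr p / P j) * (nr w / ZI P I') := by
      rw [hZ, nr_mul]; field_simp
    rw [cm_mul _ p1.ne_zero w1.ne_zero hc, e1, kap_eq h s hjI hp, e2, Complex.ofReal_mul,
      Complex.mul_cpow_ofReal_nonneg (by positivity) (by positivity), ← ih hI' hw,
      Finset.card_insert_of_notMem hj]
    ring

open Classical in
/-- one mark: the sum over the Möbius variable has at most one term -/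
theorem sum_one (X : ℝ) {z : O} (hz : z ≠ 0) (m : O) (G : O → ℂ) :
    (∑ m' ∈ sp M X, if m' * z = m * z then G m' else 0) = if m ∈ sp M X then G m else 0 := by
  simp only [mul_left_inj' hz]
  exact Finset.sum_ite_eq' _ _ _

open Classical in
theorem sum_none (X : ℝ) {z n : O} (hz : ¬ z ∣ n) (G : O → ℂ) :
    (∑ m' ∈ sp M X, if m' * z = n then G m' else 0) = 0 :=
  Finset.sum_eq_zero fun m' _ => if_neg fun e => hz (Dvd.intro_left m' e)

open Classical in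
/-- the identity for fixed `u = u₀ r` and fixed `z'` -/
theorem term (h : Slots M Ps P I) (s' : ℂ) {I' : Finset ℕ} (hI : I' ⊆ I) (ν₀ ν' : Chr M)
    {D f Ls : ℝ} (Λ : ℝ) (s₀ : ℂ) (c₀ : O → ℂ) {u₀ r z n : O} (hD : 0 < D) (hf : 0 < f)
    (hLs : 0 < Ls) (hu₀ : SP M u₀) (hr : r ≠ 0) (hz : z ∈ Zs Ps I') (hn : SP M n)
    (hc : IsCoprime n (u₀ * r)) :
    (if IsCoprime z (u₀ * r) then
      (∑ m ∈ sp M (D * Λ), if m * (r * z) = u₀ * r * n then
        cm c₀ (r * z) * (mu m * ev ν₀ m * Wc (nr m / D) s₀) else 0) else 0) *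
        ev ν' n * ((nr n * f / Ls : ℝ) : ℂ) ^ s' =
      (mu u₀ * ev ν₀ u₀ * cm c₀ r * 2 ^ I'.card *
        ((D / nr u₀ * ZI P I' * f / Ls : ℝ) : ℂ) ^ s') *
      ∑ m ∈ sp M (D / nr u₀ * Λ), if m * z = n then
        cm (fun p => c₀ p * kap Ps P I s' p * ev ν' p) z *
          (mu m * ev (ν₀ * ν') m * Wc (nr m / (D / nr u₀)) (s₀ + s')) else 0 := by
  have hz' : SP M z := ((h.mono hI).marks z hz).1
  have hz0 : z ≠ 0 := hz'.1.ne_zero
  have hu0 : u₀ ≠ 0 := hu₀.1.ne_zero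
  by_cases hzn : z ∣ n
  · obtain ⟨m, rfl⟩ := hzn
    have hzc : IsCoprime z (u₀ * r) := hc.of_mul_left_left
    have hmc : IsCoprime m (u₀ * r) := hc.of_mul_left_right
    have hm : SP M m := En.SP.of_dvd hn (hz'.1.of_mul hn.1) (Dvd.intro_left z rfl)
    have hm0 : m ≠ 0 := hm.1.ne_zero
    have hum : IsCoprime u₀ m := hmc.of_mul_right_left.symm
    have hrz : IsCoprime r z := hzc.of_mul_right_right.symm
    have hU : 0 < nr u₀ := nr_pos hu0
    have hN : 0 < nr m := nr_pos hm0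
    have hZ : 0 < nr z := nr_pos hz0
    have hZI : 0 < ZI P I' := lt_of_lt_of_le one_pos (h.mono hI).one_le_ZI
    rw [if_pos hzc, show u₀ * r * (z * m) = (u₀ * m) * (r * z) by ring,
      sum_one _ (mul_ne_zero hr hz0), mul_comm z m, sum_one _ hz0]
    have hiff : u₀ * m ∈ sp M (D * Λ) ↔ m ∈ sp M (D / nr u₀ * Λ) := by
      rw [mem_sp', mem_sp', nr_mul, div_mul_eq_mul_div, le_div_iff₀ hU, mul_comm (nr m)]
      refine and_congr_left fun _ => ⟨fun _ => hm, fun _ => ?_⟩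
      exact ⟨hu₀.1.mul hm.1, squarefree_mul_iff.2 ⟨hum.isRelPrime, hu₀.2.1, hm.2.1⟩,
        hu₀.2.2.mul_left hm.2.2⟩
    by_cases hmem : m ∈ sp M (D / nr u₀ * Λ)
    · rw [if_pos (hiff.2 hmem), if_pos hmem]
      have e1 : nr (u₀ * m) / D = nr m / (D / nr u₀) := by
        rw [nr_mul]; field_simp
      have e2 : nr (m * z) * f / Ls =
          (nr m / (D / nr u₀)) * ((nr z / ZI P I') * (D / nr u₀ * ZI P I' * f / Ls)) := by
        rw [nr_mul]; field_simp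
      rw [e1, e2, Complex.ofReal_mul,
        Complex.mul_cpow_ofReal_nonneg (by positivity) (by positivity),
        Complex.ofReal_mul (nr z / ZI P I'),
        Complex.mul_cpow_ofReal_nonneg (by positivity) (by positivity), ← cm_kap h s' hI hz,
        Wc_add (by positivity), cm_mul _ hr hz0 hrz, mu_mul hu₀.1 hm.1 hum, ev_mul, ev_mul,
        cm_mul_fun, cm_mul_fun, cm_ev ν' hz', ev_mul_chr]
      ring
    · rw [if_neg (fun h' => hmem (hiff.1 h')), if_neg hmem]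
      simp
  · rw [sum_none _ hzn, mul_zero]
    split_ifs with hzc
    · rw [sum_none, zero_mul, zero_mul]
      intro hd
      refine hzn (hzc.dvd_of_dvd_mul_left ((Dvd.intro_left r rfl).trans hd))
    · simp

open Classical in
/-- the weight -/
def om' (Ps : ℕ → Finset O) (P : ℕ → ℝ) (I₁ : Finset ℕ) (ν₀ : Chr M) (D f Ls : ℝ) (s' : ℂ)
    (c₀ : O → ℂ) (u u₀ : O) (I' : Finset ℕ) : ℂ :=
  if u₀ ∈ pdiv u ∧ I' ⊆ I₁ ∧ u / u₀ ∈ Zs Ps (I₁ \ I') then
    mu u₀ * ev ν₀ u₀ * cm c₀ (u / u₀) * 2 ^ I'.card *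
      ((D / nr u₀ * ZI P I' * f / Ls : ℝ) : ℂ) ^ s' else 0

theorem norm_om'_le (hM : Adm M) (h : Slots M Ps P I) (hd : Dy Ps P I) {s' : ℂ}
    (h1 : -1 ≤ s'.re) (h0 : s'.re ≤ 0) {I₁ : Finset ℕ} (hI : I₁ ⊆ I) (ν₀ : Chr M)
    {D f Ls ρ : ℝ} {c₀ : O → ℂ} {u : O} (hD : 0 < D) (hf : 0 < f) (hLs : 0 < Ls) (hρ : 1 ≤ ρ)
    (hu : SP M u) (hc : ∀ p, ‖c₀ p‖ ≤ 1) (hL : Ls * nr u ≤ ρ * (D * ZI P I₁ * f)) (u₀ : O)
    (I' : Finset ℕ) : ‖om' Ps P I₁ ν₀ D f Ls s' c₀ u u₀ I'‖ ≤ 2 ^ I.card * ρ := by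
  classical
  rw [om']
  split_ifs with hh
  · obtain ⟨hu₀, hI', hr⟩ := hh
    obtain ⟨p₀, r, rfl⟩ := (mem_pdiv hu.1.ne_zero).1 hu₀
    have hu0 : u₀ ≠ 0 := p₀.ne_zero
    rw [mul_div_cancel_left₀ _ hu0] at hr ⊢
    have hS : I₁ \ I' ⊆ I := Finset.sdiff_subset.trans hI
    have hU : 0 < nr u₀ := nr_pos hu0
    have hR : 0 < nr r := nr_pos ((h.mono hS).marks r hr).1.1.ne_zero
    have hZ : 0 < ZI P I' := lt_of_lt_of_le one_pos (h.mono (hI'.trans hI)).one_le_ZI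
    have hx : 0 < D / nr u₀ * ZI P I' * f / Ls := by positivity
    have h2 := (h.mono hS).ZI_le (hd.mono hS) hr
    have h3 := ZI_sdiff P hI'
    have h4 : (1 : ℝ) ≤ 2 ^ (I₁ \ I').card := one_le_pow₀ one_le_two
    have h5 : (D / nr u₀ * ZI P I' * f / Ls) ^ s'.re ≤ 2 ^ (I₁ \ I').card * ρ := by
      refine rpow_le_of hx h1 h0 (one_le_mul_of_one_le_of_one_le h4 hρ) ?_
      have e : D / nr u₀ * ZI P I' * f / Ls * (2 ^ (I₁ \ I').card * ρ) =
          ρ * (D * (2 ^ (I₁ \ I').card * nr r * ZI P I') * f) / (Ls * nr (u₀ * r)) := by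
        rw [nr_mul]; field_simp
      rw [e, one_le_div (by rw [nr_mul]; positivity)]
      refine hL.trans ?_
      rw [← h3]
      gcongr
    have h6 : (2 : ℝ) ^ I'.card * 2 ^ (I₁ \ I').card ≤ 2 ^ I.card := by
      rw [← pow_add, add_comm, Finset.card_sdiff_add_card_eq_card hI']
      exact pow_le_pow_right₀ one_le_two (Finset.card_le_card hI)
    rw [norm_mul, norm_mul, norm_mul, norm_mul, Complex.norm_cpow_eq_rpow_re_of_pos hx, norm_pow,
      Complex.norm_two]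
    have a1 := norm_mu_le u₀
    have a2 := norm_ev_le hM.1 ν₀ u₀
    have a3 := norm_cm_le hc r
    calc ‖mu u₀‖ * ‖ev ν₀ u₀‖ * ‖cm c₀ r‖ * 2 ^ I'.card * (D / nr u₀ * ZI P I' * f / Ls) ^ s'.re
        ≤ 1 * 1 * 1 * 2 ^ I'.card * (2 ^ (I₁ \ I').card * ρ) := by gcongr
      _ = (2 ^ I'.card * 2 ^ (I₁ \ I').card) * ρ := by ring
      _ ≤ 2 ^ I.card * ρ := by gcongr
  · rw [norm_zero]; positivity

open Classical in
theorem main (h : Slots M Ps P I) (s' : ℂ) {I₁ : Finset ℕ} (hI : I₁ ⊆ I) (ν₀ ν' : Chr M)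
    {D f Ls : ℝ} (Λ : ℝ) (s₀ : ℂ) (c₀ : O → ℂ) {u n : O} (hD : 0 < D) (hf : 0 < f)
    (hLs : 0 < Ls) (hu : SP M u) (hn : SP M n) :
    ext (al ν₀ D Λ s₀ (Zs Ps I₁) (cm c₀)) u ν' f Ls s' n =
      ∑ u₀ ∈ pdiv u, ∑ I' ∈ I₁.powerset, om' Ps P I₁ ν₀ D f Ls s' c₀ u u₀ I' *
        (if IsCoprime n u then al (ν₀ * ν') (D / nr u₀) Λ (s₀ + s') (Zs Ps I')
          (cm fun p => c₀ p * kap Ps P I s' p * ev ν' p) n else 0) := by
  have hu0 : u ≠ 0 := hu.1.ne_zero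
  rw [ext]
  by_cases hc : IsCoprime n u
  swap
  · simp [hc]
  simp only [if_pos hc]
  rw [al, (h.mono hI).sum_gcd hu0, Finset.sum_comm (s := pdiv u), Finset.sum_mul, Finset.sum_mul]
  refine Finset.sum_congr rfl fun I' hI' => ?_
  have hI'' : I' ⊆ I₁ := Finset.mem_powerset.1 hI'
  have hS : I₁ \ I' ⊆ I := Finset.sdiff_subset.trans hI
  rw [Finset.sum_mul, Finset.sum_mul]
  symm
  rw [← Finset.sum_filter_of_ne (s := pdiv u) (p := fun u₀ => u / u₀ ∈ Zs Ps (I₁ \ I'))]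
  swap
  · intro u₀ _ hne
    by_contra hh
    exact hne (by rw [om', if_neg fun h' => hh h'.2.2, zero_mul])
  refine Finset.sum_nbij' (fun u₀ => u / u₀) (fun r => u / r) ?_ ?_ ?_ ?_ ?_
  · intro u₀ hu₀
    obtain ⟨h1, h2⟩ := Finset.mem_filter.1 hu₀
    obtain ⟨p₀, r, rfl⟩ := (mem_pdiv hu0).1 h1
    refine Finset.mem_filter.2 ⟨h2, ?_⟩
    rw [mul_div_cancel_left₀ _ p₀.ne_zero]
    exact Dvd.intro_left _ rfl
  · intro r hr
    obtain ⟨h1, u₀, rfl⟩ := Finset.mem_filter.1 hr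
    have hr' : Primary r := ((h.mono hS).marks r h1).1.1
    have hp : Primary u₀ := hr'.of_mul hu.1
    rw [mul_div_cancel_left₀ _ hr'.ne_zero]
    refine Finset.mem_filter.2 ⟨(mem_pdiv hu0).2 ⟨hp, Dvd.intro_left _ rfl⟩, ?_⟩
    rw [mul_div_cancel_right₀ _ hp.ne_zero]
    exact h1
  · intro u₀ hu₀
    obtain ⟨h1, -⟩ := Finset.mem_filter.1 hu₀
    obtain ⟨p₀, r, rfl⟩ := (mem_pdiv hu0).1 h1
    rw [mul_div_cancel_left₀ _ p₀.ne_zero, mul_div_cancel_right₀ _ (right_ne_zero_of_mul hu0)]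
  · intro r hr
    obtain ⟨h1, u₀, rfl⟩ := Finset.mem_filter.1 hr
    rw [mul_div_cancel_left₀ _ (left_ne_zero_of_mul hu0),
      mul_div_cancel_right₀ _ (right_ne_zero_of_mul hu0)]
  · intro u₀ hu₀
    obtain ⟨h1, h2⟩ := Finset.mem_filter.1 hu₀
    rw [om', if_pos ⟨h1, hI'', h2⟩]
    obtain ⟨p₀, r, rfl⟩ := (mem_pdiv hu0).1 h1
    rw [mul_div_cancel_left₀ _ p₀.ne_zero, al, Finset.mul_sum, Finset.sum_filter, Finset.sum_mul,
      Finset.sum_mul]
    refine Finset.sum_congr rfl fun z hz => ?_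
    exact (term h s' (hI''.trans hI) ν₀ ν' Λ s₀ c₀ hD hf hLs
      (En.SP.of_dvd hu p₀ (Dvd.intro _ rfl)) (right_ne_zero_of_mul hu0) hz hn hc).symm

end Crest.Agent.R17.T2AlB
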