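import Crest.Agent.R17.T2Mark
import Crest.Agent.R17.T2AlAuxB

/-!
# Row 17, module T2: the truncated coefficient `al`
-/

set_option autoImplicit false

noncomputable section

namespace Crest.Agent.R17

open scoped ComplexConjugate

theorem T2AlA_mem {M : O} {X : ℝ} {m : O} (hm : m ∈ sp M X) : SP M m ∧ nr m ≤ X := by
  rcases lt_or_ge X 1 with h | h
  · rw [sp_eq_empty M h] at hm
    exact absurd hm (Finset.notMem_empty _)
  · exact (mem_sp (by linarith)).1 hm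

open Classical in
theorem T2AlA_term {M : O} (hM : Adm M) (ν : Chr M) (a : O) {X L Zm : ℝ} {z m : O}
    (hz : SP M z ∧ nr z ≤ Zm) (hm : m ∈ sp M X) (hL : X * Zm ≤ L) (c W : ℂ) :
    (if m * z ∈ sp M L then c * (mu m * ev ν m * W) * conj (sym (m * z) a) else 0) =
      c * conj (sym z a) * (if nr m ≤ X then mu m * rc ν (a * z ^ 6) m * W else 0) := by
  obtain ⟨h1, h2⟩ := T2AlA_mem hm
  have hm0 := h1.1.ne_zero
  have hz0 := hz.1.1.ne_zero
  have hX : 0 ≤ X := (nr_pos hm0).le.trans h2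
  have h3 : nr (m * z) ≤ L := by
    rw [nr_mul]
    exact (mul_le_mul h2 hz.2 (nr_pos hz0).le hX).trans hL
  rw [if_pos h2, rc_mul_row hM, rc, if_pos h1.1]
  by_cases hc : IsCoprime m z
  · have hpo : PO m := En.SP.po (En.SP.six (h := 1) hM (by rwa [mul_one]))
    rw [if_pos ((mem_sp ((nr_pos (mul_ne_zero hm0 hz0)).le.trans h3)).2
      ⟨⟨h1.1.mul hz.1.1, squarefree_mul_iff.2 ⟨hc.isRelPrime, h1.2.1, hz.1.2.1⟩,
        h1.2.2.mul_left hz.1.2.2⟩, h3⟩), sym_mul_left hm0 hz0, sym_pow_right hpo,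
      sym_pow_six h1.1 hc, map_one, map_mul]
    ring
  · rw [if_neg fun h => hc (squarefree_mul_iff.1 (T2AlA_mem h).1.2.1).1.isCoprime,
      (sym_eq_zero_iff h1.1).2 fun h => hc ((IsCoprime.pow_right_iff (by norm_num)).1 h)]
    simp

/-- Truncation (`MBa_fib`, `MBa_trunc`, `Marks.card_le`; `m z` is squarefree iff `(m, z) = 1`, and
`rc ν (a z⁶) m = ν(m) conj χ_m(a) 1_{(m,z)=1}`). -/
theorem al_trunc {M : O} (hM : Adm M) (B : ℝ) : ∃ C : ℝ, 0 < C ∧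
    ∀ (ν : Chr M) (a : O) (D Λ L Zm : ℝ) (s : ℂ) (Z : Finset O) (c : O → ℂ), Marks M Z Zm →
      (∀ z, ‖c z‖ ≤ 1) → 0 < D → 1 ≤ Λ → 0 ≤ Zm → |s.re| ≤ 3 → D * Λ * Zm ≤ L →
      ‖Sr M L (al ν D Λ s Z c) a - MQ ν a D s Z c‖ ≤ C * Zm * D * Λ ^ (-B) := by
  classical
  obtain ⟨C, hC, h⟩ := MBa_trunc B 3
  refine ⟨7 * C, by positivity, fun ν a D Λ L Zm s Z c hZ hc hD hΛ hZm hs hL => ?_⟩
  have e1 : Sr M L (al ν D Λ s Z c) a = ∑ z ∈ Z, c z * conj (sym z a) * ∑ m ∈ sp M (D * Λ),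
      (if nr m ≤ D * Λ then mu m * rc ν (a * z ^ 6) m * Wc (nr m / D) s else 0) := by
    unfold Sr al
    simp only [Finset.sum_mul]
    rw [Finset.sum_comm]
    refine Finset.sum_congr rfl fun z hz => ?_
    rw [Finset.sum_comm, Finset.mul_sum]
    refine Finset.sum_congr rfl fun m hm => ?_
    rw [← T2AlA_term hM ν a (hZ z hz) hm hL]
    simp only [ite_mul, zero_mul]
    rw [Finset.sum_ite_eq]
  rw [e1, MQ, ← Finset.sum_sub_distrib]
  have hb : 0 ≤ C * D * Λ ^ (-B) := by positivity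
  calc _ ≤ ∑ z ∈ Z, C * D * Λ ^ (-B) := by
        refine (norm_sum_le _ _).trans (Finset.sum_le_sum fun z _ => ?_)
        rw [← mul_sub, norm_mul, norm_mul, Complex.norm_conj, Mob_eq_Sm]
        refine (mul_le_of_le_one_left (norm_nonneg _)
          (mul_le_one₀ (hc z) (norm_nonneg _) (norm_sym_le _ _))).trans ?_
        refine h _ D Λ s _ (polyB_mu_rc hM ν _) hD hΛ hs fun n hn hle => ?_
        refine (mem_sp (by positivity)).2 ⟨⟨?_, ?_, ?_⟩, hle⟩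
        · by_contra h2
          exact hn (by rw [rc, if_neg h2, mul_zero])
        · by_contra h2
          exact hn (by rw [BasicB.mu_of_not h2, zero_mul])
        · by_contra h2
          exact hn (by rw [rc_eq_zero _ fun h3 => h2 h3.of_mul_right_left, mul_zero])
    _ ≤ 7 * Zm * (C * D * Λ ^ (-B)) := by
        rw [Finset.sum_const, nsmul_eq_mul]
        exact mul_le_mul_of_nonneg_right (hZ.card_le hZm) hb
    _ = _ := by ring

theorem al_supp {M : O} {ν : Chr M} {D Λ Zm : ℝ} {s : ℂ} {Z : Finset O} {c : O → ℂ}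
    (hZ : Marks M Z Zm) {n : O} (h : al ν D Λ s Z c n ≠ 0) : nr n ≤ D * Λ * Zm := by
  classical
  obtain ⟨z, hz, h1⟩ := Finset.exists_ne_zero_of_sum_ne_zero h
  obtain ⟨m, hm, h2⟩ := Finset.exists_ne_zero_of_sum_ne_zero h1
  have h3 : m * z = n := by
    by_contra h3
    exact h2 (if_neg h3)
  obtain ⟨h4, h5⟩ := T2AlA_mem hm
  rw [← h3, nr_mul]
  exact mul_le_mul h5 (hZ z hz).2 (Nat.cast_nonneg _) ((Nat.cast_nonneg _).trans h5)

theorem norm_al_le {M : O} (hM : Adm M) {ε : ℝ} (hε : 0 < ε) : ∃ C : ℝ, 0 < C ∧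
    ∀ (ν : Chr M) (D Λ Zm : ℝ) (s : ℂ) (Z : Finset O) (c : O → ℂ) (n : O), Marks M Z Zm →
      (∀ z, ‖c z‖ ≤ 1) → |s.re| ≤ 3 → n ≠ 0 → ‖al ν D Λ s Z c n‖ ≤ C * nr n ^ ε := by
  classical
  obtain ⟨C, hC, h⟩ := card_pdiv_le hε
  refine ⟨Real.exp (9 / 4) * C, by positivity, fun ν D Λ Zm s Z c n hZ hc hs hn => ?_⟩
  have hW : ∀ y, ‖Wc y s‖ ≤ Real.exp (9 / 4) := fun y =>
    (norm_Wc_le y s).trans (Real.exp_le_exp.2 (by nlinarith [abs_le.1 hs]))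
  have h1 : ∀ z ∈ Z, ‖∑ m ∈ sp M (D * Λ), if m * z = n then
      c z * (mu m * ev ν m * Wc (nr m / D) s) else 0‖ ≤
      if z ∈ pdiv n then Real.exp (9 / 4) else 0 := by
    intro z hz
    have hz0 := (hZ z hz).1.1.ne_zero
    split_ifs with h2
    · obtain ⟨m, hm⟩ := ((mem_pdiv hn).1 h2).2
      by_cases hmem : m ∈ sp M (D * Λ)
      · rw [Finset.sum_eq_single_of_mem m hmem fun m' _ hne =>
          if_neg fun h3 => hne (mul_right_cancel₀ hz0 (by rw [h3, hm, mul_comm]))]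
        split_ifs
        · rw [norm_mul, norm_mul, norm_mul]
          refine (mul_le_of_le_one_left (by positivity) (hc z)).trans ?_
          exact (mul_le_of_le_one_left (norm_nonneg _)
            (mul_le_one₀ (norm_mu_le m) (norm_nonneg _) (norm_ev_le hM.1 ν m))).trans (hW _)
        · rw [norm_zero]
          positivity
      · rw [Finset.sum_eq_zero fun m' hm' => if_neg fun h3 => hmem (by
          rwa [← mul_right_cancel₀ hz0 (show m' * z = m * z by rw [h3, hm, mul_comm])]), norm_zero]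
        positivity
    · rw [Finset.sum_eq_zero fun m _ => if_neg fun h3 =>
        h2 ((mem_pdiv hn).2 ⟨(hZ z hz).1.1, Dvd.intro_left m h3⟩), norm_zero]
  refine (norm_sum_le _ _).trans ((Finset.sum_le_sum h1).trans ?_)
  rw [← Finset.sum_filter, Finset.sum_const, nsmul_eq_mul, mul_comm, mul_assoc]
  refine mul_le_mul_of_nonneg_left (le_trans ?_ (h n hn)) (by positivity)
  exact_mod_cast Finset.card_le_card fun z hz => (Finset.mem_filter.1 hz).2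

theorem nsq_le {M : O} {L L' b : ℝ} {α : O → ℂ} (hL' : 0 ≤ L') (h : ∀ n ∈ sp M L, ‖α n‖ ≤ b)
    (h' : ∀ n ∈ sp M L, α n ≠ 0 → nr n ≤ L') : nsq M L α ≤ 7 * L' * b ^ 2 := by
  classical
  rw [nsq, ← Finset.sum_filter_of_ne (p := fun n => α n ≠ 0) fun n _ hn h0 => hn (by simp [h0])]
  refine (Finset.sum_le_card_nsmul _ _ (b ^ 2) fun n hn => ?_).trans ?_
  · exact pow_le_pow_left₀ (norm_nonneg _) (h n (Finset.mem_filter.1 hn).1) 2
  · rw [nsmul_eq_mul]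
    refine mul_le_mul_of_nonneg_right (En.card_le hL' fun n hn => ?_) (sq_nonneg _)
    obtain ⟨h1, h2⟩ := Finset.mem_filter.1 hn
    exact ⟨(T2AlA_mem h1).1.1.ne_zero, h' n h1 h2⟩

theorem nsq1_le {ε : ℝ} (hε : 0 < ε) : ∃ C : ℝ, 0 < C ∧ ∀ (M : O) (L b : ℝ) (α : O → ℂ), 1 ≤ L →
    (∀ n ∈ sp M L, ‖α n‖ ≤ b) → nsq1 M L α ≤ C * L ^ ε * L * b ^ 2 := by
  obtain ⟨C, hC, h⟩ := En.sum_inv_le hε
  refine ⟨C, hC, fun M L b α hL hb => ?_⟩
  have h1 := h L (sp M L) hL fun n hn => ⟨(T2AlA_mem hn).1.1.ne_zero, (T2AlA_mem hn).2⟩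
  calc nsq1 M L α ≤ ∑ n ∈ sp M L, (nr n)⁻¹ * (L * b ^ 2) := by
        refine Finset.sum_le_sum fun n hn => ?_
        have h2 := pow_le_pow_left₀ (norm_nonneg _) (hb n hn) 2
        calc ‖α n‖ ^ 2 * (L / nr n) ≤ b ^ 2 * (L / nr n) :=
              mul_le_mul_of_nonneg_right h2 (by positivity)
          _ = _ := by ring
    _ ≤ C * L ^ ε * (L * b ^ 2) := by
        rw [← Finset.sum_mul]
        exact mul_le_mul_of_nonneg_right h1 (by positivity)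
    _ = _ := by ring

open Classical in
/-- **Extraction of a factor `u`.**  For `n` squarefree and coprime to `u` the factorisations
`u n = m z` are `m = u₀ m'`, `z = u₁ z'`, `u₀ u₁ = u`, `m' z' = n` (`Slots.sum_gcd`).  With
`D' = D / N u₀`, `(N n f / Ls)^{s'} = (N m'/D')^{s'} (N z'/ZI I')^{s'} (D' ZI I' f/Ls)^{s'}`, the first
factor goes into `Wc` (`Wc_add`), the second one is `2^{|I'|} cm κ z'` where
`κ p = (N p / P j)^{s'} / 2` for `p ∈ Ps j`, `j ∈ I` (and `0` off the slots), the third one has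
modulus `≤ 2^{|I₁ ∖ I'|} ρ` (`Slots.ZI_le`, `ZI_sdiff`). -/
theorem ext_al {M : O} (hM : Adm M) {Ps : ℕ → Finset O} {P : ℕ → ℝ} {I : Finset ℕ}
    (h : Slots M Ps P I) (hd : Dy Ps P I) {s' : ℂ} (h1 : -1 ≤ s'.re) (h0 : s'.re ≤ 0) :
    ∃ κ : O → ℂ, (∀ p, ‖κ p‖ ≤ 1) ∧ ∀ I₁ ⊆ I, ∀ (ν₀ ν' : Chr M) (D Λ f Ls ρ : ℝ) (s₀ : ℂ)
      (c₀ : O → ℂ) (u : O), 0 < D → 0 < f → 0 < Ls → 1 ≤ ρ → SP M u → (∀ p, ‖c₀ p‖ ≤ 1) →
      Ls * nr u ≤ ρ * (D * ZI P I₁ * f) →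
      ∃ ω : O → Finset ℕ → ℂ, (∀ u₀ I', ‖ω u₀ I'‖ ≤ 2 ^ I.card * ρ) ∧
        (∀ u₀ I', ω u₀ I' ≠ 0 → u / u₀ ∈ Zs Ps (I₁ \ I')) ∧ ∀ n, SP M n →
        ext (al ν₀ D Λ s₀ (Zs Ps I₁) (cm c₀)) u ν' f Ls s' n =
          ∑ u₀ ∈ pdiv u, ∑ I' ∈ I₁.powerset, ω u₀ I' *
            (if IsCoprime n u then al (ν₀ * ν') (D / nr u₀) Λ (s₀ + s') (Zs Ps I')
              (cm fun p => c₀ p * κ p * ev ν' p) n else 0) := by
  refine ⟨T2AlB.kap Ps P I s', T2AlB.norm_kap_le h hd h1 h0, ?_⟩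
  intro I₁ hI ν₀ ν' D Λ f Ls ρ s₀ c₀ u hD hf hLs hρ hu hc hL
  refine ⟨T2AlB.om' Ps P I₁ ν₀ D f Ls s' c₀ u,
    T2AlB.norm_om'_le hM h hd h1 h0 hI ν₀ hD hf hLs hρ hu hc hL, fun u₀ I' hne => ?_,
    fun n hn => T2AlB.main h s' hI ν₀ ν' Λ s₀ c₀ hD hf hLs hu hn⟩
  by_contra hh
  exact hne (by rw [T2AlB.om', if_neg fun h' => hh h'.2.2])

end Crest.Agent.R17
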