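import Crest.Agent.R17.T2Al

/-!
# Row 17, module T2: completion of the cubes (proofs of the first half of `T2Cube`)
-/

set_option autoImplicit false

noncomputable section

namespace Crest.Agent.R17.T2CA

open scoped ComplexConjugate

theorem arg_cube (d : O) : arg (d ^ 3) = arg d ^ 3 := by
  rw [show d ^ 3 = d * d * d by ring, arg_mul, arg_mul]
  ring

theorem th_of {n : O} (hn : Primary n) (h : ∀ p ∈ pf n, vp p n % 3 ≠ 2) :
    th n = gc (sq1 n) 1 / (Real.sqrt (nr (sq1 n)) : ℂ) * (Real.sqrt (nr (cu n)) : ℂ) *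
      conj (arg n) := if_pos ⟨hn, h⟩

theorem th_of_not {n : O} (h : ¬ ∀ p ∈ pf n, vp p n % 3 ≠ 2) : th n = 0 :=
  if_neg fun h' => h h'.2

theorem th_mul_cube {m d : O} (hm : Primary m) (hd : Primary d) :
    th (m * d ^ 3) = (Real.sqrt (nr d) : ℂ) * conj (arg d) ^ 3 * th m := by
  by_cases h : ∀ p ∈ pf m, vp p m % 3 ≠ 2
  · obtain ⟨e, h1, h2, h3⟩ := eq_sq1_mul_cu hm h
    have e' : m * d ^ 3 = sq1 m * (cu m * d) ^ 3 := by
      conv_lhs => rw [e]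
      ring
    obtain ⟨a1, a2, a3⟩ := sq1_cu h1 h2 (h3.mul hd)
    rw [← e'] at a1 a2 a3
    rw [th_of (hm.mul (hd.pow 3)) a3, th_of hm h, a1, a2, nr_mul,
      Real.sqrt_mul (Nat.cast_nonneg _), arg_mul, arg_cube, map_mul, map_pow]
    push_cast
    ring
  · have h' : ¬ ∀ p ∈ pf (m * d ^ 3), vp p (m * d ^ 3) % 3 ≠ 2 := fun h' => h fun p hp h2 => by
      obtain ⟨p1, p2, p3⟩ := BasicB.of_mem_pf hp
      have hne := (hm.mul (hd.pow 3)).ne_zero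
      refine h' p ((mem_pf hne).2 ⟨p1, p2, p3.mul_right _⟩) ?_
      rw [vp_mul p1 hm.ne_zero (hd.pow 3).ne_zero, vp_pow p1 hd.ne_zero]
      omega
    rw [th_of_not h, th_of_not h', mul_zero]

theorem norm_th_le (n : O) : ‖th n‖ ≤ nr n ^ (1 / 2 : ℝ) := by
  by_cases h : Primary n ∧ ∀ p ∈ pf n, vp p n % 3 ≠ 2
  · obtain ⟨e, h1, h2, h3⟩ := eq_sq1_mul_cu h.1 h.2
    have hd : cu n ∣ n := ⟨sq1 n * cu n ^ 2, by
      conv_lhs => rw [e]
      ring⟩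
    rw [th_of h.1 h.2, norm_mul, norm_mul, norm_div, norm_gc h1 h2, Complex.norm_real,
      Complex.norm_real, Real.norm_of_nonneg (Real.sqrt_nonneg _),
      Real.norm_of_nonneg (Real.sqrt_nonneg _), div_self (Real.sqrt_pos.2 (nr_pos h1.ne_zero)).ne',
      Complex.norm_conj, norm_arg h.1.ne_zero, one_mul, mul_one, ← Real.sqrt_eq_rpow]
    exact Real.sqrt_le_sqrt (MBa_nr_le hd h.1.ne_zero)
  · rw [show th n = 0 from if_neg h, norm_zero]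
    positivity

theorem norm_lamY_le (Y : ℝ) (d : O) : ‖lamY Y d‖ ≤ (pdiv d).card := by
  classical
  unfold lamY
  refine (norm_sum_le _ _).trans ((Finset.sum_le_card_nsmul _ _ 1 fun x _ => norm_mu_le x).trans ?_)
  rw [nsmul_eq_mul, mul_one]
  exact_mod_cast Finset.card_filter_le _ _

open Classical in
theorem lamY_eq {Y : ℝ} (hY : 1 ≤ Y) {d : O} (hd : Primary d) :
    (if d = 1 then 1 else 0 : ℂ) = lamY Y d - if Y < nr d then lamY Y d else 0 := by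
  by_cases h : Y < nr d
  · rw [if_pos h, sub_self, if_neg]
    rintro rfl
    simp only [nr, nm_one, Nat.cast_one] at h
    linarith
  · rw [if_neg h, sub_zero, lamY, Finset.filter_true_of_mem fun x hx =>
      (MBa_nr_le ((mem_pdiv hd.ne_zero).1 hx).2 hd.ne_zero).trans (not_lt.1 h),
      sum_mu_pdiv hd.ne_zero]
    refine if_congr ⟨fun h1 => by rw [h1, pf_one], fun h1 => ?_⟩ rfl rfl
    rw [hd.eq_prod, h1, Finset.prod_empty]

/-! ## the cube part -/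

theorem primary_cu (n : O) : Primary (cu n) :=
  BasicB.primary_prod_pow (fun _ => BasicB.pf_sub) _

theorem vp_cu {n p : O} (hn : n ≠ 0) (hp : Prime p) (hp' : Primary p) :
    vp p (cu n) = vp p n / 3 := by
  rw [cu, vp_prod_pow (fun _ => BasicB.pf_sub) _ hp hp']
  split_ifs with h
  · rfl
  · rw [BasicB.mem_pf_iff hn hp hp', not_not] at h
    rw [h]

theorem dvd_cu_iff {n d : O} (hn : n ≠ 0) (hd : Primary d) : d ∣ cu n ↔ d ^ 3 ∣ n := by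
  rw [hd.dvd_iff_vp (primary_cu n).ne_zero, (hd.pow 3).dvd_iff_vp hn, pf_pow (by norm_num)]
  refine forall₂_congr fun p hp => ?_
  obtain ⟨p1, p2⟩ := BasicB.pf_sub hp
  rw [vp_cu hn p1 p2, vp_pow p1 hd.ne_zero]
  omega

open Classical in
theorem lamY_cu {M n : O} {Y : ℝ} (hY : 0 ≤ Y) (hn : Primary n) (hM : IsCoprime n M) :
    lamY Y (cu n) = ∑ d ∈ sp M Y, if d ^ 3 ∣ n then mu d else 0 := by
  rw [← Finset.sum_filter, lamY]
  symm
  refine Finset.sum_subset (fun d hd => ?_) fun d hd hd' => ?_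
  · obtain ⟨h1, h2⟩ := Finset.mem_filter.1 hd
    obtain ⟨h3, h4⟩ := (mem_sp hY).1 h1
    exact Finset.mem_filter.2 ⟨(mem_pdiv (primary_cu n).ne_zero).2
      ⟨h3.1, (dvd_cu_iff hn.ne_zero h3.1).2 h2⟩, h4⟩
  · obtain ⟨h1, h2⟩ := Finset.mem_filter.1 hd
    obtain ⟨h3, h4⟩ := (mem_pdiv (primary_cu n).ne_zero).1 h1
    have h5 := (dvd_cu_iff hn.ne_zero h3).1 h4
    refine BasicB.mu_of_not fun hs => hd' (Finset.mem_filter.2 ⟨(mem_sp hY).2 ⟨⟨h3, hs, ?_⟩, h2⟩, h5⟩)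
    exact hM.of_isCoprime_of_dvd_left ((dvd_pow_self d three_ne_zero).trans h5)

theorem Rs_mul_sq (m n : O) {y : O} (hy : IsCoprime y 2) : Rs m (n * y ^ 2) = Rs m n := by
  rw [Rs, Rs, ← mul_assoc, g4_mul_sq hy, g4_mul_sq hy]

theorem exists_sq {d : O} (hd : Primary d) :
    ∃ d₀ d₁ : O, Primary d₀ ∧ Squarefree d₀ ∧ Primary d₁ ∧ d = d₀ * d₁ ^ 2 := by
  have h0 : Primary (∏ p ∈ pf d, p ^ (vp p d % 2)) :=
    BasicB.primary_prod_pow (fun _ => BasicB.pf_sub) _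
  refine ⟨_, _, h0, h0.squarefree_iff.2 fun p hp => ?_,
    BasicB.primary_prod_pow (fun _ => BasicB.pf_sub) _, BasicB.eq_mod_mul_div hd 2⟩
  have h1 := BasicB.vp_ne_zero hp
  obtain ⟨p1, p2⟩ := BasicB.pf_sub hp
  rw [vp_prod_pow (fun _ => BasicB.pf_sub) _ p1 p2] at h1 ⊢
  split_ifs at h1 ⊢ <;> omega

theorem sq_unique {a b a' b' : O} (ha : Primary a) (has : Squarefree a) (hb : Primary b)
    (ha' : Primary a') (has' : Squarefree a') (hb' : Primary b') (h : a * b ^ 2 = a' * b' ^ 2) :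
    a = a' ∧ b = b' := by
  have key : ∀ p, Prime p → vp p a = vp p a' ∧ vp p b = vp p b' := fun p hp => by
    have h1 := congrArg (vp p) h
    rw [vp_mul hp ha.ne_zero (hb.pow 2).ne_zero, vp_mul hp ha'.ne_zero (hb'.pow 2).ne_zero,
      vp_pow hp hb.ne_zero, vp_pow hp hb'.ne_zero] at h1
    have h2 := BasicB.vp_le_one has hp
    have h3 := BasicB.vp_le_one has' hp
    omega
  exact ⟨ha.ext_vp ha' fun p hp _ => (key p hp).1, hb.ext_vp hb' fun p hp _ => (key p hp).2⟩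

/-- Parametrisation of the support of `th` by the triples `(d₁, d₀, m)`. -/
theorem sum_triples {M : O} {L : ℝ} (hL : 0 ≤ L) (G : O → ℂ)
    (hG : ∀ n, (¬ ∀ p ∈ pf n, vp p n % 3 ≠ 2) → G n = 0) :
    ∑ n ∈ pr M L, G n = ∑ d₁ ∈ pr M L, ∑ d₀ ∈ sp M (L / nr d₁ ^ 6),
      ∑ m ∈ sp M (L / nr d₁ ^ 6 / nr d₀ ^ 3), G (m * (d₀ * d₁ ^ 2) ^ 3) := by
  classical
  have hmem : ∀ d₁ d₀ m : O, d₁ ∈ pr M L → d₀ ∈ sp M (L / nr d₁ ^ 6) →
      m ∈ sp M (L / nr d₁ ^ 6 / nr d₀ ^ 3) →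
      (Primary d₁ ∧ IsCoprime d₁ M) ∧ SP M d₀ ∧ SP M m ∧ nr (m * (d₀ * d₁ ^ 2) ^ 3) ≤ L := by
    intro d₁ d₀ m h1 h0 hm
    obtain ⟨a1, a2, -⟩ := (MBa_mem_pr hL).1 h1
    obtain ⟨b1, -⟩ := (mem_sp (by positivity)).1 h0
    obtain ⟨c1, c2⟩ := (mem_sp (by positivity)).1 hm
    refine ⟨⟨a1, a2⟩, b1, c1, ?_⟩
    have p1 := nr_pos a1.ne_zero
    have p0 := nr_pos b1.1.ne_zero
    rw [le_div_iff₀ (by positivity), le_div_iff₀ (by positivity)] at c2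
    rw [nr_mul, nr_pow, nr_mul, nr_pow]
    refine le_trans (le_of_eq ?_) c2
    ring
  simp only [Finset.sum_sigma']
  symm
  refine Finset.sum_of_injOn
    (fun x : (_ : O) × (_ : O) × O => x.2.2 * (x.2.1 * x.1 ^ 2) ^ 3) ?_ ?_ ?_ fun _ _ => rfl
  · rintro ⟨d₁, d₀, m⟩ hx ⟨d₁', d₀', m'⟩ hx' h
    simp only [Finset.coe_sigma, Set.mem_sigma_iff, Finset.mem_coe] at hx hx'
    obtain ⟨a1, a0, am, -⟩ := hmem _ _ _ hx.1 hx.2.1 hx.2.2
    obtain ⟨b1, b0, bm, -⟩ := hmem _ _ _ hx'.1 hx'.2.1 hx'.2.2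
    obtain ⟨c1, c2, -⟩ := sq1_cu am.1 am.2.1 (a0.1.mul (a1.1.pow 2))
    obtain ⟨c3, c4, -⟩ := sq1_cu bm.1 bm.2.1 (b0.1.mul (b1.1.pow 2))
    have h' : m * (d₀ * d₁ ^ 2) ^ 3 = m' * (d₀' * d₁' ^ 2) ^ 3 := h
    rw [h'] at c1 c2
    obtain ⟨e0, e1⟩ := sq_unique a0.1 a0.2.1 a1.1 b0.1 b0.2.1 b1.1 (c2.symm.trans c4)
    have em : m = m' := c1.symm.trans c3
    subst e0 e1 em
    rfl
  · rintro ⟨d₁, d₀, m⟩ hx
    simp only [Finset.coe_sigma, Set.mem_sigma_iff, Finset.mem_coe] at hx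
    obtain ⟨a1, a0, am, h⟩ := hmem _ _ _ hx.1 hx.2.1 hx.2.2
    exact Finset.mem_coe.2 ((MBa_mem_pr hL).2 ⟨am.1.mul ((a0.1.mul (a1.1.pow 2)).pow 3),
      am.2.2.mul_left (a0.2.2.mul_left a1.2.pow_left).pow_left, h⟩)
  · intro n hn hn'
    refine hG n fun h => hn' ?_
    obtain ⟨a1, a2, a3⟩ := (MBa_mem_pr hL).1 hn
    obtain ⟨e, h1, h2, h3⟩ := eq_sq1_mul_cu a1 h
    obtain ⟨d₀, d₁, b0, b0', b1, e'⟩ := exists_sq h3
    rw [e'] at e
    have p1 := one_le_nr b1.ne_zero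
    have p0 := one_le_nr b0.ne_zero
    have pm := one_le_nr h1.ne_zero
    have hN : nr (sq1 n) * nr d₀ ^ 3 * nr d₁ ^ 6 ≤ L := by
      refine le_trans (le_of_eq ?_) a3
      conv_rhs => rw [e]
      rw [nr_mul, nr_pow, nr_mul, nr_pow]
      ring
    have c1 : d₁ ∣ n := ⟨sq1 n * d₀ ^ 3 * d₁ ^ 5, by
      conv_lhs => rw [e]
      ring⟩
    have c0 : d₀ ∣ n := ⟨sq1 n * d₀ ^ 2 * d₁ ^ 6, by
      conv_lhs => rw [e]
      ring⟩
    have cm : sq1 n ∣ n := ⟨_, e⟩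
    refine ⟨⟨d₁, d₀, sq1 n⟩, ?_, e.symm⟩
    simp only [Finset.coe_sigma, Set.mem_sigma_iff, Finset.mem_coe]
    refine ⟨(MBa_mem_pr hL).2 ⟨b1, a2.of_isCoprime_of_dvd_left c1,
      (MBa_nr_le c1 a1.ne_zero).trans a3⟩, (mem_sp (by positivity)).2
        ⟨⟨b0, b0', a2.of_isCoprime_of_dvd_left c0⟩, ?_⟩, (mem_sp (by positivity)).2
          ⟨⟨h1, h2, a2.of_isCoprime_of_dvd_left cm⟩, ?_⟩⟩
    · rw [le_div_iff₀ (by positivity)]
      refine le_trans (mul_le_mul_of_nonneg_right ?_ (by positivity)) hN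
      exact (le_self_pow₀ p0 three_ne_zero).trans (le_mul_of_one_le_left (by positivity) pm)
    · rw [le_div_iff₀ (by positivity), le_div_iff₀ (by positivity)]
      exact hN

/-- The first step: the coefficient `al` on a squarefree index. -/
theorem al_term {M : O} (hM : Adm M) (ν : Chr M) {D Λ : ℝ} (hD : 0 < D) (hΛ : 0 < Λ) (s : ℂ)
    (c : O → ℂ) (r k : O) {n z : O} (hn : SP M n) (hz : SP M z)
    [DecidableEq O] [Decidable (z ∣ n ∧ nr n ≤ D * Λ * nr z)] :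
    (∑ m ∈ sp M (D * Λ), if m * z = n then c z * (mu m * ev ν m * Wc (nr m / D) s) else 0) *
        conj (sym n r) * gam 5 n * sym n k =
      th n * Gf n * ev ν n * sym n (k * r ^ 5) *
        if z ∣ n ∧ nr n ≤ D * Λ * nr z then
          mu z * conj (ev ν z) * c z * Wc (nr n / (D * nr z)) s else 0 := by
  have pz := nr_pos hz.1.ne_zero
  split_ifs with h
  · obtain ⟨⟨m, rfl⟩, h2⟩ := h
    have hm1 : Primary m := hz.1.of_mul hn.1
    have hm : SP M m := ⟨hm1, hn.2.1.of_mul_right, hn.2.2.of_mul_left_right⟩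
    have hcop : IsCoprime z m := (IsRelPrime.of_squarefree_mul hn.2.1).isCoprime
    have hmem : m ∈ sp M (D * Λ) := by
      refine (mem_sp (by positivity)).2 ⟨hm, ?_⟩
      rw [nr_mul, mul_comm (nr z)] at h2
      exact le_of_mul_le_mul_right h2 pz
    rw [Finset.sum_eq_single_of_mem m hmem fun m' _ hne => if_neg fun h' =>
      hne (mul_right_cancel₀ hz.1.ne_zero (h'.trans (mul_comm z m))), if_pos (mul_comm m z)]
    have po := PO.of_adm hM hn.1 hn.2.2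
    have e1 := mu_gam_five po hn.2.1
    have e2 := mu_mul hz.1 hm1 hcop
    have e3 := mu_sq hz.2.1
    have e4 : conj (ev ν z) * ev ν z = 1 := Gauss_conj_mul (norm_ev hM.1 ν hz.2.2)
    have e5 : nr (z * m) / (D * nr z) = nr m / D := by
      rw [nr_mul]
      field_simp
    rw [e5, ev_mul, sym_mul_right po, sym_pow_right po, ← conj_sym hn.1]
    rw [e2] at e1
    generalize conj (ev ν z) = a at e4 ⊢
    generalize conj (sym (z * m) r) = b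
    linear_combination (c z * ev ν m * Wc (nr m / D) s * b * sym (z * m) k) *
      (mu z * (a * ev ν z) * e1 - mu m * gam 5 (z * m) * (a * ev ν z) * e3 -
        mu m * gam 5 (z * m) * e4)
  · rw [Finset.sum_eq_zero, zero_mul, zero_mul, zero_mul, mul_zero]
    intro m hm
    refine if_neg fun h' => h ?_
    obtain ⟨-, h2⟩ := (mem_sp (by positivity)).1 hm
    rw [← h', nr_mul]
    exact ⟨dvd_mul_left _ _, mul_le_mul_of_nonneg_right h2 pz.le⟩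

/-- The factorisation of the summand on `n = m (d₀ d₁²)³`. -/
theorem big_term {M : O} (hM : Adm M) (ν : Chr M) (r k : O) {d₁ d₀ m : O} (h1 : Primary d₁)
    (h1' : IsCoprime d₁ M) (h0 : SP M d₀) (hm : SP M m) :
    th (m * (d₀ * d₁ ^ 2) ^ 3) * Gf (m * (d₀ * d₁ ^ 2) ^ 3) * ev ν (m * (d₀ * d₁ ^ 2) ^ 3) *
        sym (m * (d₀ * d₁ ^ 2) ^ 3) (k * r ^ 5) =
      ((nr d₁ : ℝ) : ℂ) * sym (d₁ ^ 6) (k * r ^ 5) *
        (conj (arg (d₀ * d₁ ^ 2)) ^ 3 * Gf ((d₀ * d₁ ^ 2) ^ 3) * ev ν ((d₀ * d₁ ^ 2) ^ 3) *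
          sym (d₀ ^ 3) (r ^ 5) * (Rs m d₀ * ev ν m * mu m * conj (sym m r))) *
        ((Real.sqrt (nr d₀) : ℂ) * gam 5 m * sym (m * d₀ ^ 3) k) := by
  have q1 := PO.of_adm hM h1 h1'
  have q0 := PO.of_adm hM h0.1 h0.2.2
  have qm := PO.of_adm hM hm.1 hm.2.2
  have hd : Primary (d₀ * d₁ ^ 2) := h0.1.mul (h1.pow 2)
  have q3 : PO (d₀ ^ 3) := ⟨h0.1.pow 3, q0.2.pow_left⟩
  have qd : PO ((d₀ * d₁ ^ 2) ^ 3) := ⟨hd.pow 3, (q0.2.mul_left q1.2.pow_left).pow_left⟩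
  have e1 : Rs m ((d₀ * d₁ ^ 2) ^ 3) = Rs m d₀ := by
    rw [show (d₀ * d₁ ^ 2) ^ 3 = d₀ * (d₀ * d₁ ^ 3) ^ 2 by ring]
    exact Rs_mul_sq m d₀ (q0.2.mul_left q1.2.pow_left)
  have e2 : Real.sqrt (nr (d₀ * d₁ ^ 2)) = Real.sqrt (nr d₀) * nr d₁ := by
    rw [nr_mul, nr_pow, Real.sqrt_mul (Nat.cast_nonneg _), Real.sqrt_sq (Nat.cast_nonneg _)]
  have e3 : sym (m * (d₀ * d₁ ^ 2) ^ 3) (k * r ^ 5) = sym (m * d₀ ^ 3) k *
      (conj (sym m r) * sym (d₀ ^ 3) (r ^ 5)) * sym (d₁ ^ 6) (k * r ^ 5) := by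
    rw [show m * (d₀ * d₁ ^ 2) ^ 3 = m * d₀ ^ 3 * d₁ ^ 6 by ring,
      sym_mul_left (qm.mul q3).1.ne_zero (h1.pow 6).ne_zero, sym_mul_right (qm.mul q3),
      sym_mul_left hm.1.ne_zero q3.1.ne_zero (r ^ 5), sym_pow_right qm, ← conj_sym hm.1]
  have e4 := mu_gam_five qm hm.2.1
  rw [th_mul_cube hm.1 hd, Gf_mul qm qd, e1, e2, e3, ev_mul, Complex.ofReal_mul]
  generalize conj (arg (d₀ * d₁ ^ 2)) = a
  generalize conj (sym m r) = b
  linear_combination (-((nr d₁ : ℝ) : ℂ) * sym (d₁ ^ 6) (k * r ^ 5) * a ^ 3 *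
    Gf ((d₀ * d₁ ^ 2) ^ 3) * ev ν ((d₀ * d₁ ^ 2) ^ 3) * sym (d₀ ^ 3) (r ^ 5) * Rs m d₀ * ev ν m *
    b * (Real.sqrt (nr d₀) : ℂ) * sym (m * d₀ ^ 3) k) * e4

/-- The exact identity. -/
theorem cube_eq {M : O} (hM : Adm M) {D Λ L' Zm Y : ℝ} (ν : Chr M) (s : ℂ) {Z : Finset O}
    (c : O → ℂ) (r k : O) (hL : 0 ≤ L') (hY : 1 ≤ Y) (hD : 0 < D) (hΛ : 0 < Λ) (hZ : Marks M Z Zm)
    (hZL : D * Λ * Zm ≤ L') :
    Sd M L' (fun n => al ν D Λ s Z c n * conj (sym n r)) k =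
      Small ν D Λ s Z c r Y k - ∑ d₁ ∈ pr M L', ((nr d₁ : ℝ) : ℂ) * sym (d₁ ^ 6) (k * r ^ 5) *
        Sg M (L' / nr d₁ ^ 6) (betaG ν D Λ s Z c r Y d₁) k := by
  classical
  obtain ⟨F, hF⟩ : ∃ F : O → ℂ, ∀ n, F n = th n * Gf n * ev ν n * sym n (k * r ^ 5) :=
    ⟨_, fun _ => rfl⟩
  obtain ⟨w, hw⟩ : ∃ w : O → ℂ, ∀ n, w n = ∑ z ∈ Z, if z ∣ n ∧ nr n ≤ D * Λ * nr z then
      mu z * conj (ev ν z) * c z * Wc (nr n / (D * nr z)) s else 0 := ⟨_, fun _ => rfl⟩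
  have hF0 : ∀ n, (¬ ∀ p ∈ pf n, vp p n % 3 ≠ 2) → F n = 0 := fun n h => by
    rw [hF, th_of_not h, zero_mul, zero_mul, zero_mul]
  have s1 : Sd M L' (fun n => al ν D Λ s Z c n * conj (sym n r)) k =
      ∑ n ∈ sp M L', F n * w n := by
    refine Finset.sum_congr rfl fun n hn => ?_
    rw [hF, hw, Finset.mul_sum]
    simp only [al, Finset.sum_mul]
    refine Finset.sum_congr rfl fun z hz => ?_
    rw [← al_term hM ν hD hΛ s c r k ((mem_sp hL).1 hn).1 (hZ z hz).1]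
    simp only [Finset.sum_mul]
  have s2 : ∑ n ∈ sp M L', F n * w n =
      ∑ n ∈ pr M L', (if cu n = 1 then 1 else 0 : ℂ) * (F n * w n) := by
    refine Finset.sum_subset_zero_on_sdiff (fun n hn => ?_) (fun n hn => ?_) fun n hn => ?_
    · obtain ⟨h1, h2⟩ := (mem_sp hL).1 hn
      exact (MBa_mem_pr hL).2 ⟨h1.1, h1.2.2, h2⟩
    · obtain ⟨h1, h2⟩ := Finset.mem_sdiff.1 hn
      obtain ⟨a1, a2, a3⟩ := (MBa_mem_pr hL).1 h1
      by_cases h : ∀ p ∈ pf n, vp p n % 3 ≠ 2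
      · obtain ⟨e, -, b2, -⟩ := eq_sq1_mul_cu a1 h
        rw [if_neg, zero_mul]
        intro hc
        rw [hc, one_pow, mul_one] at e
        exact h2 ((mem_sp hL).2 ⟨⟨a1, e ▸ b2, a2⟩, a3⟩)
      · rw [hF0 n h, zero_mul, mul_zero]
    · obtain ⟨h1, -⟩ := (mem_sp hL).1 hn
      have := (sq1_cu h1.1 h1.2.1 primary_one).2.1
      rw [one_pow, mul_one] at this
      rw [if_pos this, one_mul]
  have s3 : Small ν D Λ s Z c r Y k = ∑ n ∈ pr M L', lamY Y (cu n) * (F n * w n) := by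
    have t1 : ∑ n ∈ pr M L', lamY Y (cu n) * (F n * w n) =
        ∑ n ∈ pr M L', ∑ d ∈ sp M Y, ∑ z ∈ Z, (if d ^ 3 ∣ n then mu d else 0) * (F n *
          if z ∣ n ∧ nr n ≤ D * Λ * nr z then
            mu z * conj (ev ν z) * c z * Wc (nr n / (D * nr z)) s else 0) := by
      refine Finset.sum_congr rfl fun n hn => ?_
      obtain ⟨a1, a2, -⟩ := (MBa_mem_pr hL).1 hn
      rw [lamY_cu (by linarith) a1 a2, hw, Finset.sum_mul]
      refine Finset.sum_congr rfl fun d _ => ?_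
      rw [Finset.mul_sum, Finset.mul_sum]
    rw [t1, Finset.sum_comm, Small]
    refine Finset.sum_congr rfl fun d _ => ?_
    rw [Finset.sum_comm, Finset.mul_sum]
    refine Finset.sum_congr rfl fun z hz => ?_
    have hz0 : 0 ≤ D * Λ * nr z := by positivity
    have hzL : D * Λ * nr z ≤ L' :=
      (mul_le_mul_of_nonneg_left (hZ z hz).2 (by positivity)).trans hZL
    rw [Finset.mul_sum, Finset.mul_sum]
    refine Finset.sum_subset_zero_on_sdiff (fun n hn => ?_) (fun n hn => ?_) fun n hn => ?_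
    · obtain ⟨a1, a2, a3⟩ := (MBa_mem_pr hz0).1 hn
      exact (MBa_mem_pr hL).2 ⟨a1, a2, a3.trans hzL⟩
    · obtain ⟨h1, h2⟩ := Finset.mem_sdiff.1 hn
      obtain ⟨a1, a2, -⟩ := (MBa_mem_pr hL).1 h1
      rw [if_neg (c := z ∣ n ∧ nr n ≤ D * Λ * nr z) fun h => h2 ((MBa_mem_pr hz0).2 ⟨a1, a2, h.2⟩),
        mul_zero, mul_zero]
    · obtain ⟨-, -, a3⟩ := (MBa_mem_pr hz0).1 hn
      rw [hF]
      by_cases h1 : d ^ 3 ∣ n <;> by_cases h2 : z ∣ n <;> simp only [h1, h2, a3, and_self,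
        and_true, and_false, if_true, if_false, mul_zero, zero_mul]
      ring
  have s4 : ∑ n ∈ pr M L', (if Y < nr (cu n) then lamY Y (cu n) else 0) * (F n * w n) =
      ∑ d₁ ∈ pr M L', ((nr d₁ : ℝ) : ℂ) * sym (d₁ ^ 6) (k * r ^ 5) *
        Sg M (L' / nr d₁ ^ 6) (betaG ν D Λ s Z c r Y d₁) k := by
    rw [sum_triples hL _ fun n h => by rw [hF0 n h, zero_mul, mul_zero]]
    refine Finset.sum_congr rfl fun d₁ h1 => ?_
    obtain ⟨a1, a2, -⟩ := (MBa_mem_pr hL).1 h1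
    rw [Sg, Finset.mul_sum]
    refine Finset.sum_congr rfl fun d₀ h0 => ?_
    obtain ⟨b1, -⟩ := (mem_sp (by positivity)).1 h0
    rw [Finset.mul_sum]
    refine Finset.sum_congr rfl fun m hm => ?_
    obtain ⟨c1, -⟩ := (mem_sp (by positivity)).1 hm
    rw [(sq1_cu c1.1 c1.2.1 (b1.1.mul (a1.pow 2))).2.1, hF, big_term hM ν r k a1 a2 b1 c1, hw,
      betaG]
    split_ifs
    · ring
    · ring
  rw [s1, s2, s3, ← s4, ← Finset.sum_sub_distrib]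
  refine Finset.sum_congr rfl fun n _ => ?_
  rw [← sub_mul, ← lamY_eq hY (primary_cu n)]

theorem sum_inv_pr {ε : ℝ} (hε : 0 < ε) : ∃ C : ℝ, 0 < C ∧ ∀ (M : O) (R L : ℝ), 1 ≤ R → 0 ≤ L →
    L ≤ R → ∑ d ∈ pr M L, (nr d)⁻¹ ≤ C * R ^ ε := by
  classical
  obtain ⟨C, hC, h⟩ := sum_inv_nr_le
  refine ⟨C * (1 + 2 ^ ε / ε), by positivity, fun M R L hR hL hLR => ?_⟩
  have h1 : ∑ d ∈ pr M L, (nr d)⁻¹ ≤ ∑ n ∈ (ball ⌊L⌋₊).erase 0, (nr n)⁻¹ := by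
    refine Finset.sum_le_sum_of_subset_of_nonneg (fun d hd => ?_) fun _ _ _ => by positivity
    obtain ⟨a1, -, a3⟩ := (MBa_mem_pr hL).1 hd
    exact Finset.mem_erase.2 ⟨a1.ne_zero, mem_ball.2 ((Nat.le_floor_iff hL).2 a3)⟩
  have h2 : Real.log ((⌊L⌋₊ : ℝ) + 1) ≤ 2 ^ ε / ε * R ^ ε := by
    have a1 : (⌊L⌋₊ : ℝ) + 1 ≤ 2 * R := by linarith [Nat.floor_le hL]
    refine (Real.log_le_log (by positivity) a1).trans
      ((Real.log_le_rpow_div (by positivity) hε).trans (le_of_eq ?_))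
    rw [Real.mul_rpow (by norm_num) (by linarith)]
    ring
  have h3 : 1 ≤ R ^ ε := Real.one_le_rpow hR hε.le
  refine h1.trans ((h _).trans ?_)
  rw [mul_assoc]
  refine mul_le_mul_of_nonneg_left ?_ hC.le
  linarith

theorem cube_le {M : O} (hM : Adm M) {ε : ℝ} (hε : 0 < ε) : ∃ C : ℝ, 0 < C ∧
    ∀ (R D Λ L' Zm Y : ℝ) (ν : Chr M) (s : ℂ) (Z : Finset O) (c : O → ℂ) (r k : O), 1 ≤ R →
      L' ≤ R → 1 ≤ Y → 0 < D → 0 < Λ → Marks M Z Zm → D * Λ * Zm ≤ L' →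
      ‖Sd M L' (fun n => al ν D Λ s Z c n * conj (sym n r)) k‖ ^ 2 ≤
        2 * ‖Small ν D Λ s Z c r Y k‖ ^ 2 + C * R ^ ε * ∑ d₁ ∈ pr M L', nr d₁ ^ 3 *
          ‖Sg M (L' / nr d₁ ^ 6) (betaG ν D Λ s Z c r Y d₁) k‖ ^ 2 := by
  obtain ⟨C, hC, h⟩ := sum_inv_pr hε
  refine ⟨2 * C, by positivity, fun R D Λ L' Zm Y ν s Z c r k hR hLR hY hD hΛ hZ hZL => ?_⟩
  have hR0 : 0 ≤ R := by linarith
  rcases lt_or_ge L' 1 with hL | hL
  · rw [Sd, sp_eq_empty M hL, Finset.sum_empty, norm_zero, zero_pow two_ne_zero]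
    positivity
  have hL0 : 0 ≤ L' := by linarith
  rw [cube_eq (Y := Y) hM ν s c r k hL0 hY hD hΛ hZ hZL]
  set S : O → ℝ := fun d₁ => ‖Sg M (L' / nr d₁ ^ 6) (betaG ν D Λ s Z c r Y d₁) k‖ with hS
  set B := ∑ d₁ ∈ pr M L', ((nr d₁ : ℝ) : ℂ) * sym (d₁ ^ 6) (k * r ^ 5) *
        Sg M (L' / nr d₁ ^ 6) (betaG ν D Λ s Z c r Y d₁) k with hB
  have h1 : ‖B‖ ≤ ∑ d₁ ∈ pr M L', nr d₁ * S d₁ := by
    refine (norm_sum_le _ _).trans (Finset.sum_le_sum fun d _ => ?_)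
    rw [norm_mul, norm_mul, Complex.norm_real, Real.norm_of_nonneg (Nat.cast_nonneg _)]
    exact mul_le_mul_of_nonneg_right
      (mul_le_of_le_one_right (Nat.cast_nonneg _) (norm_sym_le _ _)) (norm_nonneg _)
  have h2 : (∑ d₁ ∈ pr M L', nr d₁ * S d₁) ^ 2 ≤
      (∑ d₁ ∈ pr M L', (nr d₁)⁻¹) * ∑ d₁ ∈ pr M L', nr d₁ ^ 3 * S d₁ ^ 2 := by
    refine Finset.sum_sq_le_sum_mul_sum_of_sq_le_mul _ (fun _ _ => by positivity)
      (fun _ _ => by positivity) fun d hd => le_of_eq ?_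
    have := (nr_pos ((MBa_mem_pr hL0).1 hd).1.ne_zero).ne'
    field_simp
  have h3 : 0 ≤ ∑ d₁ ∈ pr M L', nr d₁ ^ 3 * S d₁ ^ 2 :=
    Finset.sum_nonneg fun _ _ => by positivity
  have h4 := (pow_le_pow_left₀ (norm_nonneg _) h1 2).trans
    (h2.trans (mul_le_mul_of_nonneg_right (h M R L' hR hL0 hLR) h3))
  have h5 := pow_le_pow_left₀ (norm_nonneg _) (norm_sub_le (Small ν D Λ s Z c r Y k) B) 2
  nlinarith [sq_nonneg (‖Small ν D Λ s Z c r Y k‖ - ‖B‖)]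

end Crest.Agent.R17.T2CA
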