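import Crest.Agent.R17.T2Al

/-!
# Row 17, module T2: the coefficients `betaG` (auxiliary lemmas)
-/

set_option autoImplicit false

noncomputable section

namespace Crest.Agent.R17.T2CB

open scoped ComplexConjugate

theorem norm_lamY (Y : ℝ) (d : O) : ‖lamY Y d‖ ≤ (pdiv d).card := by
  classical
  unfold lamY
  refine (norm_sum_le _ _).trans ?_
  refine (Finset.sum_le_card_nsmul _ _ 1 fun x _ => norm_mu_le x).trans ?_
  simp only [nsmul_eq_mul, mul_one]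
  exact_mod_cast Finset.card_filter_le _ _

theorem norm_pre_le {M : O} (hM : Adm M) (ν : Chr M) (Y : ℝ) (a b : O) {d : O} (hd : Primary d) :
    ‖lamY Y d * conj (arg d) ^ 3 * Gf (d ^ 3) * ev ν (d ^ 3) * sym a b‖ ≤ (pdiv d).card := by
  by_cases hc : IsCoprime (d ^ 3) M
  · have h1 := norm_lamY Y d
    have h2 : ‖arg d‖ = 1 := norm_arg hd.ne_zero
    have h3 : ‖Gf (d ^ 3)‖ = 1 := norm_Gf (PO.of_adm hM (hd.pow 3) hc)
    have h4 := norm_ev hM.1 ν hc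
    have h5 := norm_sym_le a b
    rw [norm_mul, norm_mul, norm_mul, norm_mul, norm_pow, Complex.norm_conj, h2, h3, h4]
    simp only [one_pow, mul_one]
    exact (mul_le_mul h1 h5 (norm_nonneg _) (Nat.cast_nonneg _)).trans (mul_one _).le
  · rw [ev_eq_zero ν hc]
    simp

open Classical in
theorem norm_sum_le_card {M : O} (hM : Adm M) (ν : Chr M) {Zm : ℝ} {Z : Finset O} {c : O → ℂ}
    {s : ℂ} (hZ : Marks M Z Zm) (hc : ∀ z, ‖c z‖ ≤ 1) (hs : |s.re| ≤ 3) {n : O} (hn : n ≠ 0)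
    (Q : O → Prop) (y : O → ℝ) :
    ‖∑ z ∈ Z, if z ∣ n ∧ Q z then mu z * conj (ev ν z) * c z * Wc (y z) s else 0‖ ≤
      (pdiv n).card * Real.exp (9 / 4) := by
  rw [← Finset.sum_filter]
  refine (norm_sum_le _ _).trans ?_
  have hW : ∀ x, ‖Wc x s‖ ≤ Real.exp (9 / 4) := fun x => (norm_Wc_le x s).trans
    (Real.exp_le_exp.2 (by have := sq_abs s.re; have := abs_nonneg s.re; nlinarith))
  refine (Finset.sum_le_card_nsmul _ _ (Real.exp (9 / 4)) fun z _ => ?_).trans ?_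
  · rw [norm_mul, norm_mul, norm_mul, Complex.norm_conj]
    have h1 := norm_mu_le z
    have h2 := norm_ev_le hM.1 ν z
    have h3 : ‖mu z‖ * ‖ev ν z‖ * ‖c z‖ ≤ 1 :=
      mul_le_one₀ (mul_le_one₀ h1 (norm_nonneg _) h2) (norm_nonneg _) (hc z)
    exact (mul_le_mul h3 (hW _) (norm_nonneg _) zero_le_one).trans (one_mul _).le
  · rw [nsmul_eq_mul]
    refine mul_le_mul_of_nonneg_right ?_ (Real.exp_pos _).le
    refine Nat.cast_le.2 (Finset.card_le_card fun z hz => ?_)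
    rw [Finset.mem_filter] at hz
    exact (mem_pdiv hn).2 ⟨(hZ z hz.1).1.1, hz.2.1⟩

theorem norm_betaG_le {M : O} (hM : Adm M) {ε : ℝ} (hε : 0 < ε) : ∃ C : ℝ, 0 < C ∧
    ∀ (R D Λ Zm Y : ℝ) (ν : Chr M) (s : ℂ) (Z : Finset O) (c : O → ℂ) (r d₁ d₀ m : O),
      Marks M Z Zm → (∀ z, ‖c z‖ ≤ 1) → |s.re| ≤ 3 → Primary d₁ → Primary d₀ → Primary m →
      nr (m * (d₀ * d₁ ^ 2) ^ 3) ≤ R → ‖betaG ν D Λ s Z c r Y d₁ d₀ m‖ ≤ C * R ^ ε := by
  classical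
  obtain ⟨C, hC, h⟩ := En.card_pdiv_le' (half_pos hε)
  refine ⟨C * (8 * (C * Real.exp (9 / 4))), by positivity,
    fun R D Λ Zm Y ν s Z c r d₁ d₀ m hZ hc hs h1 h0 hm hR => ?_⟩
  have hd : Primary (d₀ * d₁ ^ 2) := h0.mul (h1.pow 2)
  have hn : Primary (m * (d₀ * d₁ ^ 2) ^ 3) := hm.mul (hd.pow 3)
  have hR1 : 1 ≤ R := (one_le_nr hn.ne_zero).trans hR
  have hR0 : 0 < R := by linarith
  have hdR : nr (d₀ * d₁ ^ 2) ≤ R :=
    (En.nr_le_of_dvd (Dvd.intro_left (m * (d₀ * d₁ ^ 2) ^ 2) (by ring)) hn.ne_zero).trans hR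
  unfold betaG
  split_ifs with hY
  · rw [norm_mul]
    have a1 := (norm_pre_le hM ν Y (d₀ ^ 3) (r ^ 5) hd).trans (h R _ hd.ne_zero hdR)
    have a2 := norm_sum_le_card hM ν hZ hc hs hn.ne_zero
      (fun z => nr (m * (d₀ * d₁ ^ 2) ^ 3) ≤ D * Λ * nr z)
      (fun z => nr (m * (d₀ * d₁ ^ 2) ^ 3) / (D * nr z))
    have a3 := h R _ hn.ne_zero hR
    have a4 : ‖Rs m d₀ * ev ν m * mu m * conj (sym m r)‖ ≤ 8 := by
      rw [norm_mul, norm_mul, norm_mul, Complex.norm_conj]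
      have b1 := ReflA.norm_Rs_le m d₀
      have b2 := norm_ev_le hM.1 ν m
      have b3 := norm_mu_le m
      have b4 := norm_sym_le m r
      have b5 : ‖ev ν m‖ * ‖mu m‖ * ‖sym m r‖ ≤ 1 :=
        mul_le_one₀ (mul_le_one₀ b2 (norm_nonneg _) b3) (norm_nonneg _) b4
      calc _ = ‖Rs m d₀‖ * (‖ev ν m‖ * ‖mu m‖ * ‖sym m r‖) := by ring
        _ ≤ 8 * 1 := mul_le_mul b1 b5 (by positivity) (by norm_num)
        _ = 8 := by norm_num
    have a5 := a2.trans (mul_le_mul_of_nonneg_right a3 (Real.exp_pos _).le)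
    have hRe : R ^ ε = R ^ (ε / 2) * R ^ (ε / 2) := by rw [← Real.rpow_add hR0]; ring_nf
    have hp : 0 < R ^ (ε / 2) := Real.rpow_pos_of_pos hR0 _
    calc _ ≤ (C * R ^ (ε / 2)) * (8 * (C * R ^ (ε / 2) * Real.exp (9 / 4))) := by
          refine mul_le_mul a1 ?_ (norm_nonneg _) (by positivity)
          rw [norm_mul]
          refine mul_le_mul a4 ?_ (norm_nonneg _) (by norm_num)
          convert a5 using 4
      _ = _ := by rw [hRe]; ring
  · rw [norm_zero]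
    positivity

theorem mem_sp' {M : O} {X : ℝ} {n : O} : n ∈ sp M X ↔ SP M n ∧ nr n ≤ X := by
  rcases le_or_gt 0 X with hX | hX
  · exact mem_sp hX
  · rw [sp_eq_empty M (by linarith : X < 1)]
    refine ⟨fun h => absurd h (Finset.notMem_empty _), fun h => ?_⟩
    have := one_le_nr h.1.1.ne_zero
    linarith [h.2]

open Classical in
/-- The term of one mark `t z`. -/
theorem term_eq {M : O} (hM : Adm M) (ν ν₁ : Chr M) {D : ℝ} (hD : 0 < D) (Λ : ℝ) (s : ℂ)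
    (c : O → ℂ) {d m t z : O} (hd : Primary d) (hm : SP M m) (ht : Primary t) (hz : SP M z)
    (htd : t ∣ d) (hzd : IsCoprime z d) :
    ev ν₁ m * ev ν m * mu m *
      (if t * z ∣ m * d ^ 3 ∧ nr (m * d ^ 3) ≤ D * Λ * nr (t * z) then
        mu (t * z) * conj (ev ν (t * z)) * cm c (t * z) * Wc (nr (m * d ^ 3) / (D * nr (t * z))) s
      else 0) =
    mu t * conj (ev ν t) * cm c t * ∑ m₁ ∈ sp M (D * nr t / nr d ^ 3 * Λ),
      if m₁ * z = m then (cm c z * ev ν₁ z) *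
        (mu m₁ * ev (ν * ν₁) m₁ * Wc (nr m₁ / (D * nr t / nr d ^ 3)) s) else 0 := by
  have hz0 := hz.1.ne_zero
  have ht0 := ht.ne_zero
  have htz : IsCoprime t z := (hzd.of_isCoprime_of_dvd_right htd).symm
  by_cases hzm : z ∣ m
  · obtain ⟨m₁, rfl⟩ := hzm
    have hm₁ : Primary m₁ := hz.1.of_mul hm.1
    have hsp : SP M m₁ := En.SP.of_dvd hm hm₁ (Dvd.intro_left z rfl)
    have hcop : IsCoprime z m₁ := (IsRelPrime.of_squarefree_mul hm.2.1).isCoprime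
    have hiff : ∀ x : O, (x * z = z * m₁) = (x = m₁) := fun x => by
      rw [mul_comm z m₁, mul_left_inj' hz0]
    simp only [hiff, Finset.sum_ite_eq', mem_sp']
    have pz := nr_pos hz0
    have pt := nr_pos ht0
    have pd := nr_pos hd.ne_zero
    have hdvd : t * z ∣ z * m₁ * d ^ 3 := by
      obtain ⟨e, rfl⟩ := htd
      exact ⟨m₁ * t ^ 2 * e ^ 3, by ring⟩
    have hle : nr (z * m₁ * d ^ 3) ≤ D * Λ * nr (t * z) ↔ nr m₁ ≤ D * nr t / nr d ^ 3 * Λ := by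
      rw [nr_mul, nr_mul, nr_mul, nr_pow, div_mul_eq_mul_div, le_div_iff₀ (by positivity),
        show nr z * nr m₁ * nr d ^ 3 = nr m₁ * nr d ^ 3 * nr z by ring,
        show D * Λ * (nr t * nr z) = D * nr t * Λ * nr z by ring, mul_le_mul_iff_left₀ pz]
    have harg : nr (z * m₁ * d ^ 3) / (D * nr (t * z)) = nr m₁ / (D * nr t / nr d ^ 3) := by
      rw [nr_mul, nr_mul, nr_mul, nr_pow]
      field_simp
    by_cases hl : nr m₁ ≤ D * nr t / nr d ^ 3 * Λ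
    · rw [if_pos ⟨hdvd, hle.2 hl⟩, if_pos ⟨hsp, hl⟩, harg, ev_mul, ev_mul, ev_mul,
        mu_mul hz.1 hm₁ hcop, mu_mul ht hz.1 htz, cm_mul c ht0 hz0 htz, ev_mul_chr, map_mul]
      have e1 := mu_sq hz.2.1
      have e2 := Gauss_conj_mul (norm_ev hM.1 ν hz.2.2)
      calc _ = (mu z * mu z) * (conj (ev ν z) * ev ν z) * (mu t * conj (ev ν t) * cm c t *
            (cm c z * ev ν₁ z * (mu m₁ * (ev ν m₁ * ev ν₁ m₁) *
              Wc (nr m₁ / (D * nr t / nr d ^ 3)) s))) := by ring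
        _ = _ := by rw [e1, e2, one_mul, one_mul]
    · rw [if_neg (fun h => hl (hle.1 h.2)), if_neg (fun h => hl h.2), mul_zero, mul_zero]
  · rw [if_neg, Finset.sum_eq_zero, mul_zero, mul_zero]
    · intro x _
      exact if_neg fun h => hzm ⟨x, by rw [← h, mul_comm]⟩
    · intro h
      exact hzm ((hzd.pow_right (n := 3)).dvd_of_dvd_mul_right ((Dvd.intro_left t rfl).trans h.1))

open Classical in
theorem betaG_eq {M : O} (hM : Adm M) {Ps : ℕ → Finset O} {P : ℕ → ℝ} {I : Finset ℕ}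
    (h : Slots M Ps P I) (ν : Chr M) {D : ℝ} (hD : 0 < D) (Λ Y : ℝ) (s : ℂ) {c : O → ℂ}
    (hc : ∀ p, ‖c p‖ ≤ 1) (r : O) {d₁ d₀ : O} (h1 : Primary d₁)
    (h0 : SP M d₀) : ∃ (ν₁ : Chr M) (ω : O → Finset ℕ → ℂ),
      (∀ t I', ‖ω t I'‖ ≤ (pdiv (d₀ * d₁ ^ 2)).card) ∧
      (∀ t I', ω t I' ≠ 0 → t ∈ Zs Ps (I \ I') ∧ Y < nr (d₀ * d₁ ^ 2)) ∧ ∀ m, SP M m →
        betaG ν D Λ s (Zs Ps I) (cm c) r Y d₁ d₀ m =
          ∑ t ∈ pdiv (d₀ * d₁), ∑ I' ∈ I.powerset, ω t I' *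
            (al (ν * ν₁) (D * nr t / nr (d₀ * d₁ ^ 2) ^ 3) Λ s (Zs Ps I')
              (cm fun p => if p ∣ d₀ * d₁ then 0 else c p * ev ν₁ p) m * conj (sym m r)) := by
  obtain ⟨ν₁, hν₁⟩ := exists_chr_Rs hM (PO.of_adm hM h0.1 h0.2.2).2
  have hd : Primary (d₀ * d₁ ^ 2) := h0.1.mul (h1.pow 2)
  have hu : d₀ * d₁ ≠ 0 := (h0.1.mul h1).ne_zero
  refine ⟨ν₁, fun t I' => if t ∈ Zs Ps (I \ I') ∧ Y < nr (d₀ * d₁ ^ 2) then
    lamY Y (d₀ * d₁ ^ 2) * conj (arg (d₀ * d₁ ^ 2)) ^ 3 * Gf ((d₀ * d₁ ^ 2) ^ 3) *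
      ev ν ((d₀ * d₁ ^ 2) ^ 3) * sym (d₀ ^ 3) (r ^ 5) * (mu t * conj (ev ν t) * cm c t) else 0,
    fun t I' => ?_, fun t I' hω => ?_, fun m hm => ?_⟩
  · dsimp only
    split_ifs
    · rw [norm_mul]
      have a1 := norm_pre_le hM ν Y (d₀ ^ 3) (r ^ 5) hd
      have a2 : ‖mu t * conj (ev ν t) * cm c t‖ ≤ 1 := by
        rw [norm_mul, norm_mul, Complex.norm_conj]
        exact mul_le_one₀ (mul_le_one₀ (norm_mu_le t) (norm_nonneg _) (norm_ev_le hM.1 ν t))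
          (norm_nonneg _) (norm_cm_le hc t)
      exact (mul_le_mul a1 a2 (norm_nonneg _) (Nat.cast_nonneg _)).trans (mul_one _).le
    · rw [norm_zero]
      exact Nat.cast_nonneg _
  · by_contra hn
    exact hω (if_neg hn)
  · unfold betaG
    by_cases hY : Y < nr (d₀ * d₁ ^ 2)
    swap
    · simp [hY]
    simp only [hY, and_true, if_true]
    rw [h.sum_gcd hu, Finset.sum_comm (s := pdiv (d₀ * d₁)), Finset.mul_sum, Finset.mul_sum]
    refine Finset.sum_congr rfl fun I' hI' => ?_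
    have hI : I' ⊆ I := Finset.mem_powerset.1 hI'
    have m1 := (h.mono (Finset.sdiff_subset (t := I'))).marks
    have m2 := (h.mono hI).marks
    have hset : (Zs Ps (I \ I')).filter (· ∣ d₀ * d₁) =
        (pdiv (d₀ * d₁)).filter (· ∈ Zs Ps (I \ I')) := by
      ext t
      rw [Finset.mem_filter, Finset.mem_filter, mem_pdiv hu]
      exact ⟨fun a => ⟨⟨(m1 t a.1).1.1, a.2⟩, a.1⟩, fun a => ⟨a.2, a.1.2⟩⟩
    rw [hset, Finset.sum_filter, Finset.mul_sum, Finset.mul_sum]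
    refine Finset.sum_congr rfl fun t ht => ?_
    rw [mem_pdiv hu] at ht
    split_ifs with htZ
    swap
    · simp
    have key : ev ν₁ m * ev ν m * mu m * ∑ z' ∈ (Zs Ps I').filter (fun z' => IsCoprime z' (d₀ * d₁)),
        (if t * z' ∣ m * (d₀ * d₁ ^ 2) ^ 3 ∧
            nr (m * (d₀ * d₁ ^ 2) ^ 3) ≤ D * Λ * nr (t * z') then
          mu (t * z') * conj (ev ν (t * z')) * cm c (t * z') *
            Wc (nr (m * (d₀ * d₁ ^ 2) ^ 3) / (D * nr (t * z'))) s else 0) =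
        mu t * conj (ev ν t) * cm c t * al (ν * ν₁) (D * nr t / nr (d₀ * d₁ ^ 2) ^ 3) Λ s (Zs Ps I')
          (cm fun p => if p ∣ d₀ * d₁ then 0 else c p * ev ν₁ p) m := by
      rw [al, Finset.sum_filter, Finset.mul_sum, Finset.mul_sum]
      refine Finset.sum_congr rfl fun z hz => ?_
      have hz' := (m2 z hz).1
      rw [cm_ite (fun p => c p * ev ν₁ p) hz'.1, cm_mul_fun, cm_ev ν₁ hz']
      by_cases hcz : IsCoprime z (d₀ * d₁)
      · have hzd : IsCoprime z (d₀ * d₁ ^ 2) :=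
          (hcz.pow_right (n := 2)).of_isCoprime_of_dvd_right ⟨d₀, by ring⟩
        rw [if_pos hcz, if_pos hcz]
        exact term_eq hM ν ν₁ hD Λ s c hd hm ht.1 hz' (ht.2.trans ⟨d₁, by ring⟩) hzd
      · rw [if_neg hcz, if_neg hcz]
        simp
    rw [Rs_comm, ← hν₁ m hm.2.2]
    linear_combination (lamY Y (d₀ * d₁ ^ 2) * conj (arg (d₀ * d₁ ^ 2)) ^ 3 *
      Gf ((d₀ * d₁ ^ 2) ^ 3) * ev ν ((d₀ * d₁ ^ 2) ^ 3) * sym (d₀ ^ 3) (r ^ 5) *
      conj (sym m r)) * key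

end Crest.Agent.R17.T2CB
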