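import Crest.Agent.R17.T2Al
import Crest.Agent.R17.T2CubeAuxA
import Crest.Agent.R17.T2CubeAuxB
import Crest.Agent.R17.T2CubeAuxC

/-!
# Row 17, module T2: completion of the cubes; the small cubes (`energy`)
-/

set_option autoImplicit false

noncomputable section

namespace Crest.Agent.R17

open scoped ComplexConjugate

/-- `th (m d³) = √(N d) conj α(d)³ th m` (`sq1_cu`). -/
theorem th_mul_cube {m d : O} (hm : Primary m) (hd : Primary d) :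
    th (m * d ^ 3) = (Real.sqrt (nr d) : ℂ) * conj (arg d) ^ 3 * th m :=
  T2CA.th_mul_cube hm hd

theorem norm_th_le (n : O) : ‖th n‖ ≤ nr n ^ (1 / 2 : ℝ) :=
  T2CA.norm_th_le n

theorem norm_lamY_le (Y : ℝ) (d : O) : ‖lamY Y d‖ ≤ (pdiv d).card :=
  T2CA.norm_lamY_le Y d

open Classical in
theorem lamY_eq {Y : ℝ} (hY : 1 ≤ Y) {d : O} (hd : Primary d) :
    (if d = 1 then 1 else 0 : ℂ) = lamY Y d - if Y < nr d then lamY Y d else 0 :=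
  T2CA.lamY_eq hY hd

/-- **Completion of the cubes.**  `mu_gam_five` turns `Sd` into
`∑_z μ(z) conj ν(z) c(z) ∑_{n squarefree, z ∣ n, N n ≤ D Λ N z} th n Gf n ν n χ_n(k r⁵) Wc(N n/(D N z))`;
on the support of `th`, `n` is squarefree iff `cu n = 1`; insert `lamY_eq` for `d = cu n`; for squarefree
`d'`, `d' ∣ cu n ↔ d'³ ∣ n`: the first part is `Small`.  In the second part write uniquely
`n = m (d₀ d₁²)³` (`m = sq1 n`, `d₀` squarefree), `th_mul_cube`, `Gf_mul`, `Rs m (d₀ y²) = Rs m d₀`;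
it equals `∑_{d₁} N d₁ · χ_{d₁}(k r⁵)⁶ · Sg`.  Cauchy–Schwarz with the weights `1 / N d₁`. -/
theorem cube_le {M : O} (hM : Adm M) {ε : ℝ} (hε : 0 < ε) : ∃ C : ℝ, 0 < C ∧
    ∀ (R D Λ L' Zm Y : ℝ) (ν : Chr M) (s : ℂ) (Z : Finset O) (c : O → ℂ) (r k : O), 1 ≤ R →
      L' ≤ R → 1 ≤ Y → 0 < D → 0 < Λ → Marks M Z Zm → D * Λ * Zm ≤ L' →
      ‖Sd M L' (fun n => al ν D Λ s Z c n * conj (sym n r)) k‖ ^ 2 ≤
        2 * ‖Small ν D Λ s Z c r Y k‖ ^ 2 + C * R ^ ε * ∑ d₁ ∈ pr M L', nr d₁ ^ 3 *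
          ‖Sg M (L' / nr d₁ ^ 6) (betaG ν D Λ s Z c r Y d₁) k‖ ^ 2 :=
  T2CA.cube_le hM hε

theorem norm_betaG_le {M : O} (hM : Adm M) {ε : ℝ} (hε : 0 < ε) : ∃ C : ℝ, 0 < C ∧
    ∀ (R D Λ Zm Y : ℝ) (ν : Chr M) (s : ℂ) (Z : Finset O) (c : O → ℂ) (r d₁ d₀ m : O),
      Marks M Z Zm → (∀ z, ‖c z‖ ≤ 1) → |s.re| ≤ 3 → Primary d₁ → Primary d₀ → Primary m →
      nr (m * (d₀ * d₁ ^ 2) ^ 3) ≤ R → ‖betaG ν D Λ s Z c r Y d₁ d₀ m‖ ≤ C * R ^ ε :=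
  T2CB.norm_betaG_le hM hε

open Classical in
/-- For product marks `betaG` is a short sum of coefficients `al` (`Slots.sum_gcd` with
`u = d₀ d₁`, `exists_chr_Rs`, `cm_ite`, `cm_ev`). -/
theorem betaG_eq {M : O} (hM : Adm M) {Ps : ℕ → Finset O} {P : ℕ → ℝ} {I : Finset ℕ}
    (h : Slots M Ps P I) (ν : Chr M) {D : ℝ} (hD : 0 < D) (Λ Y : ℝ) (s : ℂ) {c : O → ℂ}
    (hc : ∀ p, ‖c p‖ ≤ 1) (r : O) {d₁ d₀ : O} (h1 : Primary d₁) (h1' : IsCoprime d₁ M)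
    (h0 : SP M d₀) : ∃ (ν₁ : Chr M) (ω : O → Finset ℕ → ℂ),
      (∀ t I', ‖ω t I'‖ ≤ (pdiv (d₀ * d₁ ^ 2)).card) ∧
      (∀ t I', ω t I' ≠ 0 → t ∈ Zs Ps (I \ I') ∧ Y < nr (d₀ * d₁ ^ 2)) ∧ ∀ m, SP M m →
        betaG ν D Λ s (Zs Ps I) (cm c) r Y d₁ d₀ m =
          ∑ t ∈ pdiv (d₀ * d₁), ∑ I' ∈ I.powerset, ω t I' *
            (al (ν * ν₁) (D * nr t / nr (d₀ * d₁ ^ 2) ^ 3) Λ s (Zs Ps I')
              (cm fun p => if p ∣ d₀ * d₁ then 0 else c p * ev ν₁ p) m * conj (sym m r)) :=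
  T2CB.betaG_eq hM h ν hD Λ Y s hc r h1 h0

/-- **Small cubes.**  Put `n = d³ n'` (`th_mul_cube`); with `t = pgcd z d`, `z = t z₁` one has
`z ∣ d³ n' ↔ z₁ ∣ n'` and `N n / (D N z) = N n' / (D'' N z₁)`, `D'' = D N t / N d³ ∈ [D/Y³, D]`;
`φ n' = if Primary n' then Gf (d³ n') ν(d³ n') else 0` is `PerB M`; remove the truncation
(`tsum_norm_Sm_tail_le` or `MBa_trunc`-like with `norm_th_le`); cut the marks `z₁` into dyadic blocks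
`Z'' ≤ N z₁ ≤ 2 Z''` (`Z'' = 2^i ≤ Zm`); the rows `k r⁵` are distinct rows of norm `≤ K N r⁵`;
`energy` with `h₀ = 1` (choose the second, resp. first, entry of the minima). -/
theorem small_le {M : O} (hM : Adm M) {ε : ℝ} (hε : 0 < ε) (B : ℝ) : ∃ (C : ℝ) (J₀ : ℕ), 0 < C ∧
    ∀ (R K K' D Λ Zm Y : ℝ) (ν : Chr M) (s : ℂ) (Z : Finset O) (c : O → ℂ) (r : O), 1 ≤ Λ → 1 ≤ Y →
      Y ≤ R → 1 ≤ Zm → Zm ≤ R → 0 < D → D ≤ R → Y ^ 3 ≤ R * D → r ≠ 0 → 0 ≤ K →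
      K * nr r ^ 5 ≤ K' → K' ≤ R → Marks M Z Zm → (∀ z, ‖c z‖ ≤ 1) → |s.re| ≤ 3 →
      ∑ k ∈ rows K, ‖Small ν D Λ s Z c r Y k‖ ^ 2 ≤
        C * R ^ ε * (1 + |s.im|) ^ J₀ * Y ^ 3 *
          (D * Zm * K' + Zm ^ 2 * K' ^ 2 + Real.sqrt D * Zm ^ 3 * K' + D * Zm ^ 2 * K') +
        C * R ^ 12 * Λ ^ (-B) :=
  T2CubeC.small_le_of hM th_mul_cube norm_th_le hε B

end Crest.Agent.R17
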