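import Crest.Agent.R17.DP
import Crest.Agent.R17.M4Sup
import Crest.Agent.R17.Energy

/-!
# Row 17, module T2 (owner helper42): the marked second moment of Möbius sums.  Definitions.

Marks are products of primes taken from pairwise disjoint *slots* `Ps j` (`j ∈ I`), the coefficient
of a mark is the product `cm c z` of the coefficients of its primes.
-/

set_option autoImplicit false

noncomputable section

namespace Crest.Agent.R17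

open scoped ComplexConjugate

open scoped Pointwise in
/-- The marks `∏_{j ∈ I} p_j`, `p_j ∈ Ps j` (pointwise product of finsets). -/
def Zs (Ps : ℕ → Finset O) (I : Finset ℕ) : Finset O := ∏ j ∈ I, Ps j

/-- Multiplicative extension of a coefficient on primes. -/
def cm (c : O → ℂ) (z : O) : ℂ := ∏ p ∈ pf z, c p

/-- The maximal length of a mark. -/
def ZI (P : ℕ → ℝ) (I : Finset ℕ) : ℝ := ∏ j ∈ I, P j

/-- Slots: disjoint sets of primes, `N p ≤ P j`. -/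
structure Slots (M : O) (Ps : ℕ → Finset O) (P : ℕ → ℝ) (I : Finset ℕ) : Prop where
  prime : ∀ j ∈ I, ∀ p ∈ Ps j, Prime p ∧ Primary p ∧ IsCoprime p M ∧ nr p ≤ P j
  one_le : ∀ j ∈ I, 1 ≤ P j
  disj : ∀ i ∈ I, ∀ j ∈ I, i ≠ j → Disjoint (Ps i) (Ps j)

/-- Dyadic slots. -/
def Dy (Ps : ℕ → Finset O) (P : ℕ → ℝ) (I : Finset ℕ) : Prop :=
  ∀ j ∈ I, ∀ p ∈ Ps j, P j ≤ 2 * nr p

/-- Marks: squarefree primary elements coprime to `M` of norm at most `Zm`. -/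
def Marks (M : O) (Z : Finset O) (Zm : ℝ) : Prop := ∀ z ∈ Z, SP M z ∧ nr z ≤ Zm

/-- The marked Möbius sum (Möbius variable coprime to the mark). -/
def MQ {M : O} (ν : Chr M) (a : O) (D : ℝ) (s : ℂ) (Z : Finset O) (c : O → ℂ) : ℂ :=
  ∑ z ∈ Z, c z * conj (sym z a) * Mob ν (a * z ^ 6) D s

open Classical in
/-- The truncated coefficient of `MQ` (used on squarefree `n`). -/
def al {M : O} (ν : Chr M) (D Λ : ℝ) (s : ℂ) (Z : Finset O) (c : O → ℂ) (n : O) : ℂ :=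
  ∑ z ∈ Z, ∑ m ∈ sp M (D * Λ),
    if m * z = n then c z * (mu m * ev ν m * Wc (nr m / D) s) else 0

/-- The normalised maximal function over the scales `D ≤ Dm`. -/
def msup {M : O} (ν : Chr M) (a : O) (Dm : ℝ) (s : ℂ) (Z : Finset O) (c : O → ℂ) : ℝ :=
  sSup {x | ∃ D : ℝ, 0 < D ∧ D ≤ Dm ∧ x = ‖MQ ν a D s Z c‖ ^ 2 / D}

/-- The majorant of all the sums which return after two Poisson steps (total length `≤ X`). -/
def Psi (M : O) [Fintype (Chr M)] (Ps : ℕ → Finset O) (P : ℕ → ℝ) (I : Finset ℕ) (c : O → ℂ)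
    (s : ℂ) (X : ℝ) (a : O) : ℝ :=
  ∑ ν : Chr M, ∑ ν' : Chr M, ∑ I' ∈ I.powerset,
    msup ν a (X / ZI P I') s (Zs Ps I') (cm fun p => c p * ev ν' p) / ZI P I'

/-- Mean value bound for `Psi` (rows `≤ A₀`, total lengths `≤ Xm / 8`). -/
def PB (M : O) [Fintype (Chr M)] (A₀ Xm F : ℝ) (J₀ : ℕ) (Ps : ℕ → Finset O) (P : ℕ → ℝ)
    (I : Finset ℕ) : Prop :=
  ∀ (A X : ℝ) (c : O → ℂ) (s : ℂ), (∀ p, ‖c p‖ ≤ 1) → 1 ≤ A → A ≤ A₀ → -2 ≤ s.re → s.re ≤ 0 →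
    0 < X → 8 * X ≤ Xm → 8 * X * ZI P I ≤ A → (8 * X) ^ 2 * ZI P I ^ 7 ≤ A ^ 3 →
    ∑ a ∈ rows A, Psi M Ps P I c s X a ≤ F * (1 + |s.im|) ^ J₀ * A

/-- The statement which is proved by induction on the total length `R ^ l`. -/
def IM (M : O) (J : ℕ) (l θ : ℝ) : Prop :=
  ∃ (C : ℝ) (J₀ : ℕ), 0 < C ∧ ∀ (R A D τ : ℝ) (ν : Chr M) (Ps : ℕ → Finset O) (P : ℕ → ℝ)
    (I : Finset ℕ) (c : O → ℂ), Slots M Ps P I → Dy Ps P I → I.card ≤ J → (∀ p, ‖c p‖ ≤ 1) →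
    1 ≤ A → A ≤ R → ZI P I ≤ R → 0 < D → D * ZI P I ≤ R ^ l → D * ZI P I ^ 2 ≤ A →
    D ^ 2 * ZI P I ^ 9 ≤ A ^ 3 →
    ∑ a ∈ rows A, ‖MQ ν a D (τ * Complex.I) (Zs Ps I) (cm c)‖ ^ 2 ≤
      C * R ^ θ * (1 + |τ|) ^ J₀ * (A * D * ZI P I)

open Classical in
/-- Truncated Möbius sum over the divisors. -/
def lamY (Y : ℝ) (d : O) : ℂ := ∑ d' ∈ (pdiv d).filter (fun d' => nr d' ≤ Y), mu d'

open Classical in
/-- The part of the cube-completed dual sum which is estimated by `energy`. -/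
def Small {M : O} (ν : Chr M) (D Λ : ℝ) (s : ℂ) (Z : Finset O) (c : O → ℂ) (r : O) (Y : ℝ)
    (k : O) : ℂ :=
  ∑ d ∈ sp M Y, mu d * ∑ z ∈ Z, mu z * conj (ev ν z) * c z *
    ∑ n ∈ pr M (D * Λ * nr z), if d ^ 3 ∣ n ∧ z ∣ n then
      th n * Gf n * ev ν n * sym n (k * r ^ 5) * Wc (nr n / (D * nr z)) s else 0

open Classical in
/-- The coefficients of the large cubes `d = d₀ d₁²`, index `m d³`. -/
def betaG {M : O} (ν : Chr M) (D Λ : ℝ) (s : ℂ) (Z : Finset O) (c : O → ℂ) (r : O) (Y : ℝ)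
    (d₁ d₀ m : O) : ℂ :=
  if Y < nr (d₀ * d₁ ^ 2) then
    lamY Y (d₀ * d₁ ^ 2) * conj (arg (d₀ * d₁ ^ 2)) ^ 3 * Gf ((d₀ * d₁ ^ 2) ^ 3) *
      ev ν ((d₀ * d₁ ^ 2) ^ 3) * sym (d₀ ^ 3) (r ^ 5) *
      (Rs m d₀ * ev ν m * mu m * conj (sym m r) *
        ∑ z ∈ Z, if z ∣ m * (d₀ * d₁ ^ 2) ^ 3 ∧ nr (m * (d₀ * d₁ ^ 2) ^ 3) ≤ D * Λ * nr z then
          mu z * conj (ev ν z) * c z * Wc (nr (m * (d₀ * d₁ ^ 2) ^ 3) / (D * nr z)) s else 0)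
  else 0

end Crest.Agent.R17
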