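import Crest.Agent.R17.T2DomAuxA

/-!
# Row 17, module T2: the returning sums are dominated by `Psi`; the children of `dp`
-/

set_option autoImplicit false

noncomputable section

namespace Crest.Agent.R17

open scoped ComplexConjugate

open Classical in
/-- **Domination.**  `ext_al` (with `c₀ p = if p ∣ T' then 0 else c p * ev ν₁ p`); each term is
`Sr` of `al` at the row `a r u⁶ = a₀ (S u)⁶`; `al_trunc`; on the marks coprime to the row one may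
replace the coefficient by `cm (c' · ev (ν₁ ν'))`, `c' p = if p ∣ T then 0 else c p * κ p`;
`MQ_punct`, `msup_le_Psi` (the scale `D / N u₀` is `≤ X / ZI I'`, and
`D / N u₀ · ZI I' ≤ D ZI I₁ / N u`); all primes of `S u` divide `T a₀` (`pow_card_pf_le`). -/
theorem dom {M : O} (hM : Adm M) [Fintype (Chr M)] (J : ℕ) {ε : ℝ} (hε : 0 < ε) (B : ℝ) :
    ∃ C : ℝ, 0 < C ∧ ∀ (Ps : ℕ → Finset O) (P : ℕ → ℝ) (I : Finset ℕ) (c : O → ℂ) (s' : ℂ) (T : O),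
      Slots M Ps P I → Dy Ps P I → I.card ≤ J → (∀ p, ‖c p‖ ≤ 1) → -1 ≤ s'.re → s'.re ≤ 0 →
      ∃ c' : O → ℂ, (∀ p, ‖c' p‖ ≤ 1) ∧ ∀ I₁ ⊆ I, ∀ (R Λ X D L' Ls f ρ : ℝ) (ν₀ ν₁ ν' : Chr M)
        (s₀ : ℂ) (T' u r a a₀ S : O), 1 ≤ R → 1 ≤ Λ → 0 < D → 0 < f → 0 < Ls → 1 ≤ ρ →
        |s₀.re| ≤ 1 → SP M u → Primary S → T * a₀ ≠ 0 → nr (T * a₀) ≤ R → a * r = a₀ * S ^ 6 →
        (∀ p, Prime p → Primary p → (p ∣ u * T' * S * a₀ ↔ p ∣ T * a₀)) →
        D * ZI P I₁ ≤ R → D * Λ * ZI P I₁ ≤ L' * nr u → D * ZI P I₁ ≤ X * nr u →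
        Ls * nr u ≤ ρ * (D * ZI P I₁ * f) →
        ‖Sr M L' (ext (fun m => al ν₀ D Λ s₀ (Zs Ps I₁)
            (cm fun p => if p ∣ T' then 0 else c p * ev ν₁ p) m * conj (sym m r)) u ν' f Ls s') a‖ ^ 2 ≤
          C * R ^ ε * ρ ^ 2 * (D * ZI P I₁ / nr u) * Psi M Ps P I c' (s₀ + s') X a₀ +
            C * ρ ^ 2 * R ^ 4 * Λ ^ (-B) := by
  obtain ⟨C₁, hC₁, h₁⟩ := al_trunc hM (B / 2)
  obtain ⟨C₂, hC₂, h₂⟩ := card_pdiv_le (ε := ε / 3) (by positivity)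
  obtain ⟨C₃, hC₃, h₃⟩ := card_pdiv_le one_pos
  obtain ⟨C₄, hC₄, h₄⟩ := pow_card_pf_le (ε := ε / 3) (by positivity) 4
  refine ⟨2 * (2 ^ J) ^ 4 * (C₂ ^ 2 * C₄ + C₃ ^ 2 * C₁ ^ 2), by positivity,
    fun Ps P I c s' T hs hd hJ hc h1 h0 => ?_⟩
  obtain ⟨κ, hκ, hext⟩ := ext_al hM hs hd h1 h0
  have nn : ∀ {x y : ℂ}, ‖x‖ ≤ 1 → ‖y‖ ≤ 1 → ‖x * y‖ ≤ 1 := fun hx hy => by
    rw [norm_mul]; exact mul_le_one₀ hx (norm_nonneg _) hy
  have hc' : ∀ p, ‖if p ∣ T then 0 else c p * κ p‖ ≤ 1 := fun p => by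
    split_ifs
    · simp
    · exact nn (hc p) (hκ p)
  refine ⟨fun p => if p ∣ T then 0 else c p * κ p, hc', fun I₁ hI₁ R Λ X D L' Ls f ρ ν₀ ν₁ ν' s₀ T'
    u r a a₀ S hR hΛ hD hf hLs hρ hs₀ hu hS hT hTR har hp d1 d2 d3 d4 => ?_⟩
  have hc₀ : ∀ p, ‖if p ∣ T' then 0 else c p * ev ν₁ p‖ ≤ 1 := fun p => by
    split_ifs
    · simp
    · exact nn (hc p) (norm_ev_le hM.1 ν₁ p)
  obtain ⟨ω, w1, w2, w3⟩ := hext I₁ hI₁ ν₀ ν' D Λ f Ls ρ s₀ _ u hD hf hLs hρ hu hc₀ d4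
  have hu0 := hu.1.ne_zero
  have hSu : Primary (S * u) := hS.mul hu.1
  have hsub : pf (S * u) ⊆ pf (T * a₀) := fun p h => by
    obtain ⟨a1, a2, a3⟩ := (mem_pf hSu.ne_zero).1 h
    exact (mem_pf hT).2 ⟨a1, a2, (hp p a1 a2).1 (a3.trans ⟨T' * a₀, by ring⟩)⟩
  have huR : nr u ≤ R := by
    have a1 : rad u ∣ T * a₀ := BasicB.prod_dvd_of_subset hT fun p h => by
      obtain ⟨a1, a2, a3⟩ := (mem_pf hu0).1 h
      exact hsub ((mem_pf hSu.ne_zero).2 ⟨a1, a2, a3.mul_left _⟩)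
    rw [hu.1.eq_rad hu.2.1] at a1
    exact (Nat.cast_le.2 (nm_le_of_dvd a1 hT)).trans hTR
  have hu1 := one_le_nr hu0
  rw [T2DomA.Sr_ext hM L' _ hu0 ν' f Ls s' r a (pdiv u ×ˢ I₁.powerset) (fun q => ω q.1 q.2)
    (fun q => al (ν₀ * ν') (D / nr q.1) Λ (s₀ + s') (Zs Ps q.2)
      (cm fun p => (if p ∣ T' then 0 else c p * ev ν₁ p) * κ p * ev ν' p))
    (fun n hn => by rw [w3 n hn, Finset.sum_product]),
    show a * r * u ^ 6 = a₀ * (S * u) ^ 6 by rw [har]; ring]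
  set Ψ := Psi M Ps P I (fun p => if p ∣ T then 0 else c p * κ p) (s₀ + s') X a₀ with hΨ
  have hΨ0 : 0 ≤ Ψ := Psi_nonneg M hs _ _ _ _
  have hZ1 := (hs.mono hI₁).one_le_ZI
  set Y := D * ZI P I₁ / nr u with hY
  have hY0 : 0 ≤ Y := by positivity
  have hYR : Y ≤ R := (div_le_self (by positivity) hu1).trans d1
  have k4 : (4 : ℝ) ^ (pf (S * u)).card ≤ C₄ * R ^ (ε / 3) :=
    (pow_le_pow_right₀ (by norm_num) (Finset.card_le_card hsub)).trans
      ((h₄ _ hT).trans (by gcongr))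
  have e1 : (Λ ^ (-(B / 2))) ^ 2 = Λ ^ (-B) := by
    rw [← Real.rpow_natCast, ← Real.rpow_mul (by positivity)]; congr 1; push_cast; ring
  have e2 : (R ^ (ε / 3)) ^ 3 = R ^ ε := by
    rw [← Real.rpow_natCast, ← Real.rpow_mul (by positivity)]; congr 1; push_cast; ring
  have hterm : ∀ q ∈ pdiv u ×ˢ I₁.powerset,
      ‖ω q.1 q.2 * Sr M L' (al (ν₀ * ν') (D / nr q.1) Λ (s₀ + s') (Zs Ps q.2)
        (cm fun p => (if p ∣ T' then 0 else c p * ev ν₁ p) * κ p * ev ν' p)) (a₀ * (S * u) ^ 6)‖ ^ 2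
        ≤ (2 ^ J * ρ) ^ 2 * (2 * (C₄ * R ^ (ε / 3) * (Y * Ψ) + C₁ ^ 2 * R ^ 2 * Λ ^ (-B))) := by
    intro q hq
    by_cases hω : ω q.1 q.2 = 0
    · rw [hω, zero_mul, norm_zero, zero_pow two_ne_zero]; positivity
    obtain ⟨q1, q2⟩ := Finset.mem_product.1 hq
    obtain ⟨q3, q4⟩ := (mem_pdiv hu0).1 q1
    rw [Finset.mem_powerset] at q2
    have hs' := hs.mono (q2.trans hI₁)
    have z1 := hs'.one_le_ZI
    have n0 := nr_pos q3.ne_zero
    have hD' : 0 < D / nr q.1 := by positivity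
    have hY' : D / nr q.1 * ZI P q.2 ≤ Y := by
      have a1 := ((hs.mono (Finset.sdiff_subset.trans hI₁)).marks _ (w2 _ _ hω)).2
      have a2 : nr u = nr q.1 * nr (u / q.1) := by
        rw [← nr_mul, EuclideanDomain.mul_div_cancel' q3.ne_zero q4]
      rw [hY, ← ZI_sdiff P q2, le_div_iff₀ (by positivity), a2]
      calc _ = D * (nr (u / q.1) * ZI P q.2) := by field_simp
        _ ≤ _ := by gcongr
    have t1 := h₁ (ν₀ * ν') (a₀ * (S * u) ^ 6) (D / nr q.1) Λ L' (ZI P q.2) (s₀ + s') (Zs Ps q.2)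
      (cm fun p => (if p ∣ T' then 0 else c p * ev ν₁ p) * κ p * ev ν' p) hs'.marks
      (norm_cm_le fun p => nn (nn (hc₀ p) (hκ p)) (norm_ev_le hM.1 ν' p)) hD' hΛ (by linarith)
      (by rw [Complex.add_re, abs_le]; constructor <;> linarith [abs_le.1 hs₀]) (by
        calc _ = D / nr q.1 * ZI P q.2 * Λ := by ring
          _ ≤ Y * Λ := by gcongr
          _ ≤ L' := by rw [hY, div_mul_eq_mul_div, div_le_iff₀ (by positivity)]; linarith)
    rw [T2DomA.MQ_congr _ _ _ _ hs'.marks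
      (c' := fun p => (if p ∣ T then 0 else c p * κ p) * ev (ν₁ * ν') p) fun p p1 p2 p3 => by
        have a1 : ¬ p ∣ a₀ := fun h => p3 (h.mul_right _)
        have a2 : ¬ p ∣ S * u := fun h => p3 ((dvd_pow h (by norm_num)).mul_left _)
        have a3 := hp p p1 p2
        rw [show u * T' * S * a₀ = T' * (S * u) * a₀ by ring] at a3
        simp only [p1.dvd_mul, a1, or_false] at a2 a3
        simp only [a2, or_false] at a3
        simp only [a3, ev_mul_chr]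
        split_ifs <;> ring] at t1
    have t2 := MQ_punct hM (ν₀ * ν') a₀ hSu (s₀ + s') (Dm := X / ZI P q.2) hs'.marks
      (c := cm fun p => (if p ∣ T then 0 else c p * κ p) * ev (ν₁ * ν') p)
      (norm_cm_le fun p => nn (hc' p) (norm_ev_le hM.1 _ p))
      (fun z hz hc p p1 p2 p3 => hc (by
        obtain ⟨a1, a2, a3⟩ := (mem_pf hT).1 (hsub p1)
        refine Finset.prod_eq_zero ((mem_pf (hs'.marks z hz).1.1.ne_zero).2 ⟨a1, a2, p3⟩) ?_
        rw [if_pos ((a1.dvd_mul.1 a3).resolve_right p2), zero_mul])) hD' (by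
        rw [le_div_iff₀ (by positivity)]
        exact hY'.trans ((div_le_iff₀ (by positivity)).2 d3))
    have t3 := msup_le_Psi hs (q2.trans hI₁) (ν₀ * ν') (ν₁ * ν')
      (fun p => if p ∣ T then 0 else c p * κ p) (s₀ + s') X a₀
    rw [← hΨ] at t3
    have t4 := t2.trans (show _ ≤ C₄ * R ^ (ε / 3) * (Y * Ψ) by
      calc _ ≤ C₄ * R ^ (ε / 3) * (ZI P q.2 * Ψ) * (D / nr q.1) :=
            mul_le_mul_of_nonneg_right (mul_le_mul k4 t3 (msup_nonneg _ _ _ _ _ _)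
              (by positivity)) hD'.le
        _ = C₄ * R ^ (ε / 3) * (D / nr q.1 * ZI P q.2 * Ψ) := by ring
        _ ≤ _ := by gcongr)
    have t5 := pow_le_pow_left₀ (norm_nonneg _) (t1.trans (show _ ≤ C₁ * R * Λ ^ (-(B / 2)) by
      have := hY'.trans hYR
      rw [mul_assoc C₁, mul_comm (ZI P q.2)]
      gcongr)) 2
    rw [mul_pow (C₁ * R), mul_pow C₁, e1] at t5
    rw [norm_mul, mul_pow]
    refine mul_le_mul (pow_le_pow_left₀ (norm_nonneg _) ((w1 _ _).trans ?_) 2) ?_ (by positivity)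
      (by positivity)
    · gcongr; norm_num
    · exact T2DomA.sq_le_two t4 t5
  have hN := T2DomA.sq_sum_le _ _ (by positivity) hterm
    (N := (pdiv u).card * 2 ^ J) (by
      rw [Finset.card_product, Finset.card_powerset]
      push_cast
      gcongr
      · norm_num
      · exact (Finset.card_le_card hI₁).trans hJ)
  have c2 : ((pdiv u).card : ℝ) ≤ C₂ * R ^ (ε / 3) := (h₂ u hu0).trans (by gcongr)
  have c3 : ((pdiv u).card : ℝ) ≤ C₃ * R := (h₃ u hu0).trans (by rw [Real.rpow_one]; gcongr)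
  rw [norm_mul, mul_pow, Complex.norm_conj]
  refine (mul_le_of_le_one_left (by positivity)
    (pow_le_one₀ (norm_nonneg _) (norm_sym_le u r))).trans (hN.trans ?_)
  calc _ = 2 * (2 ^ J) ^ 4 * (((pdiv u).card : ℝ) ^ 2 * C₄) * R ^ (ε / 3) * ρ ^ 2 * Y * Ψ +
        2 * (2 ^ J) ^ 4 * (((pdiv u).card : ℝ) ^ 2 * C₁ ^ 2) * ρ ^ 2 * R ^ 2 * Λ ^ (-B) := by ring
    _ ≤ 2 * (2 ^ J) ^ 4 * ((C₂ * R ^ (ε / 3)) ^ 2 * C₄) * R ^ (ε / 3) * ρ ^ 2 * Y * Ψ +
        2 * (2 ^ J) ^ 4 * ((C₃ * R) ^ 2 * C₁ ^ 2) * ρ ^ 2 * R ^ 2 * Λ ^ (-B) := by gcongr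
    _ = 2 * (2 ^ J) ^ 4 * (C₂ ^ 2 * C₄) * (R ^ (ε / 3)) ^ 3 * ρ ^ 2 * Y * Ψ +
        2 * (2 ^ J) ^ 4 * (C₃ ^ 2 * C₁ ^ 2) * ρ ^ 2 * R ^ 4 * Λ ^ (-B) := by ring
    _ ≤ _ := by
        rw [e2]
        gcongr
        · exact le_add_of_nonneg_right (by positivity)
        · exact le_add_of_nonneg_left (by positivity)

/-- The standing hypotheses of the induction step (`Λ = R ^ ε`, `L = D Λ Z`). -/
structure Ctx (M : O) [Fintype (Chr M)] (J J₀ : ℕ) (ε R A D Y Xm F : ℝ) (Ps : ℕ → Finset O)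
    (P : ℕ → ℝ) (I : Finset ℕ) : Prop where
  slots : Slots M Ps P I
  dy : Dy Ps P I
  card : I.card ≤ J
  hA : 1 ≤ A
  hAR : A ≤ R
  hD : 1 ≤ D
  hL : (D * R ^ ε * ZI P I) ^ 2 * R ^ ε ≤ R
  hY : 8 ≤ Y
  hYR : Y ≤ R
  h2 : D * ZI P I ^ 2 ≤ A
  h9 : D ^ 2 * ZI P I ^ 9 ≤ A ^ 3
  h6 : D * ZI P I ^ 6 ≤ A ^ 2
  hX : 8 * (D * ZI P I) ≤ Xm * Y
  hF : 1 ≤ F
  pb : PB M A Xm F J₀ Ps P I

namespace E2A

open Classical in
theorem coef_eq {M : O} {Ps : ℕ → Finset O} {P : ℕ → ℝ} {I : Finset ℕ} (h : Slots M Ps P I)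
    (ν : Chr M) (D Λ : ℝ) (s : ℂ) (c : O → ℂ) :
    (fun m => al ν D Λ s (Zs Ps I)
      (cm fun p => if p ∣ (1 : O) then 0 else c p * ev (1 : Chr M) p) m * conj (sym m 1)) =
      al ν D Λ s (Zs Ps I) (cm c) := by
  funext m
  rw [sym_one_right, map_one, mul_one]
  refine Finset.sum_congr rfl fun z hz => ?_
  have e : cm (fun p => if p ∣ (1 : O) then 0 else c p * ev (1 : Chr M) p) z = cm c z := by
    refine Finset.prod_congr rfl fun p hp => ?_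
    obtain ⟨j, hj, hpj⟩ := h.pf_sub hz hp
    obtain ⟨h1, -, h3, -⟩ := h.prime j hj p hpj
    have h4 : ev (1 : Chr M) p = 1 := MulChar.one_apply (isUnit_mk_iff.2 h3)
    show (if p ∣ (1 : O) then 0 else c p * ev (1 : Chr M) p) = c p
    rw [if_neg h1.not_dvd_one, h4, mul_one]
  rw [e]

theorem err_le {R ε x : ℝ} (hR : 1 ≤ R) (hε : 0 < ε) (hε1 : ε ≤ 1) (hx : x ≤ R) :
    x * ((R ^ ε) ^ 2 * (R ^ 2) ^ 4 * (R ^ ε) ^ (-(20 / ε))) ≤ (R ^ 3)⁻¹ := by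
  have hR0 : 0 < R := by linarith
  have h1 : (R ^ ε) ^ (-(20 / ε)) = (R ^ 20)⁻¹ := by
    rw [← Real.rpow_mul hR0.le, show ε * -(20 / ε) = -((20 : ℕ) : ℝ) by push_cast; field_simp,
      Real.rpow_neg hR0.le, Real.rpow_natCast]
  have h2 : R ^ ε ≤ R := by
    simpa using Real.rpow_le_rpow_of_exponent_le hR hε1
  have h3 : 0 ≤ R ^ ε := by positivity
  rw [h1]
  calc x * ((R ^ ε) ^ 2 * (R ^ 2) ^ 4 * (R ^ 20)⁻¹) ≤ R * (R ^ 2 * (R ^ 2) ^ 4 * (R ^ 20)⁻¹) := by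
        gcongr
    _ = (R ^ 9)⁻¹ := by field_simp
    _ ≤ (R ^ 3)⁻¹ := inv_anti₀ (by positivity) (pow_le_pow_right₀ hR (by norm_num))

theorem one_add_abs_le (a b : ℝ) : 1 + |a + b| ≤ (1 + |a|) * (1 + |b|) := by
  have := abs_add_le a b
  nlinarith [mul_nonneg (abs_nonneg a) (abs_nonneg b)]

end E2A

/-- **The children of `dp`.**  `dom` with `T = h`, `T' = r = S = 1`, `ν₁ = 1`, `a₀ = a`, `u = h e`,
`X = D Z / Y`, `ρ = R^ε` (apply it with `R²`); on the slots `cm c` is the coefficient of `dom`;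
`∑_{e ∣ a} 1 ≪ R^ε`, `PB`, `∑_h 1 / N h ≪ log`. -/
theorem E2_le {M : O} (hM : Adm M) [Fintype (Chr M)] (J J₀ : ℕ) {ε' : ℝ} (hε' : 0 < ε') :
    ∃ ε₀ : ℝ, 0 < ε₀ ∧ ∀ ε, 0 < ε → ε ≤ ε₀ → ∃ C : ℝ, 0 < C ∧
    ∀ (R A D Y Xm F τ : ℝ) (ν : Chr M) (Ps : ℕ → Finset O) (P : ℕ → ℝ) (I : Finset ℕ) (c : O → ℂ),
      Ctx M J J₀ ε R A D Y Xm F Ps P I → (∀ p, ‖c p‖ ≤ 1) →
      ∀ (L : ℝ), L = D * R ^ ε * ZI P I → ∀ (ν' : Chr M) (s : ℂ), -1 ≤ s.re → s.re ≤ 0 →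
        ∑ h ∈ sp M L, ∑ a ∈ rows (A / 1),
          ∑ e ∈ (sp (M * h) L).filter (fun e => e ∈ pdiv a ∧ Y < nr h * nr e), nr e *
            ‖Sr M (L / (nr h * nr e)) (ext (al ν D (R ^ ε) (τ * Complex.I) (Zs Ps I) (cm c)) (h * e) ν'
              (nr h * nr e) L s) a‖ ^ 2 ≤
          C * R ^ ε' * F * (1 + |τ|) ^ J₀ * (A * D * ZI P I) * (1 + |s.im|) ^ J₀ := by
  refine ⟨min 1 (ε' / 6), by positivity, fun ε hε hε0 => ?_⟩
  have hε1 : ε ≤ 1 := hε0.trans (min_le_left _ _)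
  have hε6 : 6 * ε ≤ ε' := by have := hε0.trans (min_le_right _ _); linarith
  obtain ⟨C₁, hC₁, h₁⟩ := dom hM J hε (20 / ε)
  obtain ⟨C₂, hC₂, h₂⟩ := card_pdiv_le hε
  obtain ⟨C₃, hC₃, h₃⟩ := En.sum_inv_le hε
  refine ⟨C₁ * C₂ * C₃ + 343 * C₁, by positivity,
    fun R A D Y Xm F τ ν Ps P I c hx hc L hL ν' s hs1 hs0 => ?_⟩
  rw [div_one]
  have hZ : 1 ≤ ZI P I := hx.slots.one_le_ZI
  have hA := hx.hA
  have hD := hx.hD
  have hY := hx.hY
  have hF := hx.hF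
  have hR : 1 ≤ R := hA.trans hx.hAR
  have hR0 : 0 < R := by linarith
  have hΛ : 1 ≤ R ^ ε := Real.one_le_rpow hR hε.le
  have hDZ : 1 ≤ D * ZI P I := one_le_mul_of_one_le_of_one_le hD hZ
  have hDZL : D * ZI P I ≤ L := by
    rw [hL, mul_right_comm]; exact le_mul_of_one_le_right (by positivity) hΛ
  have hL1 : 1 ≤ L := hDZ.trans hDZL
  have hLR : L ≤ R := by
    have := hx.hL
    rw [← hL] at this
    calc L ≤ L ^ 2 := by nlinarith
      _ ≤ L ^ 2 * R ^ ε := le_mul_of_one_le_right (by positivity) hΛ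
      _ ≤ R := this
  have hRR : R ≤ R ^ 2 := by nlinarith
  set X : ℝ := D * ZI P I / Y with hX
  have hX0 : 0 < X := by positivity
  have hX8 : 8 * X ≤ D * ZI P I := by
    rw [hX, ← mul_div_assoc, div_le_iff₀ (by linarith)]; nlinarith
  set G : ℝ := F * ((1 + |τ|) ^ J₀ * (1 + |s.im|) ^ J₀) * A with hG
  set K : ℝ := C₁ * (R ^ 2) ^ ε * (R ^ ε) ^ 2 * (D * ZI P I) with hK
  have hK0 : 0 ≤ K := by positivity
  have hPB : ∀ c' : O → ℂ, (∀ p, ‖c' p‖ ≤ 1) →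
      ∑ a ∈ rows A, Psi M Ps P I c' (τ * Complex.I + s) X a ≤ G := by
    intro c' hc'
    have hre : ((τ : ℂ) * Complex.I + s).re = s.re := by simp
    have him : ((τ : ℂ) * Complex.I + s).im = τ + s.im := by simp
    refine (hx.pb A X c' _ hc' hA le_rfl (by rw [hre]; linarith) (by rw [hre]; exact hs0) hX0
      ?_ ?_ ?_).trans ?_
    · rw [hX, ← mul_div_assoc, div_le_iff₀ (by linarith)]; exact hx.hX
    · refine le_trans ?_ hx.h2
      calc 8 * X * ZI P I ≤ D * ZI P I * ZI P I := by gcongr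
        _ = D * ZI P I ^ 2 := by ring
    · refine le_trans ?_ hx.h9
      calc (8 * X) ^ 2 * ZI P I ^ 7 ≤ (D * ZI P I) ^ 2 * ZI P I ^ 7 := by gcongr
        _ = D ^ 2 * ZI P I ^ 9 := by ring
    · rw [him, hG, ← mul_pow]
      gcongr
      exact E2A.one_add_abs_le _ _
  have hrow : ∀ a ∈ rows A, a ≠ 0 ∧ nr a ≤ A := fun a ha => (mem_rows (by linarith)).1 ha
  have key : ∀ h ∈ sp M L, ∑ a ∈ rows A,
      ∑ e ∈ (sp (M * h) L).filter (fun e => e ∈ pdiv a ∧ Y < nr h * nr e), nr e *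
        ‖Sr M (L / (nr h * nr e)) (ext (al ν D (R ^ ε) (τ * Complex.I) (Zs Ps I) (cm c)) (h * e) ν'
          (nr h * nr e) L s) a‖ ^ 2 ≤
      C₂ * R ^ ε * K * G * (nr h)⁻¹ + 49 * R ^ 2 * (C₁ * (R ^ 3)⁻¹) := by
    intro h hh
    obtain ⟨hh1, hh2⟩ := (LS2.mem_sp (by linarith)).1 hh
    have hh0 : h ≠ 0 := hh1.1.ne_zero
    have hhp := nr_pos hh0
    obtain ⟨c', hc', h₄⟩ := h₁ Ps P I c s h hx.slots hx.dy hx.card hc hs1 hs0
    have hrowle : ∀ a ∈ rows A,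
        ∑ e ∈ (sp (M * h) L).filter (fun e => e ∈ pdiv a ∧ Y < nr h * nr e), nr e *
          ‖Sr M (L / (nr h * nr e)) (ext (al ν D (R ^ ε) (τ * Complex.I) (Zs Ps I) (cm c)) (h * e)
            ν' (nr h * nr e) L s) a‖ ^ 2 ≤
        C₂ * R ^ ε * K * (nr h)⁻¹ * Psi M Ps P I c' (τ * Complex.I + s) X a +
          7 * R * (C₁ * (R ^ 3)⁻¹) := by
      intro a ha
      obtain ⟨ha0, haA⟩ := hrow a ha
      have hΨ := Psi_nonneg M hx.slots c' (τ * Complex.I + s) X a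
      set S := (sp (M * h) L).filter (fun e => e ∈ pdiv a ∧ Y < nr h * nr e) with hS
      have hterm : ∀ e ∈ S, nr e *
          ‖Sr M (L / (nr h * nr e)) (ext (al ν D (R ^ ε) (τ * Complex.I) (Zs Ps I) (cm c)) (h * e)
            ν' (nr h * nr e) L s) a‖ ^ 2 ≤
          K * (nr h)⁻¹ * Psi M Ps P I c' (τ * Complex.I + s) X a + C₁ * (R ^ 3)⁻¹ := by
        intro e he
        obtain ⟨he1, he2, he3⟩ := Finset.mem_filter.1 he
        obtain ⟨he4, he5⟩ := (LS2.mem_sp (by linarith)).1 he1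
        have he0 : e ≠ 0 := he4.1.ne_zero
        have hep := nr_pos he0
        have hea : e ∣ a := ((mem_pdiv ha0).1 he2).2
        have hcop : IsCoprime h e := he4.2.2.of_mul_right_right.symm
        have hu : SP M (h * e) := ⟨hh1.1.mul he4.1,
          squarefree_mul_iff.2 ⟨hcop.isRelPrime, hh1.2.1, he4.2.1⟩,
          hh1.2.2.mul_left he4.2.2.of_mul_right_left⟩
        have h5 := h₄ I (Finset.Subset.refl _) (R ^ 2) (R ^ ε) X D (L / (nr h * nr e)) L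
          (nr h * nr e) (R ^ ε) ν 1 ν' (τ * Complex.I) 1 (h * e) 1 a a 1 (hR.trans hRR) hΛ
          (by linarith) (by positivity) (by linarith) hΛ (by simp) hu primary_one
          (mul_ne_zero hh0 ha0)
          (by rw [nr_mul, sq]
              exact mul_le_mul (hh2.trans hLR) (haA.trans hx.hAR) (by positivity) hR0.le)
          (by rw [one_pow])
          (fun p hp _ => by
            rw [mul_one, mul_one]
            refine ⟨fun hd => ?_, fun hd => hd.trans (mul_dvd_mul_right (dvd_mul_right _ _) _)⟩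
            rcases hp.dvd_or_dvd hd with hd | hd
            · rcases hp.dvd_or_dvd hd with hd | hd
              · exact hd.mul_right _
              · exact (hd.trans hea).mul_left _
            · exact hd.mul_left _)
          (hDZL.trans (hLR.trans hRR))
          (by rw [nr_mul, div_mul_cancel₀ _ (by positivity), hL])
          (by rw [nr_mul, hX, div_mul_eq_mul_div, le_div_iff₀ (by linarith)]
              exact mul_le_mul_of_nonneg_left he3.le (by positivity))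
          (by rw [nr_mul, hL]; exact le_of_eq (by ring))
        rw [E2A.coef_eq hx.slots] at h5
        refine (mul_le_mul_of_nonneg_left h5 hep.le).trans ?_
        rw [mul_add]
        refine add_le_add (le_of_eq ?_) ?_
        · rw [hK, nr_mul]; field_simp
        · have := E2A.err_le hR hε hε1 (he5.trans hLR)
          calc nr e * (C₁ * (R ^ ε) ^ 2 * (R ^ 2) ^ 4 * (R ^ ε) ^ (-(20 / ε))) =
                C₁ * (nr e * ((R ^ ε) ^ 2 * (R ^ 2) ^ 4 * (R ^ ε) ^ (-(20 / ε)))) := by ring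
            _ ≤ C₁ * (R ^ 3)⁻¹ := by gcongr
      have hc1 : (S.card : ℝ) ≤ C₂ * R ^ ε := by
        have e1 : S ⊆ pdiv a := fun e he => (Finset.mem_filter.1 he).2.1
        calc (S.card : ℝ) ≤ (pdiv a).card := by exact_mod_cast Finset.card_le_card e1
          _ ≤ C₂ * nr a ^ ε := h₂ a ha0
          _ ≤ C₂ * R ^ ε := by gcongr; exact haA.trans hx.hAR
      have hc2 : (S.card : ℝ) ≤ 7 * R := by
        calc (S.card : ℝ) ≤ (sp (M * h) L).card := by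
              exact_mod_cast Finset.card_le_card (Finset.filter_subset _ _)
          _ ≤ 7 * L := En.card_sp _ (by linarith)
          _ ≤ 7 * R := by linarith
      refine (Finset.sum_le_card_nsmul _ _ _ hterm).trans ?_
      rw [nsmul_eq_mul, mul_add]
      refine add_le_add ?_ (by gcongr)
      calc (S.card : ℝ) * (K * (nr h)⁻¹ * Psi M Ps P I c' (τ * Complex.I + s) X a) ≤
            C₂ * R ^ ε * (K * (nr h)⁻¹ * Psi M Ps P I c' (τ * Complex.I + s) X a) := by gcongr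
        _ = _ := by ring
    refine (Finset.sum_le_sum hrowle).trans ?_
    rw [Finset.sum_add_distrib, ← Finset.mul_sum, Finset.sum_const, nsmul_eq_mul]
    have hc3 : ((rows A).card : ℝ) ≤ 7 * R :=
      (En.card_le (by linarith) hrow).trans (by linarith [hx.hAR])
    refine add_le_add ?_ ?_
    · calc C₂ * R ^ ε * K * (nr h)⁻¹ * ∑ a ∈ rows A, Psi M Ps P I c' (τ * Complex.I + s) X a ≤
            C₂ * R ^ ε * K * (nr h)⁻¹ * G := by gcongr; exact hPB c' hc'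
        _ = _ := by ring
    · calc ((rows A).card : ℝ) * (7 * R * (C₁ * (R ^ 3)⁻¹)) ≤
            7 * R * (7 * R * (C₁ * (R ^ 3)⁻¹)) := by gcongr
        _ = _ := by ring
  refine (Finset.sum_le_sum key).trans ?_
  rw [Finset.sum_add_distrib, ← Finset.mul_sum, Finset.sum_const, nsmul_eq_mul]
  have hinv : ∑ h ∈ sp M L, (nr h)⁻¹ ≤ C₃ * R ^ ε := h₃ R _ hR fun n hn =>
    ⟨((LS2.mem_sp (by linarith)).1 hn).1.1.ne_zero, ((LS2.mem_sp (by linarith)).1 hn).2.trans hLR⟩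
  have hc4 : ((sp M L).card : ℝ) ≤ 7 * R := (En.card_sp _ (by linarith)).trans (by linarith)
  have hpow : (R ^ ε) ^ 6 ≤ R ^ ε' := by
    rw [← Real.rpow_natCast, ← Real.rpow_mul hR0.le]
    exact Real.rpow_le_rpow_of_exponent_le hR (by push_cast; linarith)
  have hsq : (R ^ 2) ^ ε = (R ^ ε) ^ 2 := by
    rw [sq, sq, Real.mul_rpow hR0.le hR0.le]
  set W : ℝ := R ^ ε' * F * (1 + |τ|) ^ J₀ * (A * D * ZI P I) * (1 + |s.im|) ^ J₀ with hW
  have hW1 : 1 ≤ W := by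
    have a1 : 1 ≤ R ^ ε' := Real.one_le_rpow hR hε'.le
    have a2 : 1 ≤ (1 + |τ|) ^ J₀ := one_le_pow₀ (by linarith [abs_nonneg τ])
    have a3 : 1 ≤ (1 + |s.im|) ^ J₀ := one_le_pow₀ (by linarith [abs_nonneg s.im])
    have a4 : 1 ≤ A * D * ZI P I := by
      rw [mul_assoc]; exact one_le_mul_of_one_le_of_one_le hA hDZ
    exact one_le_mul_of_one_le_of_one_le (one_le_mul_of_one_le_of_one_le
      (one_le_mul_of_one_le_of_one_le (one_le_mul_of_one_le_of_one_le a1 hF) a2) a4) a3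
  have hG0 : 0 ≤ G := by positivity
  calc C₂ * R ^ ε * K * G * ∑ h ∈ sp M L, (nr h)⁻¹ +
        ((sp M L).card : ℝ) * (49 * R ^ 2 * (C₁ * (R ^ 3)⁻¹)) ≤
        C₂ * R ^ ε * K * G * (C₃ * R ^ ε) + 7 * R * (49 * R ^ 2 * (C₁ * (R ^ 3)⁻¹)) := by gcongr
    _ = C₁ * C₂ * C₃ * ((R ^ ε) ^ 6 * (F * (1 + |τ|) ^ J₀ * (A * D * ZI P I) * (1 + |s.im|) ^ J₀)) +
        343 * C₁ * 1 := by
      rw [hK, hG, hsq]; field_simp; ring
    _ ≤ C₁ * C₂ * C₃ * (R ^ ε' * (F * (1 + |τ|) ^ J₀ * (A * D * ZI P I) * (1 + |s.im|) ^ J₀)) +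
        343 * C₁ * W := by gcongr
    _ = _ := by rw [hW]; ring

end Crest.Agent.R17
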