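import Crest.Agent.R17.T2Sup

/-!
# Row 17, module T2: auxiliary lemmas for `dom`
-/

set_option autoImplicit false

noncomputable section

namespace Crest.Agent.R17.T2DomA

open scoped ComplexConjugate

open Classical in
theorem Sr_ext {M : O} (hM : Adm M) (L : ℝ) (α : O → ℂ) {u : O} (hu : u ≠ 0) (ν : Chr M) (f Ls : ℝ)
    (s : ℂ) (r a : O) {ι : Type} (S : Finset ι) (ω : ι → ℂ) (β : ι → O → ℂ)
    (h : ∀ n, SP M n → ext α u ν f Ls s n = ∑ i ∈ S, ω i * (if IsCoprime n u then β i n else 0)) :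
    Sr M L (ext (fun m => α m * conj (sym m r)) u ν f Ls s) a =
      conj (sym u r) * ∑ i ∈ S, ω i * Sr M L (β i) (a * r * u ^ 6) := by
  simp only [Sr, Finset.mul_sum]
  rw [Finset.sum_comm]
  refine Finset.sum_congr rfl fun n hn => ?_
  have hn' := (DP3_mem hn).1
  have hp := DP3_po hM hn'
  have e : ext (fun m => α m * conj (sym m r)) u ν f Ls s n =
      conj (sym u r) * conj (sym n r) * ext α u ν f Ls s n := by
    unfold ext
    split_ifs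
    · simp only [sym_mul_left hu hn'.1.ne_zero, map_mul]; ring
    · simp
  rw [e, h n hn', Finset.mul_sum, Finset.sum_mul]
  refine Finset.sum_congr rfl fun i _ => ?_
  rw [sym_mul_right hp, sym_mul_right hp, sym_pow_right hp]
  split_ifs with hc
  · rw [sym_pow_six hn'.1 hc, mul_one, map_mul]; ring
  · rw [(sym_eq_zero_iff hn'.1).2 hc]; simp

theorem MQ_congr {M : O} (ν : Chr M) (a : O) (D : ℝ) (s : ℂ) {Z : Finset O} {Zm : ℝ}
    (hZ : Marks M Z Zm) {c c' : O → ℂ}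
    (h : ∀ p, Prime p → Primary p → ¬ p ∣ a → c p = c' p) :
    MQ ν a D s Z (cm c) = MQ ν a D s Z (cm c') := by
  refine Finset.sum_congr rfl fun z hz => ?_
  have hz' := (hZ z hz).1.1
  by_cases hc : IsCoprime z a
  · rw [show cm c z = cm c' z from Finset.prod_congr rfl fun p hp => ?_]
    obtain ⟨h1, h2, h3⟩ := (mem_pf hz'.ne_zero).1 hp
    exact h p h1 h2 fun h4 => h1.not_isUnit (hc.isUnit_of_dvd' h3 h4)
  · rw [(sym_eq_zero_iff hz').2 hc]; simp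

theorem sq_sum_le {ι : Type} (S : Finset ι) (t : ι → ℂ) {b N : ℝ} (hb : 0 ≤ b)
    (h : ∀ i ∈ S, ‖t i‖ ^ 2 ≤ b) (hN : (S.card : ℝ) ≤ N) : ‖∑ i ∈ S, t i‖ ^ 2 ≤ N ^ 2 * b := by
  have h1 : ‖∑ i ∈ S, t i‖ ≤ N * Real.sqrt b := by
    calc _ ≤ ∑ i ∈ S, Real.sqrt b :=
          (norm_sum_le _ _).trans (Finset.sum_le_sum fun i hi => Real.le_sqrt_of_sq_le (h i hi))
      _ ≤ _ := by rw [Finset.sum_const, nsmul_eq_mul]; gcongr
  calc _ ≤ (N * Real.sqrt b) ^ 2 := by gcongr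
    _ = _ := by rw [mul_pow, Real.sq_sqrt hb]

theorem sq_le_two {x y : ℂ} {a b : ℝ} (h1 : ‖y‖ ^ 2 ≤ a) (h2 : ‖x - y‖ ^ 2 ≤ b) :
    ‖x‖ ^ 2 ≤ 2 * (a + b) := by
  have a1 : ‖x‖ ≤ ‖y‖ + ‖x - y‖ := by simpa using norm_add_le y (x - y)
  have a2 := pow_le_pow_left₀ (norm_nonneg _) a1 2
  nlinarith [sq_nonneg (‖y‖ - ‖x - y‖)]

end Crest.Agent.R17.T2DomA
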