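import Crest.Agent.R17.T2Defs

/-!
# Row 17, module T2: counting lemma for the diagonal of the large cubes
-/

set_option autoImplicit false

noncomputable section

namespace Crest.Agent.R17.T2GpA

open Finset

open Classical in
theorem sum_ite_mem (S T : Finset O) {x D : ℝ} (hx : 0 ≤ x) (hD : (T.card : ℝ) ≤ D) :
    ∑ e ∈ S, (if e ∈ T then x else 0) ≤ D * x := by
  rw [← sum_filter, sum_const, nsmul_eq_mul]
  refine mul_le_mul_of_nonneg_right (le_trans ?_ hD) hx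
  exact_mod_cast card_le_card fun e he => (mem_filter.1 he).2

open Classical in
theorem sum_fam {S T : Finset O} {W : Finset (Finset ℕ)} {H Dv : ℝ} (hDv : 0 ≤ Dv)
    (hS : ∑ n ∈ S, (nr n)⁻¹ ≤ H) (hT : ∑ n ∈ T, (nr n)⁻¹ ≤ H)
    (h1 : ∀ g ∈ S, ((pdiv g).card : ℝ) ≤ Dv)
    (h2 : ∀ g ∈ S, ∀ t ∈ S, ((pdiv (g * t)).card : ℝ) ≤ Dv) :
    ∑ i ∈ S ×ˢ S ×ˢ S ×ˢ S ×ˢ W ×ˢ T, (if i.2.1 ∈ pdiv i.1 then (nr i.1)⁻¹ else 0) *
      ((if i.2.2.2.1 ∈ pdiv (i.1 * i.2.2.1) then (nr i.2.2.1)⁻¹ else 0) * (nr i.2.2.2.2.2)⁻¹) ≤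
      Dv * H * (Dv * H * (W.card * H)) := by
  have hH : 0 ≤ H := le_trans (sum_nonneg fun _ _ => by positivity) hS
  have e : ∀ (a : O → O → ℝ) (b : O → O → O → ℝ) (c : O → ℝ),
      ∑ i ∈ S ×ˢ S ×ˢ S ×ˢ S ×ˢ W ×ˢ T, a i.1 i.2.1 * (b i.1 i.2.2.1 i.2.2.2.1 * c i.2.2.2.2.2) =
        ∑ g ∈ S, (∑ e ∈ S, a g e) * ((∑ t ∈ S, ∑ u ∈ S, b g t u) * (W.card * ∑ d ∈ T, c d)) := by
    intro a b c
    simp only [sum_product, ← mul_sum, sum_const, nsmul_eq_mul, ← sum_mul]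
  refine (e (fun g e => if e ∈ pdiv g then (nr g)⁻¹ else 0)
    (fun g t u => if u ∈ pdiv (g * t) then (nr t)⁻¹ else 0) fun d => (nr d)⁻¹).trans_le ?_
  have a1 : ∀ g ∈ S, ∑ t ∈ S, ∑ u ∈ S, (if u ∈ pdiv (g * t) then (nr t)⁻¹ else 0) ≤ Dv * H :=
    fun g hg => (sum_le_sum fun t ht => sum_ite_mem S _ (by positivity) (h2 g hg t ht)).trans (by
      rw [← mul_sum]; gcongr)
  have a2 : ∑ g ∈ S, ∑ e ∈ S, (if e ∈ pdiv g then (nr g)⁻¹ else 0) ≤ Dv * H :=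
    (sum_le_sum fun g hg => sum_ite_mem S _ (by positivity) (h1 g hg)).trans (by
      rw [← mul_sum]; gcongr)
  refine le_trans (sum_le_sum fun g hg => ?_) ((sum_mul _ _ _).symm.trans_le
    (mul_le_mul_of_nonneg_right a2 (by positivity)))
  refine mul_le_mul_of_nonneg_left ?_ (sum_nonneg fun _ _ => by positivity)
  exact mul_le_mul (a1 g hg) (by gcongr) (mul_nonneg (by positivity)
    (sum_nonneg fun _ _ => by positivity)) (by positivity)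

end Crest.Agent.R17.T2GpA
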