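import Crest.Agent.R17.T2Dom

/-!
# Row 17, module T2: bookkeeping for `large_off`
-/

set_option autoImplicit false

noncomputable section

namespace Crest.Agent.R17.GpC

open Finset

/-- index `(g, e, t, u₀, I', d₁)` -/
abbrev Ix : Type := O × O × O × O × Finset ℕ × O

/-- The properties of an index which are used. -/
def Good (L : ℝ) (I : Finset ℕ) (i : Ix) : Prop :=
  Primary i.1 ∧ nr i.1 ≤ L ∧ Primary i.2.1 ∧ i.2.1 ∣ i.1 ∧ Primary i.2.2.1 ∧ Primary i.2.2.2.1 ∧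
    i.2.2.2.1 ∣ i.1 * i.2.2.1 ∧ i.2.2.2.2.1 ⊆ I ∧ Primary i.2.2.2.2.2

theorem of_mem_rows {A : ℝ} {a : O} (h : a ∈ rows A) : a ≠ 0 ∧ nr a ≤ A := by
  rcases lt_or_ge A 1 with hA | hA
  · simp [rows_eq_empty hA] at h
  · exact (mem_rows (by linarith)).1 h

theorem prod_pow_dvd {s : Finset O} (hs : ∀ p ∈ s, Prime p ∧ Primary p) {a : O}
    (h : ∀ p ∈ s, p ^ 6 ∣ a) : (∏ p ∈ s, p) ^ 6 ∣ a := by
  rw [← Finset.prod_pow]
  refine Finset.prod_dvd_of_coprime (fun p hp q hq hne => ?_) h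
  refine IsCoprime.pow ?_
  refine ((hs p hp).1.irreducible.coprime_iff_not_dvd).2 fun hd => hne ?_
  exact BasicB.eq_of_dvd (hs p hp).1 (hs q hq).1 (hs p hp).2 (hs q hq).2 hd

theorem nr_prod (s : Finset O) : nr (∏ p ∈ s, p) = ∏ p ∈ s, nr p := by
  simp only [nr, nm_prod]; push_cast; rfl

/-- The multiplicity step. -/
theorem mult {M : O} {R A L Λ Dm err : ℝ} {I : Finset ℕ} (hA : 1 ≤ A) (hAR : A ≤ R) (hL : 1 ≤ L)
    (hLR : L ≤ R) (hΛ : 0 ≤ Λ) (herr : 0 ≤ err)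
    (hD : ∀ n : O, n ≠ 0 → nr n ≤ R ^ 2 → ((pdiv n).card : ℝ) ≤ Dm)
    (S : Finset Ix) (hS : ∀ i ∈ S, Good L I i)
    (cc : O → O → O) (hcc : ∀ d a, Primary (cc d a) ∧ cc d a ^ 6 ∣ a)
    (W Lf Af : Ix → ℝ)
    (hW : ∀ i ∈ S, W i = Λ * nr i.2.2.1 * nr i.2.2.2.2.2 ^ 9)
    (hLf : ∀ i ∈ S, Lf i = L / (nr i.1 * nr i.2.2.1) / nr i.2.2.2.2.2 ^ 6)
    (hAf : ∀ i ∈ S, Af i = A / (nr i.2.1 * nr i.2.2.1 ^ 2 * nr i.2.2.2.2.2 ^ 12))
    (f : Ix → O → O → O → O → ℝ) (G : O → O → O → O → O → ℝ)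
    (hG : ∀ g d t c a, 0 ≤ G g d t c a)
    (hf : ∀ i ∈ S, ∀ a ∈ rows A, ∀ d ∈ sp M (Lf i), d ∣ a → ∀ e ∈ sp M (Lf i), e ∣ a →
      ∀ t ∈ sp (M * d * e) (Lf i), nr (a * i.2.1 * i.2.2.1 ^ 2) ≤ A →
      f i a d e t ≤ Lf i / nr t *
        G i.1 i.2.2.2.2.2 t (cc d a) (a / cc d a ^ 6 * i.2.1 * i.2.2.1 ^ 2) + err) :
    ∑ i ∈ S, W i * ∑ a ∈ rows (Af i), ∑ d ∈ (sp M (Lf i)).filter (· ∈ pdiv a),
      ∑ e ∈ (sp M (Lf i)).filter (· ∈ pdiv a), ∑ t ∈ sp (M * d * e) (Lf i),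
        nr (cc d a) * f i a d e t ≤
      Dm ^ 5 * 2 ^ I.card * ∑ q ∈ rows R ×ˢ rows R ×ˢ rows R ×ˢ rows R,
        ∑ a₀ ∈ rows (A / (nr q.2.2.2 * nr q.2.1 ^ 2) ^ 6),
          (L * Λ * (nr q.2.2.2 * nr q.2.1 ^ 3 / (nr q.1 * nr q.2.2.1)) *
            G q.1 q.2.1 q.2.2.1 q.2.2.2 a₀ + Λ * A * err) := by
  classical
  have hR : 1 ≤ R := hA.trans hAR
  have hR2 : R ≤ R ^ 2 := by nlinarith
  have hDm : 0 ≤ Dm := le_trans (Nat.cast_nonneg _) (hD 1 one_ne_zero (by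
    rw [nr, nm_one, Nat.cast_one]; linarith))
  simp only [Finset.mul_sum, Finset.sum_sigma']
  rw [← Finset.mul_sum]
  refine DP3_mult _ _ _ _
    (fun x => ⟨(x.1.1, x.1.2.2.2.2.2, x.2.2.2.2, cc x.2.2.1 x.2.1),
      x.2.1 / cc x.2.2.1 x.2.1 ^ 6 * x.1.2.1 * x.1.2.2.1 ^ 2⟩)
    (fun x => (x.1.2.1, x.1.2.2.1, x.1.2.2.2.1, x.1.2.2.2.2.1, x.2.2.1, x.2.2.2.1))
    (fun j => pdiv j.1.1 ×ˢ pdiv j.2 ×ˢ pdiv (j.1.1 * j.2) ×ˢ I.powerset ×ˢ
      pdiv (j.1.2.2.2 ^ 6 * j.2) ×ˢ pdiv (j.1.2.2.2 ^ 6 * j.2)) (fun j _ => ?_) ?_ ?_ ?_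
  · have := hG j.1.1 j.1.2.1 j.1.2.2.1 j.1.2.2.2 j.2
    positivity
  · rintro ⟨⟨g, d₁, t', c⟩, a₀⟩ hj
    simp only [Finset.mem_sigma, Finset.mem_product] at hj
    obtain ⟨⟨hg, hd, -, hc⟩, ha⟩ := hj
    obtain ⟨hg0, hgR⟩ := of_mem_rows hg
    obtain ⟨hd0, -⟩ := of_mem_rows hd
    obtain ⟨hc0, -⟩ := of_mem_rows hc
    obtain ⟨ha0, haA⟩ := of_mem_rows ha
    have h1 := one_le_nr hd0
    have h2 := one_le_nr hc0
    have h3 := one_le_nr ha0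
    rw [le_div_iff₀ (by positivity)] at haA
    have h4 : nr (c ^ 6 * a₀) ≤ A := by
      refine le_trans ?_ haA
      rw [nr_mul, nr_pow, mul_comm, mul_pow]
      have : 1 ≤ (nr d₁ ^ 2) ^ 6 := one_le_pow₀ (one_le_pow₀ h1)
      gcongr
      exact le_mul_of_one_le_right (by positivity) this
    have h5 : nr a₀ ≤ A := by
      refine le_trans ?_ h4
      rw [nr_mul, nr_pow]
      exact le_mul_of_one_le_left (by positivity) (one_le_pow₀ h2)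
    have e1 := hD g hg0 (hgR.trans hR2)
    have e2 := hD a₀ ha0 (h5.trans (hAR.trans hR2))
    have e3 := hD (g * a₀) (mul_ne_zero hg0 ha0) (by
      rw [nr_mul, sq]; exact mul_le_mul hgR (h5.trans hAR) (by positivity) (by linarith))
    have e4 := hD (c ^ 6 * a₀) (mul_ne_zero (pow_ne_zero _ hc0) ha0) (h4.trans (hAR.trans hR2))
    simp only [Finset.card_product, Finset.card_powerset]
    push_cast
    calc _ ≤ Dm * (Dm * (Dm * (2 ^ I.card * (Dm * Dm)))) := by gcongr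
      _ = _ := by ring
  · rintro ⟨⟨g, e, t, u₀, I', d₁⟩, a, d, e', t'⟩ hx
    simp only [Finset.mem_sigma, Finset.mem_filter] at hx
    obtain ⟨hi, ha, ⟨hd, hda⟩, ⟨he', hea⟩, ht'⟩ := hx
    obtain ⟨hg, hgL, he, heg, ht, hu, hugt, hI, hd₁⟩ := hS _ hi
    have hW' := hW _ hi
    have hLf' := hLf _ hi
    have hAf' := hAf _ hi
    have hf' := hf _ hi
    dsimp only at hg hgL he heg ht hu hugt hI hd₁ hW' hLf' hAf' hf' ha hd hda he' hea ht' ⊢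
    obtain ⟨ha0, haA⟩ := of_mem_rows ha
    obtain ⟨hc, a', ha'⟩ := hcc d a
    set c := cc d a with hcdef
    have hc0 := hc.ne_zero
    have hq : a / c ^ 6 = a' := by
      rw [ha']; exact mul_div_cancel_left₀ _ (pow_ne_zero _ hc0)
    have ha'0 : a' ≠ 0 := by rintro rfl; simp at ha'; exact ha0 ha'
    have n1 := one_le_nr hg.ne_zero
    have n2 := one_le_nr he.ne_zero
    have n3 := one_le_nr ht.ne_zero
    have n4 := one_le_nr hd₁.ne_zero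
    have n5 := one_le_nr hc0
    have n6 := one_le_nr ha'0
    have n7 := one_le_nr (DP3_mem ht').1.1.ne_zero
    have hna : nr a = nr c ^ 6 * nr a' := by rw [ha', nr_mul, nr_pow]
    rw [hAf', le_div_iff₀ (by positivity), hna] at haA
    have k1 : 1 ≤ nr d₁ ^ 12 := one_le_pow₀ n4
    have k2 : 1 ≤ nr t ^ 2 := one_le_pow₀ n3
    have k3 : 1 ≤ nr c ^ 6 := one_le_pow₀ n5
    have hb : nr (a * e * t ^ 2) ≤ A := by
      refine le_trans ?_ haA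
      rw [nr_mul, nr_mul, nr_pow, hna, mul_assoc (nr c ^ 6 * nr a')]
      exact mul_le_mul_of_nonneg_left (le_mul_of_one_le_right (by positivity) k1) (by positivity)
    have hb' : nr a ≤ A := by
      refine le_trans ?_ hb
      rw [nr_mul, nr_mul, nr_pow, mul_assoc]
      exact le_mul_of_one_le_right (by positivity) (one_le_mul_of_one_le_of_one_le n2 k2)
    have hLfL : Lf (g, e, t, u₀, I', d₁) ≤ L := by
      rw [hLf']
      refine (div_le_self (by positivity) (one_le_pow₀ n4)).trans ?_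
      exact div_le_self (by linarith) (one_le_mul_of_one_le_of_one_le n1 n3)
    have hdd := (mem_pdiv ha0).1 hda
    have hee := (mem_pdiv ha0).1 hea
    have hkey := hf' a ((mem_rows (by linarith)).2 ⟨ha0, hb'⟩) d hd hdd.2 e' he' hee.2 t' ht' hb
    rw [← hcdef, hq] at hkey
    rw [hq]
    have ha₀ : a' * e * t ^ 2 ≠ 0 :=
      mul_ne_zero (mul_ne_zero ha'0 he.ne_zero) (pow_ne_zero _ ht.ne_zero)
    have hw : nr t * nr d₁ ^ 9 * nr c ≤ A := by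
      refine le_trans ?_ haA
      calc nr t * nr d₁ ^ 9 * nr c ≤ nr t ^ 2 * nr d₁ ^ 12 * nr c ^ 6 := by
            gcongr
            · exact le_self_pow₀ n3 two_ne_zero
            · norm_num
            · exact le_self_pow₀ n5 (by norm_num)
        _ = nr c ^ 6 * 1 * (1 * nr t ^ 2 * nr d₁ ^ 12) := by ring
        _ ≤ _ := by gcongr
    have hdR : nr d₁ ≤ R := by
      refine le_trans ?_ (hw.trans hAR)
      calc nr d₁ = 1 * nr d₁ ^ 1 * 1 := by ring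
        _ ≤ _ := by gcongr; norm_num
    have hcR : nr c ≤ R := by
      refine le_trans ?_ (hw.trans hAR)
      exact le_mul_of_one_le_left (by positivity) (one_le_mul_of_one_le_of_one_le n3 (one_le_pow₀ n4))
    refine Or.inr ⟨?_, ?_, ?_⟩
    · simp only [Finset.mem_sigma, Finset.mem_product]
      refine ⟨⟨(mem_rows (by linarith)).2 ⟨hg.ne_zero, hgL.trans hLR⟩,
        (mem_rows (by linarith)).2 ⟨hd₁.ne_zero, hdR⟩,
        (mem_rows (by linarith)).2 ⟨(DP3_mem ht').1.1.ne_zero, (DP3_mem ht').2.trans (hLfL.trans hLR)⟩,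
        (mem_rows (by linarith)).2 ⟨hc0, hcR⟩⟩, (mem_rows (by positivity)).2 ⟨ha₀, ?_⟩⟩
      rw [le_div_iff₀ (by positivity), nr_mul, nr_mul, nr_pow]
      refine le_trans (le_of_eq ?_) haA
      ring
    · have hca : c ^ 6 * (a' * e * t ^ 2) = a * (e * t ^ 2) := by rw [ha']; ring
      simp only [Finset.mem_product, Finset.mem_powerset, hca]
      have hae : a * (e * t ^ 2) ≠ 0 := hca ▸ mul_ne_zero (pow_ne_zero _ hc0) ha₀
      have htd : t ∣ a' * e * t ^ 2 := Dvd.intro_left (a' * e * t) (by ring)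
      exact ⟨(mem_pdiv hg.ne_zero).2 ⟨he, heg⟩, (mem_pdiv ha₀).2 ⟨ht, htd⟩,
        (mem_pdiv (mul_ne_zero hg.ne_zero ha₀)).2 ⟨hu, hugt.trans (mul_dvd_mul_left _ htd)⟩, hI,
        (mem_pdiv hae).2 ⟨hdd.1, hdd.2.mul_right _⟩, (mem_pdiv hae).2 ⟨hee.1, hee.2.mul_right _⟩⟩
    · rw [hW']
      have hG' := hG g d₁ t' c (a' * e * t ^ 2)
      set G' := G g d₁ t' c (a' * e * t ^ 2)
      calc _ ≤ Λ * nr t * nr d₁ ^ 9 * (nr c * (Lf (g, e, t, u₀, I', d₁) / nr t' * G' + err)) := by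
            gcongr
        _ = L * Λ * (nr c * nr d₁ ^ 3 / (nr g * nr t')) * G' + Λ * (nr t * nr d₁ ^ 9 * nr c) * err := by
            rw [hLf']; field_simp
        _ ≤ _ := by gcongr
  · rintro ⟨⟨g, e, t, u₀, I', d₁⟩, a, d, e', t'⟩ hx ⟨⟨g2, e2, t2, u2, I2, d2⟩, a2, d2', e2', t2'⟩ hx2
      h1 h2
    simp only [Finset.mem_sigma, Finset.mem_filter] at hx hx2
    obtain ⟨hg, hgL, he, heg, ht, -⟩ := hS _ hx.1
    simp only [Sigma.mk.injEq, Prod.mk.injEq, heq_eq_eq] at h1 h2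
    obtain ⟨⟨rfl, rfl, rfl, hc⟩, ha⟩ := h1
    obtain ⟨rfl, rfl, rfl, rfl, rfl, rfl⟩ := h2
    dsimp only at he ht
    have h3 : a / cc d a ^ 6 = a2 / cc d a2 ^ 6 :=
      mul_right_cancel₀ he.ne_zero (mul_right_cancel₀ (pow_ne_zero 2 ht.ne_zero) ha)
    have h4 : a = a2 := by
      rw [← EuclideanDomain.mul_div_cancel' (pow_ne_zero 6 (hcc d a).1.ne_zero) (hcc d a).2,
        ← EuclideanDomain.mul_div_cancel' (pow_ne_zero 6 (hcc d a2).1.ne_zero) (hcc d a2).2, h3, hc]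
    subst h4
    rfl

variable {M : O} [Fintype (Chr M)] {J J₀ : ℕ} {ε R A D Y Xm F : ℝ} {Ps : ℕ → Finset O} {P : ℕ → ℝ}
  {I : Finset ℕ}

/-- The rows of one group. -/
theorem row_sum (h : Ctx M J J₀ ε R A D Y Xm F Ps P I) {x : ℝ} (hx : 1 ≤ x) {c : O → ℂ}
    (hc : ∀ p, ‖c p‖ ≤ 1) {s : ℂ} (h1 : -2 ≤ s.re) (h0 : s.re ≤ 0) :
    ∑ a ∈ rows (A / x ^ 6), Psi M Ps P I c s (D * ZI P I / max Y x ^ 3) a ≤
      F * (1 + |s.im|) ^ J₀ * (4 * A / x ^ 2) := by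
  have hA := h.hA
  have hF := h.hF
  have hD := h.hD
  have hY := h.hY
  have hZ := h.slots.one_le_ZI
  have hx0 : 0 < x := by linarith
  rcases lt_or_ge (A / x ^ 6) 1 with hlt | hge
  · rw [rows_eq_empty hlt, Finset.sum_empty]; positivity
  rw [le_div_iff₀ (by positivity), one_mul] at hge
  set m := max Y x with hm
  have m8 : 8 ≤ m := hY.trans (le_max_left _ _)
  have mx : x ≤ m := le_max_right _ _
  have mY : Y ≤ m := le_max_left _ _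
  have m0 : 0 < m := by linarith
  have x2 : 1 ≤ x ^ 2 := one_le_pow₀ hx
  have x26 : x ^ 2 ≤ x ^ 6 := pow_le_pow_right₀ hx (by norm_num)
  have hm3 : 8 * x ^ 2 ≤ m ^ 3 := by
    calc 8 * x ^ 2 ≤ m * m ^ 2 := by gcongr
      _ = m ^ 3 := by ring
  have hXm : 0 ≤ Xm := by
    by_contra hneg
    have : Xm * Y < 0 := mul_neg_of_neg_of_pos (not_le.1 hneg) (by linarith)
    have h2 : 0 < 8 * (D * ZI P I) := by positivity
    linarith [h.hX]
  have e1 : A / x ^ 6 ≤ min A (4 * A / x ^ 2) := by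
    refine le_min (div_le_self (by linarith) (x2.trans x26)) ?_
    gcongr
    linarith
  have e2 : 8 * (D * ZI P I / m ^ 3) * ZI P I ≤ A / x ^ 2 := by
    calc _ = 8 * (D * ZI P I ^ 2) / m ^ 3 := by ring
      _ ≤ 8 * A / (8 * x ^ 2) := by gcongr; exact h.h2
      _ = _ := by field_simp
  have e3 : (8 * (D * ZI P I / m ^ 3)) ^ 2 * ZI P I ^ 7 ≤ 64 * A ^ 3 / m ^ 6 := by
    calc _ = 64 * (D ^ 2 * ZI P I ^ 9) / m ^ 6 := by ring
      _ ≤ _ := by gcongr; exact h.h9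
  have hp := h.pb (min A (4 * A / x ^ 2)) (D * ZI P I / m ^ 3) c s hc
    (le_min hA (by rw [le_div_iff₀ (by positivity)]; linarith)) (min_le_left _ _) h1 h0
    (by positivity)
    (by
      have : m ≤ m ^ 3 := le_self_pow₀ (by linarith) (by norm_num)
      calc 8 * (D * ZI P I / m ^ 3) = 8 * (D * ZI P I) / m ^ 3 := by ring
        _ ≤ Xm * m ^ 3 / m ^ 3 := div_le_div_of_nonneg_right
          (h.hX.trans (mul_le_mul_of_nonneg_left (mY.trans this) hXm)) (by positivity)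
        _ = Xm := by field_simp)
    (le_min (e2.trans (div_le_self (by linarith) x2)) (e2.trans (by gcongr; linarith)))
    (by
      rcases min_cases A (4 * A / x ^ 2) with ⟨e, -⟩ | ⟨e, -⟩ <;> rw [e] <;> refine e3.trans ?_
      · rw [div_le_iff₀ (by positivity), mul_comm]
        gcongr
        calc (64 : ℝ) ≤ 8 ^ 6 := by norm_num
          _ ≤ _ := by gcongr
      · calc _ ≤ 64 * A ^ 3 / x ^ 6 := by gcongr
          _ = _ := by field_simp; norm_num)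
  refine (Finset.sum_le_sum_of_subset_of_nonneg (rows_mono e1) fun a _ _ =>
    Psi_nonneg M h.slots _ _ _ _).trans (hp.trans ?_)
  gcongr
  exact min_le_right _ _

theorem sum_inv_rows {η : ℝ} (hη : 0 < η) : ∃ C : ℝ, 0 < C ∧ ∀ Q : ℝ, 1 ≤ Q →
    ∑ n ∈ rows Q, (nr n)⁻¹ ≤ C * Q ^ η := by
  obtain ⟨C, hC, h⟩ := En.sum_inv_le hη
  exact ⟨C, hC, fun Q hQ => h Q _ hQ fun n hn => of_mem_rows hn⟩

/-- The sum over the groups. -/
theorem total (h : Ctx M J J₀ ε R A D Y Xm F Ps P I) {L Λ C₁ err H : ℝ} (hL : 0 ≤ L) (hΛ : 0 ≤ Λ)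
    (hC₁ : 0 ≤ C₁) (herr : 0 ≤ err) (hH : ∑ n ∈ rows R, (nr n)⁻¹ ≤ H) (c' : O → O → O → O → O → ℂ)
    (hc' : ∀ g d t c p, ‖c' g d t c p‖ ≤ 1) {s : ℂ} (h1 : -2 ≤ s.re) (h0 : s.re ≤ 0) :
    ∑ q ∈ rows R ×ˢ rows R ×ˢ rows R ×ˢ rows R,
        ∑ a₀ ∈ rows (A / (nr q.2.2.2 * nr q.2.1 ^ 2) ^ 6),
          (L * Λ * (nr q.2.2.2 * nr q.2.1 ^ 3 / (nr q.1 * nr q.2.2.1)) *
            (C₁ * Psi M Ps P I (c' q.1 q.2.1 q.2.2.1 q.2.2.2) s
              (D * ZI P I / max Y (nr q.2.2.2 * nr q.2.1 ^ 2) ^ 3) a₀) + Λ * A * err) ≤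
      L * Λ * C₁ * (F * (1 + |s.im|) ^ J₀ * (4 * A)) * H ^ 4 + (7 * R) ^ 5 * (Λ * A * err) := by
  have hA := h.hA
  have hAR := h.hAR
  have hF := h.hF
  set K := L * Λ * C₁ * (F * (1 + |s.im|) ^ J₀ * (4 * A)) with hK
  have hK0 : 0 ≤ K := by positivity
  have hcard := card_rows_le (A := R) (by linarith)
  calc _ ≤ ∑ q ∈ rows R ×ˢ rows R ×ˢ rows R ×ˢ rows R,
        (K * ((nr q.1)⁻¹ * ((nr q.2.1)⁻¹ * ((nr q.2.2.1)⁻¹ * (nr q.2.2.2)⁻¹))) +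
          7 * R * (Λ * A * err)) := by
        refine Finset.sum_le_sum ?_
        rintro ⟨g, d, t, c⟩ hq
        simp only [Finset.mem_product] at hq
        have n1 := one_le_nr (of_mem_rows hq.1).1
        have n2 := one_le_nr (of_mem_rows hq.2.1).1
        have n3 := one_le_nr (of_mem_rows hq.2.2.1).1
        have n4 := one_le_nr (of_mem_rows hq.2.2.2).1
        dsimp only
        have hx : 1 ≤ nr c * nr d ^ 2 := one_le_mul_of_one_le_of_one_le n4 (one_le_pow₀ n2)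
        have hr := row_sum h hx (hc' g d t c) h1 h0
        rw [Finset.sum_add_distrib, ← Finset.mul_sum, ← Finset.mul_sum, Finset.sum_const, nsmul_eq_mul]
        refine add_le_add ?_ ?_
        · calc _ ≤ L * Λ * (nr c * nr d ^ 3 / (nr g * nr t)) *
                (C₁ * (F * (1 + |s.im|) ^ J₀ * (4 * A / (nr c * nr d ^ 2) ^ 2))) := by gcongr
            _ = _ := by rw [hK]; field_simp
        · gcongr
          refine (card_rows_le (by positivity)).trans ?_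
          gcongr
          exact (div_le_self (by linarith) (one_le_pow₀ hx)).trans hAR
    _ = K * (∑ n ∈ rows R, (nr n)⁻¹) ^ 4 + ((rows R).card : ℝ) ^ 4 * (7 * R * (Λ * A * err)) := by
        rw [Finset.sum_add_distrib, ← Finset.mul_sum, Finset.sum_const, nsmul_eq_mul]
        simp only [Finset.sum_product, ← Finset.mul_sum, ← Finset.sum_mul, Finset.card_product]
        push_cast
        ring
    _ ≤ K * H ^ 4 + (7 * R) ^ 4 * (7 * R * (Λ * A * err)) := by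
        have : 0 ≤ R := by linarith
        gcongr
    _ = _ := by ring

omit [Fintype (Chr M)] in
/-- The final arithmetic. -/
theorem arith {ε' L Z C₁ C₂ C₃ : ℝ} {s s' : ℂ} {k : ℕ} (hε' : 0 < ε') (_hε : 0 < ε) (hε₀ : ε ≤ ε' / 6)
    (hR : 1 ≤ R) (hA : 1 ≤ A) (hAR : A ≤ R) (hD : 1 ≤ D) (hZ : 1 ≤ Z) (hF : 1 ≤ F)
    (hL : L = D * R ^ ε * Z) (hΛR : R ^ ε ≤ R) (hC₁ : 0 < C₁) (hC₂ : 0 < C₂) (hC₃ : 0 < C₃)
    (hk : k ≤ J) :
    (C₂ * (R ^ 2) ^ (ε' / 42)) ^ 5 * 2 ^ k *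
      (L * R ^ ε * (C₁ * R ^ (ε' / 3)) * (F * (1 + |(s + s').im|) ^ J₀ * (4 * A)) *
        (C₃ * R ^ (ε' / 42)) ^ 4 + (7 * R) ^ 5 * (R ^ ε * A * (C₁ * R ^ (-30 : ℝ)))) ≤
    C₂ ^ 5 * 2 ^ J * (4 * C₁ * C₃ ^ 4 + 7 ^ 5 * C₁) * R ^ ε' * F * (1 + |s.im|) ^ J₀ * (A * D * Z) *
      (1 + |s'.im|) ^ J₀ := by
  have hR0 : 0 < R := by linarith
  set u := R ^ (ε' / 42) with hu
  have hu1 : 1 ≤ u := Real.one_le_rpow hR (by positivity)
  have pw : ∀ n : ℕ, R ^ (ε' / 42 * n) = u ^ n := fun n => Real.rpow_mul_natCast hR0.le _ _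
  have e1 : (R ^ 2) ^ (ε' / 42) = u ^ 2 := by
    rw [← pw, ← Real.rpow_natCast_mul hR0.le, mul_comm]
  have e2 : R ^ (ε' / 3) = u ^ 14 := by rw [← pw]; congr 1; push_cast; ring
  have e3 : R ^ ε' = u ^ 42 := by rw [← pw]; congr 1; push_cast; ring
  have e4 : R ^ ε ≤ u ^ 7 := by
    rw [← pw]; exact Real.rpow_le_rpow_of_exponent_le hR (by push_cast; linarith)
  have e5 : R ^ 7 * R ^ (-30 : ℝ) ≤ 1 := by
    rw [← Real.rpow_natCast, ← Real.rpow_add hR0]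
    exact Real.rpow_le_one_of_one_le_of_nonpos hR (by norm_num)
  have e6 : (1 + |(s + s').im|) ^ J₀ ≤ (1 + |s.im|) ^ J₀ * (1 + |s'.im|) ^ J₀ := by
    rw [← mul_pow]
    gcongr
    have := abs_add_le s.im s'.im
    have h2 := mul_nonneg (abs_nonneg s.im) (abs_nonneg s'.im)
    rw [Complex.add_im]
    linarith
  have e7 : (2 : ℝ) ^ k ≤ 2 ^ J := pow_le_pow_right₀ one_le_two hk
  set T := F * (1 + |s.im|) ^ J₀ * (A * D * Z) * (1 + |s'.im|) ^ J₀ with hT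
  have hT1 : 1 ≤ T := by
    have a1 : 1 ≤ (1 + |s.im|) ^ J₀ := one_le_pow₀ (by linarith [abs_nonneg s.im])
    have a2 : 1 ≤ (1 + |s'.im|) ^ J₀ := one_le_pow₀ (by linarith [abs_nonneg s'.im])
    calc (1 : ℝ) = 1 * 1 * (1 * 1 * 1) * 1 := by ring
      _ ≤ _ := by rw [hT]; gcongr
  have hΛ0 : 0 < R ^ ε := by positivity
  have b1 : L * R ^ ε * (C₁ * R ^ (ε' / 3)) * (F * (1 + |(s + s').im|) ^ J₀ * (4 * A)) *
      (C₃ * u) ^ 4 ≤ 4 * C₁ * C₃ ^ 4 * (u ^ 32 * T) := by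
    rw [hL, e2]
    calc _ ≤ D * u ^ 7 * Z * u ^ 7 * (C₁ * u ^ 14) *
          (F * ((1 + |s.im|) ^ J₀ * (1 + |s'.im|) ^ J₀) * (4 * A)) * (C₃ * u) ^ 4 := by gcongr
      _ = _ := by rw [hT]; ring
  have b2 : (7 * R) ^ 5 * (R ^ ε * A * (C₁ * R ^ (-30 : ℝ))) ≤ 7 ^ 5 * C₁ * (u ^ 32 * T) := by
    calc _ ≤ (7 * R) ^ 5 * (R * R * (C₁ * R ^ (-30 : ℝ))) := by gcongr
      _ = 7 ^ 5 * C₁ * (R ^ 7 * R ^ (-30 : ℝ)) := by ring
      _ ≤ _ := mul_le_mul_of_nonneg_left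
        (e5.trans (one_le_mul_of_one_le_of_one_le (one_le_pow₀ hu1) hT1)) (by positivity)
  rw [e1, e3]
  calc _ ≤ (C₂ * u ^ 2) ^ 5 * 2 ^ J *
        (4 * C₁ * C₃ ^ 4 * (u ^ 32 * T) + 7 ^ 5 * C₁ * (u ^ 32 * T)) := by
        have hL0 : 0 ≤ L := by rw [hL]; positivity
        exact mul_le_mul (by gcongr) (add_le_add b1 b2) (by positivity) (by positivity)
    _ = _ := by rw [hT]; ring

end Crest.Agent.R17.GpC
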