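import Crest.Agent.R17.T2Dom
import Crest.Agent.R17.T2Cube

/-!
# Row 17, module T2: auxiliary lemmas for `E1_le`
-/

set_option autoImplicit false

noncomputable section

namespace Crest.Agent.R17.E1

open scoped ComplexConjugate

theorem cs2 {α β : Type} (S : Finset α) (T : Finset β) (ω f : α → β → ℂ) {b : ℝ}
    (p : α → β → Prop) [∀ a c, Decidable (p a c)] (hω : ∀ a c, ‖ω a c‖ ≤ b)
    (hp : ∀ a c, ω a c ≠ 0 → p a c) :
    ‖∑ a ∈ S, ∑ c ∈ T, ω a c * f a c‖ ^ 2 ≤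
      S.card * T.card * b ^ 2 * ∑ a ∈ S, ∑ c ∈ T, if p a c then ‖f a c‖ ^ 2 else 0 := by
  rw [← Finset.sum_product', ← Finset.sum_product']
  calc ‖∑ x ∈ S ×ˢ T, ω x.1 x.2 * f x.1 x.2‖ ^ 2
      ≤ (∑ x ∈ S ×ˢ T, ‖ω x.1 x.2 * f x.1 x.2‖) ^ 2 :=
        pow_le_pow_left₀ (norm_nonneg _) (norm_sum_le _ _) 2
    _ ≤ (S ×ˢ T).card * ∑ x ∈ S ×ˢ T, ‖ω x.1 x.2 * f x.1 x.2‖ ^ 2 := sq_sum_le_card_mul_sum_sq
    _ ≤ (S ×ˢ T).card * ∑ x ∈ S ×ˢ T, b ^ 2 * (if p x.1 x.2 then ‖f x.1 x.2‖ ^ 2 else 0) := by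
        refine mul_le_mul_of_nonneg_left (Finset.sum_le_sum fun x _ => ?_) (Nat.cast_nonneg _)
        split_ifs with h
        · rw [norm_mul, mul_pow]
          exact mul_le_mul_of_nonneg_right (pow_le_pow_left₀ (norm_nonneg _) (hω _ _) 2)
            (by positivity)
        · have : ω x.1 x.2 = 0 := by_contra fun h0 => h (hp _ _ h0)
          simp [this]
    _ = _ := by rw [← Finset.mul_sum, Finset.card_product, Nat.cast_mul]; ring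

open Classical in
theorem Sd_ext {M : O} (hM : Adm M) {β : Type} (S : Finset O) (T : Finset β) {L' : ℝ}
    (hL : 0 ≤ L') {E : O → ℂ} {ω : O → β → ℂ} {a : O → β → O → ℂ} {u : O}
    (h : ∀ n, SP M n → E n =
      ∑ u₀ ∈ S, ∑ c ∈ T, ω u₀ c * (if IsCoprime n u then a u₀ c n else 0)) (x k : O) :
    Sd M L' (fun m => E m * conj (sym m x)) k = ∑ u₀ ∈ S, ∑ c ∈ T,
      ω u₀ c * Sd M L' (fun n => a u₀ c n * conj (sym n (x * u ^ 6))) k := by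
  simp only [Sd, Finset.mul_sum]
  rw [Finset.sum_congr rfl fun u₀ _ => Finset.sum_comm, Finset.sum_comm]
  refine Finset.sum_congr rfl fun n hn => ?_
  have hn' := ((mem_sp hL).1 hn).1
  have hpo : PO n := ⟨hn'.1, hn'.2.2.of_isCoprime_of_dvd_right
    ((Dvd.intro 36 (by norm_num) : (2 : O) ∣ 72).trans hM.2)⟩
  rw [h n hn']
  simp only [Finset.sum_mul]
  refine Finset.sum_congr rfl fun u₀ _ => Finset.sum_congr rfl fun c _ => ?_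
  rw [sym_mul_right hpo, sym_pow_right hpo]
  split_ifs with hc
  · rw [sym_pow_six hn'.1 hc, mul_one]; ring
  · rw [(sym_eq_zero_iff hn'.1).2 hc]; simp

open Classical in
theorem card_pdiv_le8 {g : O} (hg : g ≠ 0) : ((pdiv g).card : ℝ) ≤ 8 * nr g := by
  have h1 : (pdiv g).card ≤ 7 * nm g + 1 :=
    (Finset.card_filter_le _ _).trans (card_ball_le _)
  have h2 : ((pdiv g).card : ℝ) ≤ 7 * nr g + 1 := by exact_mod_cast h1
  have := one_le_nr hg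
  linarith

open Classical in
theorem one_term {M : O} (hM : Adm M) (J : ℕ) {η : ℝ} (hη : 0 < η) : ∃ C : ℝ, 0 < C ∧
    ∀ (R D Λ Y L : ℝ) (Ps : ℕ → Finset O) (P : ℕ → ℝ) (I : Finset ℕ) (s : ℂ) (c : O → ℂ)
      (ν' : Chr M), Slots M Ps P I → Dy Ps P I → I.card ≤ J → -1 ≤ s.re → s.re ≤ 0 → 1 ≤ Λ →
      0 < D → 1 ≤ Y → L = D * Λ * ZI P I → 1 ≤ R → L ≤ R → (∀ p, ‖c p‖ ≤ 1) →
      ∃ c' : O → ℂ, (∀ p, ‖c' p‖ ≤ 1) ∧ ∀ (ν : Chr M) (s₀ : ℂ) (u x : O) (f : ℝ), SP M u →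
        f = nr u → nr u ≤ R → ∀ k,
        ‖Sd M (L / f) (fun m => ext (al ν D Λ s₀ (Zs Ps I) (cm c)) u ν' f L s m *
            conj (sym m x)) k‖ ^ 2 ≤
          C * R ^ η * Λ ^ 2 * ∑ u₀ ∈ pdiv u, ∑ I' ∈ I.powerset,
            (‖Small (ν * ν') (D / nr u₀) Λ (s₀ + s) (Zs Ps I') (cm c') (x * u ^ 6) Y k‖ ^ 2 +
              ∑ d₁ ∈ pr M L, if u / u₀ ∈ Zs Ps (I \ I') then nr d₁ ^ 3 *
                ‖Sg M (L / f / nr d₁ ^ 6) (betaG (ν * ν') (D / nr u₀) Λ (s₀ + s) (Zs Ps I')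
                  (cm c') (x * u ^ 6) Y d₁) k‖ ^ 2 else 0) := by
  obtain ⟨C1, hC1, h1⟩ := En.card_pdiv_le' (half_pos hη)
  obtain ⟨C2, hC2, h2⟩ := cube_le hM (half_pos hη)
  refine ⟨C1 * 2 ^ J * (2 ^ J) ^ 2 * (2 + C2), by positivity, ?_⟩
  intro R D Λ Y L Ps P I s c ν' hS hD hJ hs1 hs0 hΛ hD0 hY hL hR hLR hc
  obtain ⟨κ, hκ, hx⟩ := ext_al hM hS hD hs1 hs0
  have hZ := hS.one_le_ZI
  have hL0 : 0 < L := by rw [hL]; positivity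
  refine ⟨fun p => c p * κ p * ev ν' p, fun p => ?_, ?_⟩
  · rw [norm_mul, norm_mul]
    exact mul_le_one₀ (mul_le_one₀ (hc p) (norm_nonneg _) (hκ p)) (norm_nonneg _)
      (norm_ev_le hM.1 ν' p)
  intro ν s₀ u x f hu hf huR k
  have hu0 := hu.1.ne_zero
  have hf1 : 1 ≤ f := hf ▸ one_le_nr hu0
  have hf0 : 0 < f := by linarith
  obtain ⟨ω, hω, hω', he⟩ := hx I le_rfl ν ν' D Λ f L Λ s₀ c u hD0 hf0 hL0 hΛ hu hc
    (by rw [hL, hf]; exact le_of_eq (by ring))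
  have hL' : 0 ≤ L / f := by positivity
  have hLf : L / f ≤ L := div_le_self hL0.le hf1
  rw [Sd_ext hM _ _ hL' he]
  refine (cs2 _ _ _ _ (fun u₀ I' => u / u₀ ∈ Zs Ps (I \ I')) hω hω').trans ?_
  have hQ : 1 ≤ R ^ (η / 2) := Real.one_le_rpow hR (half_pos hη).le
  have hQQ : R ^ η = R ^ (η / 2) * R ^ (η / 2) := by
    rw [← Real.rpow_add (by linarith), add_halves]
  have hI : (2 : ℝ) ^ I.card ≤ 2 ^ J := pow_le_pow_right₀ one_le_two hJ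
  have k1 : ((pdiv u).card : ℝ) * (I.powerset.card : ℝ) * (2 ^ I.card * Λ) ^ 2 ≤
      C1 * R ^ (η / 2) * 2 ^ J * (2 ^ J * Λ) ^ 2 := by
    rw [Finset.card_powerset]
    push_cast
    gcongr
    exact h1 R u hu0 huR
  rw [hQQ, show C1 * 2 ^ J * (2 ^ J) ^ 2 * (2 + C2) * (R ^ (η / 2) * R ^ (η / 2)) * Λ ^ 2 =
    C1 * R ^ (η / 2) * 2 ^ J * (2 ^ J * Λ) ^ 2 * ((2 + C2) * R ^ (η / 2)) by ring, mul_assoc _ (_ * _)]
  refine mul_le_mul k1 ?_ (Finset.sum_nonneg fun _ _ => Finset.sum_nonneg fun _ _ => by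
    split_ifs <;> positivity) (by positivity)
  rw [Finset.mul_sum]
  refine Finset.sum_le_sum fun u₀ hu₀ => ?_
  rw [Finset.mul_sum]
  refine Finset.sum_le_sum fun I' hI' => ?_
  have hI'' := Finset.mem_powerset.1 hI'
  by_cases hz : u / u₀ ∈ Zs Ps (I \ I')
  · simp only [if_pos hz]
    obtain ⟨hp0, hd0⟩ := (mem_pdiv hu0).1 hu₀
    have hn0 := nr_pos hp0.ne_zero
    have hm := ((hS.mono Finset.sdiff_subset).marks _ hz).2
    have hZ' := (hS.mono hI'').one_le_ZI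
    have e1 : nr u = nr u₀ * nr (u / u₀) := by
      rw [← nr_mul, EuclideanDomain.mul_div_cancel' hp0.ne_zero hd0]
    have e2 : D / nr u₀ * Λ * ZI P I' ≤ L / f := by
      rw [le_div_iff₀ hf0, hf, e1, hL, ← ZI_sdiff P hI'']
      calc D / nr u₀ * Λ * ZI P I' * (nr u₀ * nr (u / u₀))
          = D * Λ * (nr (u / u₀) * ZI P I') := by field_simp
        _ ≤ _ := by gcongr
    refine (h2 R (D / nr u₀) Λ (L / f) (ZI P I') Y _ _ _ _ _ k hR (hLf.trans hLR) hY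
      (by positivity) (by linarith) (hS.mono hI'').marks e2).trans ?_
    have e3 : ∑ d₁ ∈ pr M (L / f), nr d₁ ^ 3 *
        ‖Sg M (L / f / nr d₁ ^ 6) (betaG (ν * ν') (D / nr u₀) Λ (s₀ + s) (Zs Ps I')
          (cm fun p => c p * κ p * ev ν' p) (x * u ^ 6) Y d₁) k‖ ^ 2 ≤
        ∑ d₁ ∈ pr M L, nr d₁ ^ 3 *
        ‖Sg M (L / f / nr d₁ ^ 6) (betaG (ν * ν') (D / nr u₀) Λ (s₀ + s) (Zs Ps I')
          (cm fun p => c p * κ p * ev ν' p) (x * u ^ 6) Y d₁) k‖ ^ 2 := by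
      refine Finset.sum_le_sum_of_subset_of_nonneg (fun d hd => ?_) fun _ _ _ => by positivity
      obtain ⟨a1, a2, a3⟩ := (MBa_mem_pr hL').1 hd
      exact (MBa_mem_pr hL0.le).2 ⟨a1, a2, a3.trans hLf⟩
    rw [mul_add]
    refine add_le_add (mul_le_mul_of_nonneg_right (by nlinarith) (by positivity))
      (mul_le_mul (by nlinarith) e3 (Finset.sum_nonneg fun _ _ => by positivity) (by positivity))
  · simp only [if_neg hz, Finset.sum_const_zero]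
    positivity

theorem small_one {M : O} (hM : Adm M) {η ε : ℝ} (hη : 0 < η) (hε : 0 < ε) :
    ∃ (C : ℝ) (J' : ℕ), 0 < C ∧ ∀ (R A D Y Z Zm D' K w : ℝ) (ν : Chr M) (s : ℂ) (S : Finset O)
      (c : O → ℂ) (r : O), 1 ≤ A → A ≤ R → 1 ≤ D → 1 ≤ Zm → Zm ≤ Z →
      (D * R ^ ε * Z) ^ 2 * R ^ ε ≤ R → 1 ≤ Y → Y ≤ R → D * Z ^ 2 ≤ A → D * Z ^ 6 ≤ A ^ 2 →
      0 < D' → D' ≤ D → 1 ≤ Y * D' → r ≠ 0 → nr r ≤ Y ^ 8 → 0 ≤ K →
      K ≤ (D * R ^ ε * Z) ^ 2 * R ^ ε / A → 0 ≤ w → w ≤ A * Y / (D * Z) → Marks M S Zm →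
      (∀ z, ‖c z‖ ≤ 1) → |s.re| ≤ 3 →
      w * ∑ k ∈ rows K, ‖Small ν D' (R ^ ε) s S c r Y k‖ ^ 2 ≤
        C * R ^ η * (R ^ ε) ^ 6 * (1 + |s.im|) ^ J' * Y ^ 84 * (A * D * Z) := by
  obtain ⟨C, J', hC, h⟩ := small_le hM (show 0 < η / 41 by positivity) (492 / ε)
  refine ⟨5 * C, J', by positivity, ?_⟩
  intro R A D Y Z Zm D' K w ν s S c r hA hAR hD hZm hZ hL hY hYR h2 h6 hD' hDD hYD hr hrY hK hKL hw
    hw' hS hc hs
  have hR : 1 ≤ R := hA.trans hAR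
  have hR0 : 0 < R := by linarith
  have hA0 : 0 < A := by linarith
  have hZ1 : 1 ≤ Z := hZm.trans hZ
  set Λ := R ^ ε with hΛdef
  have hΛ : 1 ≤ Λ := Real.one_le_rpow hR hε.le
  have hR41 : R ≤ R ^ 41 := le_self_pow₀ hR (by norm_num)
  have hDZ2 : D * Z ^ 2 ≤ R := h2.trans hAR
  have hZR : Z ≤ R := by nlinarith
  have hDR : D ≤ R := (le_mul_of_one_le_right (by linarith) (one_le_pow₀ hZ1)).trans hDZ2
  set K' := (D * Λ * Z) ^ 2 * Λ / A * Y ^ 40 with hK'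
  have hK'0 : 0 ≤ K' := by positivity
  have e1 := h (R ^ 41) K K' D' Λ Zm Y ν s S c r hΛ hY (hYR.trans hR41) hZm
    ((hZ.trans hZR).trans hR41) hD' ((hDD.trans hDR).trans hR41)
    (by
      calc Y ^ 3 ≤ Y ^ 3 * (Y * D') := le_mul_of_one_le_right (by positivity) hYD
        _ = Y ^ 4 * D' := by ring
        _ ≤ R ^ 41 * D' := mul_le_mul_of_nonneg_right
            ((pow_le_pow_left₀ (by linarith) hYR 4).trans (pow_le_pow_right₀ hR (by norm_num))) hD'.le)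
    hr hK
    (by
      refine mul_le_mul hKL ?_ (by positivity) (by positivity)
      calc nr r ^ 5 ≤ (Y ^ 8) ^ 5 := pow_le_pow_left₀ (by positivity) hrY 5
        _ = Y ^ 40 := by ring)
    (by
      calc K' ≤ R * R ^ 40 := mul_le_mul ((div_le_self (by positivity) hA).trans hL)
            (pow_le_pow_left₀ (by linarith) hYR 40) (by positivity) hR0.le
        _ = R ^ 41 := by ring)
    hS hc hs
  have e2 : (R ^ 41) ^ (η / 41) = R ^ η := by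
    rw [← Real.rpow_natCast, ← Real.rpow_mul hR0.le]
    congr 1
    push_cast
    ring
  have e3 : (R ^ 41) ^ 12 * Λ ^ (-(492 / ε)) = 1 := by
    rw [hΛdef, ← Real.rpow_mul hR0.le, ← pow_mul, ← Real.rpow_natCast, ← Real.rpow_add hR0]
    rw [show ((41 * 12 : ℕ) : ℝ) + ε * -(492 / ε) = 0 by push_cast; field_simp; norm_num,
      Real.rpow_zero]
  rw [e2, mul_assoc C ((R ^ 41) ^ 12), e3, mul_one] at e1
  have hAK : A * K' = D ^ 2 * Z ^ 2 * (Λ ^ 3 * Y ^ 40) := by rw [hK']; field_simp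
  set V := Λ ^ 3 * Y ^ 40 with hV
  have hV1 : 1 ≤ V := one_le_mul_of_one_le_of_one_le (one_le_pow₀ hΛ) (one_le_pow₀ hY)
  have hK1 : K' ≤ D * V := by
    refine le_of_mul_le_mul_left ?_ hA0
    rw [hAK]
    calc D ^ 2 * Z ^ 2 * V = D * Z ^ 2 * (D * V) := by ring
      _ ≤ A * (D * V) := mul_le_mul_of_nonneg_right h2 (by positivity)
  have hVV : D ^ 2 * Z ^ 2 * V ≤ D ^ 2 * Z ^ 2 * V ^ 2 :=
    mul_le_mul_of_nonneg_left (le_self_pow₀ hV1 (by norm_num)) (by positivity)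
  have t4 : D' * Zm ^ 2 * K' ≤ D ^ 2 * Z ^ 2 * V ^ 2 := by
    calc D' * Zm ^ 2 * K' ≤ D * Z ^ 2 * (D * V) := by gcongr
      _ = D ^ 2 * Z ^ 2 * V := by ring
      _ ≤ _ := hVV
  have t1 : D' * Zm * K' ≤ D ^ 2 * Z ^ 2 * V ^ 2 := by
    refine le_trans ?_ t4
    gcongr
    exact le_self_pow₀ hZm (by norm_num)
  have t2 : Zm ^ 2 * K' ^ 2 ≤ D ^ 2 * Z ^ 2 * V ^ 2 := by
    calc Zm ^ 2 * K' ^ 2 ≤ Z ^ 2 * (D * V) ^ 2 := by gcongr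
      _ = _ := by ring
  have t3 : Real.sqrt D' * Zm ^ 3 * K' ≤ D ^ 2 * Z ^ 2 * V ^ 2 := by
    have : Real.sqrt D * Z ^ 3 ≤ A := by
      refine (pow_le_pow_iff_left₀ (by positivity) hA0.le two_ne_zero).1 ?_
      rw [mul_pow, Real.sq_sqrt (by linarith), ← pow_mul]
      exact h6
    calc Real.sqrt D' * Zm ^ 3 * K' ≤ Real.sqrt D * Z ^ 3 * K' := by gcongr
      _ ≤ A * K' := mul_le_mul_of_nonneg_right this hK'0
      _ ≤ _ := hAK ▸ hVV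
  set G := R ^ η * (1 + |s.im|) ^ J' with hG
  have hG1 : 1 ≤ G := one_le_mul_of_one_le_of_one_le (Real.one_le_rpow hR hη.le)
    (one_le_pow₀ (by linarith [abs_nonneg s.im]))
  have hW : 1 ≤ G * Y ^ 3 * (D ^ 2 * Z ^ 2 * V ^ 2) :=
    one_le_mul_of_one_le_of_one_le (one_le_mul_of_one_le_of_one_le hG1 (one_le_pow₀ hY))
      (one_le_mul_of_one_le_of_one_le (one_le_mul_of_one_le_of_one_le (one_le_pow₀ hD)
        (one_le_pow₀ hZ1)) (one_le_pow₀ hV1))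
  have e4 : ∑ k ∈ rows K, ‖Small ν D' Λ s S c r Y k‖ ^ 2 ≤
      5 * C * (G * Y ^ 3 * (D ^ 2 * Z ^ 2 * V ^ 2)) := by
    refine e1.trans ?_
    have a1 : C * R ^ η * (1 + |s.im|) ^ J' * Y ^ 3 *
        (D' * Zm * K' + Zm ^ 2 * K' ^ 2 + Real.sqrt D' * Zm ^ 3 * K' + D' * Zm ^ 2 * K') ≤
        C * R ^ η * (1 + |s.im|) ^ J' * Y ^ 3 * (4 * (D ^ 2 * Z ^ 2 * V ^ 2)) :=
      mul_le_mul_of_nonneg_left (by linarith) (by positivity)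
    have a2 : C ≤ C * (G * Y ^ 3 * (D ^ 2 * Z ^ 2 * V ^ 2)) := le_mul_of_one_le_right hC.le hW
    have a3 : C * R ^ η * (1 + |s.im|) ^ J' * Y ^ 3 * (4 * (D ^ 2 * Z ^ 2 * V ^ 2)) =
        4 * (C * (G * Y ^ 3 * (D ^ 2 * Z ^ 2 * V ^ 2))) := by rw [hG]; ring
    linarith
  refine (mul_le_mul hw' e4 (Finset.sum_nonneg fun _ _ => by positivity) (by positivity)).trans
    (le_of_eq ?_)
  rw [hG, hV]
  field_simp

theorem sum_le_card {α : Type} {S : Finset α} {f : α → ℝ} {b N : ℝ} (hb : 0 ≤ b)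
    (hf : ∀ x ∈ S, f x ≤ b) (hc : (S.card : ℝ) ≤ N) : ∑ x ∈ S, f x ≤ N * b := by
  refine (Finset.sum_le_card_nsmul S f b hf).trans ?_
  rw [nsmul_eq_mul]
  exact mul_le_mul_of_nonneg_right hc hb

theorem sum_le_sub {α : Type} {S T : Finset α} {f g : α → ℝ} (h : S ⊆ T)
    (hf : ∀ x ∈ S, f x ≤ g x) (hg : ∀ x ∈ T, 0 ≤ g x) : ∑ x ∈ S, f x ≤ ∑ x ∈ T, g x :=
  (Finset.sum_le_sum hf).trans (Finset.sum_le_sum_of_subset_of_nonneg h fun x hx _ => hg x hx)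

theorem final {C1 C2 C3 N Q Λ Y F T0 T1 Ta Tb W : ℝ} (h1 : 0 ≤ C1) (h2 : 0 ≤ C2) (h3 : 0 ≤ C3)
    (hN : 0 ≤ N) (hQ : 1 ≤ Q) (hΛ : 0 ≤ Λ) (hΛQ : Λ ≤ Q) (hY : 1 ≤ Y) (hF : 0 ≤ F) (hT0 : 0 ≤ T0)
    (hT1 : 0 ≤ T1) (t0 : T0 ≤ Ta * Tb) (t1 : T1 ≤ Ta * Tb) (hW : 0 ≤ W) :
    C1 * Q * Λ ^ 2 * (7 * Y * (8 * Y * (7 * Y * (8 * Y *
        (N * (C3 * Q * Λ ^ 6 * T1 * Y ^ 84 * W))))) + C2 * Q * F * T0 * W) ≤
      C1 * (3136 * N * C3 + C2) * Q ^ 10 * (Y ^ 100 + F) * Ta * W * Tb := by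
  have hT : 0 ≤ Ta * Tb := hT0.trans t0
  have hY0 : 0 ≤ Y := by linarith
  have a1 : Q ^ 2 * Λ ^ 8 * Y ^ 88 * T1 ≤ Q ^ 10 * (Y ^ 100 + F) * (Ta * Tb) := by
    calc Q ^ 2 * Λ ^ 8 * Y ^ 88 * T1 ≤ Q ^ 2 * Q ^ 8 * (Y ^ 100 + F) * (Ta * Tb) := by
          gcongr
          exact (pow_le_pow_right₀ hY (by norm_num)).trans (le_add_of_nonneg_right hF)
      _ = _ := by ring
  have a2 : Q ^ 2 * Λ ^ 2 * F * T0 ≤ Q ^ 10 * (Y ^ 100 + F) * (Ta * Tb) := by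
    calc Q ^ 2 * Λ ^ 2 * F * T0 ≤ Q ^ 2 * Q ^ 8 * (Y ^ 100 + F) * (Ta * Tb) := by
          gcongr
          · exact (pow_le_pow_left₀ hΛ hΛQ 2).trans (pow_le_pow_right₀ hQ (by norm_num))
          · exact le_add_of_nonneg_left (by positivity)
      _ = _ := by ring
  calc _ = C1 * W * (3136 * N * C3 * (Q ^ 2 * Λ ^ 8 * Y ^ 88 * T1) +
        C2 * (Q ^ 2 * Λ ^ 2 * F * T0)) := by ring
    _ ≤ C1 * W * (3136 * N * C3 * (Q ^ 10 * (Y ^ 100 + F) * (Ta * Tb)) +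
        C2 * (Q ^ 10 * (Y ^ 100 + F) * (Ta * Tb))) := by gcongr
    _ = _ := by ring

end Crest.Agent.R17.E1
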