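import Crest.Agent.R17.T2GpAuxB
import Crest.Agent.R17.T2Dom
import Crest.Agent.R17.T2Cube
import Crest.Agent.R17.T2GpAuxE1
import Crest.Agent.R17.T2GpAuxA
import Crest.Agent.R17.T2GpAuxC

/-!
# Row 17, module T2: the large cubes (`gp`) and the terms `N (g t) ≤ Y` of `dp`
-/

set_option autoImplicit false

noncomputable section

namespace Crest.Agent.R17

open scoped ComplexConjugate

open Classical in
/-- The family of the large cubes: index `(g, e, t, u₀, I', d₁)`. -/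
def Fam (M : O) (L Y : ℝ) (Ps : ℕ → Finset O) (I : Finset ℕ) :
    Finset (O × O × O × O × Finset ℕ × O) :=
  (sp M L ×ˢ sp M L ×ˢ sp M L ×ˢ sp M L ×ˢ I.powerset ×ˢ pr M L).filter fun i =>
    i.2.1 ∣ i.1 ∧ IsCoprime i.2.2.1 i.1 ∧ nr i.1 * nr i.2.2.1 ≤ Y ∧ nr i.1 * nr i.2.2.1 ≤ L ∧
      i.2.2.2.1 ∣ i.1 * i.2.2.1 ∧ i.1 * i.2.2.1 / i.2.2.2.1 ∈ Zs Ps (I \ i.2.2.2.2.1)

/-- weight, row length, column length and coefficient of a member of the family -/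
def famW (A L : ℝ) (i : O × O × O × O × Finset ℕ × O) : ℝ :=
  A * nr i.1 / (nr i.2.1 * L) * nr i.2.2.2.2.2 ^ 3
def famK (A L Λ : ℝ) (i : O × O × O × O × Finset ℕ × O) : ℝ :=
  nr i.2.1 * (L / nr i.1) ^ 2 * Λ / A
def famL (L : ℝ) (i : O × O × O × O × Finset ℕ × O) : ℝ :=
  L / (nr i.1 * nr i.2.2.1) / nr i.2.2.2.2.2 ^ 6
def famB {M : O} (ν : Chr M) (D Λ : ℝ) (s : ℂ) (Ps : ℕ → Finset O) (c : O → ℂ) (Y : ℝ)
    (i : O × O × O × O × Finset ℕ × O) : O → O → ℂ :=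
  betaG ν (D / nr i.2.2.2.1) Λ s (Zs Ps i.2.2.2.2.1) (cm c)
    (i.2.1 * i.2.2.1 ^ 2 * (i.1 * i.2.2.1) ^ 6) Y i.2.2.2.2.2

theorem T2GpA.ctx_L {M : O} [Fintype (Chr M)] {J J₀ : ℕ} {ε R A D Y Xm F : ℝ} {Ps : ℕ → Finset O}
    {P : ℕ → ℝ} {I : Finset ℕ} (h : Ctx M J J₀ ε R A D Y Xm F Ps P I) (hε : 0 < ε) {L : ℝ}
    (hL : L = D * R ^ ε * ZI P I) :
    1 ≤ R ∧ 1 ≤ R ^ ε ∧ 1 ≤ L ∧ L ^ 2 * R ^ ε ≤ R ∧ L ^ 2 ≤ R ∧ L ≤ R := by
  have hR : 1 ≤ R := h.hA.trans h.hAR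
  have hΛ : 1 ≤ R ^ ε := Real.one_le_rpow hR hε.le
  have h1 : 1 ≤ L := hL ▸ one_le_mul_of_one_le_of_one_le
    (one_le_mul_of_one_le_of_one_le h.hD hΛ) h.slots.one_le_ZI
  have h2 : L ^ 2 * R ^ ε ≤ R := hL ▸ h.hL
  have h3 : L ^ 2 ≤ R := le_trans (le_mul_of_one_le_right (by positivity) hΛ) h2
  exact ⟨hR, hΛ, h1, h2, h3, le_trans (by nlinarith) h3⟩

theorem T2GpA.mem_Fam {M : O} {L Y : ℝ} (hL : 0 ≤ L) {Ps : ℕ → Finset O} {I : Finset ℕ}
    {g e t u d₁ : O} {I' : Finset ℕ} (h : (g, e, t, u, I', d₁) ∈ Fam M L Y Ps I) :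
    (SP M g ∧ nr g ≤ L) ∧ (SP M e ∧ nr e ≤ L) ∧ (SP M t ∧ nr t ≤ L) ∧ (SP M u ∧ nr u ≤ L) ∧
      I' ⊆ I ∧ (Primary d₁ ∧ IsCoprime d₁ M ∧ nr d₁ ≤ L) ∧ e ∣ g ∧ IsCoprime t g ∧
      nr g * nr t ≤ Y ∧ nr g * nr t ≤ L ∧ u ∣ g * t ∧ g * t / u ∈ Zs Ps (I \ I') := by
  classical
  simp only [Fam, Finset.mem_filter, Finset.mem_product, mem_sp hL, MBa_mem_pr hL,
    Finset.mem_powerset] at h
  exact ⟨h.1.1, h.1.2.1, h.1.2.2.1, h.1.2.2.2.1, h.1.2.2.2.2.1, h.1.2.2.2.2.2, h.2⟩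

/-- The diagonal of `gp` (`norm_betaG_le`, `nsq_le`):
`w K L_i = L² Λ / (N g² N t N d₁³)`, `L² = D² Λ² Z² ≤ A D Z Λ²`. -/
theorem large_diag {M : O} (hM : Adm M) [Fintype (Chr M)] (J J₀ : ℕ) {ε' : ℝ} (hε' : 0 < ε') :
    ∃ ε₀ : ℝ, 0 < ε₀ ∧ ∀ ε, 0 < ε → ε ≤ ε₀ → ∃ C : ℝ, 0 < C ∧
    ∀ (R A D Y Xm F : ℝ) (Ps : ℕ → Finset O) (P : ℕ → ℝ) (I : Finset ℕ) (c : O → ℂ),
      Ctx M J J₀ ε R A D Y Xm F Ps P I → (∀ p, ‖c p‖ ≤ 1) →
      ∀ (L : ℝ), L = D * R ^ ε * ZI P I → ∀ (ν : Chr M) (s : ℂ), |s.re| ≤ 1 →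
        ∑ i ∈ Fam M L Y Ps I, famW A L i * famK A L (R ^ ε) i *
          ∑ d ∈ sp M (famL L i), nr d *
            nsq M (famL L i / nr d ^ 3) (famB ν D (R ^ ε) s Ps c Y i d) ≤
          C * R ^ ε' * (A * D * ZI P I) := by
  classical
  have hδ : 0 < ε' / 16 := by positivity
  obtain ⟨Cb, hCb, Hb⟩ := norm_betaG_le hM hδ
  obtain ⟨Cd, hCd, Hd⟩ := card_pdiv_le hδ
  obtain ⟨Ch, hCh, Hh⟩ := En.sum_inv_le hδ
  refine ⟨ε' / 6, by positivity, fun ε hε hε0 => ⟨7 * Cb ^ 2 * Cd ^ 2 * Ch ^ 4 * 2 ^ J,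
    by positivity, fun R A D Y Xm F Ps P I c h hc L hL ν s hs => ?_⟩⟩
  obtain ⟨hR, hΛ, hL1, -, hL2, hLR⟩ := T2GpA.ctx_L h hε hL
  have hL0 : 0 < L := by linarith
  have hA0 : 0 < A := by linarith [h.hA]
  have hD0 : 0 < D := by linarith [h.hD]
  have hZ := h.slots.one_le_ZI
  obtain ⟨x, hx⟩ : ∃ x, x = R ^ (ε' / 16) := ⟨_, rfl⟩
  have hx1 : 1 ≤ x := hx ▸ Real.one_le_rpow hR hδ.le
  obtain ⟨Λ, hΛe⟩ : ∃ Λ, Λ = R ^ ε := ⟨_, rfl⟩
  have hxΛ : x ^ 8 * Λ ^ 3 ≤ R ^ ε' := by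
    rw [hx, hΛe, ← Real.rpow_mul_natCast (by linarith), ← Real.rpow_mul_natCast (by linarith),
      ← Real.rpow_add (by linarith)]
    exact Real.rpow_le_rpow_of_exponent_le hR (by push_cast; linarith)
  rw [← hΛe] at hΛ hL ⊢
  have hH : ∀ S : Finset O, (∀ n ∈ S, n ≠ 0 ∧ nr n ≤ R) → ∑ n ∈ S, (nr n)⁻¹ ≤ Ch * x :=
    fun S hS => hx ▸ Hh R S hR hS
  have hDv : ∀ n : O, n ≠ 0 → nr n ≤ R → ((pdiv n).card : ℝ) ≤ Cd * x := fun n hn hnR =>
    (Hd n hn).trans (by rw [hx]; gcongr)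
  have hsp : ∀ {X : ℝ}, 0 ≤ X → X ≤ R → ∀ n ∈ sp M X, n ≠ 0 ∧ nr n ≤ R := fun hX hXR n hn =>
    ⟨((mem_sp hX).1 hn).1.1.ne_zero, ((mem_sp hX).1 hn).2.trans hXR⟩
  have key : ∀ i ∈ Fam M L Y Ps I, famW A L i * famK A L Λ i *
      ∑ d ∈ sp M (famL L i), nr d * nsq M (famL L i / nr d ^ 3) (famB ν D Λ s Ps c Y i d) ≤
      (7 * (Cb * x) ^ 2 * (Ch * x) * (L ^ 2 * Λ)) *
        ((if i.2.1 ∈ pdiv i.1 then (nr i.1)⁻¹ else 0) *
        ((if i.2.2.2.1 ∈ pdiv (i.1 * i.2.2.1) then (nr i.2.2.1)⁻¹ else 0) *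
          (nr i.2.2.2.2.2)⁻¹)) := by
    rintro ⟨g, e, t, u, I', d₁⟩ hi
    obtain ⟨hg, he, ht, hu, hI, hd₁, heg, -, -, -, hug, -⟩ := T2GpA.mem_Fam hL0.le hi
    have g1 := one_le_nr hg.1.1.ne_zero
    have e1 := one_le_nr he.1.1.ne_zero
    have t1 := one_le_nr ht.1.1.ne_zero
    have d1 := one_le_nr hd₁.1.ne_zero
    obtain ⟨l, hl⟩ : ∃ l, l = famL L (g, e, t, u, I', d₁) := ⟨_, rfl⟩
    have hl' : l = L / (nr g * nr t) / nr d₁ ^ 6 := hl
    have hl0 : 0 < l := by rw [hl']; positivity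
    have hl6 : l * nr d₁ ^ 6 ≤ R := by
      rw [hl', div_mul_cancel₀ _ (by positivity)]
      exact (div_le_self hL0.le (one_le_mul_of_one_le_of_one_le g1 t1)).trans hLR
    have hlR : l ≤ R := (le_mul_of_one_le_right hl0.le (one_le_pow₀ d1)).trans hl6
    have hin : ∑ d ∈ sp M l, nr d * nsq M (l / nr d ^ 3) (famB ν D Λ s Ps c Y (g, e, t, u, I', d₁) d)
        ≤ 7 * (Cb * x) ^ 2 * l * (Ch * x) := by
      refine le_trans (Finset.sum_le_sum fun d hd => ?_) ((Finset.mul_sum _ _ _).symm.trans_le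
        (mul_le_mul_of_nonneg_left (hH _ (hsp hl0.le hlR)) (by positivity)))
      have hd' := (mem_sp hl0.le).1 hd
      have d0 := one_le_nr hd'.1.1.ne_zero
      have hq : 0 ≤ l / nr d ^ 3 := by positivity
      have h1 : nsq M (l / nr d ^ 3) (famB ν D Λ s Ps c Y (g, e, t, u, I', d₁) d) ≤
          7 * (l / nr d ^ 3) * (Cb * x) ^ 2 := by
        refine nsq_le hq (fun m hm => ?_) fun m hm _ => ((mem_sp hq).1 hm).2
        have hm' := (mem_sp hq).1 hm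
        rw [hx]
        refine Hb R _ Λ _ Y ν s _ _ _ d₁ d m (h.slots.mono hI).marks (norm_cm_le hc)
          (by linarith) hd₁.1 hd'.1.1 hm'.1.1 (le_trans ?_ hl6)
        have h2 := (le_div_iff₀ (by positivity)).1 hm'.2
        rw [nr_mul, nr_pow, nr_mul, nr_pow]
        calc nr m * (nr d * nr d₁ ^ 2) ^ 3 = nr m * nr d ^ 3 * nr d₁ ^ 6 := by ring
          _ ≤ _ := by gcongr
      calc _ ≤ nr d * (7 * (l / nr d ^ 3) * (Cb * x) ^ 2) := by gcongr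
        _ = 7 * (Cb * x) ^ 2 * l * (nr d ^ 2)⁻¹ := by field_simp
        _ ≤ _ := by gcongr; nlinarith
    have hw : famW A L (g, e, t, u, I', d₁) * famK A L Λ (g, e, t, u, I', d₁) =
        L * Λ * nr d₁ ^ 3 / nr g := by
      simp only [famW, famK]
      field_simp
    rw [← hl, hw]
    dsimp only
    rw [if_pos ((mem_pdiv hg.1.1.ne_zero).2 ⟨he.1.1, heg⟩),
      if_pos ((mem_pdiv (mul_ne_zero hg.1.1.ne_zero ht.1.1.ne_zero)).2 ⟨hu.1.1, hug⟩)]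
    calc _ ≤ L * Λ * nr d₁ ^ 3 / nr g * (7 * (Cb * x) ^ 2 * l * (Ch * x)) := by gcongr
      _ = (7 * (Cb * x) ^ 2 * (Ch * x) * (L ^ 2 * Λ)) *
          ((nr g ^ 2)⁻¹ * ((nr t)⁻¹ * (nr d₁ ^ 3)⁻¹)) := by rw [hl']; field_simp
      _ ≤ _ := by
        gcongr
        · nlinarith
        · exact le_self_pow₀ d1 (by norm_num)
  have hfam := T2GpA.sum_fam (S := sp M L) (T := pr M L) (W := I.powerset) (H := Ch * x)
    (Dv := Cd * x) (by positivity) (hH _ (hsp hL0.le hLR))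
    (hH _ fun n hn => ⟨((MBa_mem_pr hL0.le).1 hn).1.ne_zero,
      ((MBa_mem_pr hL0.le).1 hn).2.2.trans hLR⟩)
    (fun g hg => hDv g (hsp hL0.le hLR g hg).1 (hsp hL0.le hLR g hg).2)
    (fun g hg t ht => hDv _ (mul_ne_zero (hsp hL0.le hLR g hg).1 (hsp hL0.le hLR t ht).1) (by
      rw [nr_mul]
      refine le_trans ?_ hL2
      rw [sq]
      exact mul_le_mul ((mem_sp hL0.le).1 hg).2 ((mem_sp hL0.le).1 ht).2 (by positivity) hL0.le))
  have hcard : ((I.powerset).card : ℝ) ≤ 2 ^ J := by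
    rw [Finset.card_powerset]
    exact_mod_cast Nat.pow_le_pow_right (by norm_num) h.card
  have hL3 : L ^ 2 * Λ ≤ Λ ^ 3 * (A * D * ZI P I) := by
    calc L ^ 2 * Λ = Λ ^ 3 * (D * ZI P I ^ 2 * D * 1) := by rw [hL]; ring
      _ ≤ _ := by gcongr; exact h.h2
  have hite : ∀ (p : Prop) [Decidable p] (z : O), 0 ≤ if p then (nr z)⁻¹ else 0 := fun p _ z =>
    ite_nonneg (inv_nonneg.2 (Nat.cast_nonneg _)) le_rfl
  refine (Finset.sum_le_sum key).trans ?_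
  rw [← Finset.mul_sum]
  calc _ ≤ (7 * (Cb * x) ^ 2 * (Ch * x) * (Λ ^ 3 * (A * D * ZI P I))) *
        (Cd * x * (Ch * x) * (Cd * x * (Ch * x) * (2 ^ J * (Ch * x)))) := by
        refine mul_le_mul (by gcongr) (le_trans (le_trans ?_ hfam) (by gcongr))
          (Finset.sum_nonneg fun _ _ => mul_nonneg (hite _ _) (mul_nonneg
            (hite _ _) (inv_nonneg.2 (Nat.cast_nonneg _)))) (by positivity)
        exact Finset.sum_le_sum_of_subset_of_nonneg (Finset.filter_subset _ _)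
          fun _ _ _ => mul_nonneg (hite _ _) (mul_nonneg
            (hite _ _) (inv_nonneg.2 (Nat.cast_nonneg _)))
    _ = 7 * Cb ^ 2 * Cd ^ 2 * Ch ^ 4 * 2 ^ J * (x ^ 8 * Λ ^ 3) * (A * D * ZI P I) := by ring
    _ ≤ _ := by gcongr

open Classical in
/-- The product of the primes `p ∣ d` with `p⁶ ∣ a`; its norm is `w6 d a`. -/
def c6 (d a : O) : O := ∏ p ∈ (pf d).filter (fun p => p ^ 6 ∣ a), p

theorem primary_c6 (d a : O) : Primary (c6 d a) := by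
  classical
  exact Primary.prod fun p hp => (BasicB.pf_sub (Finset.mem_filter.1 hp).1).2

theorem c6_dvd (d a : O) : c6 d a ∣ d := by
  classical
  exact (Finset.prod_dvd_prod_of_subset _ _ _ (Finset.filter_subset _ _)).trans (rad_dvd d)

theorem c6_pow_dvd (d a : O) : c6 d a ^ 6 ∣ a := by
  classical
  rw [c6, ← Finset.prod_pow]
  refine Finset.prod_dvd_of_coprime (fun p hp q hq hpq => ?_) fun p hp => (Finset.mem_filter.1 hp).2
  have h1 := BasicB.pf_sub (Finset.mem_filter.1 (Finset.mem_coe.1 hp)).1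
  have h2 := BasicB.pf_sub (Finset.mem_filter.1 (Finset.mem_coe.1 hq)).1
  exact (h1.1.coprime_iff_not_dvd.2 fun h =>
    hpq (BasicB.eq_of_dvd h1.1 h2.1 h1.2 h2.2 h)).pow

theorem nr_c6 (d a : O) : nr (c6 d a) = w6 d a := by
  rw [c6, w6, nr, nm_prod, Nat.cast_prod]

/-- One child of `gp`.  `betaG_eq` (`ext` and `Sr` are linear), `dom` with `I₁ = I''`,
`D''' = D / N u₀ · N t₁ / N d³` (`d = d₀ d₁²`), `T = g t' d₁ c`, `T' = d₀ d₁`, `u = e' t'`,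
`r = e t² (g t)⁶`, `c = c6 d₀ a`, `a₀ = a / c⁶ · e t²`, `S = c g t`, `ρ = 2^J R^ε`;
`D''' ZI I'' ≤ D Z / (N(g t) N d³)`.  The function `c'` depends only on `(g, t', d₁, c)`. -/
theorem child_le {M : O} (hM : Adm M) [Fintype (Chr M)] (J J₀ : ℕ) {ε' : ℝ} (hε' : 0 < ε') :
    ∃ ε₀ : ℝ, 0 < ε₀ ∧ ∀ ε, 0 < ε → ε ≤ ε₀ → ∃ C : ℝ, 0 < C ∧
    ∀ (R A D Y Xm F : ℝ) (Ps : ℕ → Finset O) (P : ℕ → ℝ) (I : Finset ℕ) (c : O → ℂ),
      Ctx M J J₀ ε R A D Y Xm F Ps P I → (∀ p, ‖c p‖ ≤ 1) →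
      ∀ (L : ℝ), L = D * R ^ ε * ZI P I → ∀ (s' : ℂ), -(1 / 2) ≤ s'.re → s'.re ≤ 0 →
      ∃ c' : O → O → ℂ, (∀ T p, ‖c' T p‖ ≤ 1) ∧ ∀ (ν ν' : Chr M) (s : ℂ), |s.re| ≤ 1 →
        ∀ i ∈ Fam M L Y Ps I, ∀ a ∈ rows A, ∀ d₀ ∈ sp M (famL L i), d₀ ∣ a →
        ∀ e' ∈ sp M (famL L i), e' ∣ a → ∀ t' ∈ sp (M * d₀ * e') (famL L i),
        nr (a * i.2.1 * i.2.2.1 ^ 2) ≤ A →
        nr e' * nr d₀ ^ 3 * ‖Sr M (famL L i / (nr e' * nr d₀ ^ 3 * nr t'))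
            (ext (famB ν D (R ^ ε) s Ps c Y i d₀) (e' * t') ν' (nr e' * nr d₀ ^ 3 * nr t')
              (famL L i) s') a‖ ^ 2 ≤
          C * R ^ ε' * (famL L i / nr t') *
            Psi M Ps P I (c' (i.1 * t' * i.2.2.2.2.2 * c6 d₀ a)) (s + s')
              (D * ZI P I / max Y (nr (c6 d₀ a) * nr i.2.2.2.2.2 ^ 2) ^ 3)
              (a / c6 d₀ a ^ 6 * i.2.1 * i.2.2.1 ^ 2) + C * R ^ (-30 : ℝ) := by
  classical
  refine ⟨ε' / 8, by positivity, fun ε hε hεε => ?_⟩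
  obtain ⟨C₁, hC₁, hdom⟩ := dom hM J (ε := ε' / 20) (by positivity) ((54 + ε') / ε)
  obtain ⟨C₂, hC₂, hcard⟩ := T2GB.card_le (ε := ε' / 2) (by positivity) J
  refine ⟨C₂ * C₁ * 16 ^ J, by positivity, fun R A D Y Xm F Ps P I c hx hc L hL s' hs1 hs0 => ?_⟩
  choose c' hc' hd using fun T => hdom Ps P I c s' T hx.slots hx.dy hx.card hc (by linarith) hs0
  refine ⟨c', hc', fun ν ν' s hs i hi a ha d₀ hd₀ hd₀a e' he' he'a t' ht' haA => ?_⟩
  clear hdom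
  obtain ⟨g, e, t, u₀, I', d₁⟩ := i
  have hR : 1 ≤ R := hx.hA.trans hx.hAR
  have hR0 : 0 < R := by linarith
  have hΛ : 1 ≤ R ^ ε := Real.one_le_rpow hR hε.le
  have hZ := hx.slots.one_le_ZI
  have hD := hx.hD
  have hY := hx.hY
  have hL1 : 1 ≤ L := by
    rw [hL]
    exact one_le_mul_of_one_le_of_one_le (one_le_mul_of_one_le_of_one_le hD hΛ) hZ
  have hLR : L ≤ R := by
    have h1 := hx.hL
    rw [← hL] at h1
    nlinarith
  simp only [Fam, Finset.mem_filter, Finset.mem_product, Finset.mem_powerset] at hi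
  obtain ⟨⟨hg, he, ht, hu₀, hI', hd₁⟩, -, -, -, -, hug, hz⟩ := hi
  obtain ⟨hg, hgL⟩ := DP3_mem hg
  obtain ⟨he, -⟩ := DP3_mem he
  obtain ⟨ht, -⟩ := DP3_mem ht
  obtain ⟨hu₀, -⟩ := DP3_mem hu₀
  obtain ⟨hd₁, hd₁M, hd₁L⟩ := T2GB.mem_pr (by linarith) hd₁
  obtain ⟨hd₀, hd₀L⟩ := DP3_mem hd₀
  obtain ⟨he', he'L⟩ := DP3_mem he'
  obtain ⟨ht', ht'L⟩ := DP3_mem ht'
  have ha0 : a ≠ 0 := ((mem_rows (by linarith [hx.hA])).1 ha).1
  dsimp only [famB] at haA hug hz ⊢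
  obtain ⟨b, hb⟩ := c6_pow_dvd d₀ a
  have hk := primary_c6 d₀ a
  have hkd : nr (c6 d₀ a) ≤ nr d₀ := Nat.cast_le.2 (nm_le_of_dvd (c6_dvd d₀ a) hd₀.1.ne_zero)
  generalize c6 d₀ a = k at hb hk hkd ⊢
  have hab : a / k ^ 6 = b := by rw [hb, mul_div_cancel_left₀ _ (pow_ne_zero 6 hk.ne_zero)]
  have hb0 : b ≠ 0 := right_ne_zero_of_mul (hb ▸ ha0)
  rw [hab]
  have n1 := one_le_nr hg.1.ne_zero
  have n2 := one_le_nr he.1.ne_zero
  have n3 := one_le_nr ht.1.ne_zero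
  have n4 := one_le_nr hu₀.1.ne_zero
  have n5 := one_le_nr hd₁.ne_zero
  have n6 := one_le_nr hd₀.1.ne_zero
  have n7 := one_le_nr he'.1.ne_zero
  have n8 := one_le_nr ht'.1.ne_zero
  have n9 := one_le_nr hk.ne_zero
  have hLi : famL L (g, e, t, u₀, I', d₁) = L / (nr g * nr t) / nr d₁ ^ 6 := rfl
  generalize famL L (g, e, t, u₀, I', d₁) = Li at hd₀L he'L ht'L hLi ⊢
  have hLi0 : 0 < Li := by linarith
  have hLiR : Li ≤ R := by
    rw [hLi]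
    exact ((div_le_self (by positivity) (one_le_pow₀ n5)).trans
      (div_le_self (by positivity) (one_le_mul_of_one_le_of_one_le n1 n3))).trans hLR
  have hu : SP M (e' * t') := DP3_sp he' ⟨ht'.1, ht'.2.1, ht'.2.2.of_mul_right_left.of_mul_right_left⟩
    ht'.2.2.of_mul_right_right.symm
  have hI'J : I'.card ≤ J := (Finset.card_le_card hI').trans hx.card
  obtain ⟨ν₁, ω, hω1, hω2, hβ⟩ := betaG_eq hM (hx.slots.mono hI') ν (D := D / nr u₀)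
    (by positivity) (R ^ ε) Y s hc (e * t ^ 2 * (g * t) ^ 6) hd₁ hd₁M hd₀
  have hdd : nr (d₀ * d₁ ^ 2) = nr d₀ * nr d₁ ^ 2 := by rw [nr_mul, nr_pow]
  -- the maximal length of the returning sums
  obtain ⟨W, hW⟩ : ∃ W, W = D * ZI P I / (nr g * nr t * (nr d₀ * nr d₁ ^ 2) ^ 3) := ⟨_, rfl⟩
  have hW0 : 0 < W := by rw [hW]; positivity
  have hLW : Li = R ^ ε * W * nr d₀ ^ 3 := by
    rw [hLi, hW, hL]
    field_simp
  have hq : nr g * nr t = nr u₀ * nr (g * t / u₀) := by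
    rw [← nr_mul, ← nr_mul, EuclideanDomain.mul_div_cancel' hu₀.1.ne_zero hug]
  have hsI := hx.slots.mono (Finset.sdiff_subset (s := I) (t := I'))
  have hq1 := (hsI.marks _ hz).2
  have hq2 := hsI.ZI_le (hx.dy.mono Finset.sdiff_subset) hz
  have hq0 := one_le_nr (hsI.marks _ hz).1.1.ne_zero
  obtain ⟨Ψ, hΨ⟩ : ∃ Ψ, Ψ = Psi M Ps P I (c' (g * t' * d₁ * k)) (s + s')
    (D * ZI P I / max Y (nr k * nr d₁ ^ 2) ^ 3) (b * e * t ^ 2) := ⟨_, rfl⟩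
  have hP0 : 0 ≤ Ψ := hΨ ▸ Psi_nonneg M hx.slots _ _ _ _
  have hue := one_le_nr hu.1.ne_zero
  obtain ⟨Bd, hBd⟩ : ∃ Bd, Bd = C₁ * (R ^ 5) ^ (ε' / 20) * (4 ^ J * R ^ ε) ^ 2 * (W / nr (e' * t')) *
    Ψ + C₁ * (4 ^ J * R ^ ε) ^ 2 * (R ^ 5) ^ 4 * (R ^ ε) ^ (-((54 + ε') / ε)) := ⟨_, rfl⟩
  have hBd0 : 0 ≤ Bd := by rw [hBd]; positivity
  have hed : 0 ≤ nr e' * nr d₀ ^ 3 := by positivity
  rw [← hΨ]
  obtain ⟨γ, hγ⟩ : ∃ γ : O × Finset ℕ → O → ℂ, γ = fun x m =>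
    al (ν * ν₁) (D / nr u₀ * nr x.1 / nr (d₀ * d₁ ^ 2) ^ 3) (R ^ ε) s (Zs Ps x.2)
      (cm fun p => if p ∣ d₀ * d₁ then 0 else c p * ev ν₁ p) m *
        conj (sym m (e * t ^ 2 * (g * t) ^ 6)) := ⟨_, rfl⟩
  rw [T2GB.Sr_ext_sum hu (pdiv (d₀ * d₁) ×ˢ I'.powerset) (fun x => ω x.1 x.2) _ γ
    fun m hm => by rw [hβ m hm, Finset.sum_product, hγ]]
  have hsum := mul_le_mul_of_nonneg_right
    (hcard R d₀ d₁ I' hd₀.1.ne_zero hd₁.ne_zero (hd₀L.trans hLiR) (hd₁L.trans hLR) hI'J) hBd0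
  refine le_trans (mul_le_mul_of_nonneg_left (le_trans (T2GB.sq_norm_sum_le
    (pdiv (d₀ * d₁) ×ˢ I'.powerset) (fun x => ω x.1 x.2)
    (fun x => Sr M (Li / (nr e' * nr d₀ ^ 3 * nr t'))
      (ext (γ x) (e' * t') ν' (nr e' * nr d₀ ^ 3 * nr t') Li s') a)
    (fun x => hω1 x.1 x.2) hBd0 fun x hx' hω => ?_) hsum) hed) ?_
  · obtain ⟨t₁, I''⟩ := x
    rw [hγ]
    have hI'' : I'' ⊆ I' := Finset.mem_powerset.1 (Finset.mem_product.1 hx').2
    obtain ⟨ht₁, hYd⟩ := hω2 t₁ I'' hω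
    have hsI' := hx.slots.mono ((Finset.sdiff_subset (s := I') (t := I'')).trans hI')
    have hr1 := (hsI'.marks _ ht₁).2
    have hr2 := hsI'.ZI_le (hx.dy.mono (Finset.sdiff_subset.trans hI')) ht₁
    have hr0 := one_le_nr (hsI'.marks _ ht₁).1.1.ne_zero
    have hz0 := (hx.slots.mono (hI''.trans hI')).one_le_ZI
    have hZZ : ZI P I = ZI P (I \ I') * ZI P (I' \ I'') * ZI P I'' := by
      rw [mul_assoc, ZI_sdiff P hI'', ZI_sdiff P hI']
    have hz1 := zero_le_one.trans hsI.one_le_ZI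
    have hz2 := zero_le_one.trans hsI'.one_le_ZI
    obtain ⟨V, hV⟩ : ∃ V, V = D / nr u₀ * nr t₁ / nr (d₀ * d₁ ^ 2) ^ 3 * ZI P I'' := ⟨_, rfl⟩
    have hV' : V = D * (nr (g * t / u₀) * nr t₁ * ZI P I'') /
        (nr g * nr t * (nr d₀ * nr d₁ ^ 2) ^ 3) := by
      rw [hV, hq, hdd]
      field_simp
    have hVW : V ≤ W := by
      rw [hV', hW, hZZ]
      gcongr
    have hWV : W ≤ 4 ^ J * V := by
      have h1 : (2 : ℝ) ^ (I \ I').card ≤ 2 ^ J := pow_le_pow_right₀ one_le_two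
        ((Finset.card_le_card Finset.sdiff_subset).trans hx.card)
      have h2 : (2 : ℝ) ^ (I' \ I'').card ≤ 2 ^ J := pow_le_pow_right₀ one_le_two
        ((Finset.card_le_card Finset.sdiff_subset).trans hI'J)
      have h3 : ZI P I ≤ 2 ^ J * nr (g * t / u₀) * (2 ^ J * nr t₁) * ZI P I'' := by
        rw [hZZ]
        gcongr
        · exact hq2.trans (mul_le_mul_of_nonneg_right h1 (by positivity))
        · exact hr2.trans (mul_le_mul_of_nonneg_right h2 (by positivity))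
      rw [hV', hW, ← mul_div_assoc]
      refine div_le_div_of_nonneg_right ((mul_le_mul_of_nonneg_left h3 (by positivity)).trans_eq ?_)
        (by positivity)
      rw [show (4 : ℝ) = 2 * 2 by norm_num, mul_pow]
      ring
    have hWX : W ≤ D * ZI P I / max Y (nr k * nr d₁ ^ 2) ^ 3 := by
      have h1 : max Y (nr k * nr d₁ ^ 2) ≤ nr d₀ * nr d₁ ^ 2 :=
        max_le (hdd ▸ hYd.le) (mul_le_mul_of_nonneg_right hkd (by positivity))
      have h2 : 0 < max Y (nr k * nr d₁ ^ 2) := lt_max_of_lt_left (by linarith)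
      rw [hW]
      refine div_le_div_of_nonneg_left (by positivity) (by positivity)
        ((pow_le_pow_left₀ h2.le h1 3).trans (le_mul_of_one_le_left (by positivity)
          (one_le_mul_of_one_le_of_one_le n1 n3)))
    have hWR : W ≤ R := by
      refine le_trans ?_ hLiR
      rw [hLW, mul_right_comm]
      exact le_mul_of_one_le_left hW0.le (one_le_mul_of_one_le_of_one_le hΛ (one_le_pow₀ n6))
    have hR5 : R ≤ R ^ 5 := le_self_pow₀ hR (by norm_num)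
    have ha₀ : nr (b * e * t ^ 2) ≤ R := by
      refine le_trans (Nat.cast_le.2 (nm_le_of_dvd ⟨k ^ 6, ?_⟩ (mul_ne_zero (mul_ne_zero ha0
        he.1.ne_zero) (pow_ne_zero 2 ht.1.ne_zero)))) (haA.trans hx.hAR)
      rw [hb]
      ring
    have key := hd (g * t' * d₁ * k) I'' (hI''.trans hI') (R ^ 5) (R ^ ε)
      (D * ZI P I / max Y (nr k * nr d₁ ^ 2) ^ 3) (D / nr u₀ * nr t₁ / nr (d₀ * d₁ ^ 2) ^ 3)
      (Li / (nr e' * nr d₀ ^ 3 * nr t')) Li (nr e' * nr d₀ ^ 3 * nr t') (4 ^ J * R ^ ε) (ν * ν₁) ν₁ ν'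
      s (d₀ * d₁) (e' * t') (e * t ^ 2 * (g * t) ^ 6) a (b * e * t ^ 2) (k * g * t)
      (hR.trans hR5) hΛ (by rw [hdd]; positivity) (by positivity) hLi0
      (one_le_mul_of_one_le_of_one_le (one_le_pow₀ (by norm_num)) hΛ) hs hu ((hk.mul hg.1).mul ht.1)
      (mul_ne_zero (((hg.1.mul ht'.1).mul hd₁).mul hk).ne_zero (mul_ne_zero (mul_ne_zero hb0
        he.1.ne_zero) (pow_ne_zero 2 ht.1.ne_zero)))
      (by
        rw [nr_mul, nr_mul, nr_mul, nr_mul, show R ^ 5 = R * R * R * R * R by ring]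
        gcongr
        · exact hgL.trans hLR
        · exact ht'L.trans hLiR
        · exact hd₁L.trans hLR
        · exact (hkd.trans hd₀L).trans hLiR)
      (by rw [hb]; ring)
      (fun p hp _ => T2GB.prime_iff hp hb he'a hd₀a)
      (hV ▸ (hVW.trans hWR).trans hR5)
      (by
        rw [mul_right_comm, ← hV, hLW, nr_mul]
        refine (mul_le_mul_of_nonneg_right hVW (by positivity)).trans_eq ?_
        field_simp)
      (hV ▸ (hVW.trans hWX).trans (le_mul_of_one_le_right (hW0.le.trans hWX) hue))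
      (by
        rw [← hV, hLW, nr_mul]
        calc _ = R ^ ε * (nr e' * nr d₀ ^ 3 * nr t') * W := by ring
          _ ≤ R ^ ε * (nr e' * nr d₀ ^ 3 * nr t') * (4 ^ J * V) := by gcongr
          _ = _ := by ring)
    rw [← hV, ← hΨ] at key
    refine key.trans ?_
    rw [hBd]
    gcongr
  · have e1 : (R ^ 5) ^ (ε' / 20) = R ^ (ε' / 4) := by
      rw [← Real.rpow_natCast, ← Real.rpow_mul hR0.le]
      congr 1
      push_cast
      ring
    have e2 : (R ^ ε) ^ (-((54 + ε') / ε)) = R ^ (-(54 + ε')) := by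
      rw [← Real.rpow_mul hR0.le]
      congr 1
      field_simp
    have e3 : (4 ^ J * R ^ ε) ^ 2 ≤ 16 ^ J * R ^ (ε' / 4) := by
      rw [mul_pow, ← pow_mul, mul_comm J 2, pow_mul, ← Real.rpow_natCast (R ^ ε),
        ← Real.rpow_mul hR0.le]
      refine mul_le_mul (by norm_num) (Real.rpow_le_rpow_of_exponent_le hR ?_) (by positivity)
        (by positivity)
      push_cast
      linarith
    have e4 : R ^ ε' = R ^ (ε' / 2) * R ^ (ε' / 4) * R ^ (ε' / 4) := by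
      rw [← Real.rpow_add hR0, ← Real.rpow_add hR0]
      congr 1
      ring
    have e5 : nr e' * nr d₀ ^ 3 * (W / nr (e' * t')) ≤ Li / nr t' := by
      rw [hLW, nr_mul]
      calc _ = 1 * W * nr d₀ ^ 3 / nr t' := by field_simp
        _ ≤ _ := by gcongr
    have e6 : nr e' * nr d₀ ^ 3 ≤ R ^ 4 := by
      rw [pow_succ' R 3]
      gcongr
      · exact he'L.trans hLiR
      · exact hd₀L.trans hLiR
    have e7 : R ^ 4 * R ^ (ε' / 2) * R ^ (ε' / 4) * (R ^ 5) ^ 4 * R ^ (-(54 + ε')) ≤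
        R ^ (-30 : ℝ) := by
      rw [← pow_mul, ← Real.rpow_natCast, ← Real.rpow_natCast, ← Real.rpow_add hR0,
        ← Real.rpow_add hR0, ← Real.rpow_add hR0, ← Real.rpow_add hR0]
      refine Real.rpow_le_rpow_of_exponent_le hR ?_
      push_cast
      linarith
    rw [hBd, e1, e2, mul_add, mul_add]
    refine add_le_add ?_ ?_
    · calc _ = C₂ * C₁ * (4 ^ J * R ^ ε) ^ 2 * (R ^ (ε' / 2) * R ^ (ε' / 4)) *
            (nr e' * nr d₀ ^ 3 * (W / nr (e' * t'))) * Ψ := by ring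
        _ ≤ C₂ * C₁ * (16 ^ J * R ^ (ε' / 4)) * (R ^ (ε' / 2) * R ^ (ε' / 4)) * (Li / nr t') * Ψ := by
          gcongr
        _ = _ := by rw [e4]; ring
    · calc _ = C₂ * C₁ * (nr e' * nr d₀ ^ 3) * R ^ (ε' / 2) * (4 ^ J * R ^ ε) ^ 2 * (R ^ 5) ^ 4 *
            R ^ (-(54 + ε')) := by ring
        _ ≤ C₂ * C₁ * R ^ 4 * R ^ (ε' / 2) * (16 ^ J * R ^ (ε' / 4)) * (R ^ 5) ^ 4 *
            R ^ (-(54 + ε')) := by gcongr
        _ = C₂ * C₁ * 16 ^ J * (R ^ 4 * R ^ (ε' / 2) * R ^ (ε' / 4) * (R ^ 5) ^ 4 *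
            R ^ (-(54 + ε'))) := by ring
        _ ≤ _ := by gcongr

/-- The off-diagonal terms of `gp`.  The rows are `N a ≤ A / (N e N t² N d₁¹²)`; `child_le`;
`w K / L_i · L_i / N t' = L Λ N d₁³ / (N g N t')`.  For fixed `(g, d₁, t', c)` the map
`(e, t, u₀, I', a, d₀, e') ↦ a₀ = a / c⁶ · e t²` has multiplicity `≪ R^ε` (all data are divisors of
`g c⁶ a₀`), and `N a₀ ≤ A / x⁶ ≤ A'' := min A (4 A / x²)`, `x = N c N d₁²` (no rows if `A < x⁶`);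
`PB` with `A''` and `X = D Z / (max Y x)³`; finally
`∑_{g, d₁, t', c} N d₁³ N c / (N g N t' x²) ≪ log⁴`. -/
theorem large_off {M : O} (hM : Adm M) [Fintype (Chr M)] (J J₀ : ℕ) {ε' : ℝ} (hε' : 0 < ε') :
    ∃ ε₀ : ℝ, 0 < ε₀ ∧ ∀ ε, 0 < ε → ε ≤ ε₀ → ∃ C : ℝ, 0 < C ∧
    ∀ (R A D Y Xm F : ℝ) (Ps : ℕ → Finset O) (P : ℕ → ℝ) (I : Finset ℕ) (c : O → ℂ),
      Ctx M J J₀ ε R A D Y Xm F Ps P I → (∀ p, ‖c p‖ ≤ 1) →
      ∀ (L : ℝ), L = D * R ^ ε * ZI P I → ∀ (ν : Chr M) (s : ℂ), -(1 / 2) ≤ s.re → s.re ≤ 0 →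
      ∀ (ν' : Chr M) (s' : ℂ), -(1 / 2) ≤ s'.re → s'.re ≤ 0 →
        ∑ i ∈ Fam M L Y Ps I, famW A L i * (famK A L (R ^ ε) i / famL L i) *
          ∑ a ∈ rows (famL L i ^ 2 * R ^ ε / famK A L (R ^ ε) i),
            ∑ d ∈ (sp M (famL L i)).filter (· ∈ pdiv a), ∑ e ∈ (sp M (famL L i)).filter (· ∈ pdiv a),
              ∑ t ∈ sp (M * d * e) (famL L i), w6 d a * (nr e * nr d ^ 3) *
                ‖Sr M (famL L i / (nr e * nr d ^ 3 * nr t))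
                  (ext (famB ν D (R ^ ε) s Ps c Y i d) (e * t) ν' (nr e * nr d ^ 3 * nr t)
                    (famL L i) s') a‖ ^ 2 ≤
          C * R ^ ε' * F * (1 + |s.im|) ^ J₀ * (A * D * ZI P I) * (1 + |s'.im|) ^ J₀ := by
  classical
  obtain ⟨ε₁, hε₁, H⟩ := child_le hM J J₀ (ε' := ε' / 3) (by positivity)
  obtain ⟨C₂, hC₂, hdiv⟩ := En.card_pdiv_le' (ε := ε' / 42) (by positivity)
  obtain ⟨C₃, hC₃, hinv⟩ := GpC.sum_inv_rows (η := ε' / 42) (by positivity)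
  refine ⟨min ε₁ (ε' / 6), by positivity, fun ε hε hε₀ => ?_⟩
  obtain ⟨C₁, hC₁, H⟩ := H ε hε (hε₀.trans (min_le_left _ _))
  refine ⟨C₂ ^ 5 * 2 ^ J * (4 * C₁ * C₃ ^ 4 + 7 ^ 5 * C₁), by positivity, ?_⟩
  intro R A D Y Xm F Ps P I c h hc L hL ν s hs1 hs0 ν' s' hs1' hs0'
  obtain ⟨c', hc', H⟩ := H R A D Y Xm F Ps P I c h hc L hL s' hs1' hs0'
  have hA := h.hA
  have hF := h.hF
  have hD := h.hD
  have hR : 1 ≤ R := hA.trans h.hAR
  have hR0 : 0 < R := by linarith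
  have hZ := h.slots.one_le_ZI
  have hΛ : 1 ≤ R ^ ε := Real.one_le_rpow hR hε.le
  have hL1 : 1 ≤ L := hL ▸ one_le_mul_of_one_le_of_one_le (one_le_mul_of_one_le_of_one_le hD hΛ) hZ
  have hLL := h.hL
  rw [← hL] at hLL
  have hL2 : 1 ≤ L ^ 2 := one_le_pow₀ hL1
  have hLR : L ≤ R := by nlinarith
  have hΛR : R ^ ε ≤ R := by nlinarith
  have hfam : ∀ i ∈ Fam M L Y Ps I, GpC.Good L I i := by
    rintro ⟨g, e, t, u₀, I', d₁⟩ hi
    simp only [Fam, Finset.mem_filter, Finset.mem_product, Finset.mem_powerset, pr] at hi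
    obtain ⟨⟨hg, he, ht, hu, hI, hd⟩, heg, -, -, -, hu', -⟩ := hi
    exact ⟨(DP3_mem hg).1.1, (DP3_mem hg).2, (DP3_mem he).1.1, heg, (DP3_mem ht).1.1,
      (DP3_mem hu).1.1, hu', hI, hd.2.1⟩
  have hpos : ∀ i ∈ Fam M L Y Ps I, 0 < nr i.1 ∧ 0 < nr i.2.1 ∧ 0 < nr i.2.2.1 ∧
      0 < nr i.2.2.2.2.2 := fun i hi =>
    ⟨nr_pos (hfam i hi).1.ne_zero, nr_pos (hfam i hi).2.2.1.ne_zero,
      nr_pos (hfam i hi).2.2.2.2.1.ne_zero, nr_pos (hfam i hi).2.2.2.2.2.2.2.2.ne_zero⟩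
  have hcc : ∀ d a : O, Primary (c6 d a) ∧ c6 d a ^ 6 ∣ a := fun d a =>
    ⟨Primary.prod fun p hp => (BasicB.pf_sub (Finset.mem_filter.1 hp).1).2,
      GpC.prod_pow_dvd (fun p hp => BasicB.pf_sub (Finset.mem_filter.1 hp).1)
        fun p hp => (Finset.mem_filter.1 hp).2⟩
  have hw6 : ∀ d a : O, w6 d a = nr (c6 d a) := fun d a => (GpC.nr_prod _).symm
  have key := GpC.mult (M := M) (Λ := R ^ ε) (Dm := C₂ * (R ^ 2) ^ (ε' / 42))
    (err := C₁ * R ^ (-30 : ℝ)) (I := I) hA h.hAR hL1 hLR (by positivity) (by positivity)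
    (fun n hn hn' => hdiv _ n hn hn') (Fam M L Y Ps I) hfam c6 hcc
    (fun i => famW A L i * (famK A L (R ^ ε) i / famL L i)) (famL L)
    (fun i => famL L i ^ 2 * R ^ ε / famK A L (R ^ ε) i)
    (fun i hi => by
      obtain ⟨h1, h2, h3, h4⟩ := hpos i hi
      simp only [famW, famK, famL]; field_simp)
    (fun i _ => rfl)
    (fun i hi => by
      obtain ⟨h1, h2, h3, h4⟩ := hpos i hi
      simp only [famK, famL]; field_simp)
    (fun i a d e t => nr e * nr d ^ 3 * ‖Sr M (famL L i / (nr e * nr d ^ 3 * nr t))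
      (ext (famB ν D (R ^ ε) s Ps c Y i d) (e * t) ν' (nr e * nr d ^ 3 * nr t) (famL L i) s') a‖ ^ 2)
    (fun g d t c₀ a => C₁ * R ^ (ε' / 3) * Psi M Ps P I (c' (g * t * d * c₀)) (s + s')
      (D * ZI P I / max Y (nr c₀ * nr d ^ 2) ^ 3) a)
    (fun g d t c₀ a => mul_nonneg (by positivity) (Psi_nonneg M h.slots _ _ _ _))
    (fun i hi a ha d hd hda e he hea t ht hb =>
      (H ν ν' s (abs_le.2 ⟨by linarith, by linarith⟩) i hi a ha d hd hda e he hea t ht hb).trans_eq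
        (by ring))
  have tot := GpC.total h (L := L) (Λ := R ^ ε) (C₁ := C₁ * R ^ (ε' / 3))
    (err := C₁ * R ^ (-30 : ℝ)) (by linarith) (by positivity) (by positivity) (by positivity)
    (hinv R hR) (fun g d t c₀ => c' (g * t * d * c₀)) (fun _ _ _ _ p => hc' _ p) (s := s + s')
    (by rw [Complex.add_re]; linarith) (by rw [Complex.add_re]; linarith)
  simp only [hw6, mul_assoc (nr (c6 _ _))]
  refine key.trans ((mul_le_mul_of_nonneg_left tot (by positivity)).trans ?_)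
  exact GpC.arith hε' hε (hε₀.trans (min_le_right _ _)) hR hA h.hAR hD hZ hF hL hΛR hC₁ hC₂ hC₃ h.card

/-- **Large cubes** (`gp`, `large_diag`, `large_off`). -/
theorem large_le {M : O} (hM : Adm M) [Fintype (Chr M)] (J J₀ : ℕ) {ε' : ℝ} (hε' : 0 < ε') :
    ∃ ε₀ : ℝ, 0 < ε₀ ∧ ∀ ε, 0 < ε → ε ≤ ε₀ → ∃ C : ℝ, 0 < C ∧
    ∀ (R A D Y Xm F : ℝ) (Ps : ℕ → Finset O) (P : ℕ → ℝ) (I : Finset ℕ) (c : O → ℂ),
      Ctx M J J₀ ε R A D Y Xm F Ps P I → (∀ p, ‖c p‖ ≤ 1) →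
      ∀ (L : ℝ), L = D * R ^ ε * ZI P I → ∀ (ν : Chr M) (s : ℂ), -(1 / 2) ≤ s.re → s.re ≤ 0 →
        ∑ i ∈ Fam M L Y Ps I, famW A L i * ∑ k ∈ rows (famK A L (R ^ ε) i),
          ‖Sg M (famL L i) (famB ν D (R ^ ε) s Ps c Y i) k‖ ^ 2 ≤
          C * R ^ ε' * F * (1 + |s.im|) ^ J₀ * (A * D * ZI P I) := by
  have hδ : 0 < ε' / 2 := by positivity
  obtain ⟨ε₁, hε₁, H1⟩ := large_diag hM J J₀ hε'
  obtain ⟨ε₂, hε₂, H2⟩ := large_off hM J J₀ hδ
  refine ⟨min (min ε₁ ε₂) (ε' / 2), by positivity, fun ε hε hε0 => ?_⟩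
  obtain ⟨C₁, hC₁, H1⟩ := H1 ε hε (hε0.trans ((min_le_left _ _).trans (min_le_left _ _)))
  obtain ⟨C₂, hC₂, H2⟩ := H2 ε hε (hε0.trans ((min_le_left _ _).trans (min_le_right _ _)))
  obtain ⟨C, hC, H⟩ := gp hM hε J₀
  refine ⟨C * (C₁ + C₂), by positivity, fun R A D Y Xm F Ps P I c h hc L hL ν s hs hs0 => ?_⟩
  obtain ⟨hR, hΛ, hL1, hL3, -, hLR⟩ := T2GpA.ctx_L h hε hL
  have hL0 : 0 < L := by linarith
  have hA := h.hA
  have hA0 : 0 < A := by linarith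
  have hD0 : 0 < D := by linarith [h.hD]
  have hZ := h.slots.one_le_ZI
  have hF := h.hF
  have h1 := H1 R A D Y Xm F Ps P I c h hc L hL ν s (abs_le.2 ⟨by linarith, by linarith⟩)
  refine (H (Fam M L Y Ps I) (famW A L) (famK A L (R ^ ε)) (famL L) (famB ν D (R ^ ε) s Ps c Y) R
    (C₂ * R ^ (ε' / 2) * F * (1 + |s.im|) ^ J₀ * (A * D * ZI P I)) hR ?_
    (H2 R A D Y Xm F Ps P I c h hc L hL ν s hs hs0)).trans ?_
  · rintro ⟨g, e, t, u, I', d₁⟩ hi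
    obtain ⟨hg, he, ht, -, -, hd₁, heg, -⟩ := T2GpA.mem_Fam hL0.le hi
    have g1 := one_le_nr hg.1.1.ne_zero
    have e1 := one_le_nr he.1.1.ne_zero
    have t1 := one_le_nr ht.1.1.ne_zero
    have d1 := one_le_nr hd₁.1.ne_zero
    have eg : nr e ≤ nr g := Nat.cast_le.2 (nm_le_of_dvd heg hg.1.1.ne_zero)
    simp only [famW, famK, famL]
    refine ⟨by positivity, by positivity, ?_, by positivity, ?_⟩
    · calc nr e * (L / nr g) ^ 2 * R ^ ε / A ≤ nr g ^ 2 * (L / nr g) ^ 2 * R ^ ε / 1 := by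
            gcongr
            nlinarith
        _ = L ^ 2 * R ^ ε := by field_simp
        _ ≤ R := hL3
    · exact (div_le_self (by positivity) (one_le_pow₀ d1)).trans
        ((div_le_self hL0.le (one_le_mul_of_one_le_of_one_le g1 t1)).trans hLR)
  · have h2 : R ^ ε * R ^ (ε' / 2) ≤ R ^ ε' := by
      rw [← Real.rpow_add (by linarith)]
      exact Real.rpow_le_rpow_of_exponent_le hR (by linarith [hε0.trans (min_le_right _ _)])
    have h3 : 1 ≤ F * (1 + |s.im|) ^ J₀ :=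
      one_le_mul_of_one_le_of_one_le hF (one_le_pow₀ (by linarith [abs_nonneg s.im]))
    have hR' : 0 ≤ R ^ ε' := by positivity
    calc _ ≤ C * (C₁ * R ^ ε' * (A * D * ZI P I) * (F * (1 + |s.im|) ^ J₀) +
          C₂ * R ^ ε' * (F * (1 + |s.im|) ^ J₀ * (A * D * ZI P I))) := by
          refine mul_le_mul_of_nonneg_left (add_le_add (h1.trans
            (le_mul_of_one_le_right (by positivity) h3)) ?_) hC.le
          calc _ = C₂ * (R ^ ε * R ^ (ε' / 2)) * (F * (1 + |s.im|) ^ J₀ * (A * D * ZI P I)) := by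
                ring
            _ ≤ _ := by gcongr
      _ = _ := by ring

/-- **The terms `N(g t) ≤ Y` of `dp`.**  `ext_al` with `u = g t`, `ρ = R^ε` (the factor
`1_{(n,u)=1} conj χ_n(e t²)` is `conj χ_n(r)`, `r = e t² u⁶`, `N r ≤ Y⁸`), Cauchy–Schwarz over
`(u₀, I')`, `cube_le`, `small_le` (with `R^41`, `K' = D² Z² Λ³ Y⁴⁰ / A ≤ D Λ³ Y⁴⁰`, `√D Z³ ≤ A`)
and `large_le` (`pr M L' ⊆ pr M L`). -/
theorem E1_le {M : O} (hM : Adm M) [Fintype (Chr M)] (J J₀ : ℕ) {ε' : ℝ} (hε' : 0 < ε') :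
    ∃ ε₀ : ℝ, 0 < ε₀ ∧ ∀ ε, 0 < ε → ε ≤ ε₀ → ∃ (C : ℝ) (J₁ : ℕ), 0 < C ∧
    ∀ (R A D Y Xm F τ : ℝ) (ν : Chr M) (Ps : ℕ → Finset O) (P : ℕ → ℝ) (I : Finset ℕ) (c : O → ℂ),
      Ctx M J J₀ ε R A D Y Xm F Ps P I → (∀ p, ‖c p‖ ≤ 1) →
      ∀ (L : ℝ), L = D * R ^ ε * ZI P I → ∀ (ν' : Chr M) (s : ℂ), -(1 / 2) ≤ s.re → s.re ≤ 0 →
        ∑ g ∈ sp M L, ∑ e ∈ pdiv g,
          ∑ t ∈ (sp (M * g) (L / nr g)).filter (fun t => nr g * nr t ≤ Y), A * nr g / (nr e * L) *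
          ∑ k ∈ rows (nr e * (L / nr g) ^ 2 * R ^ ε / A),
            ‖Sd M (L / (nr g * nr t))
              (fun m => ext (al ν D (R ^ ε) (τ * Complex.I) (Zs Ps I) (cm c)) (g * t) ν'
                (nr g * nr t) L s m * conj (sym m (e * t ^ 2))) k‖ ^ 2 ≤
          C * R ^ ε' * (Y ^ 100 + F) * (1 + |τ|) ^ J₁ * (A * D * ZI P I) * (1 + |s.im|) ^ J₁ := by
  classical
  have hη : 0 < ε' / 10 := by positivity
  obtain ⟨ε₁, hε₁, hlarge⟩ := large_le hM J J₀ hη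
  obtain ⟨C1, hC1, h1⟩ := E1.one_term hM J hη
  refine ⟨min ε₁ (ε' / 10), lt_min hε₁ hη, fun ε hε hε0 => ?_⟩
  obtain ⟨C2, hC2, h2⟩ := hlarge ε hε (hε0.trans (min_le_left _ _))
  obtain ⟨C3, J', hC3, h3⟩ := E1.small_one hM hη hε
  refine ⟨C1 * (3136 * 2 ^ J * C3 + C2), max J₀ J', by positivity, ?_⟩
  intro R A D Y Xm F τ ν Ps P I c H hc L hL ν' s hs1 hs0
  have hA := H.hA
  have hD := H.hD
  have hF := H.hF
  have hR : 1 ≤ R := hA.trans H.hAR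
  have hY : 1 ≤ Y := by linarith [H.hY]
  have hZ := H.slots.one_le_ZI
  have hΛ : 1 ≤ R ^ ε := Real.one_le_rpow hR hε.le
  have hL1 : 1 ≤ L := hL ▸ one_le_mul_of_one_le_of_one_le (one_le_mul_of_one_le_of_one_le hD hΛ) hZ
  have hL0 : 0 ≤ L := by linarith
  have hLR : L ≤ R := by
    have := H.hL
    rw [← hL] at this
    exact ((le_self_pow₀ hL1 two_ne_zero).trans (le_mul_of_one_le_right (by positivity) hΛ)).trans this
  obtain ⟨c', hc', h1'⟩ := h1 R D (R ^ ε) Y L Ps P I s c ν' H.slots H.dy H.card (by linarith) hs0 hΛ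
    (by linarith) hY hL hR hLR hc
  have hre : ((τ : ℂ) * Complex.I + s).re = s.re := by simp
  have him : ((τ : ℂ) * Complex.I + s).im = τ + s.im := by simp
  have hlg := h2 R A D Y Xm F Ps P I c' H hc' L hL (ν * ν') (τ * Complex.I + s)
    (by rw [hre]; exact hs1) (by rw [hre]; exact hs0)
  set s₁ : ℂ := τ * Complex.I + s with hs₁
  set G : O × O × O × O × Finset ℕ × O → ℝ := fun i => famW A L i *
    ∑ k ∈ rows (famK A L (R ^ ε) i),
      ‖Sg M (famL L i) (famB (ν * ν') D (R ^ ε) s₁ Ps c' Y i) k‖ ^ 2 with hG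
  have hG0 : ∀ i, 0 ≤ G i := fun i => mul_nonneg (by unfold famW; positivity)
    (Finset.sum_nonneg fun _ _ => by positivity)
  set B : ℝ := C3 * R ^ (ε' / 10) * (R ^ ε) ^ 6 * (1 + |s₁.im|) ^ J' * Y ^ 84 * (A * D * ZI P I)
    with hB
  have hB0 : 0 ≤ B := by positivity
  have hgt : ∀ g ∈ sp M L, ∀ t ∈ (sp (M * g) (L / nr g)).filter (fun t => nr g * nr t ≤ Y),
      SP M t ∧ IsCoprime t g ∧ nr g * nr t ≤ L ∧ nr g * nr t ≤ Y ∧ SP M (g * t) ∧ nr g ≤ Y ∧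
        nr t ≤ Y ∧ nr t ≤ L := by
    intro g hg t ht
    obtain ⟨hg1, -⟩ := (mem_sp hL0).1 hg
    obtain ⟨ht1, ht2⟩ := Finset.mem_filter.1 ht
    have g1 := one_le_nr hg1.1.ne_zero
    obtain ⟨ht3, ht4⟩ := (mem_sp (by positivity)).1 ht1
    have t1 := one_le_nr ht3.1.ne_zero
    have c1 : IsCoprime t M := ht3.2.2.of_mul_right_left
    have c2 : IsCoprime t g := ht3.2.2.of_mul_right_right
    rw [le_div_iff₀ (by linarith), mul_comm] at ht4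
    have a1 : nr g ≤ nr g * nr t := le_mul_of_one_le_right (by linarith) t1
    have a2 : nr t ≤ nr g * nr t := le_mul_of_one_le_left (by linarith) g1
    exact ⟨⟨ht3.1, ht3.2.1, c1⟩, c2, ht4, ht2, ⟨hg1.1.mul ht3.1,
      squarefree_mul_iff.2 ⟨c2.symm.isRelPrime, hg1.2.1, ht3.2.1⟩, hg1.2.2.mul_left c1⟩,
      a1.trans ht2, a2.trans ht2, a2.trans ht4⟩
  have step1 : ∀ g ∈ sp M L, ∀ e ∈ pdiv g,
      ∀ t ∈ (sp (M * g) (L / nr g)).filter (fun t => nr g * nr t ≤ Y), A * nr g / (nr e * L) *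
          ∑ k ∈ rows (nr e * (L / nr g) ^ 2 * R ^ ε / A),
            ‖Sd M (L / (nr g * nr t))
              (fun m => ext (al ν D (R ^ ε) (τ * Complex.I) (Zs Ps I) (cm c)) (g * t) ν'
                (nr g * nr t) L s m * conj (sym m (e * t ^ 2))) k‖ ^ 2 ≤
        C1 * R ^ (ε' / 10) * (R ^ ε) ^ 2 * (8 * Y * (2 ^ J * B) +
          ∑ u₀ ∈ pdiv (g * t), ∑ I' ∈ I.powerset, ∑ d₁ ∈ pr M L,
            if g * t / u₀ ∈ Zs Ps (I \ I') then G (g, e, t, u₀, I', d₁) else 0) := by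
    intro g hg e he t ht
    obtain ⟨a1, a2, a3, a4, a5, a6, a7, a8⟩ := hgt g hg t ht
    obtain ⟨hg1, -⟩ := (mem_sp hL0).1 hg
    obtain ⟨he1, he2⟩ := (mem_pdiv hg1.1.ne_zero).1 he
    have g1 := one_le_nr hg1.1.ne_zero
    have e1 := one_le_nr he1.ne_zero
    have t1 := one_le_nr a1.1.ne_zero
    have eg := En.nr_le_of_dvd he2 hg1.1.ne_zero
    have hu := nr_mul g t
    have hw : 0 ≤ A * nr g / (nr e * L) := by positivity
    refine (mul_le_mul_of_nonneg_left (Finset.sum_le_sum fun k _ => h1' ν (τ * Complex.I) (g * t)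
      (e * t ^ 2) (nr g * nr t) a5 hu.symm (by rw [hu]; exact a3.trans hLR) k) hw).trans ?_
    rw [← Finset.mul_sum, mul_left_comm]
    refine mul_le_mul_of_nonneg_left ?_ (by positivity)
    simp only [Finset.sum_add_distrib]
    rw [mul_add]
    refine add_le_add ?_ (le_of_eq ?_)
    · rw [Finset.sum_comm, Finset.mul_sum]
      refine E1.sum_le_card (by positivity) (fun u₀ hu₀ => ?_)
        ((E1.card_pdiv_le8 a5.1.ne_zero).trans (by rw [hu]; linarith))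
      rw [Finset.sum_comm, Finset.mul_sum]
      refine E1.sum_le_card hB0 (fun I' hI' => ?_) (by
        rw [Finset.card_powerset]
        exact_mod_cast Nat.pow_le_pow_right two_pos H.card)
      have hI'' := Finset.mem_powerset.1 hI'
      obtain ⟨hp0, hd0⟩ := (mem_pdiv a5.1.ne_zero).1 hu₀
      have u1 := one_le_nr hp0.ne_zero
      have u2 : nr u₀ ≤ Y := (En.nr_le_of_dvd hd0 a5.1.ne_zero).trans (by rw [hu]; exact a4)
      refine h3 R A D Y (ZI P I) (ZI P I') (D / nr u₀) _ _ (ν * ν') s₁ (Zs Ps I') (cm c') _ hA H.hAR hD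
        (H.slots.mono hI'').one_le_ZI (H.slots.ZI_mono hI'') H.hL hY H.hYR H.h2 H.h6 (by positivity)
        (div_le_self (by linarith) u1) ?_
        (mul_ne_zero (mul_ne_zero he1.ne_zero (pow_ne_zero _ a1.1.ne_zero))
          (pow_ne_zero _ a5.1.ne_zero)) ?_ (by positivity) ?_ hw ?_ (H.slots.mono hI'').marks
        (norm_cm_le hc') (by rw [hre, abs_le]; constructor <;> linarith)
      · rw [← mul_div_assoc, le_div_iff₀ (by linarith), one_mul]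
        exact u2.trans (le_mul_of_one_le_right (by linarith) hD)
      · rw [nr_mul, nr_mul, nr_pow, nr_pow, hu]
        calc nr e * nr t ^ 2 * (nr g * nr t) ^ 6 = nr e * nr t * nr t * (nr g * nr t) ^ 6 := by ring
          _ ≤ Y * Y * Y ^ 6 := by
              gcongr
              exact (mul_le_mul_of_nonneg_right eg (by linarith)).trans a4
          _ = Y ^ 8 := by ring
      · rw [← hL]
        gcongr
        calc nr e * (L / nr g) ^ 2 ≤ nr g ^ 2 * (L / nr g) ^ 2 := by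
              gcongr
              exact eg.trans (le_self_pow₀ g1 two_ne_zero)
          _ = L ^ 2 := by field_simp
      · refine div_le_div₀ (by positivity) (mul_le_mul_of_nonneg_left a6 (by linarith))
          (by positivity) ?_
        calc D * ZI P I ≤ D * R ^ ε * ZI P I := by
              gcongr
              exact le_mul_of_one_le_right (by linarith) hΛ
          _ = L := hL.symm
          _ ≤ nr e * L := le_mul_of_one_le_left hL0 e1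
    · rw [Finset.sum_comm, Finset.mul_sum]
      refine Finset.sum_congr rfl fun u₀ _ => ?_
      rw [Finset.sum_comm, Finset.mul_sum]
      refine Finset.sum_congr rfl fun I' _ => ?_
      rw [Finset.sum_comm, Finset.mul_sum]
      refine Finset.sum_congr rfl fun d₁ _ => ?_
      split_ifs
      · rw [← Finset.mul_sum, ← mul_assoc]
        rfl
      · simp
  have step2 : ∑ g ∈ sp M L, ∑ e ∈ pdiv g,
      ∑ t ∈ (sp (M * g) (L / nr g)).filter (fun t => nr g * nr t ≤ Y), 8 * Y * (2 ^ J * B) ≤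
      7 * Y * (8 * Y * (7 * Y * (8 * Y * (2 ^ J * B)))) := by
    rw [← Finset.sum_filter_of_ne (p := fun g => nr g ≤ Y) (fun g hg hne => by
      obtain ⟨e, -, hne⟩ := Finset.exists_ne_zero_of_sum_ne_zero hne
      obtain ⟨t, ht, -⟩ := Finset.exists_ne_zero_of_sum_ne_zero hne
      exact (hgt g hg t ht).2.2.2.2.2.1)]
    refine E1.sum_le_card (by positivity) (fun g hg => ?_) (En.card_le (by linarith) fun g hg =>
      ⟨((mem_sp hL0).1 (Finset.mem_filter.1 hg).1).1.1.ne_zero, (Finset.mem_filter.1 hg).2⟩)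
    obtain ⟨hg1, hg2⟩ := Finset.mem_filter.1 hg
    refine E1.sum_le_card (by positivity) (fun e _ => ?_)
      ((E1.card_pdiv_le8 ((mem_sp hL0).1 hg1).1.1.ne_zero).trans (by linarith))
    exact E1.sum_le_card (by positivity) (fun t _ => le_rfl) (En.card_le (by linarith) fun t ht =>
      ⟨(hgt g hg1 t ht).1.1.ne_zero, (hgt g hg1 t ht).2.2.2.2.2.2.1⟩)
  have step3 : ∑ g ∈ sp M L, ∑ e ∈ pdiv g,
      ∑ t ∈ (sp (M * g) (L / nr g)).filter (fun t => nr g * nr t ≤ Y),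
        (∑ u₀ ∈ pdiv (g * t), ∑ I' ∈ I.powerset, ∑ d₁ ∈ pr M L,
          if g * t / u₀ ∈ Zs Ps (I \ I') then G (g, e, t, u₀, I', d₁) else 0) ≤
      ∑ i ∈ Fam M L Y Ps I, G i := by
    rw [Fam, Finset.sum_filter]
    simp only [Finset.sum_product]
    have hn : ∀ (p : Prop) [Decidable p] (i), 0 ≤ if p then G i else 0 := fun p _ i => by
      split_ifs
      exacts [hG0 i, le_rfl]
    refine Finset.sum_le_sum fun g hg => ?_
    obtain ⟨hg1, hg2⟩ := (mem_sp hL0).1 hg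
    refine E1.sum_le_sub (fun e he => ?_) (fun e he => ?_) fun _ _ => Finset.sum_nonneg fun _ _ =>
      Finset.sum_nonneg fun _ _ => Finset.sum_nonneg fun _ _ => Finset.sum_nonneg fun _ _ => hn _ _
    · obtain ⟨he1, he2⟩ := (mem_pdiv hg1.1.ne_zero).1 he
      exact (mem_sp hL0).2 ⟨En.SP.of_dvd hg1 he1 he2,
        (En.nr_le_of_dvd he2 hg1.1.ne_zero).trans hg2⟩
    obtain ⟨he1, he2⟩ := (mem_pdiv hg1.1.ne_zero).1 he
    refine E1.sum_le_sub (fun t ht => ?_) (fun t ht => ?_) fun _ _ => Finset.sum_nonneg fun _ _ =>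
      Finset.sum_nonneg fun _ _ => Finset.sum_nonneg fun _ _ => hn _ _
    · exact (mem_sp hL0).2 ⟨(hgt g hg t ht).1, (hgt g hg t ht).2.2.2.2.2.2.2⟩
    obtain ⟨a1, a2, a3, a4, a5, a6, a7, a8⟩ := hgt g hg t ht
    refine E1.sum_le_sub (fun u₀ hu₀ => ?_) (fun u₀ hu₀ => ?_) fun _ _ =>
      Finset.sum_nonneg fun _ _ => Finset.sum_nonneg fun _ _ => hn _ _
    · obtain ⟨hp0, hd0⟩ := (mem_pdiv a5.1.ne_zero).1 hu₀
      exact (mem_sp hL0).2 ⟨En.SP.of_dvd a5 hp0 hd0,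
        (En.nr_le_of_dvd hd0 a5.1.ne_zero).trans (by rw [nr_mul]; exact a3)⟩
    obtain ⟨hp0, hd0⟩ := (mem_pdiv a5.1.ne_zero).1 hu₀
    refine Finset.sum_le_sum fun I' _ => Finset.sum_le_sum fun d₁ _ => ?_
    by_cases hz : g * t / u₀ ∈ Zs Ps (I \ I')
    · rw [if_pos hz, if_pos ⟨he2, a2, a4, a3, hd0, hz⟩]
    · rw [if_neg hz]
      exact hn _ _
  refine (Finset.sum_le_sum fun g hg => Finset.sum_le_sum fun e he =>
    Finset.sum_le_sum fun t ht => step1 g hg e he t ht).trans ?_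
  simp only [← Finset.mul_sum, Finset.sum_add_distrib]
  refine (mul_le_mul_of_nonneg_left (add_le_add (by
    simpa only [← Finset.mul_sum] using step2) (step3.trans hlg)) (by positivity)).trans ?_
  have hQ : 1 ≤ R ^ (ε' / 10) := Real.one_le_rpow hR hη.le
  have hΛQ : R ^ ε ≤ R ^ (ε' / 10) :=
    Real.rpow_le_rpow_of_exponent_le hR (hε0.trans (min_le_right _ _))
  have hQ10 : R ^ ε' = (R ^ (ε' / 10)) ^ 10 := by
    rw [← Real.rpow_natCast, ← Real.rpow_mul (by linarith)]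
    congr 1
    push_cast
    ring
  have hT : ∀ n ≤ max J₀ J', (1 + |s₁.im|) ^ n ≤
      (1 + |τ|) ^ max J₀ J' * (1 + |s.im|) ^ max J₀ J' := by
    intro n hn
    rw [← mul_pow]
    refine (pow_le_pow_right₀ (by linarith [abs_nonneg s₁.im]) hn).trans
      (pow_le_pow_left₀ (by positivity) ?_ _)
    rw [him]
    nlinarith [abs_add_le τ s.im, mul_nonneg (abs_nonneg τ) (abs_nonneg s.im)]
  rw [hQ10, hB]
  have t0 := hT J₀ (le_max_left _ _)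
  have t1 := hT J' (le_max_right _ _)
  have hW : 0 ≤ A * D * ZI P I := by positivity
  exact E1.final hC1.le hC2.le hC3.le (by positivity) hQ (by linarith) hΛQ hY (by linarith)
    (by positivity) (by positivity) t0 t1 hW

end Crest.Agent.R17
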