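import Crest.Agent.R17.T2Dom
import Crest.Agent.R17.T2Cube

/-!
# Row 17, module T2: auxiliary lemmas for `child_le`
-/

set_option autoImplicit false

noncomputable section

namespace Crest.Agent.R17.T2GB

open scoped ComplexConjugate

theorem sq_norm_sum_le {ι : Type*} (s : Finset ι) (ω x : ι → ℂ) {w B : ℝ} (hw : ∀ i, ‖ω i‖ ≤ w)
    (hB0 : 0 ≤ B) (hB : ∀ i ∈ s, ω i ≠ 0 → ‖x i‖ ^ 2 ≤ B) :
    ‖∑ i ∈ s, ω i * x i‖ ^ 2 ≤ (s.card * w) ^ 2 * B := by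
  have h1 : ‖∑ i ∈ s, ω i * x i‖ ≤ s.card * (w * Real.sqrt B) := by
    rw [← nsmul_eq_mul]
    refine (norm_sum_le _ _).trans (Finset.sum_le_card_nsmul _ _ _ fun i hi => ?_)
    have h2 : 0 ≤ w := (norm_nonneg _).trans (hw i)
    by_cases h : ω i = 0
    · rw [h, zero_mul, norm_zero]
      positivity
    · rw [norm_mul]
      exact mul_le_mul (hw i) (Real.le_sqrt_of_sq_le (hB i hi h)) (norm_nonneg _) h2
  refine (pow_le_pow_left₀ (norm_nonneg _) h1 2).trans_eq ?_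
  rw [← mul_assoc, mul_pow, Real.sq_sqrt hB0]

/-- `Sr ∘ ext` is linear. -/
theorem Sr_ext_sum {M u : O} (hu : SP M u) {ι : Type*} (s : Finset ι) (ω : ι → ℂ) (β : O → ℂ)
    (γ : ι → O → ℂ) (h : ∀ m, SP M m → β m = ∑ i ∈ s, ω i * γ i m) (ν : Chr M) (L f Ls : ℝ)
    (s' : ℂ) (a : O) :
    Sr M L (ext β u ν f Ls s') a = ∑ i ∈ s, ω i * Sr M L (ext (γ i) u ν f Ls s') a := by
  simp only [Sr, Finset.mul_sum]
  rw [Finset.sum_comm]
  refine Finset.sum_congr rfl fun n hn => ?_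
  unfold ext
  split_ifs with hc
  · rw [h _ (DP3_sp hu (MBa_sp hn) hc.symm), Finset.sum_mul, Finset.sum_mul, Finset.sum_mul]
    exact Finset.sum_congr rfl fun i _ => by ring
  · simp

theorem mem_pr {M n : O} {X : ℝ} (hX : 0 ≤ X) (h : n ∈ pr M X) :
    Primary n ∧ IsCoprime n M ∧ nr n ≤ X := by
  classical
  rw [pr, Finset.mem_filter, mem_ball, Nat.le_floor_iff hX] at h
  exact ⟨h.2.1, h.2.2, h.1⟩

/-- The two divisor sums. -/
theorem card_le {ε : ℝ} (hε : 0 < ε) (J : ℕ) : ∃ C : ℝ, 0 < C ∧ ∀ (R : ℝ) (d₀ d₁ : O)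
    (I : Finset ℕ), d₀ ≠ 0 → d₁ ≠ 0 → nr d₀ ≤ R → nr d₁ ≤ R → I.card ≤ J →
      (((pdiv (d₀ * d₁) ×ˢ I.powerset).card : ℝ) * (pdiv (d₀ * d₁ ^ 2)).card) ^ 2 ≤ C * R ^ ε := by
  obtain ⟨C, hC, h⟩ := card_pdiv_le (ε := ε / 12) (by positivity)
  refine ⟨(C * 2 ^ J * C) ^ 2, by positivity, fun R d₀ d₁ I h0 h1 hd0 hd1 hI => ?_⟩
  have h2 := one_le_nr h0
  have h3 := one_le_nr h1
  have hR : 1 ≤ R := h2.trans hd0
  have h4 : nr (d₀ * d₁ ^ 2) ≤ R ^ 3 := by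
    rw [nr_mul, nr_pow, pow_succ' R 2]
    gcongr
  have h5 : nr (d₀ * d₁) ≤ R ^ 3 := by
    refine le_trans ?_ h4
    rw [nr_mul, nr_mul, nr_pow]
    exact mul_le_mul_of_nonneg_left (by nlinarith) (by positivity)
  have h6 : ∀ n : O, n ≠ 0 → nr n ≤ R ^ 3 → ((pdiv n).card : ℝ) ≤ C * R ^ (ε / 4) := fun n hn h7 => by
    refine (h n hn).trans (mul_le_mul_of_nonneg_left ?_ hC.le)
    refine (Real.rpow_le_rpow (by positivity) h7 (by positivity)).trans_eq ?_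
    rw [← Real.rpow_natCast, ← Real.rpow_mul (by positivity)]
    congr 1
    push_cast
    ring
  have h7 := h6 _ (mul_ne_zero h0 h1) h5
  have h8 := h6 _ (mul_ne_zero h0 (pow_ne_zero 2 h1)) h4
  have h9 : (2 : ℝ) ^ I.card ≤ 2 ^ J := pow_le_pow_right₀ one_le_two hI
  have h10 : R ^ ε = (R ^ (ε / 4)) ^ 4 := by
    rw [← Real.rpow_natCast, ← Real.rpow_mul (by positivity)]
    congr 1
    push_cast
    ring
  rw [Finset.card_product, Finset.card_powerset, h10]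
  push_cast
  calc _ ≤ (C * R ^ (ε / 4) * 2 ^ J * (C * R ^ (ε / 4))) ^ 2 := by gcongr
    _ = _ := by ring

theorem prime_iff {p a k b e e' t t' g d₀ d₁ : O} (hp : Prime p) (hb : a = k ^ 6 * b) (he : e' ∣ a)
    (hd : d₀ ∣ a) : p ∣ e' * t' * (d₀ * d₁) * (k * g * t) * (b * e * t ^ 2) ↔
      p ∣ g * t' * d₁ * k * (b * e * t ^ 2) := by
  have h1 : p ∣ a → p ∣ k ∨ p ∣ b := fun h =>
    (hp.dvd_or_dvd (hb ▸ h)).imp_left hp.dvd_of_dvd_pow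
  have h2 : p ∣ e' → p ∣ k ∨ p ∣ b := fun h => h1 (h.trans he)
  have h3 : p ∣ d₀ → p ∣ k ∨ p ∣ b := fun h => h1 (h.trans hd)
  simp only [hp.dvd_mul, sq]
  tauto

end Crest.Agent.R17.T2GB
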