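import Crest.Agent.R17.T2Defs

/-!
# Row 17, module T2: marks which are products of slots
-/

set_option autoImplicit false

noncomputable section

namespace Crest.Agent.R17

open scoped ComplexConjugate

variable {M : O} {Ps : ℕ → Finset O} {P : ℕ → ℝ} {I : Finset ℕ}

theorem Slots.mono (h : Slots M Ps P I) {I' : Finset ℕ} (hI : I' ⊆ I) : Slots M Ps P I' :=
  ⟨fun j hj => h.prime j (hI hj), fun j hj => h.one_le j (hI hj),
    fun i hi j hj => h.disj i (hI hi) j (hI hj)⟩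
theorem Dy.mono (h : Dy Ps P I) {I' : Finset ℕ} (hI : I' ⊆ I) : Dy Ps P I' :=
  fun j hj => h j (hI hj)
open scoped Pointwise in
theorem Zs_empty (Ps : ℕ → Finset O) : Zs Ps ∅ = {1} := by
  rw [Zs, Finset.prod_empty]
  rfl
theorem ZI_empty (P : ℕ → ℝ) : ZI P ∅ = 1 := Finset.prod_empty
theorem cm_one (c : O → ℂ) : cm c 1 = 1 := by
  rw [cm, BasicB.pf_unit isUnit_one, Finset.prod_empty]
theorem cm_mul (c : O → ℂ) {m n : O} (hm : m ≠ 0) (hn : n ≠ 0) (h : IsCoprime m n) :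
    cm c (m * n) = cm c m * cm c n := by
  rw [cm, cm, cm, pf_mul hm hn, Finset.prod_union (disjoint_pf h)]
theorem cm_mul_fun (c c' : O → ℂ) (z : O) : cm (fun p => c p * c' p) z = cm c z * cm c' z :=
  Finset.prod_mul_distrib
theorem norm_cm_le {c : O → ℂ} (hc : ∀ p, ‖c p‖ ≤ 1) (z : O) : ‖cm c z‖ ≤ 1 := by
  rw [cm, norm_prod]
  exact Finset.prod_le_one (fun _ _ => norm_nonneg _) fun p _ => hc p
theorem cm_ev (ν : Chr M) {z : O} (hz : SP M z) : cm (ev ν) z = ev ν z := by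
  conv_rhs => rw [← hz.1.eq_rad hz.2.1]
  simp only [cm, rad, ev, map_prod]
open Classical in
theorem cm_ite (c : O → ℂ) {T z : O} (hz : Primary z) :
    cm (fun p => if p ∣ T then 0 else c p) z = if IsCoprime z T then cm c z else 0 := by
  split_ifs with h
  · refine Finset.prod_congr rfl fun p hp => if_neg fun hT => ?_
    obtain ⟨h1, -, h2⟩ := BasicB.of_mem_pf hp
    exact h1.not_isUnit (h.isUnit_of_dvd' h2 hT)
  · by_cases hex : ∃ p ∈ pf z, p ∣ T
    · obtain ⟨p, hp, hT⟩ := hex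
      exact Finset.prod_eq_zero hp (if_pos hT)
    · refine absurd ?_ h
      rw [hz.eq_prod]
      refine IsCoprime.prod_left fun p hp => IsCoprime.pow_left ?_
      exact ((BasicB.of_mem_pf hp).1.irreducible.coprime_iff_not_dvd).2 fun hT => hex ⟨p, hp, hT⟩
theorem Slots.one_le_ZI (h : Slots M Ps P I) : 1 ≤ ZI P I :=
  Finset.one_le_prod fun j hj => h.one_le j hj
theorem Slots.ZI_mono (h : Slots M Ps P I) {I' : Finset ℕ} (hI : I' ⊆ I) :
    ZI P I' ≤ ZI P I := by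
  have h1 : 1 ≤ ZI P (I \ I') := (h.mono Finset.sdiff_subset).one_le_ZI
  have h2 : 1 ≤ ZI P I' := (h.mono hI).one_le_ZI
  have h3 : ZI P (I \ I') * ZI P I' = ZI P I := Finset.prod_sdiff hI
  nlinarith
theorem ZI_sdiff (P : ℕ → ℝ) {I' : Finset ℕ} (hI : I' ⊆ I) :
    ZI P (I \ I') * ZI P I' = ZI P I :=
  Finset.prod_sdiff hI

open scoped Pointwise in
theorem T2MarkA.mem_insert {j : ℕ} (hj : j ∉ I) {z : O} :
    z ∈ Zs Ps (insert j I) ↔ ∃ p ∈ Ps j, ∃ w ∈ Zs Ps I, p * w = z := by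
  rw [Zs, Finset.prod_insert hj, Finset.mem_mul]
  rfl

theorem T2MarkA.coprime {j : ℕ} (hj : j ∉ I) (h : Slots M Ps P (insert j I)) {p w : O}
    (hp : p ∈ Ps j) (hw0 : w ≠ 0) (hw : ∀ q ∈ pf w, ∃ i ∈ I, q ∈ Ps i) : IsCoprime p w := by
  obtain ⟨h1, h2, -, -⟩ := h.prime j (Finset.mem_insert_self j I) p hp
  refine h1.irreducible.coprime_iff_not_dvd.2 fun hd => ?_
  obtain ⟨i, hi, hpi⟩ := hw p ((mem_pf hw0).2 ⟨h1, h2, hd⟩)
  exact Finset.disjoint_left.1 (h.disj j (Finset.mem_insert_self j I) i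
    (Finset.mem_insert_of_mem hi) (fun e => hj (e ▸ hi))) hp hpi

theorem T2MarkA.key (h : Slots M Ps P I) {z : O} (hz : z ∈ Zs Ps I) :
    SP M z ∧ nr z ≤ ZI P I ∧ (∀ q ∈ pf z, ∃ i ∈ I, q ∈ Ps i) ∧
      (Dy Ps P I → ZI P I ≤ 2 ^ I.card * nr z) := by
  induction I using Finset.induction_on generalizing z with
  | empty =>
    rw [Zs_empty, Finset.mem_singleton] at hz
    subst hz
    have h1 : nr (1 : O) = 1 := by rw [nr, BasicA.nm_of_isUnit isUnit_one, Nat.cast_one]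
    refine ⟨⟨primary_one, squarefree_one, isCoprime_one_left⟩, by rw [ZI_empty, h1], ?_, fun _ => ?_⟩
    · rw [BasicB.pf_unit isUnit_one]
      simp
    · rw [ZI_empty, h1]
      simp
  | insert j I hj ih =>
    obtain ⟨p, hp, w, hw, rfl⟩ := (T2MarkA.mem_insert hj).1 hz
    obtain ⟨⟨w1, w2, w3⟩, w4, w5, w6⟩ := ih (h.mono (Finset.subset_insert j I)) hw
    obtain ⟨h1, h2, h3, h4⟩ := h.prime j (Finset.mem_insert_self j I) p hp
    have hc := T2MarkA.coprime hj h hp w1.ne_zero w5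
    have hZ : ZI P (insert j I) = P j * ZI P I := Finset.prod_insert hj
    refine ⟨⟨h2.mul w1, ?_, h3.mul_left w3⟩, ?_, ?_, fun hd => ?_⟩
    · exact squarefree_mul_iff.2 ⟨hc.isRelPrime, h1.squarefree, w2⟩
    · rw [hZ, nr_mul]
      exact mul_le_mul h4 w4 (by positivity) ((Nat.cast_nonneg _).trans h4)
    · intro q hq
      rw [pf_mul h1.ne_zero w1.ne_zero, pf_prime h1 h2, Finset.mem_union,
        Finset.mem_singleton] at hq
      rcases hq with rfl | hq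
      · exact ⟨j, Finset.mem_insert_self j I, hp⟩
      · obtain ⟨i, hi, hq⟩ := w5 q hq
        exact ⟨i, Finset.mem_insert_of_mem hi, hq⟩
    · have h5 := hd j (Finset.mem_insert_self j I) p hp
      have h6 := w6 (hd.mono (Finset.subset_insert j I))
      have h7 : 1 ≤ ZI P I := (h.mono (Finset.subset_insert j I)).one_le_ZI
      rw [hZ, nr_mul, Finset.card_insert_of_notMem hj, pow_succ]
      calc P j * ZI P I ≤ (2 * nr p) * (2 ^ I.card * nr w) :=
            mul_le_mul h5 h6 (by linarith) (by positivity)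
        _ = _ := by ring

theorem Slots.marks (h : Slots M Ps P I) : Marks M (Zs Ps I) (ZI P I) :=
  fun _ hz => ⟨(T2MarkA.key h hz).1, (T2MarkA.key h hz).2.1⟩
/-- the primes of a mark lie in the slots -/
theorem Slots.pf_sub (h : Slots M Ps P I) {z p : O} (hz : z ∈ Zs Ps I) (hp : p ∈ pf z) :
    ∃ j ∈ I, p ∈ Ps j :=
  (T2MarkA.key h hz).2.2.1 p hp
theorem Slots.ZI_le (h : Slots M Ps P I) (hd : Dy Ps P I) {z : O} (hz : z ∈ Zs Ps I) :
    ZI P I ≤ 2 ^ I.card * nr z :=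
  (T2MarkA.key h hz).2.2.2 hd
theorem Slots.coprime (h : Slots M Ps P I) {I₁ I₂ : Finset ℕ} (h1 : I₁ ⊆ I) (h2 : I₂ ⊆ I)
    (hd : Disjoint I₁ I₂) {z₁ z₂ : O} (hz₁ : z₁ ∈ Zs Ps I₁) (hz₂ : z₂ ∈ Zs Ps I₂) :
    IsCoprime z₁ z₂ := by
  refine isCoprime_of_disjoint_pf ((h.mono h1).marks z₁ hz₁).1.1
    ((h.mono h2).marks z₂ hz₂).1.1.ne_zero (Finset.disjoint_left.2 fun p hp₁ hp₂ => ?_)
  obtain ⟨i, hi, hpi⟩ := (h.mono h1).pf_sub hz₁ hp₁
  obtain ⟨j, hj, hpj⟩ := (h.mono h2).pf_sub hz₂ hp₂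
  exact Finset.disjoint_left.1 (h.disj i (h1 hi) j (h2 hj)
    (fun e => Finset.disjoint_left.1 hd hi (e ▸ hj))) hpi hpj
theorem Marks.card_le {Z : Finset O} {Zm : ℝ} (h : Marks M Z Zm) (hZ : 0 ≤ Zm) :
    (Z.card : ℝ) ≤ 7 * Zm :=
  En.card_le hZ fun z hz => ⟨(h z hz).1.1.ne_zero, (h z hz).2⟩

open scoped Pointwise in
/-- Unique factorisation of a mark. -/
theorem Slots.sum_sdiff {β : Type*} [AddCommMonoid β] (h : Slots M Ps P I) {I' : Finset ℕ}
    (hI : I' ⊆ I) (F : O → β) :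
    ∑ z ∈ Zs Ps I, F z = ∑ r ∈ Zs Ps (I \ I'), ∑ z' ∈ Zs Ps I', F (r * z') := by
  have hs : I \ I' ⊆ I := Finset.sdiff_subset
  have hp : ∀ r ∈ Zs Ps (I \ I'), Primary r := fun r hr => ((h.mono hs).marks r hr).1.1
  conv_lhs => rw [Zs, ← Finset.prod_sdiff hI, Finset.mul_def]
  rw [Finset.sum_image, Finset.sum_product]
  · rfl
  rintro ⟨r, z⟩ h1 ⟨r', z'⟩ h2 (e : r * z = r' * z')
  obtain ⟨a1, a2⟩ := Finset.mem_product.1 h1
  obtain ⟨b1, b2⟩ := Finset.mem_product.1 h2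
  have c1 := h.coprime hs hI Finset.sdiff_disjoint a1 b2
  have c2 := h.coprime hs hI Finset.sdiff_disjoint b1 a2
  obtain rfl : r = r' := (hp r a1).eq_of_associated (hp r' b1) (associated_of_dvd_dvd
    (c1.dvd_of_dvd_mul_right ⟨z, e.symm⟩) (c2.dvd_of_dvd_mul_right ⟨z', e⟩))
  rw [mul_left_cancel₀ (hp r a1).ne_zero e]

theorem T2MarkB.sum_insert {β : Type*} [AddCommMonoid β] {j : ℕ} (hj : j ∉ I)
    (h : Slots M Ps P (insert j I)) (F : O → β) :
    ∑ z ∈ Zs Ps (insert j I), F z = ∑ p ∈ Ps j, ∑ z ∈ Zs Ps I, F (p * z) := by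
  rw [h.sum_sdiff (Finset.subset_insert j I), Finset.insert_sdiff_of_notMem _ hj,
    Finset.sdiff_self, Zs]
  simp

theorem T2MarkB.sum_pdiv_mul {β : Type*} [AddCommMonoid β] {p z : O} (hp : Prime p)
    (hp' : Primary p) (hz : z ≠ 0) (hpz : ¬ p ∣ z) (F : O → O → β) :
    ∑ r ∈ pdiv (p * z), F r (p * z / r) =
      ∑ r ∈ pdiv z, F (p * r) (z / r) + ∑ r ∈ pdiv z, F r (p * (z / r)) := by
  classical
  have h0 := mul_ne_zero hp.ne_zero hz
  rw [← Finset.sum_filter_add_sum_filter_not _ (p ∣ ·)]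
  congr 1
  · symm
    refine Finset.sum_nbij (p * ·) (fun r hr => ?_)
      (fun _ _ _ _ e => mul_left_cancel₀ hp.ne_zero e) (fun r hr => ?_) fun r hr => ?_
    · obtain ⟨a1, a2⟩ := (mem_pdiv hz).1 hr
      exact Finset.mem_filter.2
        ⟨(mem_pdiv h0).2 ⟨hp'.mul a1, mul_dvd_mul_left p a2⟩, dvd_mul_right _ _⟩
    · obtain ⟨a1, k, rfl⟩ := Finset.mem_filter.1 hr
      obtain ⟨a2, a3⟩ := (mem_pdiv h0).1 a1
      exact ⟨k, (mem_pdiv hz).2 ⟨hp'.of_mul a2, (mul_dvd_mul_iff_left hp.ne_zero).1 a3⟩, rfl⟩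
    · obtain ⟨a1, k, rfl⟩ := (mem_pdiv hz).1 hr
      rw [← mul_assoc, mul_div_cancel_left₀ _ a1.ne_zero,
        mul_div_cancel_left₀ _ (mul_ne_zero hp.ne_zero a1.ne_zero)]
  · refine Finset.sum_congr ?_ fun r hr => ?_
    · ext r
      rw [Finset.mem_filter, mem_pdiv h0, mem_pdiv hz]
      exact ⟨fun ⟨⟨a1, a2⟩, a3⟩ =>
          ⟨a1, (hp.coprime_iff_not_dvd.2 a3).symm.dvd_of_dvd_mul_left a2⟩,
        fun ⟨a1, a2⟩ => ⟨⟨a1, a2.mul_left p⟩, fun a3 => hpz (a3.trans a2)⟩⟩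
    · obtain ⟨a1, k, rfl⟩ := (mem_pdiv hz).1 hr
      rw [mul_left_comm, mul_div_cancel_left₀ _ a1.ne_zero, mul_div_cancel_left₀ _ a1.ne_zero]

/-- The divisors of a mark correspond to the subsets of the slots. -/
theorem Slots.sum_pdiv {β : Type*} [AddCommMonoid β] (h : Slots M Ps P I) (F : O → O → β) :
    ∑ z ∈ Zs Ps I, ∑ r ∈ pdiv z, F r (z / r) =
      ∑ I' ∈ I.powerset, ∑ r ∈ Zs Ps (I \ I'), ∑ z' ∈ Zs Ps I', F r z' := by
  induction I using Finset.induction_on generalizing F with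
  | empty =>
    have : pdiv 1 = {1} := by
      ext d
      rw [mem_pdiv one_ne_zero, Finset.mem_singleton]
      exact ⟨fun h => h.1.eq_one_of_isUnit (isUnit_of_dvd_one h.2),
        fun h => by rw [h]; exact ⟨primary_one, dvd_rfl⟩⟩
    simp [Zs_empty, this]
  | insert j I hj ih =>
    have hI := h.mono (Finset.subset_insert j I)
    have hj' := Finset.mem_insert_self j I
    have h1 : ∀ p ∈ Ps j, ∑ z ∈ Zs Ps I, ∑ r ∈ pdiv (p * z), F r (p * z / r) =
        ∑ I' ∈ I.powerset, ∑ r ∈ Zs Ps (I \ I'), ∑ z' ∈ Zs Ps I', F (p * r) z' +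
        ∑ I' ∈ I.powerset, ∑ r ∈ Zs Ps (I \ I'), ∑ z' ∈ Zs Ps I', F r (p * z') := fun p hp => by
      obtain ⟨a1, a2, -⟩ := h.prime j hj' p hp
      rw [← ih hI fun r z => F (p * r) z, ← ih hI fun r z => F r (p * z), ← Finset.sum_add_distrib]
      refine Finset.sum_congr rfl fun z hz => T2MarkB.sum_pdiv_mul a1 a2
        (hI.marks z hz).1.1.ne_zero (a1.coprime_iff_not_dvd.1 ?_) F
      exact h.coprime (Finset.singleton_subset_iff.2 hj') (Finset.subset_insert j I)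
        (Finset.disjoint_singleton_left.2 hj) (by simpa [Zs] using hp) hz
    rw [T2MarkB.sum_insert hj h, Finset.sum_congr rfl h1, Finset.sum_add_distrib,
      Finset.sum_powerset_insert hj, Finset.sum_comm, Finset.sum_comm (s := Ps j)]
    congr 1
    · refine Finset.sum_congr rfl fun I' hI' => ?_
      have hs := Finset.mem_powerset.1 hI'
      rw [Finset.insert_sdiff_of_notMem _ fun h' => hj (hs h'), T2MarkB.sum_insert
        (fun h' => hj (Finset.sdiff_subset h'))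
        (h.mono (Finset.insert_subset_insert j Finset.sdiff_subset))]
    · refine Finset.sum_congr rfl fun I' hI' => ?_
      have hs := Finset.mem_powerset.1 hI'
      rw [Finset.insert_sdiff_insert, Finset.sdiff_insert_of_notMem hj, Finset.sum_comm]
      exact Finset.sum_congr rfl fun r _ => (T2MarkB.sum_insert (fun h' => hj (hs h'))
        (h.mono (Finset.insert_subset_insert j hs)) _).symm

open Classical in
/-- Splitting a mark according to its common part `r` with `u`. -/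
theorem Slots.sum_gcd {β : Type*} [AddCommMonoid β] (h : Slots M Ps P I) {u : O} (hu : u ≠ 0)
    (F : O → β) :
    ∑ z ∈ Zs Ps I, F z = ∑ I' ∈ I.powerset, ∑ r ∈ (Zs Ps (I \ I')).filter (· ∣ u),
      ∑ z' ∈ (Zs Ps I').filter (fun z' => IsCoprime z' u), F (r * z') := by
  have h1 := h.sum_pdiv fun r z' => if r ∣ u ∧ IsCoprime z' u then F (r * z') else 0
  refine Eq.trans (Finset.sum_congr rfl fun z hz => ?_)
    (h1.trans (Finset.sum_congr rfl fun I' _ => ?_))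
  · obtain ⟨hz1, hz2, -⟩ := (h.marks z hz).1
    have h0 := hz1.ne_zero
    have hg := primary_pgcd z u
    obtain ⟨⟨k, hk⟩, hgu⟩ := (dvd_pgcd_iff h0 hu hg).1 dvd_rfl
    have hkp : Primary k := hg.of_mul (hk ▸ hz1)
    have hq : z / pgcd z u = k := by
      conv_lhs => rw [hk]
      rw [← hk, EuclideanDomain.eq_div_of_mul_eq_right hg.ne_zero hk.symm]
    have hku : IsCoprime k u := by
      rw [← pgcd_eq_one_iff hkp hu]
      have hd := primary_pgcd k u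
      obtain ⟨d1, d2⟩ := (dvd_pgcd_iff hkp.ne_zero hu hd).1 dvd_rfl
      refine hd.eq_one_of_isUnit (hz2 _ ?_)
      conv_rhs => rw [hk]
      exact mul_dvd_mul ((dvd_pgcd_iff h0 hu hd).2 ⟨d1.trans (Dvd.intro_left _ hk.symm), d2⟩) d1
    rw [Finset.sum_eq_single_of_mem (pgcd z u) ((mem_pdiv h0).2 ⟨hg, k, hk⟩), hq,
      if_pos ⟨hgu, hku⟩, ← hk]
    intro r hr hne
    obtain ⟨a1, l, hl⟩ := (mem_pdiv h0).1 hr
    refine if_neg fun ⟨b1, b2⟩ => hne (a1.eq_of_associated hg (associated_of_dvd_dvd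
      ((dvd_pgcd_iff h0 hu a1).2 ⟨⟨l, hl⟩, b1⟩) ?_))
    rw [← EuclideanDomain.eq_div_of_mul_eq_right a1.ne_zero hl.symm] at b2
    exact (b2.of_isCoprime_of_dvd_right hgu).symm.dvd_of_dvd_mul_right ⟨k, hl.symm.trans hk⟩
  · rw [Finset.sum_filter]
    refine Finset.sum_congr rfl fun r _ => ?_
    rw [Finset.sum_filter]
    by_cases hr : r ∣ u <;> simp [hr]

open scoped Pointwise in
theorem Slots.slot_Zs (hM : Adm M) (h : Slots M Ps P I) (c : O → ℂ) (a : O) :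
    slot (Zs Ps I) (cm c) a = ∏ j ∈ I, slot (Ps j) c a := by
  have _ := hM
  induction I using Finset.induction_on with
  | empty => simp [slot, Zs_empty, cm_one]
  | insert j I hj ih =>
    have hI := h.mono (Finset.subset_insert j I)
    have e1 : insert j I \ I = {j} := by
      rw [Finset.insert_sdiff_of_notMem _ hj, Finset.sdiff_self]
      rfl
    have e2 : Zs Ps {j} = Ps j := Finset.prod_singleton _ _
    rw [Finset.prod_insert hj, ← ih hI, slot, h.sum_sdiff (Finset.subset_insert j I), e1, e2, slot,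
      slot, Finset.sum_mul_sum]
    refine Finset.sum_congr rfl fun p hp => Finset.sum_congr rfl fun w hw => ?_
    obtain ⟨h1, h2, -, -⟩ := h.prime j (Finset.mem_insert_self j I) p hp
    have hw0 := (hI.marks w hw).1.1.ne_zero
    have e3 : cm c p = c p := by rw [cm, pf_prime h1 h2, Finset.prod_singleton]
    rw [cm_mul c h1.ne_zero hw0 (T2MarkA.coprime hj h hp hw0 fun q hq => hI.pf_sub hw hq),
      sym_mul_left h1.ne_zero hw0, map_mul, e3]
    ring

/-- `∑_{z} N z^{-σ} ≪ Z^{1-σ}`. -/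
theorem Marks.sum_rpow_le {σ : ℝ} (hσ : σ < 1) : ∃ C : ℝ, 0 < C ∧ ∀ (M : O) (Z : Finset O) (Zm : ℝ),
    Marks M Z Zm → 1 ≤ Zm → ∑ z ∈ Z, nr z ^ (-σ) ≤ C * Zm ^ (1 - σ) := by
  obtain ⟨C, hC, h⟩ := sum_nr_rpow_le (σ := -σ) (by linarith)
  refine ⟨C, hC, fun M Z Zm hZ h1 => ?_⟩
  have h0 : 0 ≤ Zm := zero_le_one.trans h1
  have h2 : Z ⊆ (ball ⌊Zm⌋₊).erase 0 := fun z hz =>
    Finset.mem_erase.2 ⟨(hZ z hz).1.1.ne_zero, mem_ball.2 (Nat.le_floor (hZ z hz).2)⟩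
  calc ∑ z ∈ Z, nr z ^ (-σ) ≤ ∑ z ∈ (ball ⌊Zm⌋₊).erase 0, nr z ^ (-σ) :=
        Finset.sum_le_sum_of_subset_of_nonneg h2 fun _ _ _ => by positivity
    _ ≤ C * (⌊Zm⌋₊ : ℝ) ^ (1 + -σ) := h _ (Nat.le_floor (by exact_mod_cast h1))
    _ ≤ C * Zm ^ (1 - σ) := by
        rw [← sub_eq_add_neg]
        exact mul_le_mul_of_nonneg_left
          (Real.rpow_le_rpow (Nat.cast_nonneg _) (Nat.floor_le h0) (by linarith)) hC.le

end Crest.Agent.R17
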