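import Crest.Agent.R17.T2Al

/-!
# Row 17, module T2: auxiliary lemmas for the maximal function and the punctures
-/

set_option autoImplicit false

noncomputable section

namespace Crest.Agent.R17.T2SA

open scoped ComplexConjugate

theorem norm_Mob_le {M : O} (hM : Adm M) (σ : ℝ) : ∃ C : ℝ, 0 < C ∧
    ∀ (ν : Chr M) (a : O) (D : ℝ) (s : ℂ), 0 < D → |s.re| ≤ σ → ‖Mob ν a D s‖ ≤ C * D := by
  obtain ⟨C, hC, h⟩ := tsum_norm_Sm_le 0 0 σ le_rfl
  refine ⟨C, hC, fun ν a D s hD hs => ?_⟩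
  have hb := polyB_mu_rc hM ν a
  refine (norm_tsum_le_tsum_norm (summable_Sm hb hD s)).trans ((h _ 1 D s hb hD hs).trans ?_)
  simp

theorem norm_sum_le' {M : O} (hM : Adm M) (σ : ℝ) : ∃ C : ℝ, 0 < C ∧
    ∀ (ν : Chr M) (a : O) (r : O → O) (D : ℝ) (s : ℂ) (Z : Finset O) (c : O → ℂ),
      (∀ z, ‖c z‖ ≤ 1) → 0 < D → |s.re| ≤ σ →
      ‖∑ z ∈ Z, c z * conj (sym z a) * Mob ν (r z) D s‖ ≤ C * Z.card * D := by
  obtain ⟨C, hC, h⟩ := norm_Mob_le hM σ
  refine ⟨C, hC, fun ν a r D s Z c hc hD hs => ?_⟩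
  calc _ ≤ ∑ z ∈ Z, C * D := by
        refine (norm_sum_le _ _).trans (Finset.sum_le_sum fun z _ => ?_)
        rw [norm_mul, norm_mul, Complex.norm_conj]
        exact (mul_le_of_le_one_left (norm_nonneg _)
          (mul_le_one₀ (hc z) (norm_nonneg _) (norm_sym_le _ _))).trans (h ν _ D s hD hs)
    _ = _ := by rw [Finset.sum_const, nsmul_eq_mul]; ring

theorem norm_MQ_le {M : O} (hM : Adm M) : ∃ C : ℝ, 0 < C ∧
    ∀ (ν : Chr M) (a : O) (D Zm : ℝ) (s : ℂ) (Z : Finset O) (c : O → ℂ), Marks M Z Zm →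
      (∀ z, ‖c z‖ ≤ 1) → 0 < D → 0 ≤ Zm → |s.re| ≤ 3 → ‖MQ ν a D s Z c‖ ≤ C * Zm * D := by
  obtain ⟨C, hC, h⟩ := norm_sum_le' hM 3
  refine ⟨7 * C, by positivity, fun ν a D Zm s Z c hZ hc hD hZm hs => ?_⟩
  refine (h ν a (fun z => a * z ^ 6) D s Z c hc hD hs).trans ?_
  have := hZ.card_le hZm
  calc C * Z.card * D ≤ C * (7 * Zm) * D := by gcongr
    _ = _ := by ring

theorem MQ_eq_Sm {M : O} (hM : Adm M) (ν : Chr M) (a : O) (Z : Finset O) (c : O → ℂ)
    (hc : ∀ z, ‖c z‖ ≤ 1) : ∃ b : O → ℂ, PolyB b Z.card 0 ∧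
      ∀ (D : ℝ) (s : ℂ), 0 < D → MQ ν a D s Z c = Sm b D s := by
  refine ⟨fun n => ∑ z ∈ Z, c z * conj (sym z a) * (mu n * rc ν (a * z ^ 6) n), ⟨?_, fun n => ?_⟩,
    fun D s hD => ?_⟩
  · simp [rc_zero]
  · calc _ ≤ ∑ z ∈ Z, (1 : ℝ) := by
          refine (norm_sum_le _ _).trans (Finset.sum_le_sum fun z _ => ?_)
          rw [norm_mul, norm_mul, norm_mul, Complex.norm_conj]
          exact mul_le_one₀ (mul_le_one₀ (hc z) (norm_nonneg _) (norm_sym_le _ _)) (by positivity)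
            (mul_le_one₀ (norm_mu_le n) (norm_nonneg _) (norm_rc_le hM ν _ n))
      _ = _ := by simp
  · unfold MQ Sm Mob
    simp only [Finset.sum_mul]
    rw [Summable.tsum_finsetSum fun z _ => ?_]
    · refine Finset.sum_congr rfl fun z _ => ?_
      rw [← tsum_mul_left]
      exact tsum_congr fun n => by ring
    · have := (summable_Sm (polyB_mu_rc hM ν (a * z ^ 6)) hD s).of_norm
      exact (this.mul_left (c z * conj (sym z a))).congr fun n => by ring

theorem msup_nonneg {M : O} (ν : Chr M) (a : O) (Dm : ℝ) (s : ℂ) (Z : Finset O) (c : O → ℂ) :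
    0 ≤ msup ν a Dm s Z c := by
  refine Real.sSup_nonneg ?_
  rintro x ⟨D, hD, -, rfl⟩
  positivity

theorem sq_MQ_le_msup {M : O} (hM : Adm M) (ν : Chr M) (a : O) {D Dm : ℝ} (s : ℂ) (Z : Finset O)
    {c : O → ℂ} (hc : ∀ z, ‖c z‖ ≤ 1) (hD : 0 < D) (h : D ≤ Dm) :
    ‖MQ ν a D s Z c‖ ^ 2 ≤ msup ν a Dm s Z c * D := by
  obtain ⟨C, hC, h1⟩ := norm_sum_le' hM |s.re|
  rw [← div_le_iff₀ hD]
  refine le_csSup ⟨(C * Z.card) ^ 2 * Dm, ?_⟩ ⟨D, hD, h, rfl⟩
  rintro x ⟨D', hD', h', rfl⟩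
  rw [div_le_iff₀ hD']
  have h2 : ‖MQ ν a D' s Z c‖ ≤ C * Z.card * D' :=
    h1 ν a (fun z => a * z ^ 6) D' s Z c hc hD' le_rfl
  calc _ ≤ (C * Z.card * D') ^ 2 := pow_le_pow_left₀ (norm_nonneg _) h2 2
    _ = (C * Z.card) ^ 2 * D' * D' := by ring
    _ ≤ _ := by gcongr

theorem term_nonneg {M : O} {Ps : ℕ → Finset O} {P : ℕ → ℝ} {I I' : Finset ℕ}
    (h : Slots M Ps P I) (hI : I' ∈ I.powerset) (ν : Chr M) (a : O) (Dm : ℝ) (s : ℂ) (Z : Finset O)
    (c : O → ℂ) : 0 ≤ msup ν a Dm s Z c / ZI P I' :=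
  div_nonneg (msup_nonneg _ _ _ _ _ _)
    (zero_le_one.trans (h.mono (Finset.mem_powerset.1 hI)).one_le_ZI)

theorem Psi_nonneg (M : O) [Fintype (Chr M)] {Ps : ℕ → Finset O} {P : ℕ → ℝ} {I : Finset ℕ}
    (h : Slots M Ps P I) (c : O → ℂ) (s : ℂ) (X : ℝ) (a : O) : 0 ≤ Psi M Ps P I c s X a :=
  Finset.sum_nonneg fun _ _ => Finset.sum_nonneg fun _ _ => Finset.sum_nonneg fun _ hI =>
    term_nonneg h hI _ _ _ _ _ _

theorem msup_le_Psi {M : O} [Fintype (Chr M)] {Ps : ℕ → Finset O} {P : ℕ → ℝ} {I I' : Finset ℕ}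
    (h : Slots M Ps P I) (hI : I' ⊆ I) (ν ν' : Chr M) (c : O → ℂ) (s : ℂ) (X : ℝ) (a : O) :
    msup ν a (X / ZI P I') s (Zs Ps I') (cm fun p => c p * ev ν' p) ≤
      ZI P I' * Psi M Ps P I c s X a := by
  have h0 : 0 < ZI P I' := one_pos.trans_le (h.mono hI).one_le_ZI
  rw [← div_le_iff₀' h0]
  unfold Psi
  refine le_trans ?_ (Finset.single_le_sum (f := fun ν : Chr M => ∑ ν' : Chr M,
    ∑ I' ∈ I.powerset, msup ν a (X / ZI P I') s (Zs Ps I') (cm fun p => c p * ev ν' p) / ZI P I')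
    (fun _ _ => Finset.sum_nonneg fun _ _ => Finset.sum_nonneg fun _ hI =>
      term_nonneg h hI _ _ _ _ _ _) (Finset.mem_univ ν))
  refine le_trans ?_ (Finset.single_le_sum (f := fun ν' : Chr M =>
    ∑ I' ∈ I.powerset, msup ν a (X / ZI P I') s (Zs Ps I') (cm fun p => c p * ev ν' p) / ZI P I')
    (fun _ _ => Finset.sum_nonneg fun _ hI => term_nonneg h hI _ _ _ _ _ _) (Finset.mem_univ ν'))
  exact Finset.single_le_sum (f := fun I' =>
    msup ν a (X / ZI P I') s (Zs Ps I') (cm fun p => c p * ev ν' p) / ZI P I')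
    (fun _ hI => term_nonneg h hI _ _ _ _ _ _) (Finset.mem_powerset.2 hI)

open Classical in
theorem rc_six {M : O} (hM : Adm M) (ν : Chr M) (a S n : O) :
    rc ν (a * S ^ 6) n = if IsCoprime n S then rc ν a n else 0 := by
  rw [rc_mul_row hM]
  by_cases hn : Primary n
  · split_ifs with h
    · by_cases hc : IsCoprime n M
      · rw [sym_pow_right (PO.of_adm hM hn hc), sym_pow_six hn h, map_one, mul_one]
      · rw [rc_eq_zero ν fun h3 => hc h3.of_mul_right_left, zero_mul]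
    · rw [(sym_eq_zero_iff hn).2 fun h' => h ((IsCoprime.pow_right_iff (by norm_num)).1 h'),
        map_zero, mul_zero]
  · simp [rc, hn]

theorem Mob_punct {M : O} (hM : Adm M) (ν : Chr M) (a : O) {p : O} (hp : Prime p) (hp' : Primary p)
    {D : ℝ} (hD : 0 < D) (s : ℂ) :
    Mob ν a D s = Mob ν (a * p ^ 6) D s - rc ν a p * Mob ν (a * p ^ 6) (D / nr p) s := by
  classical
  have hp0 := nr_pos hp.ne_zero
  have hcop : ∀ n : O, IsCoprime n p ↔ ¬ p ∣ n := fun n =>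
    isCoprime_comm.trans hp.irreducible.coprime_iff_not_dvd
  set f : O → ℂ := fun n => mu n * rc ν a n * Wc (nr n / D) s with hf
  have hs : Summable f := (summable_Sm (polyB_mu_rc hM ν a) hD s).of_norm
  have h1 : Mob ν (a * p ^ 6) D s = ∑' n, ({n | p ∣ n}ᶜ : Set O).indicator f n := by
    refine tsum_congr fun n => ?_
    rw [rc_six hM]
    by_cases h : p ∣ n
    · rw [if_neg fun h' => (hcop n).1 h' h, Set.indicator_of_notMem (by simpa using h)]
      simp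
    · rw [if_pos ((hcop n).2 h), Set.indicator_of_mem (by simpa using h)]
  have h2 : -(rc ν a p * Mob ν (a * p ^ 6) (D / nr p) s) =
      ∑' n, ({n | p ∣ n} : Set O).indicator f n := by
    have hinj : Function.Injective fun m : O => p * m := mul_right_injective₀ hp.ne_zero
    rw [← hinj.tsum_eq (f := fun n => ({n | p ∣ n} : Set O).indicator f n) fun n hn => by
      by_contra h
      have h' : n ∉ ({n | p ∣ n} : Set O) := fun (hm : p ∣ n) => h ⟨_, hm.choose_spec.symm⟩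
      exact hn (Set.indicator_of_notMem h' _)]
    rw [Mob, ← tsum_mul_left, ← tsum_neg]
    refine tsum_congr fun m => ?_
    rw [Set.indicator_of_mem (show p * m ∈ ({n | p ∣ n} : Set O) from Dvd.intro m rfl), hf,
      rc_six hM]
    simp only
    have e : nr m / (D / nr p) = nr (p * m) / D := by
      rw [nr_mul]
      field_simp
    rw [e]
    by_cases hm : Primary m
    · by_cases h : IsCoprime m p
      · rw [if_pos h, mu_mul hp' hm h.symm, mu_prime hp hp', rc_mul ν a hp' hm]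
        ring
      · rw [if_neg h, mu_mul_of_not_coprime fun h' => h h'.symm]
        simp
    · have h3 : rc ν a m = 0 := by simp [rc, hm]
      have h4 : rc ν a (p * m) = 0 := by rw [rc, if_neg fun h => hm (hp'.of_mul h)]
      simp [h3, h4]
  rw [sub_eq_add_neg, h2, h1, ← (hs.indicator _).tsum_add (hs.indicator _)]
  exact tsum_congr fun n => (Set.indicator_compl_add_self_apply _ f n).symm

theorem four_le_nr {p : O} (hp : Prime p) (hp' : Primary p) : 4 ≤ nr p := by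
  have h1 := nm_prime_mod hp hp'
  have h2 : nm p ≠ 1 := fun h => hp.not_isUnit (BasicA.isUnit_of_nm h)
  have h3 : 4 ≤ nm p := by omega
  exact_mod_cast h3

/-- The absorption `m ≤ K + m / 2`. -/
theorem absorb {f : ℝ → ℝ} {Dm K B q : ℝ} (hK : 0 ≤ K) (hB : 0 ≤ B) (hq : 4 ≤ q)
    (h0 : ∀ D, 0 < D → D ≤ Dm → f D ≤ B * √D)
    (h1 : ∀ D, 0 < D → D ≤ Dm → f D ≤ K * √D + f (D / q)) {D : ℝ} (hD : 0 < D) (hDm : D ≤ Dm) :
    f D ≤ 2 * K * √D := by
  have key : ∀ k : ℕ, ∀ D, 0 < D → D ≤ Dm → f D ≤ (2 * K + B * (1 / 2) ^ k) * √D := by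
    intro k
    induction k with
    | zero =>
      intro D hD hDm
      refine (h0 D hD hDm).trans ?_
      have := Real.sqrt_nonneg D
      rw [pow_zero]
      nlinarith
    | succ k ih =>
      intro D hD hDm
      have hq0 : 0 < q := by linarith
      have h2 : D / q ≤ D := div_le_self hD.le (by linarith)
      have h3 : √(D / q) ≤ √D / 2 := by
        rw [show √D / 2 = √(D / 4) by
          rw [Real.sqrt_div hD.le, show (4 : ℝ) = 2 ^ 2 by norm_num, Real.sqrt_sq (by norm_num)]]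
        exact Real.sqrt_le_sqrt (div_le_div_of_nonneg_left hD.le (by norm_num) hq)
      have h4 := ih (D / q) (div_pos hD hq0) (h2.trans hDm)
      have h5 : (2 * K + B * (1 / 2) ^ k) * √(D / q) ≤ (2 * K + B * (1 / 2) ^ k) * (√D / 2) :=
        mul_le_mul_of_nonneg_left h3 (by positivity)
      refine (h1 D hD hDm).trans ?_
      rw [pow_succ]
      linarith
  have ht : Filter.Tendsto (fun k : ℕ => (2 * K + B * (1 / 2 : ℝ) ^ k) * √D) Filter.atTop
      (nhds ((2 * K + B * 0) * √D)) :=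
    ((tendsto_pow_atTop_nhds_zero_of_lt_one (by norm_num) (by norm_num)).const_mul B
      |>.const_add (2 * K)).mul_const _
  have := ge_of_tendsto' ht fun k => key k D hD hDm
  simpa using this

/-- The punctured sum with the unchanged outer coefficients. -/
def N {M : O} (ν : Chr M) (a S : O) (s : ℂ) (Z : Finset O) (c : O → ℂ) (D : ℝ) : ℂ :=
  ∑ z ∈ Z, c z * conj (sym z a) * Mob ν (a * S ^ 6 * z ^ 6) D s

theorem N_step {M : O} (hM : Adm M) (ν : Chr M) (a S : O) {p : O} (hp : Prime p) (hp' : Primary p)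
    (s : ℂ) {Z : Finset O} {c : O → ℂ} (h : ∀ z ∈ Z, c z ≠ 0 → ¬ p ∣ a → ¬ p ∣ z) {D : ℝ}
    (hD : 0 < D) : N ν a (p * S) s Z c D =
      N ν a S s Z c D + rc ν (a * S ^ 6) p * N ν a (p * S) s Z c (D / nr p) := by
  unfold N
  rw [Finset.mul_sum, ← Finset.sum_add_distrib]
  refine Finset.sum_congr rfl fun z hz => ?_
  by_cases hc : c z = 0
  · simp [hc]
  have e : a * (p * S) ^ 6 * z ^ 6 = a * S ^ 6 * z ^ 6 * p ^ 6 := by ring
  have e2 : rc ν (a * S ^ 6 * z ^ 6) p = rc ν (a * S ^ 6) p := by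
    rw [rc_six hM ν (a * S ^ 6)]
    split_ifs with h1
    · rfl
    · have h2 : p ∣ a := by
        by_contra h2
        exact h1 (hp.irreducible.coprime_iff_not_dvd.2 (h z hz hc h2))
      exact (rc_eq_zero ν fun h3 => hp.irreducible.coprime_iff_not_dvd.1 h3
        ((h2.mul_right _).mul_left _)).symm
  rw [Mob_punct hM ν (a * S ^ 6 * z ^ 6) hp hp' hD s, e, e2]
  ring

theorem N_le {M : O} (hM : Adm M) (ν : Chr M) (a : O) {S : O} (hS : Primary S) {Dm : ℝ}
    (s : ℂ) {Z : Finset O} {c : O → ℂ} (hc : ∀ z, ‖c z‖ ≤ 1) :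
    (∀ z ∈ Z, c z ≠ 0 → ∀ p ∈ pf S, ¬ p ∣ a → ¬ p ∣ z) → ∀ D, 0 < D → D ≤ Dm →
      ‖N ν a S s Z c D‖ ≤ 2 ^ (pf S).card * √(msup ν a Dm s Z c) * √D := by
  classical
  refine Primary.induction (P := fun S => (∀ z ∈ Z, c z ≠ 0 → ∀ p ∈ pf S, ¬ p ∣ a → ¬ p ∣ z) →
    ∀ D, 0 < D → D ≤ Dm →
      ‖N ν a S s Z c D‖ ≤ 2 ^ (pf S).card * √(msup ν a Dm s Z c) * √D) ?_ ?_ hS
  · intro _ D hD hDm
    have e : N ν a 1 s Z c D = MQ ν a D s Z c := by simp [N, MQ]
    rw [e, BasicB.pf_unit isUnit_one, Finset.card_empty, pow_zero, one_mul,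
      ← Real.sqrt_mul (msup_nonneg _ _ _ _ _ _)]
    exact Real.le_sqrt_of_sq_le (sq_MQ_le_msup hM ν a s Z hc hD hDm)
  · intro p S hp hp' hS ih h D hD hDm
    have epf : pf (p * S) = insert p (pf S) := by
      rw [pf_mul hp.ne_zero hS.ne_zero, pf_prime hp hp', Finset.insert_eq]
    rw [epf] at h ⊢
    have ih' := ih fun z hz hcz q hq => h z hz hcz q (Finset.mem_insert_of_mem hq)
    have hst := fun (D : ℝ) (hD : 0 < D) => N_step hM ν a S hp hp' s
      (fun z hz hcz => h z hz hcz p (Finset.mem_insert_self _ _)) hD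
    by_cases hpS : p ∈ pf S
    · rw [Finset.insert_eq_of_mem hpS, hst D hD, rc_eq_zero ν fun h3 =>
        hp.irreducible.coprime_iff_not_dvd.1 h3 (((dvd_pow (BasicB.of_mem_pf hpS).2.2
          (by norm_num)).mul_left _).mul_left _), zero_mul, add_zero]
      exact ih' D hD hDm
    · obtain ⟨C, hC, h1⟩ := norm_sum_le' hM |s.re|
      rw [Finset.card_insert_of_notMem hpS, pow_succ, mul_comm _ (2 : ℝ), mul_assoc 2]
      refine absorb (f := fun D => ‖N ν a (p * S) s Z c D‖) (B := C * Z.card * √Dm)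
        (by positivity) (by positivity) (four_le_nr hp hp') (fun D hD hDm => ?_)
        (fun D hD hDm => ?_) hD hDm
      · refine (h1 ν a (fun z => a * (p * S) ^ 6 * z ^ 6) D s Z c hc hD le_rfl).trans ?_
        rw [mul_assoc _ (√Dm)]
        refine mul_le_mul_of_nonneg_left ?_ (by positivity)
        calc D = √D * √D := (Real.mul_self_sqrt hD.le).symm
          _ ≤ _ := mul_le_mul_of_nonneg_right (Real.sqrt_le_sqrt hDm) (Real.sqrt_nonneg _)
      · rw [hst D hD]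
        refine (norm_add_le _ _).trans (add_le_add (ih' D hD hDm) ?_)
        rw [norm_mul]
        exact mul_le_of_le_one_left (norm_nonneg _) (norm_rc_le hM ν _ _)

theorem MQ_punct {M : O} (hM : Adm M) (ν : Chr M) (a : O) {S : O} (hS : Primary S) {D Dm Zm : ℝ}
    (s : ℂ) {Z : Finset O} (hZ : Marks M Z Zm) {c : O → ℂ} (hc : ∀ z, ‖c z‖ ≤ 1)
    (h : ∀ z ∈ Z, c z ≠ 0 → ∀ p ∈ pf S, ¬ p ∣ a → ¬ p ∣ z) (hD : 0 < D) (hDm : D ≤ Dm) :
    ‖MQ ν (a * S ^ 6) D s Z c‖ ^ 2 ≤ 4 ^ (pf S).card * msup ν a Dm s Z c * D := by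
  have e : MQ ν (a * S ^ 6) D s Z c = N ν a S s Z c D := by
    refine Finset.sum_congr rfl fun z hz => ?_
    obtain ⟨⟨h1, -, h2⟩, -⟩ := hZ z hz
    have hpo := PO.of_adm hM h1 h2
    by_cases hcz : c z = 0
    · simp [hcz]
    by_cases ha : IsCoprime z a
    · have h3 : IsCoprime z S := by
        refine (isCoprime_of_disjoint_pf hS h1.ne_zero
          (Finset.disjoint_left.2 fun p hp hp' => ?_)).symm
        obtain ⟨h4, -, h5⟩ := BasicB.of_mem_pf hp'
        exact h z hz hcz p hp (fun h6 => h4.not_isUnit (ha.isUnit_of_dvd' h5 h6)) h5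
      rw [sym_mul_right hpo, sym_pow_right hpo, sym_pow_six h1 h3, mul_one]
    · rw [sym_mul_right hpo, (sym_eq_zero_iff h1).2 ha]
      simp
  rw [e]
  refine (pow_le_pow_left₀ (norm_nonneg _) (N_le hM ν a hS s hc h D hD hDm) 2).trans_eq ?_
  rw [mul_pow, mul_pow, Real.sq_sqrt (msup_nonneg _ _ _ _ _ _), Real.sq_sqrt hD.le, ← pow_mul,
    mul_comm _ 2, pow_mul]
  norm_num

end Crest.Agent.R17.T2SA
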