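import Crest.Agent.R17.T2Al
import Crest.Agent.R17.T2SupAuxA

/-!
# Row 17, module T2: the maximal function, punctures, the leaf, the mean value of `Psi`
-/

set_option autoImplicit false

noncomputable section

namespace Crest.Agent.R17

open scoped ComplexConjugate

/-- Trivial bound (`tsum_norm_Sm_le`, `Marks.card_le`). -/
theorem norm_MQ_le {M : O} (hM : Adm M) : ∃ C : ℝ, 0 < C ∧
    ∀ (ν : Chr M) (a : O) (D Zm : ℝ) (s : ℂ) (Z : Finset O) (c : O → ℂ), Marks M Z Zm →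
      (∀ z, ‖c z‖ ≤ 1) → 0 < D → 0 ≤ Zm → |s.re| ≤ 3 → ‖MQ ν a D s Z c‖ ≤ C * Zm * D :=
  T2SA.norm_MQ_le hM

/-- `MQ` is a smooth sum. -/
theorem MQ_eq_Sm {M : O} (hM : Adm M) (ν : Chr M) (a : O) (Z : Finset O) (c : O → ℂ)
    (hc : ∀ z, ‖c z‖ ≤ 1) : ∃ b : O → ℂ, PolyB b Z.card 0 ∧
      ∀ (D : ℝ) (s : ℂ), 0 < D → MQ ν a D s Z c = Sm b D s :=
  T2SA.MQ_eq_Sm hM ν a Z c hc

theorem msup_nonneg {M : O} (ν : Chr M) (a : O) (Dm : ℝ) (s : ℂ) (Z : Finset O) (c : O → ℂ) :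
    0 ≤ msup ν a Dm s Z c :=
  T2SA.msup_nonneg ν a Dm s Z c

theorem sq_MQ_le_msup {M : O} (hM : Adm M) (ν : Chr M) (a : O) {D Dm : ℝ} (s : ℂ) (Z : Finset O)
    {c : O → ℂ} (hc : ∀ z, ‖c z‖ ≤ 1) (hD : 0 < D) (h : D ≤ Dm) :
    ‖MQ ν a D s Z c‖ ^ 2 ≤ msup ν a Dm s Z c * D :=
  T2SA.sq_MQ_le_msup hM ν a s Z hc hD h

theorem Psi_nonneg (M : O) [Fintype (Chr M)] {Ps : ℕ → Finset O} {P : ℕ → ℝ} {I : Finset ℕ}
    (h : Slots M Ps P I) (c : O → ℂ) (s : ℂ) (X : ℝ) (a : O) : 0 ≤ Psi M Ps P I c s X a :=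
  T2SA.Psi_nonneg M h c s X a

theorem msup_le_Psi {M : O} [Fintype (Chr M)] {Ps : ℕ → Finset O} {P : ℕ → ℝ} {I I' : Finset ℕ}
    (h : Slots M Ps P I) (hI : I' ⊆ I) (ν ν' : Chr M) (c : O → ℂ) (s : ℂ) (X : ℝ) (a : O) :
    msup ν a (X / ZI P I') s (Zs Ps I') (cm fun p => c p * ev ν' p) ≤
      ZI P I' * Psi M Ps P I c s X a :=
  T2SA.msup_le_Psi h hI ν ν' c s X a

/-- One puncture. -/
theorem Mob_punct {M : O} (hM : Adm M) (ν : Chr M) (a : O) {p : O} (hp : Prime p) (hp' : Primary p)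
    {D : ℝ} (hD : 0 < D) (s : ℂ) :
    Mob ν a D s = Mob ν (a * p ^ 6) D s - rc ν a p * Mob ν (a * p ^ 6) (D / nr p) s :=
  T2SA.Mob_punct hM ν a hp hp' hD s

/-- **Removal of a puncture.**  With `N_S(D) = ∑_z c(z) conj χ_z(a) Mob ν (a S⁶ z⁶) D s` and
`m(S) = sup_{D ≤ Dm} |N_S(D)| / √D < ∞`, `Mob_punct` gives `N_{Sp}(D) = N_S(D) + rc(p) N_{Sp}(D/N p)`
(if `p ∣ a` nothing changes), so `m(S p) ≤ m(S) + m(S p) / 2` since `N p ≥ 4`.  Induction on `S`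
(`Primary.induction`; a repeated prime changes nothing). -/
theorem MQ_punct {M : O} (hM : Adm M) (ν : Chr M) (a : O) {S : O} (hS : Primary S) {D Dm Zm : ℝ}
    (s : ℂ) {Z : Finset O} (hZ : Marks M Z Zm) {c : O → ℂ} (hc : ∀ z, ‖c z‖ ≤ 1)
    (h : ∀ z ∈ Z, c z ≠ 0 → ∀ p ∈ pf S, ¬ p ∣ a → ¬ p ∣ z) (hD : 0 < D) (hDm : D ≤ Dm) :
    ‖MQ ν (a * S ^ 6) D s Z c‖ ^ 2 ≤ 4 ^ (pf S).card * msup ν a Dm s Z c * D :=
  T2SA.MQ_punct hM ν a hS s hZ hc h hD hDm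

/-- **Leaf**: `trivial_sieve` with `L = max 1 (D Λ Zm)`, `Λ = R^{ε'}`, `al_trunc`, `nsq_le`. -/
theorem im_leaf {M : O} (hM : Adm M) {ε : ℝ} (hε : 0 < ε) : ∃ C : ℝ, 0 < C ∧
    ∀ (R A D Zm τ : ℝ) (ν : Chr M) (Z : Finset O) (c : O → ℂ), Marks M Z Zm → (∀ z, ‖c z‖ ≤ 1) →
      1 ≤ A → A ≤ R → 0 < D → 1 ≤ Zm → (D * Zm) ^ 2 ≤ A →
      ∑ a ∈ rows A, ‖MQ ν a D (τ * Complex.I) Z c‖ ^ 2 ≤ C * R ^ ε * (A * D * Zm) := by
  set δ : ℝ := min (ε / 9) 1 with hδ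
  have hδ0 : 0 < δ := lt_min (by positivity) one_pos
  have hδ1 : δ ≤ 1 := min_le_right _ _
  have hδε : 9 * δ ≤ ε := by have := min_le_left (ε / 9) 1; linarith
  obtain ⟨C₁, hC₁, h₁⟩ := trivial_sieve hM hδ0
  obtain ⟨C₂, hC₂, h₂⟩ := al_trunc hM δ⁻¹
  obtain ⟨C₃, hC₃, h₃⟩ := norm_al_le hM hδ0
  refine ⟨28 * C₁ * C₃ ^ 2 + 14 * C₂ ^ 2, by positivity,
    fun R A D Zm τ ν Z c hZ hc hA hAR hD hZm hx => ?_⟩
  have hR : 1 ≤ R := hA.trans hAR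
  have hR0 : 0 < R := by linarith
  have hA0 : 0 < A := by linarith
  set u : ℝ := R ^ δ with hu
  have hu1 : 1 ≤ u := Real.one_le_rpow hR hδ0.le
  have huR : u ≤ R := by
    have := Real.rpow_le_rpow_of_exponent_le hR hδ1
    rwa [Real.rpow_one] at this
  have hu9 : u ^ 9 ≤ R ^ ε := by
    rw [hu, ← Real.rpow_natCast, ← Real.rpow_mul hR0.le]
    exact Real.rpow_le_rpow_of_exponent_le hR (by push_cast; linarith)
  have hq1 : 1 ≤ Real.sqrt A := Real.one_le_sqrt.2 hA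
  have hqq : Real.sqrt A ^ 2 = A := Real.sq_sqrt hA0.le
  have hqR : Real.sqrt A ≤ R := by nlinarith
  have hxq : D * Zm ≤ Real.sqrt A := Real.le_sqrt_of_sq_le hx
  set L : ℝ := Real.sqrt A * u with hL
  have hL1 : 1 ≤ L := one_le_mul_of_one_le_of_one_le hq1 hu1
  have hL0 : 0 < L := by linarith
  have hDL : D * u * Zm ≤ L := by
    rw [mul_right_comm]; exact mul_le_mul_of_nonneg_right hxq (by linarith)
  have hLδ : L ^ δ ≤ u ^ 2 := by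
    calc L ^ δ ≤ (R * R) ^ δ :=
          Real.rpow_le_rpow hL0.le (mul_le_mul hqR huR (by linarith) hR0.le) hδ0.le
      _ = u ^ 2 := by rw [Real.mul_rpow hR0.le hR0.le, sq]
  have hre : |((τ : ℂ) * Complex.I).re| ≤ 3 := by simp
  set α := al ν D u (τ * Complex.I) Z c with hα
  have e1 : nsq M L α ≤ 7 * (D * u * Zm) * (C₃ * u ^ 2) ^ 2 := by
    refine nsq_le (by positivity) (fun n hn => ?_) fun n _ hn => al_supp hZ hn
    obtain ⟨h4, h5⟩ := (LS2.mem_sp hL0.le).1 hn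
    refine (h₃ ν D u Zm _ Z c n hZ hc hre h4.1.ne_zero).trans ?_
    refine mul_le_mul_of_nonneg_left (le_trans ?_ hLδ) hC₃.le
    gcongr
  have e2 : A + L ^ (2 + δ) ≤ 2 * A * u ^ 4 := by
    rw [Real.rpow_add hL0, Real.rpow_two]
    have h4 : L ^ 2 * L ^ δ ≤ A * u ^ 4 := by
      calc L ^ 2 * L ^ δ ≤ L ^ 2 * u ^ 2 := by gcongr
        _ = A * u ^ 4 := by rw [hL, mul_pow, hqq]; ring
    have h5 : A ≤ A * u ^ 4 := le_mul_of_one_le_right hA0.le (one_le_pow₀ hu1)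
    linarith
  have e3 : ∑ a ∈ rows A, ‖Sr M L α a‖ ^ 2 ≤ 14 * C₁ * C₃ ^ 2 * R ^ ε * (A * D * Zm) := by
    have hn := B1.nsq_nonneg M L α
    calc _ ≤ C₁ * (A + L ^ (2 + δ)) * nsq M L α := h₁ A L α hA0.le hL1
      _ ≤ C₁ * (2 * A * u ^ 4) * (7 * (D * u * Zm) * (C₃ * u ^ 2) ^ 2) := by gcongr
      _ = 14 * C₁ * C₃ ^ 2 * u ^ 9 * (A * D * Zm) := by ring
      _ ≤ _ := by gcongr
  have e4 : ∀ a ∈ rows A, ‖MQ ν a D (τ * Complex.I) Z c‖ ^ 2 ≤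
      2 * ‖Sr M L α a‖ ^ 2 + 2 * (C₂ ^ 2 * (D * Zm)) := by
    intro a _
    have h4 := h₂ ν a D u L Zm _ Z c hZ hc hD hu1 (by linarith) hre hDL
    have h5 : u ^ (-δ⁻¹) = R⁻¹ := by
      rw [hu, ← Real.rpow_mul hR0.le, mul_neg, mul_inv_cancel₀ hδ0.ne', Real.rpow_neg_one]
    rw [h5, ← hα] at h4
    have h6 : ‖Sr M L α a - MQ ν a D (τ * Complex.I) Z c‖ ^ 2 ≤ C₂ ^ 2 * (D * Zm) := by
      have h7 : D * Zm * R⁻¹ ≤ 1 := by
        rw [← div_eq_mul_inv, div_le_one hR0]; linarith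
      have h8 : R⁻¹ ≤ 1 := inv_le_one_of_one_le₀ hR
      calc _ ≤ (C₂ * Zm * D * R⁻¹) ^ 2 := by gcongr
        _ = C₂ ^ 2 * (D * Zm) * (D * Zm * R⁻¹) * R⁻¹ := by ring
        _ ≤ C₂ ^ 2 * (D * Zm) * 1 * 1 := by gcongr
        _ = _ := by ring
    have h9 : ‖MQ ν a D (τ * Complex.I) Z c‖ ≤
        ‖Sr M L α a‖ + ‖Sr M L α a - MQ ν a D (τ * Complex.I) Z c‖ := by
      have := norm_sub_le (Sr M L α a) (Sr M L α a - MQ ν a D (τ * Complex.I) Z c)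
      rwa [sub_sub_cancel] at this
    have h10 := pow_le_pow_left₀ (norm_nonneg _) h9 2
    nlinarith [sq_nonneg (‖Sr M L α a‖ - ‖Sr M L α a - MQ ν a D (τ * Complex.I) Z c‖)]
  refine (Finset.sum_le_sum e4).trans ?_
  rw [Finset.sum_add_distrib, ← Finset.mul_sum, Finset.sum_const, nsmul_eq_mul]
  have e5 : ((rows A).card : ℝ) * (2 * (C₂ ^ 2 * (D * Zm))) ≤
      14 * C₂ ^ 2 * R ^ ε * (A * D * Zm) := by
    have h4 : 1 ≤ R ^ ε := Real.one_le_rpow hR hε.le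
    calc _ ≤ 7 * A * (2 * (C₂ ^ 2 * (D * Zm))) := by gcongr; exact card_rows_le hA0.le
      _ = 14 * C₂ ^ 2 * 1 * (A * D * Zm) := by ring
      _ ≤ _ := by gcongr
  linarith

/-- An almost extremal scale, on the imaginary axis. -/
theorem T2Sb.exists_near {M : O} (hM : Adm M) (ν : Chr M) (a : O) {Dm : ℝ} (hDm : 0 < Dm) {s : ℂ}
    (h2 : -2 ≤ s.re) (h0 : s.re ≤ 0) (Z : Finset O) {c : O → ℂ} (hc : ∀ z, ‖c z‖ ≤ 1) :
    ∃ y : ℝ, 0 < y ∧ y ≤ Dm ∧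
      msup ν a Dm s Z c ≤ 2 * Real.exp 2 * (‖MQ ν a y (s.im * Complex.I) Z c‖ ^ 2 / y) := by
  rcases (msup_nonneg ν a Dm s Z c).eq_or_lt with h | h
  · exact ⟨Dm, hDm, le_rfl, h ▸ by positivity⟩
  obtain ⟨x, ⟨D, hD, hDD, rfl⟩, hx⟩ := exists_lt_of_lt_csSup
    (s := {x | ∃ D : ℝ, 0 < D ∧ D ≤ Dm ∧ x = ‖MQ ν a D s Z c‖ ^ 2 / D}) (b := msup ν a Dm s Z c / 2)
    ⟨_, Dm, hDm, le_rfl, rfl⟩ (half_lt_self h)
  obtain ⟨b, hb, hS⟩ := MQ_eq_Sm hM ν a Z c hc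
  have hy : 0 < D * Real.exp (s.re / 2) := by positivity
  have hyD : D * Real.exp (s.re / 2) ≤ D :=
    mul_le_of_le_one_right hD.le (Real.exp_le_one_iff.2 (by linarith))
  refine ⟨_, hy, hyD.trans hDD, ?_⟩
  rw [hS _ _ hD, WeightB.norm_Sm_eq b hb.1 hD, ← hS _ _ hy] at hx
  have h3 : Real.exp (s.re ^ 2 / 4) ^ 2 ≤ Real.exp 2 := by
    rw [← Real.exp_nat_mul]
    exact Real.exp_le_exp.2 (by push_cast; nlinarith)
  have h4 : (Real.exp (s.re ^ 2 / 4) *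
      ‖MQ ν a (D * Real.exp (s.re / 2)) (s.im * Complex.I) Z c‖) ^ 2 / D ≤ Real.exp 2 *
      (‖MQ ν a (D * Real.exp (s.re / 2)) (s.im * Complex.I) Z c‖ ^ 2 /
        (D * Real.exp (s.re / 2))) := by
    rw [mul_pow, mul_div_assoc]
    gcongr
  linarith

/-- Mean value of the maximal function. -/
theorem T2Sb.sum_msup {M : O} (hM : Adm M) {ε : ℝ} (hε : 0 < ε) : ∃ C : ℝ, 0 < C ∧
    ∀ (ν : Chr M) (R A Dm Zm E : ℝ) (s : ℂ) (Z : Finset O) (c : O → ℂ), Marks M Z Zm →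
      (∀ z, ‖c z‖ ≤ 1) → 1 ≤ A → 1 ≤ R → 0 < Dm → Dm ≤ R → 0 ≤ Zm → Zm ≤ R → 0 ≤ E →
      -2 ≤ s.re → s.re ≤ 0 →
      (∀ D τ : ℝ, 0 < D → D ≤ 8 * Dm → |τ| ≤ |s.im| + 3 →
        ∑ a ∈ rows A, ‖MQ ν a D (τ * Complex.I) Z c‖ ^ 2 ≤ E * D) →
      ∑ a ∈ rows A, msup ν a Dm s Z c ≤ C * (A * Zm + R ^ ε * (1 + |s.im|) ^ 5 * E) := by
  classical
  obtain ⟨K, hK, hd⟩ := M4S.dyadic (half_pos hε)
  obtain ⟨C, hC, hs⟩ := sup_moment 2
  obtain ⟨C₂, hC₂, h₂⟩ := norm_MQ_le hM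
  refine ⟨2 * Real.exp 2 * (7 * C₂ ^ 2 + K * (8 * C)), by positivity,
    fun ν R A Dm Zm E s Z c hZ hc hA hR hDm hDR hZm hZR hE hs2 hs0 h => ?_⟩
  have hR0 : 0 < R := by linarith
  have hA0 : 0 < A := by linarith
  choose y hy hyD hp using fun a => T2Sb.exists_near hM ν a hDm hs2 hs0 Z hc
  choose b hb hS using fun a => MQ_eq_Sm hM ν a Z c hc
  refine (Finset.sum_le_sum fun a _ => hp a).trans ?_
  rw [← Finset.mul_sum, mul_assoc (2 * Real.exp 2)]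
  refine mul_le_mul_of_nonneg_left ?_ (by positivity)
  rw [← Finset.sum_filter_add_sum_filter_not _ fun a => R⁻¹ ≤ y a]
  have e1 : ∑ a ∈ (rows A).filter (fun a => ¬ R⁻¹ ≤ y a),
      ‖MQ ν a (y a) (s.im * Complex.I) Z c‖ ^ 2 / y a ≤ 7 * C₂ ^ 2 * (A * Zm) := by
    have h4 : ∀ a ∈ (rows A).filter (fun a => ¬ R⁻¹ ≤ y a),
        ‖MQ ν a (y a) (s.im * Complex.I) Z c‖ ^ 2 / y a ≤ C₂ ^ 2 * Zm := fun a ha => by
      have h5 := (not_le.1 (Finset.mem_filter.1 ha).2).le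
      have h6 := h₂ ν a (y a) Zm (s.im * Complex.I) Z c hZ hc (hy a) hZm (by simp)
      have h7 := hy a
      have h8 : Zm * y a ≤ 1 := by
        calc Zm * y a ≤ R * R⁻¹ := by gcongr
          _ = 1 := mul_inv_cancel₀ hR0.ne'
      rw [div_le_iff₀ h7]
      calc _ ≤ (C₂ * Zm * y a) ^ 2 := by gcongr
        _ = C₂ ^ 2 * Zm * y a * (Zm * y a) := by ring
        _ ≤ C₂ ^ 2 * Zm * y a * 1 := by gcongr
        _ = _ := mul_one _
    refine (Finset.sum_le_card_nsmul _ _ _ h4).trans ?_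
    rw [nsmul_eq_mul]
    have h5 : (((rows A).filter fun a => ¬ R⁻¹ ≤ y a).card : ℝ) ≤ 7 * A :=
      le_trans (by exact_mod_cast Finset.card_filter_le _ _) (card_rows_le hA0.le)
    calc _ ≤ 7 * A * (C₂ ^ 2 * Zm) := by gcongr
      _ = _ := by ring
  have e2 : ∑ a ∈ (rows A).filter (fun a => R⁻¹ ≤ y a),
      ‖MQ ν a (y a) (s.im * Complex.I) Z c‖ ^ 2 / y a ≤
      K * (R ^ 2) ^ (ε / 2) * (8 * C * (1 + |s.im|) ^ 5 * E) := by
    refine hd _ (fun a => y a * R) _ _ _ (one_le_pow₀ hR) (by positivity) (fun a ha => ?_)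
      (fun a _ => by have := hy a; positivity) fun X hX ⟨a₀, ha₀, hX₀⟩ => ?_
    · refine ⟨by rw [← inv_le_iff_one_le_mul₀ hR0]; exact (Finset.mem_filter.1 ha).2, ?_⟩
      rw [sq]
      exact mul_le_mul_of_nonneg_right ((hyD a).trans hDR) hR0.le
    · have hX0 : 0 < X / R := by positivity
      have hXY : X / R ≤ Dm := ((div_le_iff₀ hR0).2 hX₀).trans (hyD a₀)
      set S' := ((rows A).filter fun a => R⁻¹ ≤ y a).filter
        fun a => X ≤ y a * R ∧ y a * R ≤ 2 * X with hS'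
      have hsub : S' ⊆ rows A := (Finset.filter_subset _ _).trans (Finset.filter_subset _ _)
      have hy' : ∀ a ∈ S', y a ∈ Set.Icc (X / R) (2 * (X / R)) := fun a ha => by
        obtain ⟨h1, h2⟩ := (Finset.mem_filter.1 ha).2
        exact ⟨(div_le_iff₀ hR0).2 h1, by rw [← mul_div_assoc]; exact (le_div_iff₀ hR0).2 h2⟩
      have key := hs S' (fun _ => 1) b Z.card 0 (X / R) |s.im| (E * (8 * (X / R))) y
        (fun _ => s.im) (fun _ => zero_le_one) hb hX0 (abs_nonneg _) hy' (fun _ _ => le_rfl)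
        (fun Y' hY' t' ht' => by
          have h1 : 0 < Y' := by linarith [hY'.1]
          simp only [one_mul, ← hS _ _ _ h1]
          refine le_trans (Finset.sum_le_sum_of_subset_of_nonneg hsub fun a _ _ => by positivity)
            ((h Y' t' h1 (by linarith [hY'.2]) ht').trans ?_)
          gcongr
          exact hY'.2)
      calc ∑ a ∈ S', ‖MQ ν a (y a) (s.im * Complex.I) Z c‖ ^ 2 / y a
          ≤ ∑ a ∈ S', 1 * ‖Sm (b a) (y a) (s.im * Complex.I)‖ ^ 2 / (X / R) := by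
            refine Finset.sum_le_sum fun a ha => ?_
            rw [hS _ _ _ (hy a), one_mul]
            gcongr
            exact (hy' a ha).1
        _ ≤ C * (1 + |s.im|) ^ (2 * 2 + 1) * (E * (8 * (X / R))) / (X / R) := by
            rw [← Finset.sum_div]
            gcongr
        _ = 8 * C * (1 + |s.im|) ^ 5 * E := by
            have := hX0.ne'
            generalize X / R = z at this ⊢
            field_simp
  rw [← Real.rpow_natCast R 2, ← Real.rpow_mul hR0.le,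
    show ((2 : ℕ) : ℝ) * (ε / 2) = ε by push_cast; ring] at e2
  have e3 : 0 ≤ 7 * C₂ ^ 2 * (R ^ ε * (1 + |s.im|) ^ 5 * E) := by positivity
  have e4 : 0 ≤ K * (8 * C) * (A * Zm) := by positivity
  nlinarith

/-- **Maximal form.**  For every `(ν, ν', I')` choose almost extremal scales `D a ≤ X / ZI I'`;
scales `≤ R⁻¹` are trivial (`norm_MQ_le`), otherwise dyadic decomposition (`M4S.dyadic`),
`MQ_eq_Sm`, `norm_Sm_eq` (the real part `≤ 0` of `s` shrinks the scale) and `sup_moment` (or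
`window`); the hypotheses of `IM` hold for all scales `≤ 8 X / ZI I'`. -/
theorem IM.pb {M : O} (hM : Adm M) [Fintype (Chr M)] {J : ℕ} {l θ ε : ℝ} (h : IM M J l θ)
    (hθ : 0 ≤ θ) (hε : 0 < ε) : ∃ (C : ℝ) (J₀ : ℕ), 1 ≤ C ∧
    ∀ (R A Xm : ℝ) (Ps : ℕ → Finset O) (P : ℕ → ℝ) (I : Finset ℕ), Slots M Ps P I → Dy Ps P I →
      I.card ≤ J → A ≤ R → ZI P I ≤ R → Xm ≤ R ^ l →
      PB M A Xm (C * R ^ (θ + ε)) J₀ Ps P I := by
  classical
  obtain ⟨C, J₀, hC, h⟩ := h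
  obtain ⟨C₁, hC₁, h₁⟩ := T2Sb.sum_msup hM hε
  set N : ℝ := (Fintype.card (Chr M) : ℝ) with hN
  have hN0 : 0 ≤ N := by positivity
  refine ⟨1 + N * (N * (2 ^ J * (C₁ * (1 + C * 4 ^ J₀)))), J₀ + 5,
    le_add_of_nonneg_right (by positivity),
    fun R A₀ Xm Ps P I hS hD hI hAR hZR hXm A X c s hc hA hA₀ hs2 hs0 hX hX8 hXZ hXZ' => ?_⟩
  have hR : 1 ≤ R := hA.trans (hA₀.trans hAR)
  have hR0 : 0 < R := by linarith
  have hA0 : 0 < A := by linarith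
  have hZ1 := hS.one_le_ZI
  have hT : 1 ≤ 1 + |s.im| := le_add_of_nonneg_right (abs_nonneg _)
  set F : ℝ := R ^ (θ + ε) * (1 + |s.im|) ^ (J₀ + 5) * A with hF
  have hF0 : 0 ≤ F := by positivity
  have key : ∀ (ν ν' : Chr M), ∀ I' ∈ I.powerset, ∑ a ∈ rows A,
      msup ν a (X / ZI P I') s (Zs Ps I') (cm fun p => c p * ev ν' p) / ZI P I' ≤
        C₁ * (1 + C * 4 ^ J₀) * F := by
    intro ν ν' I' hI'
    have hsub := Finset.mem_powerset.1 hI'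
    have hS' := hS.mono hsub
    have h1 := hS'.one_le_ZI
    have h2 := hS.ZI_mono hsub
    have h0 : 0 < ZI P I' := by linarith
    have hc' : ∀ p, ‖c p * ev ν' p‖ ≤ 1 := fun p => by
      rw [norm_mul]
      exact mul_le_one₀ (hc p) (norm_nonneg _) (norm_ev_le hM.1 ν' p)
    have hXR : X / ZI P I' ≤ R := by
      have : X / ZI P I' ≤ X := div_le_self hX.le h1
      nlinarith
    have h3 := h₁ ν R A (X / ZI P I') (ZI P I')
      (C * R ^ θ * (4 * (1 + |s.im|)) ^ J₀ * (A * ZI P I')) s (Zs Ps I')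
      (cm fun p => c p * ev ν' p) hS'.marks (norm_cm_le hc') hA hR (by positivity) hXR h0.le
      (h2.trans hZR) (by positivity) hs2 hs0 fun D τ hD0 hD8 hτ => by
        have h4 : D * ZI P I' ≤ 8 * X := by
          rw [← le_div_iff₀ h0, mul_div_assoc]; exact hD8
        refine (h R A D τ ν Ps P I' _ hS' (hD.mono hsub) ((Finset.card_le_card hsub).trans hI) hc'
          hA (hA₀.trans hAR) (h2.trans hZR) hD0 (h4.trans (hX8.trans hXm)) ?_ ?_).trans ?_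
        · calc D * ZI P I' ^ 2 = D * ZI P I' * ZI P I' := by ring
            _ ≤ 8 * X * ZI P I := by gcongr
            _ ≤ A := hXZ
        · calc D ^ 2 * ZI P I' ^ 9 = (D * ZI P I') ^ 2 * ZI P I' ^ 7 := by ring
            _ ≤ (8 * X) ^ 2 * ZI P I ^ 7 := by gcongr
            _ ≤ A ^ 3 := hXZ'
        · calc C * R ^ θ * (1 + |τ|) ^ J₀ * (A * D * ZI P I')
              ≤ C * R ^ θ * (4 * (1 + |s.im|)) ^ J₀ * (A * D * ZI P I') := by
                gcongr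
                linarith [abs_nonneg s.im]
            _ = _ := by ring
    rw [← Finset.sum_div, div_le_iff₀ h0]
    refine h3.trans ?_
    have h5 : A ≤ F := by
      have h6 : 1 ≤ R ^ (θ + ε) := Real.one_le_rpow hR (by linarith)
      have h7 : 1 ≤ (1 + |s.im|) ^ (J₀ + 5) := one_le_pow₀ hT
      exact le_mul_of_one_le_left hA0.le (one_le_mul_of_one_le_of_one_le h6 h7)
    have h6 : R ^ ε * (1 + |s.im|) ^ 5 * (C * R ^ θ * (4 * (1 + |s.im|)) ^ J₀ * (A * ZI P I')) =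
        C * 4 ^ J₀ * F * ZI P I' := by
      rw [hF, Real.rpow_add hR0, mul_pow]; ring
    rw [h6, mul_assoc C₁, mul_assoc C₁]
    refine mul_le_mul_of_nonneg_left ?_ hC₁.le
    have h7 : A * ZI P I' ≤ F * ZI P I' := by gcongr
    linarith
  unfold Psi
  rw [Finset.sum_comm]
  have hcard : (I.powerset.card : ℝ) ≤ 2 ^ J := by
    rw [Finset.card_powerset]
    push_cast
    exact pow_le_pow_right₀ one_le_two hI
  refine (Finset.sum_le_card_nsmul _ _ (N * (2 ^ J * (C₁ * (1 + C * 4 ^ J₀) * F)))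
    fun ν _ => ?_).trans ?_
  · rw [Finset.sum_comm]
    refine (Finset.sum_le_card_nsmul _ _ (2 ^ J * (C₁ * (1 + C * 4 ^ J₀) * F))
      fun ν' _ => ?_).trans_eq (by rw [nsmul_eq_mul, Finset.card_univ])
    rw [Finset.sum_comm]
    refine (Finset.sum_le_card_nsmul _ _ _ (key ν ν')).trans ?_
    rw [nsmul_eq_mul]
    gcongr
  · rw [nsmul_eq_mul, Finset.card_univ, ← hN]
    calc _ = N * (N * (2 ^ J * (C₁ * (1 + C * 4 ^ J₀)))) * F := by ring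
      _ ≤ (1 + N * (N * (2 ^ J * (C₁ * (1 + C * 4 ^ J₀))))) * F := by
          gcongr
          linarith
      _ = _ := by rw [hF]; ring

end Crest.Agent.R17
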