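import Crest.Agent.R17.LBasicAuxA

/-!
# Row 17, theta module E, auxiliary file (part E1): density of the primary elements, mean value of
`φ(n) / N(n)` and its Abelian consequence.
-/

set_option autoImplicit false

noncomputable section

namespace Crest.Agent.R17.TAE1

open scoped Topology
open MeasureTheory Filter

/-- The norm form on `ℝ²`. -/
def F (x : Fin 2 → ℝ) : ℝ := x 0 ^ 2 - x 0 * x 1 + x 1 ^ 2

theorem continuous_F : Continuous F := by unfold F; fun_prop

theorem F_smul (x : Fin 2 → ℝ) (r : ℝ) : F (r • x) = r ^ 2 * F x := by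
  simp only [F, Pi.smul_apply, smul_eq_mul]; ring

theorem convex_F : Convex ℝ {x : Fin 2 → ℝ | x ∈ Set.univ ∧ F x ≤ 1} := by
  intro x hx y hy a b ha hb hab
  refine ⟨trivial, ?_⟩
  have h1 := hx.2
  have h2 := hy.2
  simp only [F, Pi.add_apply, Pi.smul_apply, smul_eq_mul] at h1 h2 ⊢
  obtain rfl : b = 1 - a := by linarith
  have h3 : 0 ≤ (x 0 - y 0) ^ 2 - (x 0 - y 0) * (x 1 - y 1) + (x 1 - y 1) ^ 2 := by
    nlinarith [sq_nonneg (2 * (x 0 - y 0) - (x 1 - y 1)), sq_nonneg (x 1 - y 1)]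
  nlinarith [mul_nonneg (mul_nonneg ha hb) h3, mul_le_mul_of_nonneg_left h1 ha,
    mul_le_mul_of_nonneg_left h2 hb]

theorem bounded_F : Bornology.IsBounded {x : Fin 2 → ℝ | x ∈ Set.univ ∧ F x ≤ 1} := by
  refine (Metric.isBounded_closedBall (x := (0 : Fin 2 → ℝ)) (r := 2)).subset fun x hx => ?_
  have h1 := hx.2
  simp only [F] at h1
  rw [mem_closedBall_zero_iff, pi_norm_le_iff_of_nonneg (by norm_num)]
  intro i
  rw [Real.norm_eq_abs, abs_le]
  fin_cases i
  · simp only [Fin.zero_eta]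
    constructor <;> nlinarith [sq_nonneg (x 0 - 2 * x 1)]
  · simp only [Fin.mk_one]
    constructor <;> nlinarith [sq_nonneg (2 * x 0 - x 1)]

theorem volume_F_pos : 0 < volume.real {x : Fin 2 → ℝ | x ∈ Set.univ ∧ F x ≤ 1} := by
  refine ENNReal.toReal_pos (ne_of_gt ?_) bounded_F.measure_lt_top.ne
  have h : IsOpen {x : Fin 2 → ℝ | F x < 1} := isOpen_lt continuous_F continuous_const
  refine lt_of_lt_of_le (h.measure_pos volume ⟨0, ?_⟩) (measure_mono fun x hx => ⟨trivial, le_of_lt hx⟩)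
  simp [F]

/-- The standard lattice. -/
abbrev L : Submodule ℤ (Fin 2 → ℝ) := Submodule.span ℤ (Set.range (Pi.basisFun ℝ (Fin 2)))

/-- Coordinates. -/
def co (z : O) : Fin 2 → ℝ := ![(z.re : ℝ), (z.im : ℝ)]

theorem co_inj : Function.Injective co := by
  intro z w h
  have h0 := congrFun h 0
  have h1 := congrFun h 1
  simp only [co, Matrix.cons_val_zero, Matrix.cons_val_one, Int.cast_inj] at h0 h1
  ext <;> assumption

theorem F_co (z : O) : F (co z) = nr z := by
  have h : ((nm z : ℤ) : ℝ) = ((z.re ^ 2 - z.re * z.im + z.im ^ 2 : ℤ) : ℝ) := by rw [nm_cast]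
  push_cast at h
  simp only [F, co, Matrix.cons_val_zero, Matrix.cons_val_one, nr, h]

theorem inter_eq {c : ℝ} (hc : 0 ≤ c) :
    ({x | x ∈ Set.univ ∧ F x ≤ c} ∩ L : Set (Fin 2 → ℝ)) = co '' (ball ⌊c⌋₊ : Set O) := by
  ext x
  simp only [Set.mem_inter_iff, Set.mem_ofPred_eq, Set.mem_univ, true_and, SetLike.mem_coe,
    Module.Basis.mem_span_iff_repr_mem, Pi.basisFun_repr, Set.mem_image, mem_ball,
    Nat.le_floor_iff hc]
  constructor
  · rintro ⟨h1, h2⟩
    obtain ⟨a, ha⟩ := h2 0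
    obtain ⟨b, hb⟩ := h2 1
    have h3 : co ⟨a, b⟩ = x := by
      funext i
      fin_cases i
      · simpa [co] using ha
      · simpa [co] using hb
    exact ⟨⟨a, b⟩, by rw [← h3, F_co] at h1; exact h1, h3⟩
  · rintro ⟨z, h1, rfl⟩
    refine ⟨by rw [F_co]; exact h1, fun i => ?_⟩
    fin_cases i
    · exact ⟨z.re, by simp [co]⟩
    · exact ⟨z.im, by simp [co]⟩

theorem tendsto_card_ball : ∃ c : ℝ, 0 < c ∧
    Tendsto (fun X : ℝ => ((ball ⌊X⌋₊).card : ℝ) / X) atTop (𝓝 c) := by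
  have h := ZLattice.covolume.tendsto_card_le_div L (X := Set.univ) (F := F)
    (fun _ _ _ _ => trivial) (fun x r _ => by rw [F_smul]; simp) bounded_F
    (by simpa using (isClosed_le continuous_F continuous_const).measurableSet)
    (convex_F.addHaar_frontier volume)
  refine ⟨_, div_pos volume_F_pos (ZLattice.covolume_pos L volume), h.congr' ?_⟩
  filter_upwards [eventually_ge_atTop 0] with c hc
  rw [inter_eq hc, Nat.card_image_of_injective co_inj, Nat.card_coe_set_eq, Set.ncard_coe_finset]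

open Classical in
theorem card_split (X : ℕ) : (ball X).card =
    (ball (X / 3)).card + ((ball 1).erase 0).card * ((ball X).filter Primary).card := by
  rw [← Finset.card_filter_add_card_filter_not (s := ball X) (fun n => lam ∣ n), ← Finset.card_product]
  have hU : ∀ u : O, u ∈ (ball 1).erase 0 ↔ IsUnit u := by
    intro u
    rw [CountAux.mem_erase_ball, isUnit_iff_nm, Ne, ← nm_eq_zero]
    omega
  congr 1
  · symm
    refine Finset.card_nbij (fun m => lam * m) (fun m hm => ?_) (fun m _ m' _ h => ?_)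
      (fun n hn => ?_)
    · rw [Finset.mem_coe, mem_ball] at hm
      refine Finset.mem_coe.2 (Finset.mem_filter.2 ⟨mem_ball.2 ?_, dvd_mul_right _ _⟩)
      rw [nm_mul, nm_lam]; omega
    · exact mul_left_cancel₀ prime_lam.ne_zero h
    · obtain ⟨h1, m, rfl⟩ := Finset.mem_filter.1 (Finset.mem_coe.1 hn)
      rw [mem_ball, nm_mul, nm_lam] at h1
      exact ⟨m, Finset.mem_coe.2 (mem_ball.2 (by omega)), rfl⟩
  · symm
    refine Finset.card_nbij (fun z => z.1 * z.2) (fun z hz => ?_) (fun z hz z' hz' h => ?_)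
      (fun n hn => ?_)
    · obtain ⟨h1, h2⟩ := Finset.mem_product.1 (Finset.mem_coe.1 hz)
      obtain ⟨h3, h4⟩ := Finset.mem_filter.1 h2
      rw [hU] at h1
      refine Finset.mem_coe.2 (Finset.mem_filter.2 ⟨mem_ball.2 ?_, fun h => ?_⟩)
      · rw [nm_mul, isUnit_iff_nm.1 h1, one_mul]; exact mem_ball.1 h3
      · exact h4.not_lam_dvd (h1.dvd_mul_left.1 h)
    · obtain ⟨h1, h2⟩ := Finset.mem_product.1 (Finset.mem_coe.1 hz)
      obtain ⟨h1', h2'⟩ := Finset.mem_product.1 (Finset.mem_coe.1 hz')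
      have h4 := (Finset.mem_filter.1 h2).2
      have h4' := (Finset.mem_filter.1 h2').2
      rw [hU] at h1 h1'
      have h5 : z.1 * z.2 = z'.1 * z'.2 := h
      have h6 : z.2 = z'.2 := h4.eq_of_associated h4'
        (((associated_isUnit_mul_left_iff h1).1 (Associated.of_eq h5)).trans
          (associated_unit_mul_left _ _ h1'))
      refine Prod.ext ?_ h6
      rw [h6] at h5
      exact mul_right_cancel₀ h4'.ne_zero h5
    · obtain ⟨h1, h2⟩ := Finset.mem_filter.1 (Finset.mem_coe.1 hn)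
      obtain ⟨u, hu, h3⟩ := exists_unit_primary h2
      obtain ⟨v, hv⟩ := hu.exists_left_inv
      refine ⟨(v, u * n), Finset.mem_coe.2 (Finset.mem_product.2
        ⟨(hU v).2 (IsUnit.of_mul_eq_one u hv), Finset.mem_filter.2 ⟨mem_ball.2 ?_, h3⟩⟩), ?_⟩
      · rw [nm_mul, isUnit_iff_nm.1 hu, one_mul]; exact mem_ball.1 h1
      · show v * (u * n) = n
        rw [← mul_assoc, hv, one_mul]

open Classical in
theorem tendsto_card_primary : ∃ c : ℝ, 0 < c ∧
    Tendsto (fun X : ℝ => (((ball ⌊X⌋₊).filter Primary).card : ℝ) / X) atTop (𝓝 c) := by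
  obtain ⟨c, hc, h⟩ := tendsto_card_ball
  have hU : (0 : ℝ) < ((ball 1).erase 0).card := by
    refine Nat.cast_pos.2 (Finset.card_pos.2 ⟨1, ?_⟩)
    rw [CountAux.mem_erase_ball]
    exact ⟨one_ne_zero, (isUnit_iff_nm.1 isUnit_one).le⟩
  have h3 := (h.comp (tendsto_id.atTop_div_const (show (0 : ℝ) < 3 by norm_num))).div_const 3
  refine ⟨(c - c / 3) / ((ball 1).erase 0).card, div_pos (by linarith) hU,
    ((h.sub h3).div_const _).congr' ?_⟩
  filter_upwards [eventually_gt_atTop 0] with X hX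
  have h4 : ⌊X / 3⌋₊ = ⌊X⌋₊ / 3 := Nat.floor_div_ofNat X 3
  simp only [Function.comp, id, h4]
  rw [card_split ⌊X⌋₊]
  push_cast
  field_simp
  ring

/-- `φ(n) / N(n)`. -/
def ph (n : O) : ℝ := ∏ p ∈ pf n, (1 - (nr p)⁻¹)

theorem ph_nonneg (n : O) : 0 ≤ ph n :=
  Finset.prod_nonneg fun _ hp => sub_nonneg.2
    (inv_le_one_of_one_le₀ (one_le_nr (BasicB.pf_sub hp).1.ne_zero))

theorem ph_le_one (n : O) : ph n ≤ 1 :=
  Finset.prod_le_one (fun _ hp => sub_nonneg.2
    (inv_le_one_of_one_le₀ (one_le_nr (BasicB.pf_sub hp).1.ne_zero)))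
    fun _ _ => sub_le_self _ (inv_nonneg.2 (Nat.cast_nonneg _))

theorem mu_re (n : O) : (((mu n).re : ℝ) : ℂ) = mu n :=
  Complex.conj_eq_iff_re.1 (conj_mu n)

theorem abs_mu_re (n : O) : |(mu n).re| ≤ 1 := (Complex.abs_re_le_norm _).trans (norm_mu_le n)

theorem ph_eq {n : O} (hn : n ≠ 0) : ph n = ∑ d ∈ pdiv n, (mu d).re * (nr d)⁻¹ := by
  classical
  have h1 : ∑ d ∈ pdiv n, (mu d).re * (nr d)⁻¹ =
      ∑ s ∈ (pf n).powerset, ∏ p ∈ s, (-(nr p)⁻¹) := by
    rw [← Finset.sum_filter_of_ne (p := Squarefree)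
      fun d _ h => by_contra fun h' => h (by rw [BasicB.mu_of_not h', Complex.zero_re, zero_mul])]
    refine Finset.sum_nbij' pf (fun s => ∏ q ∈ s, q) (fun d hd => ?_) (fun s hs => ?_)
      (fun d hd => ?_) (fun s hs => ?_) fun d hd => ?_
    · obtain ⟨h2, -⟩ := Finset.mem_filter.1 hd
      refine Finset.mem_powerset.2 fun p hp => ?_
      obtain ⟨h3, h4, h5⟩ := BasicB.of_mem_pf hp
      exact (mem_pf hn).2 ⟨h3, h4, h5.trans ((mem_pdiv hn).1 h2).2⟩
    · have hs' := Finset.mem_powerset.1 hs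
      have h2 := squarefree_prod_primes (s := s) fun q hq => BasicB.pf_sub (hs' hq)
      exact Finset.mem_filter.2
        ⟨(mem_pdiv hn).2 ⟨h2.2.1, BasicB.prod_dvd_of_subset hn hs'⟩, h2.1⟩
    · obtain ⟨h2, h3⟩ := Finset.mem_filter.1 hd
      exact ((mem_pdiv hn).1 h2).1.eq_rad h3
    · exact (squarefree_prod_primes fun q hq => BasicB.pf_sub (Finset.mem_powerset.1 hs hq)).2.2
    · obtain ⟨h2, h3⟩ := Finset.mem_filter.1 hd
      have h4 : nr d = ∏ p ∈ pf d, nr p := by
        conv_lhs => rw [← ((mem_pdiv hn).1 h2).1.eq_rad h3]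
        rw [rad, nr, nm_prod, Nat.cast_prod]
      have h5 : (mu d).re = (-1) ^ (pf d).card := by
        apply Complex.ofReal_injective
        rw [mu_re, BasicB.mu_of_squarefree h3]; push_cast; rfl
      rw [h4, h5, Finset.prod_neg, Finset.prod_inv_distrib]
  rw [h1, ← Finset.prod_one_add]
  exact Finset.prod_congr rfl fun _ _ => sub_eq_add_neg _ _

open Classical in
/-- The number of primary elements of norm at most `X`. -/
def P (X : ℝ) : ℝ := (((ball ⌊X⌋₊).filter Primary).card : ℝ)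

theorem P_nonneg (X : ℝ) : 0 ≤ P X := Nat.cast_nonneg _

theorem P_le {X : ℝ} (hX : 0 ≤ X) : P X ≤ 7 * X := by
  classical
  refine le_trans ?_ ((CountAux.card_erase_le ⌊X⌋₊).trans
    (mul_le_mul_of_nonneg_left (Nat.floor_le hX) (by norm_num)))
  refine Nat.cast_le.2 (Finset.card_le_card fun n hn => ?_)
  obtain ⟨h1, h2⟩ := Finset.mem_filter.1 hn
  exact Finset.mem_erase.2 ⟨h2.ne_zero, h1⟩

open Classical in
theorem sum_ph_eq {X : ℝ} (hX : 0 < X) : ∑ n ∈ (ball ⌊X⌋₊).filter Primary, ph n =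
    ∑' d : O, if Primary d then (mu d).re * (nr d)⁻¹ * P (X / nr d) else 0 := by
  set S := (ball ⌊X⌋₊).filter Primary with hS
  have hmem : ∀ (Y : ℝ), 0 ≤ Y → ∀ n, n ∈ (ball ⌊Y⌋₊).filter Primary ↔ nr n ≤ Y ∧ Primary n := by
    intro Y hY n
    rw [Finset.mem_filter, mem_ball, Nat.le_floor_iff hY]
  rw [tsum_eq_sum (s := S)]
  · have h1 : ∀ n ∈ S, ph n = ∑ d ∈ S, if d ∣ n then (mu d).re * (nr d)⁻¹ else 0 := by
      intro n hn
      obtain ⟨h2, h3⟩ := (hmem X hX.le n).1 hn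
      rw [ph_eq h3.ne_zero, ← Finset.sum_filter]
      refine Finset.sum_congr ?_ fun _ _ => rfl
      ext d
      rw [mem_pdiv h3.ne_zero, Finset.mem_filter, hmem X hX.le]
      exact ⟨fun h => ⟨⟨(Nat.cast_le.2 (nm_le_of_dvd h.2 h3.ne_zero)).trans h2, h.1⟩, h.2⟩,
        fun h => ⟨h.1.2, h.2⟩⟩
    rw [Finset.sum_congr rfl h1, Finset.sum_comm]
    refine Finset.sum_congr rfl fun d hd => ?_
    obtain ⟨h2, h3⟩ := (hmem X hX.le d).1 hd
    have h4 := nr_pos h3.ne_zero
    rw [if_pos h3, ← Finset.sum_filter, Finset.sum_const, nsmul_eq_mul, mul_comm]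
    congr 1
    rw [P, Nat.cast_inj]
    symm
    refine Finset.card_nbij (fun m => d * m) (fun m hm => ?_) (fun m _ m' _ h => ?_)
      (fun n hn => ?_)
    · obtain ⟨h5, h6⟩ := (hmem _ (div_pos hX h4).le m).1 hm
      refine Finset.mem_coe.2 (Finset.mem_filter.2 ⟨(hmem X hX.le _).2 ⟨?_, h3.mul h6⟩,
        dvd_mul_right _ _⟩)
      rw [nr_mul]; exact (le_div_iff₀' h4).1 h5
    · exact mul_left_cancel₀ h3.ne_zero h
    · obtain ⟨h5, m, rfl⟩ := Finset.mem_filter.1 (Finset.mem_coe.1 hn)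
      obtain ⟨h6, h7⟩ := (hmem X hX.le _).1 h5
      rw [nr_mul] at h6
      exact ⟨m, (hmem _ (div_pos hX h4).le m).2 ⟨(le_div_iff₀' h4).2 h6, h3.of_mul h7⟩, rfl⟩
  · intro d hd
    split_ifs with h
    · have h4 := nr_pos h.ne_zero
      have h1 : X < nr d := lt_of_not_ge fun h1 => hd ((hmem X hX.le d).2 ⟨h1, h⟩)
      have h2 : P (X / nr d) = 0 := by
        rw [P, Nat.cast_eq_zero, Finset.card_eq_zero, Finset.eq_empty_iff_forall_notMem]
        intro m hm
        obtain ⟨h5, h6⟩ := (hmem _ (div_pos hX h4).le m).1 hm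
        exact absurd ((one_le_nr h6.ne_zero).trans h5) (not_le.2 ((div_lt_one h4).2 h1))
      rw [h2, mul_zero]
    · rfl

theorem summable_inv_sq : Summable fun n : O => ((nr n)⁻¹) ^ 2 := by
  refine (summable_nr_rpow (σ := 2) (by norm_num)).congr fun n => ?_
  rw [Real.rpow_neg (Nat.cast_nonneg _), Real.rpow_two, inv_pow]

open Classical in
theorem tsum_mu_ne : ∑' d : O, (if Primary d then (mu d).re * ((nr d)⁻¹) ^ 2 else 0) ≠ 0 := by
  have h : LBA.CM fun n : O => if Primary n then ((((nr n)⁻¹) ^ 2 : ℝ) : ℂ) else 0 := by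
    refine ⟨fun n hn => if_neg hn, ?_, fun m n hm hn => ?_, ?_⟩
    · rw [if_pos primary_one, nr, isUnit_iff_nm.1 isUnit_one]; simp
    · rw [if_pos hm, if_pos hn, if_pos (hm.mul hn), nr_mul]; push_cast; ring
    · refine summable_inv_sq.of_nonneg_of_le (fun _ => norm_nonneg _) fun n => ?_
      split_ifs
      · rw [Complex.norm_real, Real.norm_of_nonneg (sq_nonneg _)]
      · rw [norm_zero]; exact sq_nonneg _
  intro h0
  have h1 := congrArg (fun x : ℝ => (x : ℂ)) h0
  simp only [Complex.ofReal_tsum, Complex.ofReal_zero] at h1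
  have h2 := h.conv
  rw [show (∑' n, mu n * if Primary n then ((((nr n)⁻¹) ^ 2 : ℝ) : ℂ) else 0) = 0 from ?_,
    mul_zero] at h2
  · exact zero_ne_one h2
  · refine Eq.trans (tsum_congr fun n => ?_) h1
    split_ifs
    · rw [Complex.ofReal_mul, mu_re]
    · simp

open Classical in
theorem tendsto_sum_ph : ∃ c : ℝ, 0 < c ∧
    Tendsto (fun X : ℝ => (∑ n ∈ (ball ⌊X⌋₊).filter Primary, ph n) / X) atTop (𝓝 c) := by
  obtain ⟨c, hc, h⟩ := tendsto_card_primary
  have key : Tendsto (fun X : ℝ => (∑ n ∈ (ball ⌊X⌋₊).filter Primary, ph n) / X) atTop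
      (𝓝 (∑' d : O, (if Primary d then (mu d).re * ((nr d)⁻¹) ^ 2 else 0) * c)) := by
    have h1 := tendsto_tsum_of_dominated_convergence (𝓕 := atTop)
      (f := fun (X : ℝ) (d : O) => (if Primary d then (mu d).re * ((nr d)⁻¹) ^ 2 else 0) *
        (P (X / nr d) / (X / nr d)))
      (g := fun d => (if Primary d then (mu d).re * ((nr d)⁻¹) ^ 2 else 0) * c)
      (summable_inv_sq.mul_right 7) (fun d => ?_) ?_
    · refine h1.congr' ?_
      filter_upwards [eventually_gt_atTop 0] with X hX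
      rw [sum_ph_eq hX, ← tsum_div_const]
      refine tsum_congr fun d => ?_
      split_ifs with hd
      · have h4 := nr_pos hd.ne_zero
        field_simp
      · simp
    · split_ifs with hd
      · exact (h.comp (tendsto_id.atTop_div_const (nr_pos hd.ne_zero))).const_mul _
      · simp
    · filter_upwards [eventually_gt_atTop 0] with X hX d
      split_ifs with hd
      · have h4 := div_pos hX (nr_pos hd.ne_zero)
        rw [norm_mul, norm_mul, Real.norm_of_nonneg (sq_nonneg _),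
          Real.norm_of_nonneg (div_nonneg (P_nonneg _) h4.le)]
        exact mul_le_mul (mul_le_of_le_one_left (sq_nonneg _) (abs_mu_re d))
          ((div_le_iff₀ h4).2 (P_le h4.le)) (div_nonneg (P_nonneg _) h4.le) (sq_nonneg _)
      · rw [zero_mul, norm_zero]; positivity
  refine ⟨_, lt_of_le_of_ne (ge_of_tendsto key ?_) (Ne.symm ?_), key⟩
  · filter_upwards [eventually_gt_atTop 0] with X hX
    exact div_nonneg (Finset.sum_nonneg fun n _ => ph_nonneg n) hX.le
  · rw [tsum_mul_right]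
    exact mul_ne_zero tsum_mu_ne hc.ne'

/-- Partial sums. -/
def A (a : O → ℝ) (X : ℝ) : ℝ := ∑ n ∈ ball ⌊X⌋₊, a n

theorem measurable_A (a : O → ℝ) : Measurable (A a) :=
  (measurable_of_countable fun k : ℕ => ∑ n ∈ ball k, a n).comp Nat.measurable_floor

theorem le_rpow_iff {η u : ℝ} (hη : 0 < η) (hu : 0 < u) (n : O) :
    nm n ≤ ⌊(u / η) ^ (1 / 3 : ℝ)⌋₊ ↔ η * nr n ^ 3 ≤ u := by
  have h1 : 0 ≤ u / η := (div_pos hu hη).le
  rw [Nat.le_floor_iff (Real.rpow_nonneg h1 _), one_div,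
    Real.le_rpow_inv_iff_of_pos (Nat.cast_nonneg _) h1 (by norm_num), le_div_iff₀' hη,
    show (3 : ℝ) = ((3 : ℕ) : ℝ) by norm_num, Real.rpow_natCast]

theorem summable_exp {η : ℝ} (hη : 0 < η) : Summable fun n : O => Real.exp (-η * nr n ^ 3) := by
  have h3 : 0 < 2 * Real.pi / Real.sqrt 3 := lt_of_lt_of_le (by norm_num) pois_three_le
  refine (summable_gw' (X := 2 * Real.pi / Real.sqrt 3 / η) (div_pos h3 hη)).of_nonneg_of_le
    (fun _ => (Real.exp_pos _).le) fun n => Real.exp_le_exp.2 ?_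
  have h4 : nr n ≤ nr n ^ 3 := by exact_mod_cast Nat.le_self_pow (by norm_num) (nm n)
  generalize 2 * Real.pi / Real.sqrt 3 = κ at h3
  rw [show -κ * (nr n / (κ / η)) = -η * nr n by field_simp]
  nlinarith

theorem tsum_eq_integral {a : O → ℝ} (h0 : ∀ n, 0 ≤ a n) (h1 : ∀ n, a n ≤ 1) (hz : a 0 = 0)
    {η : ℝ} (hη : 0 < η) : ∑' n : O, a n * Real.exp (-η * nr n ^ 3) =
      ∫ u in Set.Ioi (0 : ℝ), Real.exp (-u) * A a ((u / η) ^ (1 / 3 : ℝ)) := by
  set f : O → ℝ → ℝ := fun n => (Set.Ici (η * nr n ^ 3)).indicator fun u => a n * Real.exp (-u)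
    with hf
  have hint : ∀ n, Integrable (f n) (volume.restrict (Set.Ioi 0)) := fun n =>
    ((integrableOn_exp_neg_Ioi 0).const_mul (a n)).indicator measurableSet_Ici
  have hval : ∀ n, ∫ u in Set.Ioi (0 : ℝ), f n u = a n * Real.exp (-η * nr n ^ 3) := by
    intro n
    rcases eq_or_ne n 0 with rfl | hn
    · simp [hf, hz]
    · have h2 : 0 < η * nr n ^ 3 := mul_pos hη (pow_pos (nr_pos hn) 3)
      rw [hf, integral_indicator measurableSet_Ici, Measure.restrict_restrict measurableSet_Ici,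
        Set.inter_eq_left.2 (Set.Ici_subset_Ioi.2 h2), integral_const_mul,
        integral_Ici_eq_integral_Ioi, integral_exp_neg_Ioi, neg_mul]
  have hnn : ∀ n u, 0 ≤ f n u := fun n u =>
    Set.indicator_nonneg (fun _ _ => mul_nonneg (h0 n) (Real.exp_pos _).le) u
  have hs : Summable fun n => ∫ u in Set.Ioi (0 : ℝ), ‖f n u‖ := by
    simp only [Real.norm_of_nonneg (hnn _ _), hval]
    exact (summable_exp hη).of_nonneg_of_le (fun n => mul_nonneg (h0 n) (Real.exp_pos _).le)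
      fun n => mul_le_of_le_one_left (Real.exp_pos _).le (h1 n)
  rw [← tsum_congr hval, integral_tsum_of_summable_integral_norm hint hs]
  refine setIntegral_congr_fun measurableSet_Ioi fun u hu => ?_
  have hu' : 0 < u := hu
  rw [tsum_eq_sum (s := ball ⌊(u / η) ^ (1 / 3 : ℝ)⌋₊), A, Finset.mul_sum]
  · refine Finset.sum_congr rfl fun n hn => ?_
    rw [mem_ball, le_rpow_iff hη hu'] at hn
    rw [hf]
    exact (Set.indicator_of_mem (show u ∈ Set.Ici _ from hn) _).trans (mul_comm _ _)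
  · intro n hn
    rw [mem_ball, le_rpow_iff hη hu'] at hn
    exact Set.indicator_of_notMem (show u ∉ Set.Ici _ from hn) _

theorem abelian {a : O → ℝ} (h0 : ∀ n, 0 ≤ a n) (h1 : ∀ n, a n ≤ 1) (hz : a 0 = 0) {c : ℝ}
    (hc : 0 < c) (h : Tendsto (fun X => A a X / X) atTop (𝓝 c)) : ∃ c C : ℝ, 0 < c ∧
    Tendsto (fun η : ℝ => η ^ (1 / 3 : ℝ) * ∑' n : O, a n * Real.exp (-η * nr n ^ 3))
      (𝓝[>] 0) (𝓝 c) ∧
    ∀ η : ℝ, 0 < η → η ^ (1 / 3 : ℝ) * (∑' n : O, a n * Real.exp (-η * nr n ^ 3)) ≤ C := by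
  classical
  have hA0 : ∀ X, 0 ≤ A a X := fun X => Finset.sum_nonneg fun n _ => h0 n
  have hA : ∀ X, 0 ≤ X → A a X ≤ 7 * X := by
    intro X hX
    refine le_trans ?_ ((CountAux.card_erase_le ⌊X⌋₊).trans
      (mul_le_mul_of_nonneg_left (Nat.floor_le hX) (by norm_num)))
    rw [A, ← Finset.sum_erase _ hz]
    simpa using Finset.sum_le_card_nsmul _ a 1 fun n _ => h1 n
  set g : ℝ → ℝ := fun u => Real.exp (-u) * u ^ ((4 / 3 : ℝ) - 1) with hg
  have hgi : IntegrableOn g (Set.Ioi 0) := Real.GammaIntegral_convergent (by norm_num)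
  have hgv : ∫ u in Set.Ioi 0, g u = Real.Gamma (4 / 3) :=
    (Real.Gamma_eq_integral (by norm_num)).symm
  set G : ℝ → ℝ → ℝ := fun η u =>
    g u * (A a ((u / η) ^ (1 / 3 : ℝ)) / (u / η) ^ (1 / 3 : ℝ)) with hG
  have hrep : ∀ η : ℝ, 0 < η → η ^ (1 / 3 : ℝ) * ∑' n : O, a n * Real.exp (-η * nr n ^ 3) =
      ∫ u in Set.Ioi 0, G η u := by
    intro η hη
    rw [tsum_eq_integral h0 h1 hz hη, ← integral_const_mul]
    refine setIntegral_congr_fun measurableSet_Ioi fun u hu => ?_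
    have hu' : 0 < u := hu
    have h2 := Real.rpow_pos_of_pos hu' (1 / 3)
    have h3 := Real.rpow_pos_of_pos hη (1 / 3)
    simp only [hG, hg]
    rw [show (4 / 3 : ℝ) - 1 = 1 / 3 by norm_num]
    generalize A a ((u / η) ^ (1 / 3 : ℝ)) = B
    rw [Real.div_rpow hu'.le hη.le]
    field_simp
  have hg0 : ∀ u, 0 < u → 0 ≤ g u := fun u hu =>
    mul_nonneg (Real.exp_pos _).le (Real.rpow_nonneg hu.le _)
  have hbd : ∀ η : ℝ, 0 < η → ∀ u, 0 < u → 0 ≤ G η u ∧ G η u ≤ g u * 7 := by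
    intro η hη u hu
    have h2 := Real.rpow_pos_of_pos (div_pos hu hη) (1 / 3)
    exact ⟨mul_nonneg (hg0 u hu) (div_nonneg (hA0 _) h2.le),
      mul_le_mul_of_nonneg_left ((div_le_iff₀ h2).2 (hA _ h2.le)) (hg0 u hu)⟩
  have hmeas : ∀ η : ℝ, Measurable (G η) := by
    intro η
    have h2 : Measurable fun u : ℝ => (u / η) ^ (1 / 3 : ℝ) := by fun_prop
    have h3 : Measurable g := by rw [hg]; fun_prop
    exact h3.mul (((measurable_A a).comp h2).div h2)
  refine ⟨Real.Gamma (4 / 3) * c, Real.Gamma (4 / 3) * 7,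
    mul_pos (Real.Gamma_pos_of_pos (by norm_num)) hc, ?_, fun η hη => ?_⟩
  · rw [← hgv, ← integral_mul_const]
    refine Tendsto.congr' (eventually_mem_nhdsWithin.mono fun η hη => (hrep η hη).symm) ?_
    refine tendsto_integral_filter_of_dominated_convergence (fun u => g u * 7)
      (Eventually.of_forall fun η => (hmeas η).aestronglyMeasurable) ?_ (hgi.mul_const 7) ?_
    · filter_upwards [self_mem_nhdsWithin] with η hη
      filter_upwards [ae_restrict_mem measurableSet_Ioi] with u hu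
      rw [Real.norm_of_nonneg (hbd η hη u hu).1]
      exact (hbd η hη u hu).2
    · filter_upwards [ae_restrict_mem measurableSet_Ioi] with u hu
      refine (h.comp ((tendsto_rpow_atTop (by norm_num)).comp ?_)).const_mul _
      exact (tendsto_inv_nhdsGT_zero.const_mul_atTop hu).congr fun η => (div_eq_mul_inv _ _).symm
  · rw [hrep η hη, ← hgv, ← integral_mul_const]
    refine integral_mono_of_nonneg ?_ (hgi.mul_const 7) ?_
    · filter_upwards [ae_restrict_mem measurableSet_Ioi] with u hu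
      exact (hbd η hη u hu).1
    · filter_upwards [ae_restrict_mem measurableSet_Ioi] with u hu
      exact (hbd η hη u hu).2

open Classical in
theorem tendsto_tsum_ph : ∃ c C : ℝ, 0 < c ∧
    Tendsto (fun η : ℝ => η ^ (1 / 3 : ℝ) *
      ∑' n : O, if Primary n then ph n * Real.exp (-η * nr n ^ 3) else 0) (𝓝[>] 0) (𝓝 c) ∧
    ∀ η : ℝ, 0 < η → η ^ (1 / 3 : ℝ) *
      (∑' n : O, if Primary n then ph n * Real.exp (-η * nr n ^ 3) else 0) ≤ C := by
  obtain ⟨c, hc, h⟩ := tendsto_sum_ph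
  have key := abelian (a := fun n => if Primary n then ph n else 0) (c := c)
    (fun n => by split_ifs; exacts [ph_nonneg n, le_rfl])
    (fun n => by split_ifs; exacts [ph_le_one n, zero_le_one])
    (if_neg fun h => h.ne_zero rfl) hc (by simpa only [A, Finset.sum_filter] using h)
  simpa only [ite_mul, zero_mul] using key

end Crest.Agent.R17.TAE1
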