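import Crest.Agent.R17.ThetaEis

/-!
# Row 17, theta module E (auxiliary file): evaluation of the constant-term sums
-/

set_option autoImplicit false

noncomputable section

namespace Crest.Agent.R17
namespace E2

open scoped ComplexConjugate ENNReal Topology
open MeasureTheory Filter

/-- `φ(n) / N(n)` (the same as `phiN`). -/
def phi (n : O) : ℝ := ∏ p ∈ pf n, (1 - (nr p)⁻¹)

theorem phi_nonneg (n : O) : 0 ≤ phi n := by
  refine Finset.prod_nonneg fun p hp => ?_
  have h := one_le_nr (BasicB.of_mem_pf hp).1.ne_zero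
  have := inv_le_one_of_one_le₀ h
  linarith

theorem phi_le_one (n : O) : phi n ≤ 1 := by
  refine Finset.prod_le_one (fun p hp => ?_) fun p hp => ?_
  · have h := one_le_nr (BasicB.of_mem_pf hp).1.ne_zero
    have := inv_le_one_of_one_le₀ h
    linarith
  · have : 0 ≤ (nr p)⁻¹ := by positivity
    linarith

theorem phi_cube (m : O) : phi (m ^ 3) = phi m := by
  unfold phi; rw [pf_pow (by norm_num)]

/-- product of two periodic functions with coprime periods -/
theorem sum_res_mul_mul {m n : O} (hm : m ≠ 0) (hn : n ≠ 0) (h : IsCoprime m n) (g f : O → ℂ)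
    (hg : ∀ x y, m ∣ x - y → g x = g y) (hf : ∀ x y, n ∣ x - y → f x = f y) :
    ∑ x ∈ res (m * n), g x * f x = (∑ x ∈ res m, g x) * ∑ y ∈ res n, f y := by
  rw [sum_res_crt hm hn h (fun x => g x * f x) (fun x y hxy => by
    rw [hg x y ((dvd_mul_right m n).trans hxy), hf x y ((dvd_mul_left n m).trans hxy)])]
  rw [← sum_res_affine hm g hg h.symm 0, ← sum_res_affine hn f hf h 0, Finset.sum_mul_sum]
  refine Finset.sum_congr rfl fun x _ => Finset.sum_congr rfl fun y _ => ?_
  rw [hg (n * x + m * y) (n * x + 0) ⟨y, by ring⟩, hf (n * x + m * y) (m * y + 0) ⟨x, by ring⟩]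

/-- a function with a smaller period -/
theorem sum_res_of_period {m n : O} (hm : m ≠ 0) (hn : n ≠ 0) (g : O → ℂ)
    (hg : ∀ x y, m ∣ x - y → g x = g y) :
    ∑ x ∈ res (m * n), g x = (nm n : ℂ) * ∑ x ∈ res m, g x := by
  rw [sum_res_mul hm hn g (fun x y hxy => hg x y ((dvd_mul_right m n).trans hxy)), Finset.mul_sum]
  refine Finset.sum_congr rfl fun x _ => ?_
  rw [Finset.sum_congr rfl (fun y _ => hg (x + m * y) x ⟨y, by ring⟩), Finset.sum_const,
    card_res hn, nsmul_eq_mul]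

theorem isCoprime_congr {n x y : O} (h : n ∣ x - y) : IsCoprime n x ↔ IsCoprime n y := by
  obtain ⟨t, ht⟩ := h
  have : x = y + n * t := by rw [← ht]; ring
  rw [this, IsCoprime.add_mul_left_right_iff]

theorem primary_congr {x y : O} (h : (3 : O) ∣ x - y) : Primary x ↔ Primary y := by
  constructor
  · intro hx
    have : y - 1 = (x - 1) - (x - y) := by ring
    change (3 : O) ∣ y - 1
    rw [this]; exact dvd_sub hx h
  · intro hy
    have : x - 1 = (y - 1) + (x - y) := by ring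
    change (3 : O) ∣ x - 1
    rw [this]; exact dvd_add hy h

open Classical in
/-- indicator of the coprime classes -/
def ind (n x : O) : ℂ := if IsCoprime n x then 1 else 0

theorem ind_per (n x y : O) (h : n ∣ x - y) : ind n x = ind n y := by
  unfold ind; rw [isCoprime_congr h]

theorem sum_ind_prime {p : O} (hp : Prime p) : ∑ x ∈ res p, ind p x = (nm p : ℂ) - 1 := by
  classical
  have h1 := Gauss_delta (f := fun _ => (1 : ℂ)) hp.ne_zero (fun _ _ _ => rfl) 0
  have h2 : ∀ x, ind p x = 1 - (if p ∣ 0 - x then (1 : ℂ) else 0) := by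
    intro x
    unfold ind
    rw [zero_sub, dvd_neg]
    by_cases h : p ∣ x
    · rw [if_neg (fun hc => hp.not_isUnit (hc.isUnit_of_dvd' dvd_rfl h)), if_pos h]; simp
    · rw [if_pos (hp.coprime_iff_not_dvd.2 h), if_neg h]; simp
  rw [Finset.sum_congr rfl (fun x _ => h2 x), Finset.sum_sub_distrib, Finset.sum_const,
    card_res hp.ne_zero]
  simp only [nsmul_eq_mul, mul_one]
  congr 1

theorem sum_ind {n : O} (hn : Primary n) : ∑ x ∈ res n, ind n x = ((nr n * phi n : ℝ) : ℂ) := by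
  classical
  refine Primary.induction (P := fun n => ∑ x ∈ res n, ind n x = ((nr n * phi n : ℝ) : ℂ))
    ?_ ?_ hn
  · have : ∀ x, ind 1 x = 1 := fun x => by unfold ind; rw [if_pos isCoprime_one_left]
    simp only [this, Finset.sum_const, card_res one_ne_zero]
    simp [phi]
  · intro p n hp hp' hn ih
    have hn0 := hn.ne_zero
    by_cases hd : p ∣ n
    · have h1 : ∀ x, ind (p * n) x = ind n x := by
        intro x
        unfold ind
        have : IsCoprime (p * n) x ↔ IsCoprime n x :=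
          ⟨fun h => h.of_mul_left_right, fun h => (h.of_isCoprime_of_dvd_left hd).mul_left h⟩
        rw [this]
      have h2 : phi (p * n) = phi n := by
        unfold phi
        rw [pf_mul hp.ne_zero hn0, pf_prime hp hp', Finset.union_eq_right.2]
        exact Finset.singleton_subset_iff.2 ((mem_pf hn0).2 ⟨hp, hp', hd⟩)
      simp only [h1]
      rw [mul_comm p n, sum_res_of_period hn0 hp.ne_zero _ (ind_per n), ih, mul_comm n p, h2,
        nr_mul]
      push_cast; ring
    · have hc : IsCoprime p n := hp.coprime_iff_not_dvd.2 hd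
      have h1 : ∀ x, ind (p * n) x = ind p x * ind n x := by
        intro x
        unfold ind
        rw [IsCoprime.mul_left_iff]
        by_cases a : IsCoprime p x <;> by_cases b : IsCoprime n x <;> simp [a, b]
      have h2 : phi (p * n) = (1 - (nr p)⁻¹) * phi n := by
        unfold phi
        rw [pf_mul hp.ne_zero hn0, pf_prime hp hp', ← Finset.insert_eq, Finset.prod_insert]
        exact fun h => hd (BasicB.of_mem_pf h).2.2
      simp only [h1]
      rw [sum_res_mul_mul hp.ne_zero hn0 hc _ _ (ind_per p) (ind_per n), ih, sum_ind_prime hp, h2,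
        nr_mul]
      have : ((nm p : ℕ) : ℂ) ≠ 0 := by
        have := nr_pos hp.ne_zero
        exact_mod_cast this.ne'
      push_cast
      field_simp

open Classical in
/-- indicator of the primary classes -/
def pri (x : O) : ℂ := if Primary x then 1 else 0

theorem pri_per (x y : O) (h : (3 : O) ∣ x - y) : pri x = pri y := by
  unfold pri; rw [primary_congr h]

theorem three_ne : (3 : O) ≠ 0 := by
  intro h
  have := congrArg QuadraticAlgebra.re h
  revert this
  decide

theorem sum_pri {m : O} (hm : m ≠ 0) : ∑ x ∈ res (3 * m), pri x = (nm m : ℂ) := by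
  classical
  rw [sum_res_of_period three_ne hm _ pri_per]
  have h1 := Gauss_delta (f := fun _ => (1 : ℂ)) three_ne (fun _ _ _ => rfl) 1
  have h2 : ∑ x ∈ res 3, pri x = 1 := by
    rw [← h1]
    refine Finset.sum_congr rfl fun x _ => ?_
    unfold pri
    have : Primary x ↔ (3 : O) ∣ 1 - x := by
      rw [← dvd_neg, neg_sub]; rfl
    by_cases h : Primary x
    · rw [if_pos h, if_pos (this.1 h)]
    · rw [if_neg h, if_neg (fun h' => h (this.2 h'))]
  rw [h2, mul_one]

theorem nine_eq : (9 : O) = lam ^ 4 := by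
  have : lam ^ 4 = (lam ^ 2) ^ 2 := by ring
  rw [this, lam_sq]; norm_num

theorem nine_dvd_iff {u n : O} (hu : IsUnit u) (j : ℕ) (hn : Primary n) :
    (9 : O) ∣ u * lam ^ j * n ↔ 4 ≤ j := by
  have h0 : u * lam ^ j * n ≠ 0 :=
    mul_ne_zero (mul_ne_zero hu.ne_zero (pow_ne_zero _ prime_lam.ne_zero)) hn.ne_zero
  rw [nine_eq, pow_dvd_iff_le_vp prime_lam h0,
    vp_mul prime_lam (mul_ne_zero hu.ne_zero (pow_ne_zero _ prime_lam.ne_zero)) hn.ne_zero,
    vp_mul prime_lam hu.ne_zero (pow_ne_zero _ prime_lam.ne_zero), BasicB.vp_unit prime_lam hu,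
    vp_pow prime_lam prime_lam.ne_zero, vp_self prime_lam,
    (vp_eq_zero_iff prime_lam hn.ne_zero).2 hn.not_lam_dvd]
  simp

theorem cop_lam {u d : O} (hu : IsUnit u) (j : ℕ) (hd : Primary d) :
    IsCoprime d (u * lam ^ j) := by
  have h1 : IsCoprime d lam := (prime_lam.coprime_iff_not_dvd.2 hd.not_lam_dvd).symm
  have h2 : IsCoprime d u := by
    obtain ⟨v, rfl⟩ := hu
    exact ⟨0, (v⁻¹ : Oˣ), by simp⟩
  exact h2.mul_right h1.pow_right

theorem crt {a b : O} (h : IsCoprime a b) (x y : O) : ∃ d, a ∣ d - x ∧ b ∣ d - y := by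
  obtain ⟨s, t, hst⟩ := h
  refine ⟨y * (s * a) + x * (t * b), ⟨(y - x) * s, ?_⟩, ⟨(x - y) * t, ?_⟩⟩
  · linear_combination x * hst
  · linear_combination y * hst

/-- triviality of the character `d ↦ (c / d)₃` -/
theorem triv_iff {u n : O} (hu : IsUnit u) (j : ℕ) (hn : Primary n) :
    (∀ d, Primary d → IsCoprime d (u * lam ^ j * n) → cub d (u * lam ^ j * n) = 1) ↔
      (∀ d, Primary d → cub d (u * lam ^ j) = 1) ∧ ∃ m, Primary m ∧ n = m ^ 3 := by
  classical
  have h0 : u * lam ^ j ≠ 0 := mul_ne_zero hu.ne_zero (pow_ne_zero _ prime_lam.ne_zero)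
  have hn0 := hn.ne_zero
  constructor
  · intro H
    have h1 : ∀ d, Primary d → cub d (u * lam ^ j) = 1 := by
      intro d hd
      have hc : IsCoprime (9 * (u * lam ^ j)) n := by
        refine IsCoprime.mul_left ?_ (cop_lam hu j hn).symm
        have : (9 : O) = 3 ^ 2 := by norm_num
        rw [this]; exact hn.isCoprime_three.symm.pow_left
      obtain ⟨d', h1, h2⟩ := crt hc d 1
      have hd' : Primary d' :=
        (primary_congr (Dvd.dvd.trans ⟨3 * (u * lam ^ j), by ring⟩ h1)).2 hd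
      have h3 : IsCoprime d' n := ((isCoprime_congr h2).2 isCoprime_one_right).symm
      have h4 := H d' hd' ((cop_lam hu j hd').mul_right h3)
      rw [cub_mul_right, cub_recip hd' hn, cub_congr ((rad_dvd n).trans h2), cub_one_right, mul_one,
        cub_periodic h0 hd' hd h1] at h4
      exact h4
    refine ⟨h1, ∏ p ∈ pf n, p ^ (vp p n / 3),
      BasicB.primary_prod_pow (fun q hq => BasicB.pf_sub hq) _, ?_⟩
    have h2 : ∀ p ∈ pf n, vp p n % 3 = 0 := by
      intro p hp
      obtain ⟨hp1, hp2, -⟩ := BasicB.of_mem_pf hp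
      obtain ⟨a, ha, ha1⟩ := Symbol_exists_cub_ne hp1 hp2
      have hc : IsCoprime p (3 * ∏ q ∈ (pf n).erase p, q) := by
        refine hp2.isCoprime_three.mul_right (IsCoprime.prod_right fun q hq => ?_)
        obtain ⟨hq1, hq2⟩ := Finset.mem_erase.1 hq
        obtain ⟨hq3, hq4, -⟩ := BasicB.of_mem_pf hq2
        exact hp1.coprime_iff_not_dvd.2 fun h => hq1 (BasicB.eq_of_dvd hp1 hq3 hp2 hq4 h).symm
      obtain ⟨d, e1, e2⟩ := crt hc a 1
      have hd : Primary d := (dvd_mul_right _ _).trans e2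
      have e3 : ∀ q ∈ (pf n).erase p, q ∣ d - 1 := fun q hq =>
        ((Finset.dvd_prod_of_mem _ hq).trans (dvd_mul_left _ _)).trans e2
      have hpa : IsCoprime p a := ha.symm
      have hcd : IsCoprime n d := by
        by_contra hh
        obtain ⟨q, hq, hqd⟩ := (SymbolAux.not_coprime_iff hn).1 hh
        have hq1 := (BasicB.of_mem_pf hq).1
        by_cases hqp : q = p
        · subst hqp
          exact hq1.not_isUnit (((isCoprime_congr e1).2 hpa).isUnit_of_dvd' dvd_rfl hqd)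
        · have := e3 q (Finset.mem_erase.2 ⟨hqp, hq⟩)
          exact hq1.not_isUnit
            (((isCoprime_congr this).2 isCoprime_one_right).isUnit_of_dvd' dvd_rfl hqd)
      have h4 := H d hd ((cop_lam hu j hd).mul_right hcd.symm)
      rw [cub_mul_right, h1 d hd, one_mul, cub_recip hd hn] at h4
      have h5 : cub n d = ∏ q ∈ pf n, cub1 q d ^ vp q n := rfl
      rw [h5, ← Finset.mul_prod_erase _ _ hp, Finset.prod_eq_one (fun q hq => by
        obtain ⟨hq3, hq4, -⟩ := BasicB.of_mem_pf (Finset.mem_erase.1 hq).2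
        rw [SymbolAux.cub1_congr (e3 q hq), SymbolAux.cub1_one hq3 hq4, one_pow]), mul_one,
        SymbolAux.cub1_congr e1, ← cub_prime hp1 hp2] at h4
      have h6 : cub p a ^ 3 = 1 := cub_pow_three hp2 hpa
      have h7 : cub p a ^ (vp p n % 3) = 1 := by
        rw [← Nat.mod_add_div (vp p n) 3, pow_add, pow_mul, h6, one_pow, mul_one] at h4
        exact h4
      have h8 : vp p n % 3 < 3 := Nat.mod_lt _ (by norm_num)
      generalize vp p n % 3 = r at h7 h8
      interval_cases r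
      · rfl
      · exact absurd (by simpa using h7) ha1
      · exfalso
        apply ha1
        calc cub p a = cub p a ^ 2 * cub p a := by rw [h7, one_mul]
          _ = 1 := by rw [← pow_succ, h6]
    have h3 := BasicB.eq_mod_mul_div hn 3
    rw [Finset.prod_eq_one (fun p hp => by rw [h2 p hp, pow_zero]), one_mul] at h3
    exact h3
  · rintro ⟨h1, m, hm, rfl⟩ d hd hc
    rw [cub_mul_right, h1 d hd, one_mul, cub_pow_right]
    exact cub_pow_three hd ((IsCoprime.pow_right_iff (by norm_num)).1 hc.of_mul_right_right)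

open Classical in
theorem Gx_xi_zero {u n : O} (hu : IsUnit u) (j : ℕ) (hn : Primary n) :
    Gx xi 0 (u * lam ^ j * n) =
      if 4 ≤ j ∧ (∀ d, Primary d → cub d (u * lam ^ j) = 1) ∧ ∃ m, Primary m ∧ n = m ^ 3
      then ((9 * nr (u * lam ^ j * n) * phi n : ℝ) : ℂ) else 0 := by
  have h0 : u * lam ^ j ≠ 0 := mul_ne_zero hu.ne_zero (pow_ne_zero _ prime_lam.ne_zero)
  have hn0 := hn.ne_zero
  set c := u * lam ^ j * n with hc
  have hc0 : c ≠ 0 := mul_ne_zero h0 hn0
  have h9 : (9 : O) ≠ 0 := by rw [nine_eq]; exact pow_ne_zero _ prime_lam.ne_zero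
  have hG : Gx xi 0 c = ∑ d ∈ res (9 * c), xi c d := by
    have : Gx xi 0 c = if c = 0 then 0 else ∑ d ∈ res (9 * c), xi c d * eq (0 * d) (9 * c) := rfl
    rw [this, if_neg hc0]
    exact Finset.sum_congr rfl fun d _ => by rw [zero_mul, eq_zero_left, mul_one]
  have hxi : ∀ d, xi c d = if (9 : O) ∣ c ∧ Primary d then conj (cub d c) else 0 := fun d => rfl
  rw [hG]
  by_cases hj : 4 ≤ j
  swap
  · rw [if_neg (fun h => hj h.1)]
    refine Finset.sum_eq_zero fun d _ => ?_
    rw [hxi, if_neg (fun h => hj ((nine_dvd_iff hu j hn).1 h.1))]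
  have h9c : (9 : O) ∣ c := (nine_dvd_iff hu j hn).2 hj
  have hxi' : ∀ d, xi c d = if Primary d then conj (cub d c) else 0 := by
    intro d
    rw [hxi]
    by_cases hd : Primary d
    · rw [if_pos ⟨h9c, hd⟩, if_pos hd]
    · rw [if_neg (fun h => hd h.2), if_neg hd]
  by_cases H : ∀ d, Primary d → IsCoprime d c → cub d c = 1
  · rw [if_pos ⟨hj, (triv_iff hu j hn).1 H⟩]
    have h1 : ∀ d, xi c d = pri d * ind n d := by
      intro d
      rw [hxi']
      unfold pri ind
      by_cases hd : Primary d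
      · rw [if_pos hd, if_pos hd, one_mul]
        by_cases hcd : IsCoprime n d
        · rw [if_pos hcd, H d hd ((cop_lam hu j hd).mul_right hcd.symm), map_one]
        · rw [if_neg hcd, (cub_eq_zero_iff hd).2 (fun h => hcd h.of_mul_right_right.symm), map_zero]
      · rw [if_neg hd, if_neg hd, zero_mul]
    have h2 : 9 * c = (3 * (3 * (u * lam ^ j))) * n := by rw [hc]; ring
    have h3 : IsCoprime (3 * (3 * (u * lam ^ j))) n :=
      hn.isCoprime_three.symm.mul_left
        (hn.isCoprime_three.symm.mul_left (cop_lam hu j hn).symm)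
    simp only [h1]
    rw [h2, sum_res_mul_mul (mul_ne_zero three_ne (mul_ne_zero three_ne h0)) hn0 h3 _ _
      (fun x y h => pri_per x y ((dvd_mul_right _ _).trans h)) (ind_per n),
      sum_pri (mul_ne_zero three_ne h0), sum_ind hn, hc, nr_mul (u * lam ^ j) n, nm_mul 3]
    have : nm 3 = 9 := by simpa using nm_natCast 3
    rw [this]
    push_cast; ring
  · rw [if_neg (fun h => H ((triv_iff hu j hn).2 h.2))]
    push Not at H
    obtain ⟨d₀, hd₀, hc₀, hne⟩ := H
    have hper : ∀ x y, 9 * c ∣ x - y → xi c x = xi c y := by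
      intro x y h
      have hp := primary_congr (Dvd.dvd.trans ⟨3 * c, by ring⟩ h)
      rw [hxi', hxi']
      by_cases hx : Primary x
      · rw [if_pos hx, if_pos (hp.1 hx), cub_periodic hc0 hx (hp.1 hx) h]
      · rw [if_neg hx, if_neg (fun h => hx (hp.2 h))]
    have hcop : IsCoprime d₀ (9 * c) := by
      refine IsCoprime.mul_right ?_ hc₀
      have : (9 : O) = 3 ^ 2 := by norm_num
      rw [this]; exact hd₀.isCoprime_three.pow_right
    have h1 := sum_res_affine (mul_ne_zero h9 hc0) (xi c) hper hcop 0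
    have h2 : ∀ x, xi c (d₀ * x + 0) = conj (cub d₀ c) * xi c x := by
      intro x
      rw [add_zero, hxi', hxi']
      by_cases hx : Primary x
      · rw [if_pos hx, if_pos (hd₀.mul hx), cub_mul_left hd₀.ne_zero hx.ne_zero, map_mul]
      · rw [if_neg hx, if_neg (fun h => hx (hd₀.of_mul h)), mul_zero]
    simp only [h2] at h1
    rw [← Finset.mul_sum] at h1
    have h3 : conj (cub d₀ c) - 1 ≠ 0 := by
      intro h
      apply hne
      have := congrArg conj (sub_eq_zero.1 h)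
      simpa using this
    have h4 : (conj (cub d₀ c) - 1) * ∑ x ∈ res (9 * c), xi c x = 0 := by
      rw [sub_mul, h1, one_mul, sub_self]
    exact (mul_eq_zero.1 h4).resolve_left h3

/-! ### the scattering sum -/

open Classical in
/-- the smoothed sum of `φ(n) / N(n)` -/
def S (η : ℝ) : ℝ := ∑' n : O, if Primary n then phi n * Real.exp (-η * nr n ^ 3) else 0

open Classical in
theorem summable_S {η : ℝ} (hη : 0 < η) :
    Summable fun n : O => if Primary n then phi n * Real.exp (-η * nr n ^ 3) else 0 := by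
  have hk : 0 < 2 * Real.pi / Real.sqrt 3 := by positivity
  refine Summable.of_nonneg_of_le (fun n => ?_) (fun n => ?_)
    (summable_gw' (X := 2 * Real.pi / Real.sqrt 3 / η) (by positivity))
  · split_ifs
    · exact mul_nonneg (phi_nonneg n) (Real.exp_pos _).le
    · exact le_rfl
  · split_ifs with h
    · have h1 := one_le_nr h.ne_zero
      have h2 : gw (nr n / (2 * Real.pi / Real.sqrt 3 / η)) = Real.exp (-η * nr n) := by
        have : gw (nr n / (2 * Real.pi / Real.sqrt 3 / η)) = Real.exp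
          (-(2 * Real.pi / Real.sqrt 3) * (nr n / (2 * Real.pi / Real.sqrt 3 / η))) := rfl
        rw [this]
        congr 1
        field_simp
      rw [h2]
      have h3 : Real.exp (-η * nr n ^ 3) ≤ Real.exp (-η * nr n) := by
        apply Real.exp_le_exp.2
        have : nr n ≤ nr n ^ 3 := le_self_pow₀ h1 (by norm_num)
        nlinarith
      calc phi n * Real.exp (-η * nr n ^ 3) ≤ 1 * Real.exp (-η * nr n ^ 3) :=
            mul_le_mul_of_nonneg_right (phi_le_one n) (Real.exp_pos _).le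
        _ ≤ _ := by rw [one_mul]; exact h3
    · exact (gw_pos _).le

theorem S_nonneg (η : ℝ) : 0 ≤ S η := by
  refine tsum_nonneg fun n => ?_
  split_ifs
  · exact mul_nonneg (phi_nonneg n) (Real.exp_pos _).le
  · exact le_rfl

/-- the units -/
abbrev U : Type := {u : O // IsUnit u}

instance : Finite U := by
  have : Set.Finite {u : O | IsUnit u} :=
    (ball 1).finite_toSet.subset fun u hu => by
      simpa [mem_ball] using (isUnit_iff_nm.1 hu).le
  exact this

open Classical in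
/-- the condition on the part `u λ^j` -/
def eps (i : U × ℕ) : ℝ :=
  if 4 ≤ i.2 ∧ ∀ d, Primary d → cub d (i.1.1 * lam ^ i.2) = 1 then 1 else 0

theorem eps_nonneg (i : U × ℕ) : 0 ≤ eps i := by
  unfold eps; split_ifs <;> norm_num

theorem eps_le_one (i : U × ℕ) : eps i ≤ 1 := by
  unfold eps; split_ifs <;> norm_num

theorem eps_six : eps (⟨1, isUnit_one⟩, 6) = 1 := by
  unfold eps
  rw [if_pos]
  refine ⟨by norm_num, fun d hd => ?_⟩
  have : (1 : O) * lam ^ 6 = (1 * lam ^ 2) ^ 3 := by ring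
  change cub d (1 * lam ^ 6) = 1
  rw [this, cub_pow_right]
  exact cub_pow_three hd (cop_lam isUnit_one 2 hd)

/-- the geometric weight -/
def wj (j : ℕ) : ℝ := ((3 : ℝ) ^ (-(1 / 3 : ℝ))) ^ j

theorem wj_pos (j : ℕ) : 0 < wj j := by unfold wj; positivity

theorem summable_wj : Summable fun i : U × ℕ => wj i.2 := by
  have h : Summable wj := summable_geometric_of_lt_one (by positivity)
    (Real.rpow_lt_one_of_one_lt_of_neg (by norm_num) (by norm_num))
  rw [summable_prod_of_nonneg (fun i => (wj_pos i.2).le)]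
  exact ⟨fun _ => h, Summable.of_finite⟩

theorem rpow_eq {ε : ℝ} (hε : 0 < ε) (j : ℕ) :
    ε ^ (1 / 3 : ℝ) = wj j * (ε * 3 ^ j) ^ (1 / 3 : ℝ) := by
  unfold wj
  rw [Real.mul_rpow hε.le (by positivity), ← Real.rpow_natCast, ← Real.rpow_natCast,
    ← Real.rpow_mul (by norm_num), ← Real.rpow_mul (by norm_num), mul_left_comm,
    ← Real.rpow_add (by norm_num)]
  have : -(1 / 3 : ℝ) * j + j * (1 / 3) = 0 := by ring
  rw [this, Real.rpow_zero, mul_one]

open Classical in
/-- the general term -/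
def tm (ε : ℝ) (x : (U × ℕ) × O) : ℝ :=
  9 * eps x.1 * (if Primary x.2 then phi x.2 * Real.exp (-(ε * 3 ^ x.1.2) * nr x.2 ^ 3) else 0)

theorem tm_nonneg (ε : ℝ) (x : (U × ℕ) × O) : 0 ≤ tm ε x := by
  unfold tm
  refine mul_nonneg (mul_nonneg (by norm_num) (eps_nonneg _)) ?_
  split_ifs
  · exact mul_nonneg (phi_nonneg _) (Real.exp_pos _).le
  · exact le_rfl

theorem tsum_tm (ε : ℝ) (i : U × ℕ) : ∑' m, tm ε (i, m) = 9 * eps i * S (ε * 3 ^ i.2) := by
  unfold tm S
  rw [← tsum_mul_left]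

theorem term_eq (ε : ℝ) (i : U × ℕ) {m : O} (hm : Primary m) :
    Gx xi 0 (i.1.1 * lam ^ i.2 * m ^ 3) *
      (((nr (i.1.1 * lam ^ i.2 * m ^ 3))⁻¹ * Real.exp (-ε * nr (i.1.1 * lam ^ i.2 * m ^ 3)) : ℝ) : ℂ)
      = (tm ε (i, m) : ℂ) := by
  obtain ⟨⟨u, hu⟩, j⟩ := i
  have h0 : u * lam ^ j * m ^ 3 ≠ 0 :=
    mul_ne_zero (mul_ne_zero hu.ne_zero (pow_ne_zero _ prime_lam.ne_zero)) (hm.pow 3).ne_zero
  have hN : nr (u * lam ^ j * m ^ 3) = 3 ^ j * nr m ^ 3 := by
    have e1 : nr u = 1 := by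
      change ((nm u : ℕ) : ℝ) = 1
      rw [isUnit_iff_nm.1 hu, Nat.cast_one]
    have e2 : nr lam = 3 := by
      change ((nm lam : ℕ) : ℝ) = 3
      rw [nm_lam]; norm_num
    rw [nr_mul, nr_mul, nr_pow, nr_pow, e1, e2, one_mul]
  unfold tm eps
  simp only
  rw [Gx_xi_zero hu j (hm.pow 3), if_pos hm]
  by_cases h : 4 ≤ j ∧ ∀ d, Primary d → cub d (u * lam ^ j) = 1
  · rw [if_pos ⟨h.1, h.2, m, hm, rfl⟩, if_pos h, ← Complex.ofReal_mul, phi_cube]
    congr 1
    have := (nr_pos h0).ne'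
    have e : -ε * nr (u * lam ^ j * m ^ 3) = -(ε * 3 ^ j) * nr m ^ 3 := by rw [hN]; ring
    rw [e]
    field_simp
  · rw [if_neg (fun h' => h ⟨h'.1, h'.2.1⟩), if_neg h]
    simp

theorem tsum_eq (ε : ℝ) :
    ∑' c : O, Gx xi 0 c * (((nr c)⁻¹ * Real.exp (-ε * nr c) : ℝ) : ℂ) =
      ∑' x, (tm ε x : ℂ) := by
  classical
  have hprim : ∀ x : (U × ℕ) × O, (tm ε x : ℂ) ≠ 0 → Primary x.2 := by
    intro x hx
    by_contra h
    apply hx
    unfold tm
    rw [if_neg h]; simp
  refine tsum_eq_tsum_of_ne_zero_bij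
    (fun x => x.1.1.1.1 * lam ^ x.1.1.2 * x.1.2 ^ 3) ?_ ?_ ?_
  · rintro ⟨⟨⟨⟨u, hu⟩, j⟩, m⟩, hx⟩ ⟨⟨⟨⟨u', hu'⟩, j'⟩, m'⟩, hx'⟩ h
    have hm : Primary m := hprim _ hx
    have hm' : Primary m' := hprim _ hx'
    simp only at h
    have hv : ∀ (u : O) (j : ℕ) (n : O), IsUnit u → Primary n → vp lam (u * lam ^ j * n) = j := by
      intro u j n hu hn
      rw [vp_mul prime_lam (mul_ne_zero hu.ne_zero (pow_ne_zero _ prime_lam.ne_zero)) hn.ne_zero,
        vp_mul prime_lam hu.ne_zero (pow_ne_zero _ prime_lam.ne_zero), BasicB.vp_unit prime_lam hu,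
        vp_pow prime_lam prime_lam.ne_zero, vp_self prime_lam,
        (vp_eq_zero_iff prime_lam hn.ne_zero).2 hn.not_lam_dvd]
      simp
    have hj : j = j' := by
      rw [← hv u j _ hu (hm.pow 3), h, hv u' j' _ hu' (hm'.pow 3)]
    subst hj
    have h1 : u * m ^ 3 = u' * m' ^ 3 := by
      apply mul_left_cancel₀ (pow_ne_zero j prime_lam.ne_zero)
      linear_combination h
    have h2 : m ^ 3 = m' ^ 3 := by
      refine (hm.pow 3).eq_of_associated (hm'.pow 3) ?_
      exact ((associated_unit_mul_left _ _ hu).symm.trans (Associated.of_eq h1)).trans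
        (associated_unit_mul_left _ _ hu')
    have h3 : u = u' := by
      rw [h2] at h1
      exact mul_right_cancel₀ (hm'.pow 3).ne_zero h1
    have h4 : m = m' := by
      refine hm.ext_vp hm' fun p hp _ => ?_
      have := congrArg (vp p) h2
      rw [vp_pow hp hm.ne_zero, vp_pow hp hm'.ne_zero] at this
      omega
    subst h3 h4
    rfl
  · intro c hc
    have hG : Gx xi 0 c ≠ 0 := left_ne_zero_of_mul hc
    have hc0 : c ≠ 0 := by
      rintro rfl
      apply hG
      have : Gx xi 0 0 = if (0 : O) = 0 then 0 else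
        ∑ d ∈ res (9 * 0), xi 0 d * eq (0 * d) (9 * 0) := rfl
      rw [this, if_pos rfl]
    obtain ⟨u, j, hu, hc1⟩ := exists_eq_unit_lam_primary hc0
    have hn : Primary (∏ p ∈ pf c, p ^ vp p c) :=
      BasicB.primary_prod_pow (fun q hq => BasicB.pf_sub hq) _
    generalize ∏ p ∈ pf c, p ^ vp p c = n at hc1 hn
    subst hc1
    rw [Gx_xi_zero hu j hn] at hG
    split_ifs at hG with h
    · obtain ⟨-, -, m, hm, rfl⟩ := h
      refine ⟨⟨((⟨u, hu⟩, j), m), ?_⟩, rfl⟩
      have := term_eq ε (⟨u, hu⟩, j) hm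
      rw [Function.mem_support, ← this]
      exact hc
    · exact absurd rfl hG
  · rintro ⟨⟨i, m⟩, hx⟩
    exact term_eq ε i (hprim _ hx)

theorem phi0_tendsto
    (h : ∃ c C : ℝ, 0 < c ∧ Tendsto (fun η : ℝ => η ^ (1 / 3 : ℝ) * S η) (𝓝[>] 0) (𝓝 c) ∧
      ∀ η : ℝ, 0 < η → η ^ (1 / 3 : ℝ) * S η ≤ C) :
    ∃ ρ C : ℝ, 0 < ρ ∧
      Tendsto (fun ε : ℝ => ((ε ^ (1 / 3 : ℝ) : ℝ) : ℂ) *
        ∑' c : O, Gx xi 0 c * (((nr c)⁻¹ * Real.exp (-ε * nr c) : ℝ) : ℂ)) (𝓝[>] 0) (𝓝 (ρ : ℂ)) ∧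
      ∀ ε : ℝ, 0 < ε → ‖((ε ^ (1 / 3 : ℝ) : ℝ) : ℂ) *
        ∑' c : O, Gx xi 0 c * (((nr c)⁻¹ * Real.exp (-ε * nr c) : ℝ) : ℂ)‖ ≤ C := by
  obtain ⟨c, C, hc, hlim, hbd⟩ := h
  set F : ℝ → U × ℕ → ℝ := fun ε i =>
    9 * eps i * wj i.2 * ((ε * 3 ^ i.2) ^ (1 / 3 : ℝ) * S (ε * 3 ^ i.2)) with hF
  have hF0 : ∀ ε, 0 < ε → ∀ i, 0 ≤ F ε i := fun ε hε i =>
    mul_nonneg (mul_nonneg (mul_nonneg (by norm_num) (eps_nonneg i)) (wj_pos _).le)
      (mul_nonneg (by positivity) (S_nonneg _))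
  have hFle : ∀ ε, 0 < ε → ∀ i, F ε i ≤ 9 * C * wj i.2 := by
    intro ε hε i
    have h1 := hbd (ε * 3 ^ i.2) (by positivity)
    have h2 : 0 ≤ (ε * 3 ^ i.2) ^ (1 / 3 : ℝ) * S (ε * 3 ^ i.2) :=
      mul_nonneg (by positivity) (S_nonneg _)
    have h3 : eps i * ((ε * 3 ^ i.2) ^ (1 / 3 : ℝ) * S (ε * 3 ^ i.2)) ≤ 1 * C :=
      mul_le_mul (eps_le_one i) h1 h2 zero_le_one
    have h4 := mul_le_mul_of_nonneg_left h3 (wj_pos i.2).le
    simp only [hF]
    nlinarith
  have hsb : Summable fun i : U × ℕ => 9 * C * wj i.2 := summable_wj.mul_left _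
  have hFs : ∀ ε, 0 < ε → Summable (F ε) := fun ε hε =>
    Summable.of_nonneg_of_le (hF0 ε hε) (hFle ε hε) hsb
  have hFeq : ∀ ε, 0 < ε → ∀ i, F ε i = ε ^ (1 / 3 : ℝ) * (9 * eps i * S (ε * 3 ^ i.2)) := by
    intro ε hε i
    simp only [hF]
    rw [rpow_eq hε i.2]; ring
  have key : ∀ ε : ℝ, 0 < ε → ((ε ^ (1 / 3 : ℝ) : ℝ) : ℂ) *
      ∑' c : O, Gx xi 0 c * (((nr c)⁻¹ * Real.exp (-ε * nr c) : ℝ) : ℂ) =
      ((∑' i, F ε i : ℝ) : ℂ) := by
    intro ε hε
    have hp : 0 < ε ^ (1 / 3 : ℝ) := by positivity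
    have hs : Summable (tm ε) := by
      rw [summable_prod_of_nonneg (tm_nonneg ε)]
      constructor
      · intro i
        exact (summable_S (η := ε * 3 ^ i.2) (by positivity)).mul_left (9 * eps i)
      · simp only [tsum_tm]
        have := (hFs ε hε).mul_left (ε ^ (1 / 3 : ℝ))⁻¹
        refine this.congr fun i => ?_
        rw [hFeq ε hε, ← mul_assoc, inv_mul_cancel₀ hp.ne', one_mul]
    rw [tsum_eq, ← Complex.ofReal_tsum, hs.tsum_prod, ← Complex.ofReal_mul]
    congr 1
    simp only [tsum_tm, hFeq ε hε]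
    rw [tsum_mul_left]
  have hG : Summable fun i : U × ℕ => 9 * eps i * wj i.2 * c := by
    refine Summable.of_nonneg_of_le (fun i => ?_) (fun i => ?_) (summable_wj.mul_left (9 * c))
    · exact mul_nonneg (mul_nonneg (mul_nonneg (by norm_num) (eps_nonneg i)) (wj_pos _).le) hc.le
    · have := mul_le_mul_of_nonneg_right (eps_le_one i) (mul_pos (wj_pos i.2) hc).le
      nlinarith
  refine ⟨∑' i : U × ℕ, 9 * eps i * wj i.2 * c, ∑' i : U × ℕ, 9 * C * wj i.2, ?_, ?_, ?_⟩
  · refine hG.tsum_pos (fun i => ?_) (⟨1, isUnit_one⟩, 6) ?_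
    · exact mul_nonneg (mul_nonneg (mul_nonneg (by norm_num) (eps_nonneg i)) (wj_pos _).le) hc.le
    · rw [eps_six]
      have := wj_pos 6
      positivity
  · have h1 : Tendsto (fun ε => ∑' i, F ε i) (𝓝[>] 0)
        (𝓝 (∑' i : U × ℕ, 9 * eps i * wj i.2 * c)) := by
      refine tendsto_tsum_of_dominated_convergence hsb (fun i => ?_) ?_
      · refine Tendsto.const_mul _ (hlim.comp ?_)
        refine tendsto_nhdsWithin_iff.2 ⟨?_, ?_⟩
        · have : Tendsto (fun ε : ℝ => ε * 3 ^ i.2) (𝓝 0) (𝓝 (0 * 3 ^ i.2)) :=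
            tendsto_id.mul_const _
          rw [zero_mul] at this
          exact this.mono_left nhdsWithin_le_nhds
        · filter_upwards [self_mem_nhdsWithin] with ε hε
          have : 0 < ε := hε
          change 0 < ε * 3 ^ i.2
          positivity
      · filter_upwards [self_mem_nhdsWithin] with ε hε i
        rw [Real.norm_eq_abs, abs_of_nonneg (hF0 ε hε i)]
        exact hFle ε hε i
    refine ((Complex.continuous_ofReal.tendsto _).comp h1).congr' ?_
    filter_upwards [self_mem_nhdsWithin] with ε hε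
    exact (key ε hε).symm
  · intro ε hε
    rw [key ε hε, Complex.norm_real, Real.norm_eq_abs, abs_of_nonneg (tsum_nonneg (hF0 ε hε))]
    exact (hFs ε hε).tsum_le_tsum (hFle ε hε) hsb

theorem Sk_eq (g : O → ℂ) {Y y : ℝ} (hY : 0 < Y) (hy0 : 0 < y) :
    Sk g (Fk y 0) Y = ((y ^ (2 / 3 : ℝ) : ℝ) : ℂ) * (((y * Y) ^ (1 / 3 : ℝ) : ℝ) *
      ∑' c : O, g c * (((nr c)⁻¹ * Real.exp (-(y * Y) * nr c) : ℝ) : ℂ)) := by
  have h1 : Sk g (Fk y 0) Y =
    ((Y ^ (4 / 3 : ℝ) : ℝ) : ℂ) * ∑' c : O, g c * (Fk y 0 (Y * nr c) : ℂ) := rfl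
  have h2 : ∀ c : O, g c * (Fk y 0 (Y * nr c) : ℂ) =
      ((y / Y : ℝ) : ℂ) * (g c * (((nr c)⁻¹ * Real.exp (-(y * Y) * nr c) : ℝ) : ℂ)) := by
    intro c
    have : Fk y 0 (Y * nr c) = y / Y * ((nr c)⁻¹ * Real.exp (-(y * Y) * nr c)) := by
      have : Fk y 0 (Y * nr c) =
        y / (Y * nr c) * Real.exp (-y * (Y * nr c + 0 / (Y * nr c))) := rfl
      rw [this, zero_div, add_zero, ← div_div, div_eq_mul_inv (y / Y), mul_assoc]
      congr 3
      ring
    rw [this, Complex.ofReal_mul]; ring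
  rw [h1]
  simp only [h2]
  rw [tsum_mul_left, ← mul_assoc, ← mul_assoc, ← Complex.ofReal_mul, ← Complex.ofReal_mul]
  congr 2
  have e1 : Y ^ (4 / 3 : ℝ) = Y ^ (1 / 3 : ℝ) * Y := by
    rw [show (4 / 3 : ℝ) = 1 / 3 + 1 by norm_num, Real.rpow_add hY, Real.rpow_one]
  have e2 : y ^ (2 / 3 : ℝ) * y ^ (1 / 3 : ℝ) = y := by
    rw [← Real.rpow_add hy0]; norm_num
  rw [Real.mul_rpow hy0.le hY.le, ← mul_assoc, e2, e1]
  field_simp

end E2
end Crest.Agent.R17
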