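import Crest.Agent.R17.ThetaEis
import Crest.Agent.R17.ThetaArithAuxE2
import Crest.Agent.R17.ThetaArithAuxE1

/-!
# Row 17, theta module E: the constant term at `∞`

`Gx xi 0 c = ∑_{d mod 9c, d ≡ 1 (3)} conj (c/d)₃` vanishes unless `9 ∣ c` and the character
`d ↦ (c/d)₃` is trivial, i.e. `c = u λ^j n³` with `(u λ^j / ·)₃` trivial on primary elements.
-/

set_option autoImplicit false

noncomputable section

namespace Crest.Agent.R17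

open scoped ComplexConjugate ENNReal Topology
open MeasureTheory Filter

open Classical in
/-- Primary elements have a positive density. -/
theorem tendsto_card_primary : ∃ c : ℝ, 0 < c ∧
    Tendsto (fun X : ℝ => (((ball ⌊X⌋₊).filter Primary).card : ℝ) / X) atTop (𝓝 c) :=
  TAE1.tendsto_card_primary

/-- `φ(n) / N(n)`. -/
def phiN (n : O) : ℝ := ∏ p ∈ pf n, (1 - (nr p)⁻¹)

open Classical in
theorem tendsto_sum_phiN : ∃ c : ℝ, 0 < c ∧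
    Tendsto (fun X : ℝ => (∑ n ∈ (ball ⌊X⌋₊).filter Primary, phiN n) / X) atTop (𝓝 c) :=
  TAE1.tendsto_sum_ph

open Classical in
/-- Abelian consequence. -/
theorem tendsto_tsum_phiN : ∃ c C : ℝ, 0 < c ∧
    Tendsto (fun η : ℝ => η ^ (1 / 3 : ℝ) *
      ∑' n : O, if Primary n then phiN n * Real.exp (-η * nr n ^ 3) else 0) (𝓝[>] 0) (𝓝 c) ∧
    ∀ η : ℝ, 0 < η → η ^ (1 / 3 : ℝ) *
      (∑' n : O, if Primary n then phiN n * Real.exp (-η * nr n ^ 3) else 0) ≤ C :=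
  TAE1.tendsto_tsum_ph

open Classical in
/-- Evaluation of the constant-term sums. -/
theorem Gx_xi_zero {u n : O} (hu : IsUnit u) (j : ℕ) (hn : Primary n) :
    Gx xi 0 (u * lam ^ j * n) =
      if 4 ≤ j ∧ (∀ d, Primary d → cub d (u * lam ^ j) = 1) ∧ ∃ m, Primary m ∧ n = m ^ 3
      then ((9 * nr (u * lam ^ j * n) * phiN n : ℝ) : ℂ) else 0 :=
  E2.Gx_xi_zero hu j hn

/-- The scattering sum. -/
def Phi0 (ε : ℝ) : ℂ :=
  ((ε ^ (1 / 3 : ℝ) : ℝ) : ℂ) * ∑' c : O, Gx xi 0 c * (((nr c)⁻¹ * Real.exp (-ε * nr c) : ℝ) : ℂ)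

theorem phi0_tendsto : ∃ ρ C : ℝ, 0 < ρ ∧ Tendsto Phi0 (𝓝[>] 0) (𝓝 (ρ : ℂ)) ∧
    ∀ ε, 0 < ε → ‖Phi0 ε‖ ≤ C :=
  E2.phi0_tendsto tendsto_tsum_phiN

theorem Sk_xi_zero {Y y : ℝ} (hY : 0 < Y) (hy0 : 0 < y) :
    Sk (Gx xi 0) (Fk y 0) Y = ((y ^ (2 / 3 : ℝ) : ℝ) : ℂ) * Phi0 (y * Y) :=
  E2.Sk_eq _ hY hy0

/-- The weak density of the constant-term sums is not zero. -/
theorem wd_xi_zero : ∃ t : ℂ, t ≠ 0 ∧ WD (Gx xi 0) t := by
  obtain ⟨ρ, C, hρ, hlim, -⟩ := phi0_tendsto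
  have hk : KC (Fk 1 0) := KC_Fk one_pos le_rfl
  have hM : ((Mo (Fk 1 0) : ℝ) : ℂ) ≠ 0 := by exact_mod_cast hk.2.2.1.ne'
  refine ⟨ρ / Mo (Fk 1 0), div_ne_zero (by exact_mod_cast hρ.ne') hM, Fk 1 0, hk, ?_⟩
  rw [div_mul_cancel₀ _ hM]
  refine hlim.congr' ?_
  filter_upwards [self_mem_nhdsWithin] with Y hY
  rw [Sk_xi_zero hY one_pos]
  simp

end Crest.Agent.R17
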