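import Crest.Agent.R17.ThetaLim

/-!
# Row 17, theta module I: the constant terms at all cusps
-/

set_option autoImplicit false

noncomputable section

namespace Crest.Agent.R17

open scoped ComplexConjugate

open Classical in
/-- The constant term at the cusp `α / β`, extended homogeneously to all non-zero vectors. -/
def Cv (α β : O) : ℂ :=
  if h : ∃ p : O × SL2, p.1 ≠ 0 ∧ α = p.1 * p.2 0 0 ∧ β = p.1 * p.2 1 0 then
    ((nr h.choose.1 ^ (2 / 3 : ℝ) : ℝ) : ℂ) * tt h.choose.2 0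
  else 0

/-- Normalised primitive vectors at essential cusps. -/
def Nrm (α β : O) : Prop := IsCoprime α β ∧ (Primary β ∨ (Primary α ∧ (3 : O) ∣ β))

theorem Cusp.mul_00 (σ τ : SL2) : (σ * τ) 0 0 = σ 0 0 * τ 0 0 + σ 0 1 * τ 1 0 := by
  rw [Matrix.SpecialLinearGroup.coe_mul, Matrix.mul_apply, Fin.sum_univ_two]
theorem Cusp.mul_10 (σ τ : SL2) : (σ * τ) 1 0 = σ 1 0 * τ 0 0 + σ 1 1 * τ 1 0 := by
  rw [Matrix.SpecialLinearGroup.coe_mul, Matrix.mul_apply, Fin.sum_univ_two]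

theorem Cusp.tt_nT (σ : SL2) (t : O) : tt (σ * nT t) 0 = tt σ 0 := by
  rw [tt_mul_nT, zero_mul, eq_zero_left, mul_one]

/-- The constant term only depends on the first column up to a unit. -/
theorem Cusp.tt_col {σ σ' : SL2} {u v : O} (h : u * v = 1) (h0 : σ' 0 0 = u * σ 0 0)
    (h1 : σ' 1 0 = u * σ 1 0) : tt σ' 0 = tt σ 0 := by
  obtain ⟨t, ht⟩ := exists_mul_nT (σ := σ') (τ := σ * mkSL u 0 0 v (by rw [h]; ring))
    (by rw [Cusp.mul_00, h0, mkSL_00, mkSL_10]; ring)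
    (by rw [Cusp.mul_10, h1, mkSL_00, mkSL_10]; ring)
  have := tt_mul_diag σ h 0
  rw [mul_zero (u ^ 2)] at this
  rw [ht, Cusp.tt_nT, this]

/-- Well-definedness (`tt_mul_nT`, `tt_mul_diag`). -/
theorem Cv_spec {ρ : O} (hρ : ρ ≠ 0) (σ : SL2) :
    Cv (ρ * σ 0 0) (ρ * σ 1 0) = ((nr ρ ^ (2 / 3 : ℝ) : ℝ) : ℂ) * tt σ 0 := by
  have h : ∃ p : O × SL2, p.1 ≠ 0 ∧ ρ * σ 0 0 = p.1 * p.2 0 0 ∧ ρ * σ 1 0 = p.1 * p.2 1 0 :=
    ⟨(ρ, σ), hρ, rfl, rfl⟩
  rw [Cv, dif_pos h]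
  obtain ⟨h0, h1, h2⟩ := h.choose_spec
  generalize h.choose = q at h0 h1 h2 ⊢
  obtain ⟨ρ', σ'⟩ := q
  simp only at h0 h1 h2 ⊢
  have d := SL2.det_eq σ
  have d' := SL2.det_eq σ'
  have e1 : ρ = ρ' * (σ' 0 0 * σ 1 1 - σ 0 1 * σ' 1 0) := by
    linear_combination (-ρ) * d + σ 1 1 * h1 - σ 0 1 * h2
  have e2 : ρ' = ρ * (σ 0 0 * σ' 1 1 - σ' 0 1 * σ 1 0) := by
    linear_combination (-ρ') * d' - σ' 1 1 * h1 + σ' 0 1 * h2
  generalize σ' 0 0 * σ 1 1 - σ 0 1 * σ' 1 0 = u at e1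
  generalize σ 0 0 * σ' 1 1 - σ' 0 1 * σ 1 0 = v at e2
  have huv : u * v = 1 := mul_left_cancel₀ hρ (by linear_combination (-1) * e1 - u * e2)
  have hu : nr u = 1 := by
    have := isUnit_iff_nm.1 (IsUnit.of_mul_eq_one v huv)
    simp only [nr, this, Nat.cast_one]
  have hn : nr ρ = nr ρ' := by rw [e1, nr_mul, hu, mul_one]
  rw [hn, Cusp.tt_col (σ := σ) (σ' := σ') huv
    (mul_left_cancel₀ h0 (by linear_combination (-1) * h1 + σ 0 0 * e1))
    (mul_left_cancel₀ h0 (by linear_combination (-1) * h2 + σ 1 0 * e1))]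

theorem Cusp.Cv_col {α β : O} (σ : SL2) (h0 : σ 0 0 = α) (h1 : σ 1 0 = β) : Cv α β = tt σ 0 := by
  have := Cv_spec one_ne_zero σ
  rw [one_mul, one_mul, h0, h1] at this
  rw [this]
  simp [nr]

theorem Cusp.Cv_zero : Cv 0 0 = 0 := by
  rw [Cv, dif_neg]
  rintro ⟨⟨ρ, σ⟩, h0, h1, h2⟩
  exact h0 (by linear_combination (-ρ) * SL2.det_eq σ - σ 1 1 * h1 + σ 0 1 * h2)

theorem exists_col {α β : O} (h : α ≠ 0 ∨ β ≠ 0) :
    ∃ (ρ : O) (σ : SL2), ρ ≠ 0 ∧ α = ρ * σ 0 0 ∧ β = ρ * σ 1 0 := by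
  classical
  obtain ⟨a, ha⟩ := EuclideanDomain.gcd_dvd_left α β
  obtain ⟨b, hb⟩ := EuclideanDomain.gcd_dvd_right α β
  have e := EuclideanDomain.gcd_eq_gcd_ab α β
  generalize EuclideanDomain.gcdA α β = x at e
  generalize EuclideanDomain.gcdB α β = y at e
  generalize EuclideanDomain.gcd α β = g at e ha hb
  have hg : g ≠ 0 := by
    rintro rfl
    rw [zero_mul] at ha hb
    exact h.elim (fun h => h ha) fun h => h hb
  obtain ⟨σ, h0, h1⟩ := exists_SL_col (α := a) (β := b)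
    ⟨x, y, mul_left_cancel₀ hg (by linear_combination (-1) * e - x * ha - y * hb)⟩
  exact ⟨g, σ, hg, by rw [h0, ha], by rw [h1, hb]⟩
theorem Cv_mul {ρ : O} (hρ : ρ ≠ 0) (α β : O) :
    Cv (ρ * α) (ρ * β) = ((nr ρ ^ (2 / 3 : ℝ) : ℝ) : ℂ) * Cv α β := by
  by_cases h : α ≠ 0 ∨ β ≠ 0
  · obtain ⟨ρ', σ, h0, rfl, rfl⟩ := exists_col h
    rw [← mul_assoc, ← mul_assoc, Cv_spec (mul_ne_zero hρ h0), Cv_spec h0, nr_mul,
      Real.mul_rpow (nr_pos hρ).le (nr_pos h0).le, Complex.ofReal_mul, mul_assoc]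
  · rw [not_or, not_not, not_not] at h
    rw [h.1, h.2, mul_zero, Cusp.Cv_zero, mul_zero]
theorem Cv_add (α β t : O) : Cv (α + t * β) β = Cv α β := by
  by_cases h : α ≠ 0 ∨ β ≠ 0
  · obtain ⟨ρ, σ, h0, rfl, rfl⟩ := exists_col h
    have e0 : ρ * σ 0 0 + t * (ρ * σ 1 0) = ρ * (nT t * σ) 0 0 := by
      rw [Cusp.mul_00, nT, mkSL_00, mkSL_01]; ring
    have e1 : ρ * σ 1 0 = ρ * (nT t * σ) 1 0 := by
      rw [Cusp.mul_10, nT, mkSL_10, mkSL_11]; ring
    rw [e0, Cv_spec h0]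
    conv_lhs => rw [e1]
    rw [Cv_spec h0, tt_mul_Gam (nT_mem t), kap_nT, one_mul]
  · rw [not_or, not_not, not_not] at h
    rw [h.1, h.2, mul_zero, add_zero]
/-- (C1) -/
theorem Cv_of_primary_right {α β : O} (h : IsCoprime α β) (hβ : Primary β) :
    Cv α β = conj (cub β α) * Cv 0 1 := by
  have h9 : IsCoprime β (α * 9) := h.symm.mul_right (by
    rw [show (9 : O) = 3 ^ 2 by norm_num]; exact hβ.isCoprime_three.pow_right)
  obtain ⟨a, c, hac⟩ := h9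
  have hγ : mkSL a α (-(9 * c)) β (by linear_combination hac) ∈ Gam :=
    mem_Gam.2 ⟨by rw [mkSL_10]; exact ⟨-c, by ring⟩, hβ⟩
  rw [Cusp.Cv_col (α := 0) (β := 1) (mkSL 0 (-1) 1 0 (by ring)) rfl rfl,
    Cusp.Cv_col (α := α) (β := β) (mkSL a α (-(9 * c)) β (by linear_combination hac) * mkSL 0 (-1) 1 0 (by ring))
      (by rw [Cusp.mul_00]; simp) (by rw [Cusp.mul_10]; simp), tt_mul_Gam hγ, kap_eq_b hγ]
  rfl
/-- (C2) -/
theorem Cv_of_primary_left {α β β₀ : O} (h : IsCoprime α β) (hα : Primary α) (h3 : (3 : O) ∣ β)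
    (h9 : (9 : O) ∣ β - β₀) : Cv α β = conj (cub α β) * Cv 1 β₀ := by
  have h' : IsCoprime α (β * 9) := h.mul_right (by
    rw [show (9 : O) = 3 ^ 2 by norm_num]; exact hα.isCoprime_three.pow_right)
  obtain ⟨δ, x, hx⟩ := h'
  have hαδ : Primary (α * δ) := ⟨-(x * β * 3), by linear_combination hx⟩
  have hδ : Primary δ := hα.of_mul hαδ
  have hγ : mkSL (α + 9 * x * β₀) (-(9 * x)) (β - δ * β₀) δ (by linear_combination hx) ∈ Gam := by
    refine mem_Gam.2 ⟨?_, hδ⟩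
    obtain ⟨b, hb⟩ := h3
    obtain ⟨c, hc⟩ := h9
    obtain ⟨d, hd⟩ := hδ
    rw [mkSL_10]
    exact ⟨c - d * (b - 3 * c), by linear_combination hc - β₀ * hd + 3 * d * hc - 3 * d * hb⟩
  have hk : cub δ (β - δ * β₀) = conj (cub α β) := by
    have e1 : cub δ (β - δ * β₀) = cub δ β := Gauss_cub_per _ _ _ ⟨-β₀, by ring⟩
    have e2 : cub (α * δ) β = cub 1 β := cub_congr9' hαδ primary_one
      ⟨-(x * β), by linear_combination hx⟩ ⟨-(x * 9), by linear_combination hx⟩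
    rw [cub_mul_left hα.ne_zero hδ.ne_zero, cub_one_left] at e2
    have e3 := Gauss_conj_mul (norm_cub hα h)
    rw [e1]
    linear_combination conj (cub α β) * e2 - cub δ β * e3
  rw [Cusp.Cv_col (α := 1) (β := β₀) (mkSL 1 0 β₀ 1 (by ring)) rfl rfl,
    Cusp.Cv_col (α := α) (β := β) (mkSL (α + 9 * x * β₀) (-(9 * x)) (β - δ * β₀) δ (by linear_combination hx) *
      mkSL 1 0 β₀ 1 (by ring))
      (by rw [Cusp.mul_00]; simp) (by rw [Cusp.mul_10]; simp), tt_mul_Gam hγ, ← hk]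
  rfl
/-- (C3) -/
theorem Cv_eq_zero {α β : O} (h : IsCoprime α β) (h1 : lam ∣ β) (h3 : ¬ (3 : O) ∣ β) :
    Cv α β = 0 := by
  obtain ⟨σ, rfl, rfl⟩ := exists_SL_col h
  obtain ⟨hγ, hk⟩ := exists_kap_ne_one h1 h3
  have e := tt_mul_Gam hγ σ 0
  rw [inv_mul_cancel_right, Cusp.tt_nT] at e
  rw [Cusp.Cv_col σ rfl rfl]
  have : (kap (σ * nT 3 * σ⁻¹) - 1) * tt σ 0 = 0 := by linear_combination -e
  exact (mul_eq_zero.1 this).resolve_left (sub_ne_zero.2 hk)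
theorem Cv_mul_right {α β p : O} (h : Nrm α β) (hp : Primary p) (hpα : IsCoprime p α) :
    Cv α (p * β) = conj (cub p α) * Cv α β := by
  have hc : IsCoprime α (p * β) := hpα.symm.mul_right h.1
  rcases h.2 with hβ | ⟨hα, h3⟩
  · rw [Cv_of_primary_right hc (hp.mul hβ), Cv_of_primary_right h.1 hβ,
      cub_mul_left hp.ne_zero hβ.ne_zero, map_mul, mul_assoc]
  · have h9 : (9 : O) ∣ p * β - β := by
      obtain ⟨b, hb⟩ := h3
      obtain ⟨d, hd⟩ := hp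
      exact ⟨b * d, by linear_combination β * hd + 3 * d * hb⟩
    rw [Cv_of_primary_left hc hα (h3.mul_left p) h9,
      Cv_of_primary_left (β₀ := β) h.1 hα h3 (by simp), cub_mul_right, cub_recip hα hp, map_mul,
      mul_assoc]
theorem Cv_mul_left {α β p : O} (h : Nrm α β) (hp : Primary p) (hpβ : IsCoprime p β) :
    Cv (p * α) β = conj (cub p β) * Cv α β := by
  have hc : IsCoprime (p * α) β := hpβ.mul_left h.1
  rcases h.2 with hβ | ⟨hα, h3⟩
  · rw [Cv_of_primary_right hc hβ, Cv_of_primary_right h.1 hβ, cub_mul_right, cub_recip hβ hp,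
      map_mul, mul_assoc]
  · rw [Cv_of_primary_left (β₀ := β) hc (hp.mul hα) h3 (by simp),
      Cv_of_primary_left (β₀ := β) h.1 hα h3 (by simp), cub_mul_left hp.ne_zero hα.ne_zero,
      map_mul, mul_assoc]
theorem exists_nrm {α β : O} (h : IsCoprime α β) :
    (∃ u, IsUnit u ∧ Nrm (u * α) (u * β)) ∨ (lam ∣ β ∧ ¬ (3 : O) ∣ β) := by
  have hc : ∀ u : O, IsUnit u → IsCoprime (u * α) (u * β) := fun u hu =>
    (isCoprime_mul_unit_left hu α β).2 h
  by_cases h1 : lam ∣ β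
  · by_cases h3 : (3 : O) ∣ β
    · obtain ⟨u, hu, h'⟩ := exists_unit_primary (n := α) fun h2 =>
        prime_lam.not_isUnit (h.isUnit_of_dvd' h2 h1)
      exact Or.inl ⟨u, hu, hc u hu, Or.inr ⟨h', h3.mul_left u⟩⟩
    · exact Or.inr ⟨h1, h3⟩
  · obtain ⟨u, hu, h'⟩ := exists_unit_primary h1
    exact Or.inl ⟨u, hu, hc u hu, Or.inl h'⟩

namespace Cusp

theorem nrm_add {α β : O} (h : Nrm α β) (t : O) : Nrm (α + t * β) β := by
  refine ⟨h.1.add_mul_right_left t, h.2.imp_right fun ⟨⟨a, ha⟩, b, hb⟩ => ⟨?_, b, hb⟩⟩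
  exact ⟨a + t * b, by linear_combination ha + t * hb⟩

theorem nrm_mul {α β p : O} (h : Nrm α β) (hp : Primary p) (hc : IsCoprime p β) :
    Nrm (p * α) β :=
  ⟨hc.mul_left h.1, h.2.imp_right fun h' => ⟨hp.mul h'.1, h'.2⟩⟩

theorem nrm_of_left {α β p : O} (h : Nrm (p * α) β) (hp : Primary p) : Nrm α β :=
  ⟨h.1.of_mul_left_right, h.2.imp_right fun h' => ⟨hp.of_mul h'.1, h'.2⟩⟩

theorem nrm_of_right {α β p : O} (h : Nrm α (p * β)) (hp : Primary p) : Nrm α β :=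
  ⟨h.1.of_mul_right_right, h.2.imp hp.of_mul fun h' =>
    ⟨h'.1, hp.isCoprime_three.symm.dvd_of_dvd_mul_left h'.2⟩⟩

/-- `N(p)^{2/3}`. -/
def qq (p : O) : ℂ := ((nr p ^ (2 / 3 : ℝ) : ℝ) : ℂ)

theorem qq_cube (p : O) : qq p ^ 3 = (nm p : ℂ) ^ 2 := by
  have : (nr p ^ (2 / 3 : ℝ)) ^ 3 = nr p ^ 2 := by
    rw [← Real.rpow_natCast, ← Real.rpow_mul (Nat.cast_nonneg _), ← Real.rpow_natCast]
    norm_num
  rw [qq, ← Complex.ofReal_pow, this]
  simp [nr]

theorem Cv_p {p : O} (hp : p ≠ 0) (α β : O) : Cv (p * α) (p * β) = qq p * Cv α β := Cv_mul hp α β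

variable {p : O} (hp : Prime p) (hp' : Primary p)
include hp hp'

theorem cub_zero {a : O} (h : p ∣ a) : cub p a = 0 :=
  (cub_eq_zero_iff hp').2 fun hc => hp.coprime_iff_not_dvd.1 hc h

theorem conj_mul {a : O} (h : ¬ p ∣ a) : conj (cub p a) * cub p a = 1 :=
  Gauss_conj_mul (norm_cub hp' (hp.coprime_iff_not_dvd.2 h))

open Classical in
theorem Cv_right {x β : O} (h : Nrm x β) (hβ : ¬ p ∣ β) :
    Cv x (p * β) = ((if p ∣ x then qq p * cub p β else 0) + conj (cub p x)) * Cv x β := by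
  split_ifs with hx
  · rw [cub_zero hp hp' hx, map_zero, add_zero]
    obtain ⟨c, rfl⟩ := hx
    rw [Cv_p hp.ne_zero, Cv_mul_left (nrm_of_left h hp') hp' (hp.coprime_iff_not_dvd.2 hβ)]
    linear_combination (-(qq p * Cv c β)) * conj_mul hp hp' hβ
  · rw [zero_add, Cv_mul_right h hp' (hp.coprime_iff_not_dvd.2 hx)]

theorem sum_conj : ∑ x ∈ res p, conj (cub p x) = 0 := by
  rw [← map_sum, Gauss_sum_cub hp hp', map_zero]

omit hp' in
open Classical in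
theorem sum_delta {f : O → ℂ} (hf : ∀ x y, p ∣ x - y → f x = f y) :
    ∑ x ∈ res p, (if p ∣ x then f x else 0) = f 0 := by
  rw [← Gauss_delta hp.ne_zero hf 0]
  simp only [zero_sub, dvd_neg]

theorem sum_norm : ∑ x ∈ res p, cub p x * conj (cub p x) = (nm p : ℂ) - 1 := by
  classical
  have e : ∀ x, cub p x * conj (cub p x) = 1 - if p ∣ x then 1 else 0 := fun x => by
    split_ifs with hx
    · rw [cub_zero hp hp' hx]; simp
    · rw [mul_comm, conj_mul hp hp' hx, sub_zero]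
  simp only [e]
  rw [Finset.sum_sub_distrib, sum_delta hp (f := fun _ => 1) fun _ _ _ => rfl]
  simp [card_res hp.ne_zero]

theorem sum_jac : ∑ x ∈ res p, cub p x * conj (cub p (1 - x)) = -1 := by
  obtain ⟨χ, h3, hχ⟩ := exists_mulChar_cub hp hp'
  have := Fact.mk hp.ne_zero
  let _ := Fintype.ofFinite (O ⧸ Ideal.span {p})
  have := PrincipalIdealRing.isMaximal_of_irreducible hp.irreducible
  let _ := Ideal.Quotient.field (Ideal.span {p})
  have hi : χ⁻¹ = χ ^ 2 := by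
    rw [inv_eq_iff_mul_eq_one, ← pow_succ', show 2 + 1 = 3 from rfl, ← h3, pow_orderOf_eq_one]
  have hJ := jacobiSum_nontrivial_inv (χ := χ) (by rintro rfl; simp at h3)
  have e : χ (-1) = 1 := (hχ (-1)).trans (cub_neg_one p)
  rw [e, jacobiSum, ← sum_res_eq_quot hp.ne_zero] at hJ
  rw [← hJ]
  refine Finset.sum_congr rfl fun x _ => ?_
  rw [hi, MulChar.pow_apply' _ two_ne_zero, conj_cub, ← hχ, ← hχ, map_sub, map_one]

theorem L1 {α β : O} (h : Nrm α β) (hβ : ¬ p ∣ β) :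
    ∑ a ∈ res p, Cv (α + a * β) (p * β) = qq p * cub p β * Cv α β := by
  classical
  simp only [fun a => Cv_right hp hp' (nrm_add h a) hβ, Cv_add]
  rw [← Finset.sum_mul]
  congr 1
  have := sum_res_affine hp.ne_zero
    (fun x => (if p ∣ x then qq p * cub p β else 0) + conj (cub p x)) (fun x y hxy => by
      simp only [Gauss_cub_per p x y hxy, dvd_iff_dvd_of_dvd_sub hxy])
    (hp.coprime_iff_not_dvd.2 hβ).symm α
  simp only [add_comm α, mul_comm _ β]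
  rw [this, Finset.sum_add_distrib, sum_conj hp hp', add_zero,
    sum_delta hp (f := fun _ => qq p * cub p β) fun _ _ _ => rfl]

theorem L2 {α β : O} (h : Nrm α β) (hβ : ¬ p ∣ β) (hα : p ∣ α) :
    ∑ a ∈ res p, cub p a * Cv (α + a * β) (p * β) =
      ((nm p : ℂ) - 1) * conj (cub p β) * Cv α β := by
  classical
  simp only [fun a => Cv_right hp hp' (nrm_add h a) hβ, Cv_add]
  rw [← sum_norm hp hp', Finset.sum_mul, Finset.sum_mul]
  refine Finset.sum_congr rfl fun a _ => ?_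
  rw [Gauss_cub_per p (α + a * β) (a * β) (by simpa using hα), cub_mul_right, map_mul]
  by_cases ha : p ∣ a
  · rw [cub_zero hp hp' ha]; ring
  · rw [if_neg fun h' => (hp.dvd_or_dvd ((dvd_add_right hα).1 h')).elim ha hβ]; ring

theorem L3 {α β : O} (h : Nrm α β) (hβ : ¬ p ∣ β) (hα : ¬ p ∣ α) :
    ∑ a ∈ res p, cub p a * Cv (α + a * β) (p * β) =
      (qq p * cub p α - conj (cub p β)) * Cv α β := by
  classical
  simp only [fun a => Cv_right hp hp' (nrm_add h a) hβ, Cv_add, ← mul_assoc]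
  rw [← Finset.sum_mul]
  congr 1
  obtain ⟨u, v, huv⟩ := hp.coprime_iff_not_dvd.2 hβ
  -- the class `c` with `c β ≡ -α`
  have hc : p ∣ (-(α * v)) * β - (-1) * α := ⟨u * α, by linear_combination (-α) * huv⟩
  generalize -(α * v) = c at hc
  have hχ : cub p c * cub p β = cub p α := by
    rw [← cub_mul_right, Gauss_cub_per _ _ _ hc, cub_mul_right, cub_neg_one, one_mul]
  have hcp : IsCoprime c p := (hp.coprime_iff_not_dvd.2 fun h' => hα (by
    have := dvd_sub (h'.mul_right β) hc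
    simpa using this)).symm
  have := sum_res_affine hp.ne_zero (fun a => cub p a *
    ((if p ∣ α + a * β then qq p * cub p β else 0) + conj (cub p (α + a * β)))) (fun x y hxy => by
      have h' : p ∣ (α + x * β) - (α + y * β) := by
        rw [add_sub_add_left_eq_sub, ← sub_mul]; exact hxy.mul_right β
      simp only [Gauss_cub_per p x y hxy, Gauss_cub_per p _ _ h', dvd_iff_dvd_of_dvd_sub h'])
    hcp 0
  rw [← this]
  have e : ∀ x, cub p (c * x + 0) * ((if p ∣ α + (c * x + 0) * β then qq p * cub p β else 0) +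
      conj (cub p (α + (c * x + 0) * β))) =
      (if p ∣ 1 - x then qq p * cub p α * cub p x else 0) +
        conj (cub p β) * (cub p x * conj (cub p (1 - x))) := fun x => by
    have h' : p ∣ (α + (c * x + 0) * β) - α * (1 - x) := by
      obtain ⟨d, hd⟩ := hc
      exact ⟨d * x, by linear_combination x * hd⟩
    have h'' : p ∣ α * (1 - x) ↔ p ∣ 1 - x :=
      ⟨fun h => (hp.dvd_or_dvd h).resolve_left hα, fun h => h.mul_left α⟩
    have h3 := conj_mul hp hp' (a := c) (hp.coprime_iff_not_dvd.1 hcp.symm)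
    rw [Gauss_cub_per p _ _ h', add_zero, cub_mul_right, cub_mul_right, map_mul, ← hχ, map_mul]
    simp only [dvd_iff_dvd_of_dvd_sub (add_zero (c * x) ▸ h'), h'']
    split_ifs
    · linear_combination cub p x * conj (cub p β) * conj (cub p (1 - x)) * h3
    · linear_combination cub p x * conj (cub p β) * conj (cub p (1 - x)) * h3
  simp only [e]
  rw [Finset.sum_add_distrib, ← Finset.mul_sum, sum_jac hp hp',
    Gauss_delta hp.ne_zero (f := fun x => qq p * cub p α * cub p x)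
      (fun x y hxy => by simp only [Gauss_cub_per p x y hxy]) 1, cub_one_right]
  ring

theorem L4 {α β t : O} (h : Nrm α β) (hα : ¬ p ∣ α) (ht : p ∣ t) (k : ℕ) :
    Cv (α + t * β) (p ^ k * β) = conj (cub p α) ^ k * Cv α β := by
  have hx : ¬ p ∣ α + t * β := fun h' => hα ((dvd_add_left (ht.mul_right β)).1 h')
  rw [Cv_mul_right (nrm_add h t) (hp'.pow k) (hp.coprime_iff_not_dvd.2 hx).pow_left, Cv_add,
    cub_pow_left hp.ne_zero, map_pow,
    Gauss_cub_per p (α + t * β) α (by simpa using ht.mul_right β)]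

theorem L5 {α β : O} (h : Nrm α β) (hβ : ¬ p ∣ β) (k : ℕ) :
    Cv (p ^ k * α) β = conj (cub p β) ^ k * Cv α β := by
  rw [Cv_mul_left h (hp'.pow k) (hp.coprime_iff_not_dvd.2 hβ).pow_left, cub_pow_left hp.ne_zero,
    map_pow]

omit hp hp' in
/-- The identity without denominators. -/
def HK (p α β : O) : Prop :=
  (nm p : ℂ) * ∑ a ∈ res p, Cv (p * α + a * β) (p * β) =
    qq p * Cv (p ^ 3 * α) β + qq p * ∑ a ∈ res p, cub p a * Cv (p ^ 2 * α + a * β) (p * β)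

omit hp hp' in
theorem HK.mul {α β ρ : O} (h : HK p α β) (hρ : ρ ≠ 0) : HK p (ρ * α) (ρ * β) := by
  have e1 : ∀ a, Cv (p * (ρ * α) + a * (ρ * β)) (p * (ρ * β)) =
      qq ρ * Cv (p * α + a * β) (p * β) := fun a => by
    rw [← Cv_p hρ]; congr 1 <;> ring
  have e2 : ∀ a, cub p a * Cv (p ^ 2 * (ρ * α) + a * (ρ * β)) (p * (ρ * β)) =
      qq ρ * (cub p a * Cv (p ^ 2 * α + a * β) (p * β)) := fun a => by
    rw [mul_left_comm (qq ρ), ← Cv_p hρ]; congr 2 <;> ring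
  have e3 : Cv (p ^ 3 * (ρ * α)) (ρ * β) = qq ρ * Cv (p ^ 3 * α) β := by
    rw [← Cv_p hρ]; congr 1; ring
  unfold HK at h ⊢
  simp only [e1, e2, e3, ← Finset.mul_sum]
  linear_combination qq ρ * h

theorem HK0 {α β : O} (h : Nrm α β) (hβ : ¬ p ∣ β) : HK p α β := by
  have hc := hp.coprime_iff_not_dvd.2 hβ
  have c3 := cub_pow_three hp' hc
  unfold HK
  rw [L1 hp hp' (nrm_mul h hp' hc) hβ,
    L2 hp hp' (nrm_mul h (hp'.pow 2) hc.pow_left) hβ ⟨p * α, by ring⟩, L5 hp hp' h hβ,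
    L5 hp hp' h hβ, Cv_mul_left h hp' hc, conj_cub]
  linear_combination (-(nm p : ℂ) * qq p * Cv α β * cub p β ^ 3) * c3

theorem HK1 {α β : O} (h : Nrm α β) (hβ : ¬ p ∣ β) : HK p α (p * β) := by
  have hc := hp.coprime_iff_not_dvd.2 hβ
  have c3 := cub_pow_three hp' hc
  have e1 : ∀ a, Cv (p * α + a * (p * β)) (p * (p * β)) = qq p * Cv (α + a * β) (p * β) :=
    fun a => by rw [← Cv_p hp.ne_zero]; congr 1; ring
  have e2 : ∀ a, cub p a * Cv (p ^ 2 * α + a * (p * β)) (p * (p * β)) =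
      qq p * (cub p a * Cv (p * α + a * β) (p * β)) := fun a => by
    rw [mul_left_comm (qq p), ← Cv_p hp.ne_zero]; congr 2; ring
  have e3 : Cv (p ^ 3 * α) (p * β) = qq p * Cv (p ^ 2 * α) β := by
    rw [← Cv_p hp.ne_zero]; congr 1; ring
  unfold HK
  simp only [e1, e2, e3, ← Finset.mul_sum]
  rw [L1 hp hp' h hβ, L2 hp hp' (nrm_mul h hp' hc) hβ ⟨α, rfl⟩, L5 hp hp' h hβ,
    Cv_mul_left h hp' hc, conj_cub]
  linear_combination (-(nm p : ℂ) * qq p ^ 2 * Cv α β * cub p β) * c3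

theorem HK2 {α β : O} (h : Nrm α β) (hβ : ¬ p ∣ β) (hα : ¬ p ∣ α) : HK p α (p ^ 2 * β) := by
  have hc := hp.coprime_iff_not_dvd.2 hβ
  have c3 := cub_pow_three hp' (hp.coprime_iff_not_dvd.2 hα)
  have e1 : ∀ a, Cv (p * α + a * (p ^ 2 * β)) (p * (p ^ 2 * β)) =
      qq p * (conj (cub p α) ^ 2 * Cv α β) := fun a => by
    rw [← L4 hp hp' h hα (dvd_mul_left p a), ← Cv_p hp.ne_zero]; congr 1; ring
  have e2 : ∀ a, cub p a * Cv (p ^ 2 * α + a * (p ^ 2 * β)) (p * (p ^ 2 * β)) =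
      qq p * qq p * (cub p a * Cv (α + a * β) (p * β)) := fun a => by
    rw [mul_left_comm (qq p * qq p), mul_assoc, ← Cv_p hp.ne_zero, ← Cv_p hp.ne_zero]
    congr 2 <;> ring
  have e3 : Cv (p ^ 3 * α) (p ^ 2 * β) = qq p * (qq p * Cv (p * α) β) := by
    rw [← Cv_p hp.ne_zero, ← Cv_p hp.ne_zero]; congr 1 <;> ring
  unfold HK
  simp only [e1, e2, e3, ← Finset.mul_sum]
  rw [L3 hp hp' h hβ hα, Cv_mul_left h hp' hc, Finset.sum_const, card_res hp.ne_zero,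
    nsmul_eq_mul, conj_cub p α]
  linear_combination ((nm p : ℂ) ^ 2 * qq p * Cv α β * cub p α) * c3 -
    (qq p * cub p α * Cv α β) * qq_cube p

theorem HK3 {α β : O} (h : Nrm α β) (hα : ¬ p ∣ α) : HK p α (p ^ 3 * β) := by
  have c3 := cub_pow_three hp' (hp.coprime_iff_not_dvd.2 hα)
  have e1 : ∀ a, Cv (p * α + a * (p ^ 3 * β)) (p * (p ^ 3 * β)) =
      qq p * (conj (cub p α) ^ 3 * Cv α β) := fun a => by
    rw [← L4 hp hp' h hα (t := a * p ^ 2) ⟨a * p, by ring⟩, ← Cv_p hp.ne_zero]; congr 1; ring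
  have e2 : ∀ a, cub p a * Cv (p ^ 2 * α + a * (p ^ 3 * β)) (p * (p ^ 3 * β)) =
      qq p * (qq p * (conj (cub p α) ^ 2 * Cv α β)) * cub p a := fun a => by
    rw [mul_comm, ← L4 hp hp' h hα (dvd_mul_left p a), ← Cv_p hp.ne_zero, ← Cv_p hp.ne_zero]
    congr 2 <;> ring
  have e3 : Cv (p ^ 3 * α) (p ^ 3 * β) = qq p * (qq p * (qq p * Cv α β)) := by
    rw [← Cv_p hp.ne_zero, ← Cv_p hp.ne_zero, ← Cv_p hp.ne_zero]; congr 1 <;> ring
  unfold HK
  simp only [e1, e2, e3, ← Finset.mul_sum]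
  rw [Gauss_sum_cub hp hp', Finset.sum_const, card_res hp.ne_zero, nsmul_eq_mul, ← map_pow, c3,
    map_one]
  linear_combination (-(qq p * Cv α β)) * qq_cube p

theorem HK_nrm {α β : O} (h : Nrm α β) : HK p α β := by
  by_cases h0 : p ∣ β
  swap
  · exact HK0 hp hp' h h0
  have hα : ¬ p ∣ α := fun h' => hp.not_isUnit (h.1.isUnit_of_dvd' h' h0)
  obtain ⟨β, rfl⟩ := h0
  have h1 := nrm_of_right h hp'
  by_cases h0 : p ∣ β
  swap
  · exact HK1 hp hp' h1 h0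
  obtain ⟨β, rfl⟩ := h0
  have h2 := nrm_of_right h1 hp'
  by_cases h0 : p ∣ β
  swap
  · have := HK2 hp hp' h2 h0 hα
    rwa [sq, mul_assoc] at this
  obtain ⟨β, rfl⟩ := h0
  have := HK3 hp hp' (nrm_of_right h2 hp') hα
  rwa [pow_three, mul_assoc, mul_assoc] at this

omit hp hp' in
theorem Cv_van {x y : O} (hx : ¬ lam ∣ x) (h1 : lam ∣ y) (h3 : ¬ (3 : O) ∣ y) : Cv x y = 0 := by
  obtain ⟨ρ, σ, h0, rfl, rfl⟩ := exists_col (α := x) (β := y) (Or.inl fun h => hx (h ▸ dvd_zero _))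
  rw [Cv_mul h0, Cv_eq_zero ⟨σ 1 1, -σ 0 1, by linear_combination SL2.det_eq σ⟩
    ((prime_lam.dvd_or_dvd h1).resolve_left fun h => hx (h.mul_right _))
    fun h => h3 (h.mul_left _), mul_zero]

omit hp in
theorem HK_van {α β : O} (h : IsCoprime α β) (h1 : lam ∣ β) (h3 : ¬ (3 : O) ∣ β) : HK p α β := by
  have hα : ∀ k : ℕ, ¬ lam ∣ p ^ k * α := fun k h' => (prime_lam.dvd_or_dvd h').elim
    (hp'.pow k).not_lam_dvd fun h2 => prime_lam.not_isUnit (h.isUnit_of_dvd' h2 h1)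
  have e : ∀ (k : ℕ) a, Cv (p ^ k * α + a * β) (p * β) = 0 := fun k a =>
    Cv_van (fun h' => hα k ((dvd_add_left (h1.mul_left a)).1 h')) (h1.mul_left p)
      fun h' => h3 (hp'.isCoprime_three.symm.dvd_of_dvd_mul_left h')
  have e1 := e 1
  simp only [pow_one] at e1
  unfold HK
  simp only [e, e1, Cv_van (hα 3) h1 h3, mul_zero, Finset.sum_const_zero, add_zero]

theorem HK_all (α β : O) : HK p α β := by
  by_cases h : α ≠ 0 ∨ β ≠ 0
  · obtain ⟨ρ, σ, h0, rfl, rfl⟩ := exists_col h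
    refine HK.mul ?_ h0
    have hc : IsCoprime (σ 0 0) (σ 1 0) := ⟨σ 1 1, -σ 0 1, by linear_combination SL2.det_eq σ⟩
    rcases exists_nrm hc with ⟨u, hu, hn⟩ | ⟨h1, h3⟩
    · obtain ⟨v, hv⟩ := hu.exists_left_inv
      have := (HK_nrm hp hp' hn).mul (ρ := v) (left_ne_zero_of_mul_eq_one hv)
      rwa [← mul_assoc, ← mul_assoc, hv, one_mul, one_mul] at this
    · exact HK_van hp' hc h1 h3
  · rw [not_or, not_not, not_not] at h
    unfold HK
    simp only [h.1, h.2, mul_zero, add_zero, Cv_zero, Finset.sum_const_zero]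

end Cusp

/-- The constant terms of the two sides of the Hecke identity agree. -/
theorem hecke_ct {p : O} (hp : Prime p) (hp' : Primary p) (α β : O) :
    ((nr p ^ (-(2 / 3 : ℝ)) : ℝ) : ℂ) * ∑ a ∈ res p, Cv (p * α + a * β) (p * β) =
      (((nr p)⁻¹ : ℝ) : ℂ) * Cv (p ^ 3 * α) β +
        (((nr p)⁻¹ : ℝ) : ℂ) * ∑ a ∈ res p, cub p a * Cv (p ^ 2 * α + a * β) (p * β) := by
  have h := Cusp.HK_all hp hp' α β
  have h0 := nr_pos hp.ne_zero
  have hq : Cusp.qq p ≠ 0 := Complex.ofReal_ne_zero.2 (Real.rpow_pos_of_pos h0 _).ne'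
  have hP : (nm p : ℂ) ≠ 0 := Nat.cast_ne_zero.2 fun e => hp.ne_zero (nm_eq_zero.1 e)
  have e1 : ((nr p ^ (-(2 / 3 : ℝ)) : ℝ) : ℂ) = (Cusp.qq p)⁻¹ := by
    rw [Real.rpow_neg h0.le, Complex.ofReal_inv, Cusp.qq]
  have e2 : (((nr p)⁻¹ : ℝ) : ℂ) = (nm p : ℂ)⁻¹ := by simp [nr]
  unfold Cusp.HK at h
  rw [e1, e2]
  field_simp
  linear_combination h

end Crest.Agent.R17
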