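import Crest.Agent.R17.ThetaH

/-!
# Row 17, theta module C: auxiliary lemmas for part C1 of `ThetaKub.lean`
-/

set_option autoImplicit false

noncomputable section

namespace Crest.Agent.R17

open scoped ComplexConjugate

namespace KubC1

theorem one_10 : (1 : SL2) 1 0 = 0 := rfl
theorem one_11 : (1 : SL2) 1 1 = 1 := rfl

theorem mul_apply (σ τ : SL2) (i j : Fin 2) : (σ * τ) i j = σ i 0 * τ 0 j + σ i 1 * τ 1 j := by
  rw [Matrix.SpecialLinearGroup.coe_mul, Matrix.mul_apply, Fin.sum_univ_two]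

theorem inv_00 (σ : SL2) : σ⁻¹ 0 0 = σ 1 1 := by
  rw [Matrix.SpecialLinearGroup.coe_inv, Matrix.adjugate_fin_two]; rfl
theorem inv_01 (σ : SL2) : σ⁻¹ 0 1 = -σ 0 1 := by
  rw [Matrix.SpecialLinearGroup.coe_inv, Matrix.adjugate_fin_two]; rfl
theorem inv_10 (σ : SL2) : σ⁻¹ 1 0 = -σ 1 0 := by
  rw [Matrix.SpecialLinearGroup.coe_inv, Matrix.adjugate_fin_two]; rfl
theorem inv_11 (σ : SL2) : σ⁻¹ 1 1 = σ 0 0 := by
  rw [Matrix.SpecialLinearGroup.coe_inv, Matrix.adjugate_fin_two]; rfl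

theorem primary_add {n k : O} (hn : Primary n) (hk : (9 : O) ∣ k) : Primary (n + k) := by
  obtain ⟨a, ha⟩ := hn
  obtain ⟨b, hb⟩ := hk
  exact ⟨a + 3 * b, by linear_combination ha + hb⟩

theorem primary_congr {n n' : O} (hn : Primary n) (h : (9 : O) ∣ n - n') : Primary n' := by
  have := primary_add hn h.neg_right
  rwa [show n + -(n - n') = n' by ring] at this

theorem primary_00 {γ : SL2} (h1 : (9 : O) ∣ γ 1 0) (h2 : Primary (γ 1 1)) : Primary (γ 0 0) := by
  refine h2.of_mul ?_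
  have h := primary_add primary_one (h1.mul_left (γ 0 1))
  rwa [show 1 + γ 0 1 * γ 1 0 = γ 1 1 * γ 0 0 by linear_combination -γ.det_eq] at h

theorem lam_dvd_nine : lam ∣ (9 : O) := ⟨lam ^ 3, by linear_combination (3 - lam ^ 2) * lam_sq⟩

theorem lam_dvd_congr {x y : O} (h : (9 : O) ∣ x - y) : lam ∣ x ↔ lam ∣ y :=
  dvd_iff_dvd_of_dvd_sub (lam_dvd_nine.trans h)

theorem not_lam_dvd {α β : O} (h : IsCoprime α β) (hβ : lam ∣ β) : ¬ lam ∣ α := fun hα =>
  prime_lam.not_isUnit (h.isUnit_of_dvd' hα hβ)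

/-- The symbol of a unit only depends on the denominator modulo `9`. -/
theorem cub_unit_congr {u n n' : O} (hu : IsUnit u) (hn : Primary n) (hn' : Primary n')
    (h9 : (9 : O) ∣ n - n') : cub n u = cub n' u := by
  obtain ⟨k, -, rfl⟩ := isUnit_iff_pow.1 hu
  rw [cub_pow_right, cub_pow_right, ← neg_one_mul om, cub_mul_right, cub_mul_right, cub_neg_one,
    cub_neg_one, cub_om_congr hn hn' h9]

theorem cub_pow_three' {n a : O} (hn : ¬ lam ∣ n) (h : IsCoprime n a) : cub n a ^ 3 = 1 := by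
  obtain ⟨u, hu, hun⟩ := exists_unit_primary hn
  rw [← cub_unit_mul_left hu]
  exact cub_pow_three hun ((isCoprime_mul_unit_left_left hu _ _).2 h)

theorem norm_cub' {n a : O} (hn : ¬ lam ∣ n) (h : IsCoprime n a) : ‖cub n a‖ = 1 := by
  obtain ⟨u, hu, hun⟩ := exists_unit_primary hn
  rw [← cub_unit_mul_left hu]
  exact norm_cub hun ((isCoprime_mul_unit_left_left hu _ _).2 h)

theorem cub_congr' {n a b : O} (h : n ∣ a - b) : cub n a = cub n b :=
  cub_congr ((rad_dvd n).trans h)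

theorem eq_conj_of_mul {x y : ℂ} (hx : ‖x‖ = 1) (h : x * y = 1) : y = conj x := by
  have h1 : conj x * x = 1 := by
    rw [mul_comm, Complex.mul_conj, Complex.normSq_eq_norm_sq, hx]; norm_num
  linear_combination (-y) * h1 + conj x * h

end KubC1

end Crest.Agent.R17
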