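import Crest.Agent.R17.ThetaH
import Crest.Agent.R17.ThetaKubAuxC1

/-!
# Row 17, theta module C: the Kubota symbol

`Gam = {(a b; c d) : 9 ∣ c, d ≡ 1 (3)}`, `kap γ = (c / d)₃` is a character of `Gam`.
-/

set_option autoImplicit false

noncomputable section

namespace Crest.Agent.R17

open scoped ComplexConjugate

/-- The group. -/
def Gam : Subgroup SL2 where
  carrier := {γ | (9 : O) ∣ γ 1 0 ∧ Primary (γ 1 1)}
  one_mem' := by
    refine ⟨?_, ?_⟩
    · rw [KubC1.one_10]; exact dvd_zero _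
    · rw [KubC1.one_11]; exact primary_one
  mul_mem' := by
    rintro γ γ' ⟨h1, h2⟩ ⟨h3, h4⟩
    refine ⟨?_, ?_⟩
    · rw [KubC1.mul_apply]; exact dvd_add (h1.mul_right _) (h3.mul_left _)
    · rw [KubC1.mul_apply, add_comm]; exact KubC1.primary_add (h2.mul h4) (h1.mul_right _)
  inv_mem' := by
    rintro γ ⟨h1, h2⟩
    refine ⟨?_, ?_⟩
    · rw [KubC1.inv_10]; exact h1.neg_right
    · rw [KubC1.inv_11]; exact KubC1.primary_00 h1 h2

theorem mem_Gam {γ : SL2} : γ ∈ Gam ↔ (9 : O) ∣ γ 1 0 ∧ Primary (γ 1 1) := Iff.rfl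

/-- The (conjugate) Kubota symbol `(c / d)₃`. -/
def kap (γ : SL2) : ℂ := cub (γ 1 1) (γ 1 0)

/-- Congruence of matrices. -/
def Cong (N : O) (σ τ : SL2) : Prop := ∀ i j, N ∣ σ i j - τ i j

open Classical in
/-- The factor attached to a first column. -/
def Jc (α β : O) : ℂ := if lam ∣ β then conj (cub α β) else conj (cub β α)

open Classical in
/-- `conj κ` as a function of the second row (zero on the rows which do not occur in `Gam`). -/
def xi (c d : O) : ℂ := if (9 : O) ∣ c ∧ Primary d then conj (cub d c) else 0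

/-- The same function seen from the cusp `σ ∞`: `xis σ v = xi (v σ⁻¹)`. -/
def xis (σ : SL2) (c d : O) : ℂ := xi (c * σ 1 1 - d * σ 1 0) (d * σ 0 0 - c * σ 0 1)

/-- Admissible coefficient functions. -/
def XiOK (ξ : O → O → ℂ) : Prop :=
  (∀ c d, ‖ξ c d‖ ≤ 1) ∧ (∀ c d, ¬ IsCoprime c d → ξ c d = 0) ∧
    ∀ c d t, ξ c (d + 9 * c * t) = ξ c d

/-! ## part C1 -/

/-- L0: periodicity in the denominator. -/
theorem cub_congr9 {c n n' : O} (hc : c ≠ 0) (hn : Primary n) (hn' : Primary n')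
    (h9 : (9 : O) ∣ n - n') (h : rad c ∣ n - n') : cub n c = cub n' c := by
  obtain ⟨u, j, hu, e⟩ := exists_eq_unit_lam_primary hc
  have h1 : Primary (∏ p ∈ pf c, p ^ vp p c) := BasicB.primary_prod_pow (fun _ => BasicB.pf_sub) _
  have h2 : rad (∏ p ∈ pf c, p ^ vp p c) ∣ rad c := by
    refine Finset.prod_dvd_prod_of_subset _ _ _ fun p hp => ?_
    obtain ⟨a1, a2, a3⟩ := BasicB.of_mem_pf hp
    exact (mem_pf hc).2 ⟨a1, a2, a3.trans (BasicB.prod_dvd hc)⟩
  generalize ∏ p ∈ pf c, p ^ vp p c = c1 at e h1 h2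
  have h3 : cub n c1 = cub n' c1 := by
    rw [cub_recip hn h1, cub_recip hn' h1]; exact cub_congr (h2.trans h)
  rw [e, cub_mul_right, cub_mul_right, cub_mul_right, cub_mul_right, cub_pow_right, cub_pow_right,
    KubC1.cub_unit_congr hu hn hn' h9, cub_lam_congr hn hn' h9, h3]
/-- L0': the same with `c ∣ n - n'` (also for `c = 0`). -/
theorem cub_congr9' {c n n' : O} (hn : Primary n) (hn' : Primary n')
    (h9 : (9 : O) ∣ n - n') (h : c ∣ n - n') : cub n c = cub n' c := by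
  rcases eq_or_ne c 0 with rfl | hc
  · rw [sub_eq_zero.1 (zero_dvd_iff.1 h)]
  · exact cub_congr9 hc hn hn' h9 ((rad_dvd c).trans h)
/-- L1: stable range. -/
theorem exists_add_mul_isCoprime {a b c : O} (h : IsCoprime a b) (hc : c ≠ 0) :
    ∃ t, IsCoprime (a + b * t) c := by
  classical
  refine ⟨((UniqueFactorizationMonoid.factors c).filter (fun q => ¬ q ∣ a)).prod, ?_⟩
  refine isCoprime_of_prime_dvd (fun h0 => hc h0.2) fun z hz hz1 hz2 => ?_
  by_cases hza : z ∣ a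
  · rcases hz.dvd_or_dvd ((dvd_add_right hza).1 hz1) with hb | ht
    · exact hz.not_isUnit (h.isUnit_of_dvd' hza hb)
    · obtain ⟨q, hq, hzq⟩ := hz.exists_mem_multiset_dvd ht
      obtain ⟨hq1, hq2⟩ := Multiset.mem_filter.1 hq
      exact hq2 ((hz.associated_of_dvd (UniqueFactorizationMonoid.prime_of_factor q hq1)
        hzq).symm.dvd.trans hza)
  · obtain ⟨q, hq, hzq⟩ := UniqueFactorizationMonoid.exists_mem_factors_of_dvd hc hz.irreducible hz2
    have h1 : q ∣ ((UniqueFactorizationMonoid.factors c).filter (fun q => ¬ q ∣ a)).prod :=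
      Multiset.dvd_prod (Multiset.mem_filter.2 ⟨hq, fun hqa => hza (hzq.dvd.trans hqa)⟩)
    exact hza ((dvd_add_left ((hzq.dvd.trans h1).mul_left b)).1 hz1)
/-- The master lemma when `d'` is coprime to `c`. -/
theorem KubC1.master_aux {c d a' b' c' d' : O} (hdet : a' * d' - b' * c' = 1) (hd : Primary d)
    (hd' : Primary d') (hcd : IsCoprime d' c) (h9 : (9 : O) ∣ c * b') :
    cub (c * b' + d * d') (c * a' + d * c') = cub d c * cub d' c' := by
  have hp : Primary (c * b' + d * d') := by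
    rw [add_comm]; exact KubC1.primary_add (hd.mul hd') h9
  have e1 : cub (c * b' + d * d') (c * a' + d * c') * cub (c * b' + d * d') d'
      = cub (c * b' + d * d') c := by
    rw [← cub_mul_right]
    exact KubC1.cub_congr' ⟨c', by linear_combination c * hdet⟩
  have e2 : cub (c * b' + d * d') c = cub d c * cub d' c := by
    rw [← cub_mul_left hd.ne_zero hd'.ne_zero]
    exact cub_congr9' hp (hd.mul hd') (by rwa [add_sub_cancel_right]) ⟨b', by ring⟩
  have e3 : cub (c * b' + d * d') d' = cub d' c * cub d' b' := by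
    rw [cub_recip hp hd', ← cub_mul_right]
    exact KubC1.cub_congr' ⟨d, by ring⟩
  have e4 : cub d' b' * cub d' c' = 1 := by
    rw [← cub_mul_right, ← cub_neg_one d']
    exact KubC1.cub_congr' ⟨a', by linear_combination -hdet⟩
  have e5 : cub d' c ≠ 0 := fun h0 => (cub_eq_zero_iff hd').1 h0 hcd
  rw [e2, e3] at e1
  apply mul_left_cancel₀ e5
  linear_combination cub d' c' * e1
    - cub (c * b' + d * d') (c * a' + d * c') * cub d' c * e4
/-- **Master lemma**: the row `(c, d)` times the matrix `(a' b'; c' d')`. -/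
theorem cub_master {c d a' b' c' d' : O} (hdet : a' * d' - b' * c' = 1) (hd : Primary d)
    (hd' : Primary d') (hcd : IsCoprime c d) (h9 : (9 : O) ∣ c * b') :
    cub (c * b' + d * d') (c * a' + d * c') = cub d c * cub d' c' := by
  rcases eq_or_ne c 0 with rfl | hc
  · obtain rfl : d = 1 := hd.eq_one_of_isUnit (isCoprime_zero_left.1 hcd)
    simp
  have h1 : IsCoprime d' (9 * c') := by
    refine IsCoprime.mul_right ?_ ⟨a', -b', by linear_combination hdet⟩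
    rw [show (9 : O) = 3 * 3 by norm_num]
    exact hd'.isCoprime_three.mul_right hd'.isCoprime_three
  obtain ⟨t, ht⟩ := exists_add_mul_isCoprime h1 hc
  have hp : Primary (c * b' + d * d') := by
    rw [add_comm]; exact KubC1.primary_add (hd.mul hd') h9
  have hd1 : Primary (d' + 9 * c' * t) := KubC1.primary_add hd' ⟨c' * t, by ring⟩
  have h9' : (9 : O) ∣ c * (b' + 9 * a' * t) := by
    rw [mul_add]; exact dvd_add h9 ⟨c * a' * t, by ring⟩
  have hp1 : Primary (c * (b' + 9 * a' * t) + d * (d' + 9 * c' * t)) := by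
    rw [add_comm]; exact KubC1.primary_add (hd.mul hd1) h9'
  have key := KubC1.master_aux (a' := a') (b' := b' + 9 * a' * t) (c' := c')
    (by linear_combination hdet) hd hd1 ht h9'
  rw [cub_congr9' hp1 hp ⟨t * (c * a' + d * c'), by ring⟩ ⟨9 * t, by ring⟩,
    cub_congr9' hd1 hd' ⟨c' * t, by ring⟩ ⟨9 * t, by ring⟩] at key
  exact key
theorem Gam.primary_00 {γ : SL2} (h : γ ∈ Gam) : Primary (γ 0 0) := KubC1.primary_00 h.1 h.2
theorem KubC1.isCoprime_row (γ : SL2) : IsCoprime (γ 1 0) (γ 1 1) :=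
  ⟨-γ 0 1, γ 0 0, by linear_combination γ.det_eq⟩
theorem KubC1.isCoprime_col (γ : SL2) : IsCoprime (γ 0 0) (γ 1 0) :=
  ⟨γ 1 1, -γ 0 1, by linear_combination γ.det_eq⟩
theorem kap_mul {γ γ' : SL2} (h : γ ∈ Gam) (h' : γ' ∈ Gam) : kap (γ * γ') = kap γ * kap γ' := by
  unfold kap
  rw [KubC1.mul_apply, KubC1.mul_apply]
  exact cub_master γ'.det_eq h.2 h'.2 (KubC1.isCoprime_row γ) (h.1.mul_right _)
theorem kap_one : kap 1 = 1 := by
  unfold kap
  rw [KubC1.one_11, cub_one_left]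
theorem norm_kap {γ : SL2} (h : γ ∈ Gam) : ‖kap γ‖ = 1 :=
  norm_cub h.2 (KubC1.isCoprime_row γ).symm
theorem kap_pow_three {γ : SL2} (h : γ ∈ Gam) : kap γ ^ 3 = 1 :=
  cub_pow_three h.2 (KubC1.isCoprime_row γ).symm
theorem kap_inv {γ : SL2} (h : γ ∈ Gam) : kap γ⁻¹ = conj (kap γ) :=
  KubC1.eq_conj_of_mul (norm_kap h) (by rw [← kap_mul h (Gam.inv_mem h), mul_inv_cancel, kap_one])
theorem kap_eq_a {γ : SL2} (h : γ ∈ Gam) : kap γ = conj (cub (γ 0 0) (γ 1 0)) := by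
  have h1 : kap γ⁻¹ = cub (γ 0 0) (γ 1 0) := by
    unfold kap
    rw [KubC1.inv_11, KubC1.inv_10, ← neg_one_mul (γ 1 0), cub_mul_right, cub_neg_one, one_mul]
  rw [← h1, kap_inv h, Complex.conj_conj]
theorem kap_eq_b {γ : SL2} (h : γ ∈ Gam) : kap γ = conj (cub (γ 1 1) (γ 0 1)) := by
  have h1 : kap γ * cub (γ 1 1) (γ 0 1) = 1 := by
    unfold kap
    rw [← cub_mul_right, ← cub_neg_one (γ 1 1)]
    exact KubC1.cub_congr' ⟨γ 0 0, by linear_combination -γ.det_eq⟩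
  rw [KubC1.eq_conj_of_mul (norm_kap h) h1, Complex.conj_conj]
theorem nT_mem (t : O) : nT t ∈ Gam := ⟨dvd_zero _, primary_one⟩
theorem kap_nT (t : O) : kap (nT t) = 1 := cub_one_left _
theorem KubC1.cong_one {σ τ : SL2} (h : Cong 9 σ τ) : Cong 9 (σ * τ⁻¹) 1 := by
  intro i j
  rw [← mul_inv_cancel τ, KubC1.mul_apply, KubC1.mul_apply]
  have := dvd_add ((h i 0).mul_right (τ⁻¹ 0 j)) ((h i 1).mul_right (τ⁻¹ 1 j))
  convert this using 1
  ring
theorem Cong.mul_inv_mem {σ τ : SL2} (h : Cong 9 σ τ) : σ * τ⁻¹ ∈ Gam := by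
  have h1 := KubC1.cong_one h 1 0
  have h2 := KubC1.cong_one h 1 1
  rw [KubC1.one_10, sub_zero] at h1
  rw [KubC1.one_11] at h2
  exact ⟨h1, Dvd.dvd.trans ⟨3, by norm_num⟩ h2⟩
theorem norm_Jc {α β : O} (h : IsCoprime α β) : ‖Jc α β‖ = 1 := by
  unfold Jc
  split_ifs with hβ
  · rw [Complex.norm_conj]; exact KubC1.norm_cub' (KubC1.not_lam_dvd h hβ) h
  · rw [Complex.norm_conj]; exact KubC1.norm_cub' hβ h.symm
/-- The master lemma for a row whose second entry is only prime to `λ`. -/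
theorem KubC1.master_unit {c d a' b' c' d' : O} (hdet : a' * d' - b' * c' = 1) (hd : ¬ lam ∣ d)
    (hd' : (9 : O) ∣ d' - 1) (hcd : IsCoprime c d) (h9 : (9 : O) ∣ b') :
    cub (c * b' + d * d') (c * a' + d * c') = cub d c * cub d' c' := by
  obtain ⟨u, hu, hud⟩ := exists_unit_primary hd
  have hp' : Primary d' := Dvd.dvd.trans ⟨3, by norm_num⟩ hd'
  have key := cub_master (c := u * c) hdet hud hp' ((isCoprime_mul_unit_left hu _ _).2 hcd)
    (h9.mul_left _)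
  have h1 : (9 : O) ∣ u * d - u * (c * b' + d * d') := by
    have := dvd_sub (hd'.mul_left (-(u * d))) (h9.mul_left (u * c))
    convert this using 1
    ring
  have hp : Primary (u * (c * b' + d * d')) := KubC1.primary_congr hud h1
  have h2 : cub (u * d) u ≠ 0 := fun h0 =>
    (cub_eq_zero_iff hud).1 h0
      (by simpa using (isCoprime_mul_unit_left_right hu (u * d) 1).2 isCoprime_one_right)
  rw [show u * c * b' + u * d * d' = u * (c * b' + d * d') by ring,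
    show u * c * a' + u * d * c' = u * (c * a' + d * c') by ring, cub_mul_right, cub_mul_right,
    ← KubC1.cub_unit_congr hu hud hp h1, mul_assoc] at key
  have := mul_left_cancel₀ h2 key
  rwa [cub_unit_mul_left hu, cub_unit_mul_left hu] at this
/-- The symbol of `σ τ⁻¹ ∈ Γ(9)` in terms of the first columns. -/
theorem kap_mul_Jc {σ τ : SL2} (h : Cong 9 σ τ) :
    kap (σ * τ⁻¹) * Jc (τ 0 0) (τ 1 0) = Jc (σ 0 0) (σ 1 0) := by
  have hm := h.mul_inv_mem
  have hc := KubC1.cong_one h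
  have hl : lam ∣ σ 1 0 ↔ lam ∣ τ 1 0 := KubC1.lam_dvd_congr (h 1 0)
  have e : σ = σ * τ⁻¹ * τ := by rw [inv_mul_cancel_right]
  generalize σ * τ⁻¹ = γ at hm hc e
  have e0 : σ 0 0 = γ 0 0 * τ 0 0 + γ 0 1 * τ 1 0 := by rw [← KubC1.mul_apply, ← e]
  have e1 : σ 1 0 = γ 1 0 * τ 0 0 + γ 1 1 * τ 1 0 := by rw [← KubC1.mul_apply, ← e]
  have hco := KubC1.isCoprime_col τ
  unfold Jc
  by_cases hβ : lam ∣ τ 1 0
  · rw [if_pos hβ, if_pos (hl.2 hβ), kap_eq_a hm, ← map_mul]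
    have key := KubC1.master_unit (c := τ 1 0) (d := τ 0 0) (a' := γ 1 1) (b' := γ 0 1)
      (c' := γ 1 0) (d' := γ 0 0) (by linear_combination γ.det_eq) (KubC1.not_lam_dvd hco hβ)
      (hc 0 0) hco.symm (by simpa using hc 0 1)
    rw [show τ 1 0 * γ 0 1 + τ 0 0 * γ 0 0 = σ 0 0 by rw [e0]; ring,
      show τ 1 0 * γ 1 1 + τ 0 0 * γ 1 0 = σ 1 0 by rw [e1]; ring] at key
    rw [key, mul_comm]
  · rw [if_neg hβ, if_neg (fun h' => hβ (hl.1 h')), kap_eq_b hm, ← map_mul]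
    have key := KubC1.master_unit (c := τ 0 0) (d := τ 1 0) (a' := γ 0 0) (b' := γ 1 0)
      (c' := γ 0 1) (d' := γ 1 1) (by linear_combination γ.det_eq) hβ (hc 1 1) hco hm.1
    rw [show τ 0 0 * γ 1 0 + τ 1 0 * γ 1 1 = σ 1 0 by rw [e1]; ring,
      show τ 0 0 * γ 0 0 + τ 1 0 * γ 0 1 = σ 0 0 by rw [e0]; ring] at key
    rw [key, mul_comm]
/-- `Jc` does not see a change of `α` modulo `9` and modulo the radical of `β`. -/
theorem Jc_congr {α α' β : O} (hβ : β ≠ 0) (h : IsCoprime α β) (h9 : (9 : O) ∣ α - α')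
    (hr : rad β ∣ α - α') : Jc α β = Jc α' β := by
  unfold Jc
  split_ifs with hl
  · obtain ⟨u, hu, hua⟩ := exists_unit_primary (KubC1.not_lam_dvd h hl)
    have h1 : (9 : O) ∣ u * α - u * α' := by rw [← mul_sub]; exact h9.mul_left _
    rw [← cub_unit_mul_left hu α, ← cub_unit_mul_left hu α',
      cub_congr9 hβ hua (KubC1.primary_congr hua h1) h1 (by rw [← mul_sub]; exact hr.mul_left _)]
  · rw [cub_congr hr]
theorem Jc_mul_cube {α β p : O} (hp : Primary p) (h : IsCoprime α (p ^ 3 * β)) :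
    Jc α (p ^ 3 * β) = Jc α β := by
  have hl : lam ∣ p ^ 3 * β ↔ lam ∣ β :=
    ⟨fun h1 => (prime_lam.dvd_or_dvd h1).resolve_left (hp.pow 3).not_lam_dvd, fun h1 => h1.mul_left _⟩
  have hc : IsCoprime α p := (IsCoprime.pow_right_iff (by norm_num)).1 h.of_mul_right_left
  unfold Jc
  by_cases hβ : lam ∣ β
  · rw [if_pos hβ, if_pos (hl.2 hβ), cub_mul_right, cub_pow_right,
      KubC1.cub_pow_three' (KubC1.not_lam_dvd h (hl.2 hβ)) hc, one_mul]
  · have h0 : β ≠ 0 := by rintro rfl; exact hβ (dvd_zero _)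
    rw [if_neg hβ, if_neg (fun h' => hβ (hl.1 h')), cub_mul_left (hp.pow 3).ne_zero h0,
      cub_pow_left hp.ne_zero, cub_pow_three hp hc.symm, one_mul]

/-! ## part C2 -/

theorem KubC2.mul_apply (σ τ : SL2) (i j : Fin 2) :
    (σ * τ) i j = σ i 0 * τ 0 j + σ i 1 * τ 1 j := by
  simp [Matrix.mul_apply, Fin.sum_univ_two]

theorem KubC2.inv_apply (σ : SL2) :
    σ⁻¹ 0 0 = σ 1 1 ∧ σ⁻¹ 0 1 = -σ 0 1 ∧ σ⁻¹ 1 0 = -σ 1 0 ∧ σ⁻¹ 1 1 = σ 0 0 := by
  rw [Matrix.SpecialLinearGroup.SL2_inv_expl]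
  exact ⟨rfl, rfl, rfl, rfl⟩

theorem xi_row {γ : SL2} (h : γ ∈ Gam) : xi (γ 1 0) (γ 1 1) = conj (kap γ) := if_pos (mem_Gam.1 h)

theorem KubC2.of_ne {c d : O} (h : xi c d ≠ 0) : (9 : O) ∣ c ∧ Primary d ∧ IsCoprime c d := by
  unfold xi at h
  split_ifs at h with h1
  · refine ⟨h1.1, h1.2, IsCoprime.symm ?_⟩
    by_contra h2
    exact h (by rw [(cub_eq_zero_iff h1.2).2 h2, map_zero])
  · exact absurd rfl h

theorem exists_Gam_of_xi_ne {c d : O} (h : xi c d ≠ 0) : ∃ γ ∈ Gam, γ 1 0 = c ∧ γ 1 1 = d := by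
  obtain ⟨h1, h2, h3⟩ := KubC2.of_ne h
  obtain ⟨γ, rfl, rfl⟩ := exists_SL_row h3
  exact ⟨γ, mem_Gam.2 ⟨h1, h2⟩, rfl, rfl⟩

theorem xis_one : xis 1 = xi := by
  funext c d
  simp [xis]

theorem xis_row (σ : SL2) (c d : O) :
    xis σ (c * σ 0 0 + d * σ 1 0) (c * σ 0 1 + d * σ 1 1) = xi c d := by
  unfold xis
  congr 1
  · linear_combination c * σ.det_eq
  · linear_combination d * σ.det_eq

theorem KubC2.xi_mul_of_ne {γ : SL2} (h : γ ∈ Gam) {c d : O} (h0 : xi c d ≠ 0) :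
    xis γ c d = kap γ * xi c d := by
  obtain ⟨g, hg, rfl, rfl⟩ := exists_Gam_of_xi_ne h0
  obtain ⟨e1, e2, e3, e4⟩ := KubC2.inv_apply γ
  have h1 := xi_row (Gam.mul_mem hg (Gam.inv_mem h))
  rw [kap_mul hg (Gam.inv_mem h), kap_inv h, KubC2.mul_apply, KubC2.mul_apply, e1, e2, e3, e4]
    at h1
  rw [xi_row hg, xis]
  rw [map_mul, Complex.conj_conj, mul_comm (conj _)] at h1
  rw [← h1]
  congr 1 <;> ring

theorem KubC2.xi_mul {γ : SL2} (h : γ ∈ Gam) (c d : O) : xis γ c d = kap γ * xi c d := by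
  by_cases h0 : xi c d = 0
  · rw [h0, mul_zero]
    by_contra h1
    obtain ⟨g, hg, e1, e2⟩ := exists_Gam_of_xi_ne h1
    have h2 := xi_row (Gam.mul_mem hg h)
    have h3 := norm_kap (Gam.mul_mem hg h)
    rw [KubC2.mul_apply, KubC2.mul_apply, e1, e2] at h2
    have e3 : (c * γ 1 1 - d * γ 1 0) * γ 0 0 + (d * γ 0 0 - c * γ 0 1) * γ 1 0 = c := by
      linear_combination c * γ.det_eq
    have e4 : (c * γ 1 1 - d * γ 1 0) * γ 0 1 + (d * γ 0 0 - c * γ 0 1) * γ 1 1 = d := by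
      linear_combination d * γ.det_eq
    rw [e3, e4, h0, eq_comm, map_eq_zero] at h2
    simp [h2] at h3
  · exact KubC2.xi_mul_of_ne h h0

theorem xis_mul {γ : SL2} (h : γ ∈ Gam) (σ : SL2) (c d : O) :
    xis (γ * σ) c d = kap γ * xis σ c d := by
  rw [xis, xis, ← KubC2.xi_mul h, xis]
  simp only [KubC2.mul_apply]
  congr 1 <;> ring

theorem KubC2.coprime_iff (σ : SL2) (c d : O) :
    IsCoprime (c * σ 1 1 - d * σ 1 0) (d * σ 0 0 - c * σ 0 1) ↔ IsCoprime c d := by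
  constructor
  · rintro ⟨a, b, h⟩
    exact ⟨a * σ 1 1 - b * σ 0 1, b * σ 0 0 - a * σ 1 0, by linear_combination h⟩
  · rintro ⟨a, b, h⟩
    exact ⟨a * σ 0 0 + b * σ 0 1, a * σ 1 0 + b * σ 1 1, by
      linear_combination h + (a * c + b * d) * σ.det_eq⟩

theorem xiOK_xis (σ : SL2) : XiOK (xis σ) := by
  refine ⟨fun c d => ?_, fun c d h => ?_, fun c d t => ?_⟩
  · unfold xis xi
    split_ifs
    · rw [Complex.norm_conj]
      exact norm_cub_le _ _
    · simp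
  · by_contra h1
    exact h ((KubC2.coprime_iff σ c d).1 (KubC2.of_ne h1).2.2)
  · have e : ∀ i, (σ * nT (-(9 * t))) i 0 = σ i 0 ∧
        (σ * nT (-(9 * t))) i 1 = σ i 1 - 9 * (t * σ i 0) := fun i => by
      simp only [KubC2.mul_apply, nT, mkSL_00, mkSL_01, mkSL_10, mkSL_11]
      constructor <;> ring
    have h1 : Cong 9 (σ * nT (-(9 * t))) σ := fun i j => by
      fin_cases j
      · simp [(e i).1]
      · simp [(e i).2]
    have h2 := kap_mul_Jc h1
    have h3 := norm_Jc (α := σ 0 0) (β := σ 1 0) ⟨σ 1 1, -σ 0 1, by linear_combination σ.det_eq⟩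
    rw [(e 0).1, (e 1).1, mul_eq_right₀ (by rintro h0; simp [h0] at h3)] at h2
    have h4 := xis_mul h1.mul_inv_mem σ c d
    rw [h2, one_mul, inv_mul_cancel_right] at h4
    rw [← h4, xis, xis, (e 0).1, (e 1).1, (e 0).2, (e 1).2]
    congr 1 <;> ring

theorem KubC2.cube {α x β δ c d m : O} (hdet : α * δ - x * β = 1) (hm : Primary m)
    (hc : IsCoprime m c) {c₀ d₀ c₁ d₁ : O} (h₀ : (9 : O) ∣ c₀ ∧ Primary d₀ ∧ IsCoprime c₀ d₀)
    (h₁ : (9 : O) ∣ c₁ ∧ Primary d₁ ∧ IsCoprime c₁ d₁)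
    (e1 : c₀ * α + d₀ * β = c) (e2 : c₀ * x + d₀ * δ = d)
    (e3 : c₁ * α + d₁ * β = c) (e4 : c₁ * x + d₁ * δ = m ^ 3 * d) : cub d₁ c₁ = cub d₀ c₀ := by
  have hp : ∀ {y z : O}, Primary z → Primary (c₀ * y + d₀ * z) := fun {y z} hz => by
    obtain ⟨k, hk⟩ := h₀.1
    obtain ⟨l, hl⟩ := h₀.2.1.mul hz
    exact ⟨3 * k * y + l, by linear_combination y * hk + hl⟩
  by_cases hδ : lam ∣ δ
  · have hβ : ¬ lam ∣ -β := fun h => prime_lam.not_isUnit (isUnit_of_dvd_one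
      (hdet ▸ dvd_sub (hδ.mul_left _) ((dvd_neg.1 h).mul_left _)))
    obtain ⟨u, hu, hp'⟩ := exists_unit_primary hβ
    obtain ⟨v, hv⟩ := hu.exists_right_inv
    have hd : (x * v) * (u * -β) - (-α * u) * (δ * v) = 1 := by
      linear_combination (u * v) * hdet + hv
    have a0 := cub_master hd h₀.2.1 hp' h₀.2.2 (h₀.1.mul_right _)
    have a1 := cub_master hd h₁.2.1 hp' h₁.2.2 (h₁.1.mul_right _)
    have a2 := hp (y := -α * u) hp'
    have f1 : c₀ * (-α * u) + d₀ * (u * -β) = -u * c := by linear_combination -u * e1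
    have f2 : c₀ * (x * v) + d₀ * (δ * v) = d * v := by linear_combination v * e2
    have f3 : c₁ * (-α * u) + d₁ * (u * -β) = -u * c := by linear_combination -u * e3
    have f4 : c₁ * (x * v) + d₁ * (δ * v) = m ^ 3 * (d * v) := by linear_combination v * e4
    rw [f1] at a2
    rw [f1, f2] at a0
    rw [f3, f4, cub_mul_right, cub_pow_right, cub_pow_three a2
      ((isCoprime_mul_unit_left_left hu.neg _ _).2 hc.symm), one_mul, a0] at a1
    refine (mul_right_cancel₀ ?_ a1).symm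
    rw [Ne, cub_eq_zero_iff hp', not_not]
    exact ⟨x * v, α * u, by linear_combination hd⟩
  · obtain ⟨u, hu, hp'⟩ := exists_unit_primary hδ
    obtain ⟨v, hv⟩ := hu.exists_right_inv
    have hd : (α * v) * (u * δ) - (x * u) * (β * v) = 1 := by
      linear_combination (u * v) * hdet + hv
    have a0 := cub_master hd h₀.2.1 hp' h₀.2.2 (h₀.1.mul_right _)
    have a1 := cub_master hd h₁.2.1 hp' h₁.2.2 (h₁.1.mul_right _)
    have a2 := hp (y := x * u) hp'
    have f1 : c₀ * (x * u) + d₀ * (u * δ) = u * d := by linear_combination u * e2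
    have f2 : c₀ * (α * v) + d₀ * (β * v) = c * v := by linear_combination v * e1
    have f3 : c₁ * (x * u) + d₁ * (u * δ) = m ^ 3 * (u * d) := by linear_combination u * e4
    have f4 : c₁ * (α * v) + d₁ * (β * v) = c * v := by linear_combination v * e3
    rw [f1] at a2
    rw [f1, f2] at a0
    rw [f3, f4, cub_mul_left (pow_ne_zero _ hm.ne_zero) a2.ne_zero, cub_pow_left hm.ne_zero,
      cub_pow_three hm ((isCoprime_mul_unit_right_right (IsUnit.of_mul_eq_one_right _ hv) _ _).2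
        hc), one_mul, a0] at a1
    refine (mul_right_cancel₀ ?_ a1).symm
    rw [Ne, cub_eq_zero_iff hp', not_not]
    exact ⟨α * v, -(x * u), by linear_combination hd⟩

/-- Invariance under cubes which are `1` modulo `9`. -/
theorem xis_mul_cube (σ : SL2) {c m : O} (hm : (9 : O) ∣ m - 1) (hc : IsCoprime m c) (d : O) :
    xis σ c (m ^ 3 * d) = xis σ c d := by
  obtain ⟨k, hk⟩ := hm
  have hm' : Primary m := ⟨3 * k, by linear_combination hk⟩
  obtain ⟨l, hl⟩ := hm'.nine_dvd_cube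
  by_cases hcd : IsCoprime c d
  swap
  · rw [(xiOK_xis σ).2.1 _ _ hcd, (xiOK_xis σ).2.1 _ _ fun h => hcd h.of_mul_right_right]
  have h1 := (KubC2.coprime_iff σ c d).2 hcd
  have h2 := (KubC2.coprime_iff σ c (m ^ 3 * d)).2 (hc.symm.pow_right.mul_right hcd)
  have h3 : ((9 : O) ∣ c * σ 1 1 - m ^ 3 * d * σ 1 0 ∧ Primary (m ^ 3 * d * σ 0 0 - c * σ 0 1)) ↔
      ((9 : O) ∣ c * σ 1 1 - d * σ 1 0 ∧ Primary (d * σ 0 0 - c * σ 0 1)) := by
    constructor
    · rintro ⟨⟨a, ha⟩, b, hb⟩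
      exact ⟨⟨a + l * d * σ 1 0, by linear_combination ha + d * σ 1 0 * hl⟩,
        b - 3 * l * d * σ 0 0, by linear_combination hb - d * σ 0 0 * hl⟩
    · rintro ⟨⟨a, ha⟩, b, hb⟩
      exact ⟨⟨a - l * d * σ 1 0, by linear_combination ha - d * σ 1 0 * hl⟩,
        b + 3 * l * d * σ 0 0, by linear_combination hb + d * σ 0 0 * hl⟩
  unfold xis xi
  by_cases h4 : (9 : O) ∣ c * σ 1 1 - d * σ 1 0 ∧ Primary (d * σ 0 0 - c * σ 0 1)
  · have h5 := h3.2 h4
    rw [if_pos h4, if_pos h5, KubC2.cube (d := d) σ.det_eq hm' hc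
      ⟨h4.1, h4.2, h1⟩ ⟨h5.1, h5.2, h2⟩
      (by linear_combination c * σ.det_eq) (by linear_combination d * σ.det_eq)
      (by linear_combination c * σ.det_eq) (by linear_combination m ^ 3 * d * σ.det_eq)]
  · rw [if_neg h4, if_neg (h3.not.2 h4)]

theorem KubC2.lift' {M a b c d k : O} (hc : c ≠ 0) (h : a * d - b * c = 1 + M * k) :
    ∃ τ : SL2, M ∣ τ 0 0 - a ∧ M ∣ τ 0 1 - b ∧ M ∣ τ 1 0 - c ∧ M ∣ τ 1 1 - d := by
  obtain ⟨t, p, q, ht⟩ := exists_add_mul_isCoprime (a := d) (b := b * c + M * k)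
    ⟨a, -1, by linear_combination h⟩ hc
  refine ⟨mkSL (a - p * M * (k + a * k * t)) (b + (q + p * b * t) * M * (k + a * k * t)) c
    (d + M * k * t) (by linear_combination h - M * (k + a * k * t) * ht), ?_, ?_, ?_, ?_⟩
  · exact ⟨-p * (k + a * k * t), by simp only [mkSL_00]; ring⟩
  · exact ⟨(q + p * b * t) * (k + a * k * t), by simp only [mkSL_01]; ring⟩
  · simp
  · exact ⟨k * t, by simp only [mkSL_11]; ring⟩

/-- Lifting from `SL₂(O / M)`. -/
theorem KubC2.lift {M a b c d k : O} (hM : M ≠ 0) (h : a * d - b * c = 1 + M * k) :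
    ∃ τ : SL2, M ∣ τ 0 0 - a ∧ M ∣ τ 0 1 - b ∧ M ∣ τ 1 0 - c ∧ M ∣ τ 1 1 - d := by
  by_cases hc : c = 0
  · subst hc
    obtain ⟨τ, h1, h2, h3, h4⟩ := KubC2.lift' (M := M) (a := a) (b := b) (c := M) (d := d)
      (k := k - b) hM (by linear_combination h)
    exact ⟨τ, h1, h2, by simpa using h3.add (dvd_refl M), h4⟩
  · exact KubC2.lift' hc h

/-- Strong approximation (generate `SL₂(O)` by elementary matrices and lift the entries). -/
theorem exists_cong_crt (σ : SL2) {N : O} (hN : IsCoprime N 3) :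
    ∃ τ : SL2, Cong 9 τ σ ∧ Cong N τ 1 := by
  have h3 : ¬ IsUnit (3 : O) := fun h => by
    have := (nm_natCast 3).symm.trans (isUnit_iff_nm.1 h)
    norm_num at this
  have hN0 : N ≠ 0 := by
    rintro rfl
    exact h3 (isCoprime_zero_left.1 hN)
  have h9 : (9 : O) ≠ 0 := fun h => by
    have := (nm_natCast 9).symm.trans (nm_eq_zero.2 h)
    norm_num at this
  obtain ⟨a, b, hab⟩ := hN.mul_right hN
  obtain ⟨τ, ⟨p, h1⟩, ⟨q, h2⟩, ⟨r, h3⟩, ⟨s, h4⟩⟩ := KubC2.lift (M := 9 * N)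
    (a := a * N * σ 0 0 + 9 * b) (b := a * N * σ 0 1) (c := a * N * σ 1 0)
    (d := a * N * σ 1 1 + 9 * b) (k := a * b * (σ 0 0 + σ 1 1 - 2)) (mul_ne_zero h9 hN0)
    (by linear_combination (a * N) ^ 2 * σ.det_eq + (a * N + 9 * b + 1) * hab)
  refine ⟨τ, fun i j => ?_, fun i j => ?_⟩
  · fin_cases i <;> fin_cases j
    · exact ⟨N * p + b - b * σ 0 0, by
        change τ 0 0 - σ 0 0 = _; linear_combination h1 + σ 0 0 * hab⟩
    · exact ⟨N * q - b * σ 0 1, by change τ 0 1 - σ 0 1 = _; linear_combination h2 + σ 0 1 * hab⟩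
    · exact ⟨N * r - b * σ 1 0, by change τ 1 0 - σ 1 0 = _; linear_combination h3 + σ 1 0 * hab⟩
    · exact ⟨N * s + b - b * σ 1 1, by
        change τ 1 1 - σ 1 1 = _; linear_combination h4 + σ 1 1 * hab⟩
  · fin_cases i <;> fin_cases j
    · exact ⟨9 * p + a * σ 0 0 - a, by change τ 0 0 - 1 = _; linear_combination h1 + hab⟩
    · exact ⟨9 * q + a * σ 0 1, by change τ 0 1 - 0 = _; linear_combination h2⟩
    · exact ⟨9 * r + a * σ 1 0, by change τ 1 0 - 0 = _; linear_combination h3⟩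
    · exact ⟨9 * s + a * σ 1 1 - a, by change τ 1 1 - 1 = _; linear_combination h4 + hab⟩

/-- Principal congruence subgroups have finite index. -/
theorem finiteIndex_of_cong {N : O} (hN : N ≠ 0) {Δ : Subgroup SL2}
    (h : ∀ γ, Cong N γ 1 → γ ∈ Δ) : Δ.FiniteIndex := by
  have : Fact (N ≠ 0) := ⟨hN⟩
  have : Finite (Matrix.SpecialLinearGroup (Fin 2) (O ⧸ Ideal.span {N})) :=
    inferInstanceAs (Finite {A : Matrix (Fin 2) (Fin 2) (O ⧸ Ideal.span {N}) // A.det = 1})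
  refine Subgroup.finiteIndex_of_le (H := (Matrix.SpecialLinearGroup.map (n := Fin 2)
    (Ideal.Quotient.mk (Ideal.span {N}))).ker) fun γ hγ => h γ fun i j => mk_eq_mk_iff.1 ?_
  have h1 := congrArg (fun A : Matrix.SpecialLinearGroup (Fin 2) (O ⧸ Ideal.span {N}) => A i j)
    (MonoidHom.mem_ker.1 hγ)
  have h2 := congrArg (fun A : Matrix.SpecialLinearGroup (Fin 2) (O ⧸ Ideal.span {N}) => A i j)
    (map_one (Matrix.SpecialLinearGroup.map (n := Fin 2) (Ideal.Quotient.mk (Ideal.span {N}))))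
  exact h1.trans h2.symm

theorem KubC2.cub_lam_ne {d : O} (h : (9 : O) ∣ d - (1 + 3 * lam)) : cub d lam ≠ 1 := by
  obtain ⟨k, hk⟩ := h
  have hp : Prime (⟨4, -3⟩ : O) := BasicA.prime_of_nm (by simp [nm]; norm_num)
  have hp' : Primary (⟨4, -3⟩ : O) := BasicA.primary_iff.2 (by simp)
  have e : (⟨4, -3⟩ : O) = 1 + 3 * lam - 9 * om := by ext <;> rfl
  have hn : nm (⟨4, -3⟩ : O) = 37 := by simp [nm]
  rw [cub_lam_congr (n' := ⟨4, -3⟩) ⟨lam + 3 * k, by linear_combination hk⟩ hp'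
    ⟨k + om, by rw [e]; linear_combination hk⟩, cub_prime hp hp']
  intro h1
  have h2 := (cub1_eq_pow_iff (a := lam) hp hp' 0).1 (by simpa using h1)
  have h3 : lam ^ ((37 - 1) / 3) - om ^ 0 = (728 : ℕ) := by
    rw [show (37 - 1) / 3 = 2 * 6 by norm_num, pow_mul, lam_sq]
    norm_num
  rw [hn, h3] at h2
  have h4 := nm_dvd_of_dvd h2
  rw [hn, nm_natCast] at h4
  norm_num at h4

theorem KubC2.cub_lam_ne' {d : O} (h : (9 : O) ∣ d - (1 - 3 * lam)) : cub d lam ≠ 1 := by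
  obtain ⟨k, hk⟩ := h
  have h1 : Primary d := ⟨-lam + 3 * k, by linear_combination hk⟩
  have h2 : Primary (1 + 3 * lam) := ⟨lam, by ring⟩
  have h3 := cub_lam_congr (h1.mul h2) primary_one
    ⟨3 + k * (1 + 3 * lam), by linear_combination (1 + 3 * lam) * hk - 9 * lam_sq⟩
  intro h4
  rw [cub_mul_left h1.ne_zero h2.ne_zero, h4, one_mul, cub_one_left] at h3
  exact KubC2.cub_lam_ne (by simp) h3

/-- A non-essential cusp: for `λ ∥ β` the stabiliser contains an element with `κ ≠ 1`. -/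
theorem exists_kap_ne_one {σ : SL2} (h1 : lam ∣ σ 1 0) (h3 : ¬ (3 : O) ∣ σ 1 0) :
    σ * nT 3 * σ⁻¹ ∈ Gam ∧ kap (σ * nT 3 * σ⁻¹) ≠ 1 := by
  obtain ⟨b, hb⟩ := h1
  obtain ⟨e1, e2, e3, e4⟩ := KubC2.inv_apply σ
  have f1 : (σ * nT 3 * σ⁻¹) 1 0 = lam ^ 4 * b ^ 2 := by
    simp only [KubC2.mul_apply, nT, mkSL_00, mkSL_01, mkSL_10, mkSL_11, e1, e3, hb]
    linear_combination (-lam ^ 2 * b ^ 2) * lam_sq
  have f2 : (σ * nT 3 * σ⁻¹) 1 1 = 1 + 3 * lam * (σ 0 0 * b) := by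
    have := σ.det_eq
    simp only [KubC2.mul_apply, nT, mkSL_00, mkSL_01, mkSL_10, mkSL_11, e2, e4, hb] at this ⊢
    linear_combination this
  have hd : Primary (1 + 3 * lam * (σ 0 0 * b)) := ⟨lam * (σ 0 0 * b), by ring⟩
  have hb' : ¬ lam ∣ b := by
    rintro ⟨k, rfl⟩
    exact h3 ⟨-k, by linear_combination hb + k * lam_sq⟩
  have hα : ¬ lam ∣ σ 0 0 := fun h => prime_lam.not_isUnit (isUnit_of_dvd_one
    (σ.det_eq ▸ dvd_sub (h.mul_right _) (Dvd.dvd.mul_left ⟨b, hb⟩ _)))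
  refine ⟨mem_Gam.2 ⟨?_, f2 ▸ hd⟩, ?_⟩
  · exact ⟨b ^ 2, by rw [f1]; linear_combination (lam ^ 2 - 3) * b ^ 2 * lam_sq⟩
  obtain ⟨u, hu, hub⟩ := exists_unit_primary hb'
  have g1 : cub (1 + 3 * lam * (σ 0 0 * b)) u = 1 := by
    obtain ⟨k, -, rfl⟩ := isUnit_iff_pow.1 hu
    rw [cub_pow_right, ← neg_one_mul om, cub_mul_right, cub_neg_one,
      RecipA.om_congr hd primary_one ⟨σ 0 0 * b, by ring⟩]
    simp
  have g2 : cub (1 + 3 * lam * (σ 0 0 * b)) b = 1 := by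
    have := cub_recip hd hub
    rw [cub_mul_right, g1, one_mul, cub_unit_mul_left hu] at this
    rw [this, cub_congr (b := 1) ((rad_dvd b).trans ⟨3 * lam * σ 0 0, by ring⟩), cub_one_right]
  have g3 := cub_pow_three (a := lam) hd ⟨1, -(3 * (σ 0 0 * b)), by ring⟩
  rw [kap, f1, f2, cub_mul_right, cub_pow_right, cub_pow_right, g2, pow_succ, g3, one_pow, one_mul,
    mul_one]
  have g4 : ¬ lam ∣ σ 0 0 * b := fun h => (prime_lam.dvd_or_dvd h).elim hα hb'
  generalize σ 0 0 * b = z at g4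
  have g5 : lam ∣ z - 1 ∨ lam ∣ z + 1 := by
    simp only [BasicA.lam_dvd_iff, QuadraticAlgebra.re_sub, QuadraticAlgebra.im_sub,
      QuadraticAlgebra.re_add, QuadraticAlgebra.im_add, QuadraticAlgebra.re_one,
      QuadraticAlgebra.im_one] at g4 ⊢
    omega
  rcases g5 with ⟨k, hk⟩ | ⟨k, hk⟩
  · exact KubC2.cub_lam_ne ⟨-k, by linear_combination 3 * lam * hk + 3 * k * lam_sq⟩
  · exact KubC2.cub_lam_ne' ⟨-k, by linear_combination 3 * lam * hk + 3 * k * lam_sq⟩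

end Crest.Agent.R17
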