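import Crest.Agent.R17.ThetaUnf
import Crest.Agent.R17.ThetaKub

/-!
# Row 17, theta module D: auxiliary estimates for the incomplete Eisenstein series
-/

set_option autoImplicit false

noncomputable section

namespace Crest.Agent.R17

open scoped ComplexConjugate ENNReal Topology
open MeasureTheory Filter

namespace EisA

/-- The six units. -/
def U6 : Finset O := by classical exact (Finset.range 6).image fun k => (-om) ^ k

theorem card_U6 : U6.card ≤ 6 := by
  classical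
  exact Finset.card_image_le.trans (by simp)

theorem xi_zero_eq {ξ : O → O → ℂ} (h : XiOK ξ) {d : O} (hd : d ∉ U6) : ξ 0 d = 0 := by
  classical
  refine h.2.1 0 d fun hc => hd ?_
  obtain ⟨k, hk, rfl⟩ := isUnit_iff_pow.1 (isCoprime_zero_left.1 hc)
  exact Finset.mem_image.2 ⟨k, Finset.mem_range.2 hk, rfl⟩

theorem tsum_zero_le {ξ : O → O → ℂ} (h : XiOK ξ) {f : O → ℝ} (h0 : ∀ d, 0 ≤ f d)
    (h1 : ∀ d, f d ≤ 1) : ∑' d : O, ‖ξ 0 d‖ * f d ≤ 6 := by
  rw [tsum_eq_sum (s := U6) fun d hd => by rw [xi_zero_eq h hd, norm_zero, zero_mul]]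
  calc ∑ d ∈ U6, ‖ξ 0 d‖ * f d ≤ ∑ d ∈ U6, (1 : ℝ) :=
        Finset.sum_le_sum fun d _ => mul_le_one₀ (h.1 0 d) (h0 d) (h1 d)
    _ ≤ 6 := by
      rw [Finset.sum_const, nsmul_eq_mul, mul_one]
      exact_mod_cast card_U6

/-- A shifted Gaussian sum, uniformly in the shift. -/
theorem tsum_shift_le {X : ℝ} (hX : 0 < X) (u : ℂ) :
    ∑' d : O, gw (‖ι d + u‖ ^ 2 / X) ≤ X + 7 := by
  have h := poisson_shift hX u 0
  simp only [mul_zero, eC_zero, mul_one, add_zero] at h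
  rw [← Complex.ofReal_tsum] at h
  have hs := summable_gw' (inv_pos.2 hX)
  have e : ∀ k : O, ‖(gw (X * ‖ι k‖ ^ 2) : ℂ) * eC (-(ι k * u))‖ = gw (nr k / X⁻¹) := fun k => by
    rw [norm_mul, norm_eC, mul_one, Complex.norm_real, Real.norm_of_nonneg (gw_pos _).le,
      norm_ι_sq, div_inv_eq_mul, mul_comm]
  have h2 : ‖∑' k : O, (gw (X * ‖ι k‖ ^ 2) : ℂ) * eC (-(ι k * u))‖ ≤ 1 + 7 * X⁻¹ := by
    refine (norm_tsum_le_tsum_norm (by simpa only [e] using hs)).trans ?_
    simp only [e]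
    exact tsum_gw_le (inv_pos.2 hX)
  have h3 := congrArg norm h
  rw [Complex.norm_real, norm_mul, Complex.norm_real, Real.norm_of_nonneg hX.le] at h3
  calc _ ≤ ‖∑' d : O, gw (‖ι d + u‖ ^ 2 / X)‖ := Real.le_norm_self _
    _ ≤ X * (1 + 7 * X⁻¹) := by rw [h3]; exact mul_le_mul_of_nonneg_left h2 hX.le
    _ = X + 7 := by field_simp

open Classical in
theorem tsum_ne_le {X : ℝ} (hX : 0 < X) :
    (Summable fun c : O => if c = 0 then 0 else gw (nr c / X)) ∧
      ∑' c : O, (if c = 0 then 0 else gw (nr c / X)) ≤ 7 * X := by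
  refine ⟨Summable.of_nonneg_of_le (fun c => ?_) (fun c => ?_) (summable_gw' hX), ?_⟩
  · split_ifs
    · exact le_rfl
    · exact (gw_pos _).le
  · split_ifs
    · exact (gw_pos _).le
    · exact le_rfl
  · have h := tsum_gw_le hX
    rw [(summable_gw' hX).tsum_eq_add_tsum_ite 0] at h
    have : gw (nr (0 : O) / X) = 1 := by simp [gw]
    rw [this] at h
    convert (add_le_add_iff_left 1).1 h

/-- The constant of the Gaussian. -/
def a0 : ℝ := 2 * Real.pi / Real.sqrt 3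

theorem a0_pos : 0 < a0 := by unfold a0; positivity

theorem exp_Qo {Y : ℝ} (hY : 0 < Y) (w : H) (c d : O) : Real.exp (-Y * Qo w c d) =
    gw (‖ι d + ι c * w.1‖ ^ 2 / (a0 * hy w / Y)) * gw (nr c / (a0 / (Y * hy w))) := by
  have := a0_pos
  have := hy_pos w
  rw [← gw_add, gw, Qo, Qf, norm_ι_sq, add_comm (ι d)]
  congr 1
  change _ = -a0 * _
  field_simp

theorem summable_norm {ξ : O → O → ℂ} (h : XiOK ξ) {Y : ℝ} (hY : 0 < Y) (w : H) :
    Summable fun v : O × O => ‖ξ v.1 v.2‖ * Real.exp (-Y * Qo w v.1 v.2) :=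
  Summable.of_nonneg_of_le (fun _ => by positivity)
    (fun v => mul_le_of_le_one_left (Real.exp_pos _).le (h.1 _ _)) (summable_exp_Qo w hY)

theorem tsum_norm_le {ξ : O → O → ℂ} (h : XiOK ξ) {Y : ℝ} (hY : 0 < Y) (w : H) :
    ∑' v : O × O, ‖ξ v.1 v.2‖ * Real.exp (-Y * Qo w v.1 v.2) ≤
      6 + 7 * a0 ^ 2 / Y ^ 2 + 49 * a0 / Y * (hy w)⁻¹ := by
  classical
  have ha := a0_pos
  have hy0 := hy_pos w
  have hs := summable_norm h hY w
  have hX : 0 < a0 * hy w / Y := by positivity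
  have hX' : 0 < a0 / (Y * hy w) := by positivity
  obtain ⟨s1, s2⟩ := tsum_ne_le hX'
  rw [hs.tsum_prod' hs.prod_factor]
  have key : ∀ c : O, ∑' d : O, ‖ξ c d‖ * Real.exp (-Y * Qo w c d) ≤ (if c = 0 then 6 else 0) +
      (a0 * hy w / Y + 7) * (if c = 0 then 0 else gw (nr c / (a0 / (Y * hy w)))) := by
    intro c
    split_ifs with hc
    · subst hc
      rw [mul_zero, add_zero]
      refine tsum_zero_le h (fun _ => (Real.exp_pos _).le) fun d => Real.exp_le_one_iff.2 ?_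
      have := Qf_nonneg w (ι 0) (ι d)
      unfold Qo
      nlinarith
    · have s3 := (summable_exp_Qo w hY).prod_factor c
      refine ((hs.prod_factor c).tsum_le_tsum
        (fun d => mul_le_of_le_one_left (Real.exp_pos _).le (h.1 _ _)) s3).trans ?_
      simp only [exp_Qo hY, tsum_mul_right, zero_add]
      exact mul_le_mul_of_nonneg_right (tsum_shift_le hX _) (gw_pos _).le
  have s0 : HasSum (fun c : O => if c = 0 then (6 : ℝ) else 0) 6 := hasSum_ite_eq 0 6
  refine (hs.prod.tsum_le_tsum key (s0.summable.add (s1.mul_left _))).trans ?_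
  rw [s0.summable.tsum_add (s1.mul_left _), s0.tsum_eq, tsum_mul_left]
  calc _ ≤ 6 + (a0 * hy w / Y + 7) * (7 * (a0 / (Y * hy w))) := by gcongr
    _ = _ := by field_simp; ring

/-- Local comparison of the forms. -/
theorem Qf_le {w w0 : H} (h1 : ‖w.1 - w0.1‖ < hy w0) (h2 : hy w0 < 2 * hy w)
    (h3 : hy w < 2 * hy w0) (c d : ℂ) : Qf w0 c d ≤ 6 * Qf w c d := by
  have p := hy_pos w
  have p0 := hy_pos w0
  have t : ‖c * w0.1 + d‖ ≤ ‖c * w.1 + d‖ + ‖c‖ * hy w0 := by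
    calc ‖c * w0.1 + d‖ = ‖(c * w.1 + d) - c * (w.1 - w0.1)‖ := by congr 1; ring
      _ ≤ ‖c * w.1 + d‖ + ‖c * (w.1 - w0.1)‖ := norm_sub_le _ _
      _ ≤ _ := by rw [norm_mul]; gcongr
  have t2 : ‖c * w0.1 + d‖ ^ 2 ≤ 2 * ‖c * w.1 + d‖ ^ 2 + 2 * (‖c‖ ^ 2 * hy w0 ^ 2) := by
    have := pow_le_pow_left₀ (norm_nonneg _) t 2
    nlinarith [sq_nonneg (‖c * w.1 + d‖ - ‖c‖ * hy w0)]
  unfold Qf
  rw [← mul_div_assoc, div_le_div_iff₀ p0 p]
  set A := ‖c * w.1 + d‖ ^ 2
  set B := ‖c‖ ^ 2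
  have hA : 0 ≤ A := sq_nonneg _
  have hB : 0 ≤ B := sq_nonneg _
  have e1 : A * hy w ≤ A * (2 * hy w0) := by gcongr
  have e2 : B * hy w0 * hy w * hy w0 ≤ B * hy w0 * hy w * (2 * hy w) := by gcongr
  have e3 := mul_le_mul_of_nonneg_right t2 p.le
  have e4 : 0 ≤ A * hy w0 := by positivity
  nlinarith

theorem continuous_tsum {ξ : O → O → ℂ} (h : XiOK ξ) {Y : ℝ} (hY : 0 < Y) :
    Continuous fun w : H => ∑' v : O × O, ξ v.1 v.2 * (Real.exp (-Y * Qo w v.1 v.2) : ℂ) := by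
  refine continuous_iff_continuousAt.2 fun w0 => ?_
  have p0 := hy_pos w0
  have ho : IsOpen {w : H | ‖w.1 - w0.1‖ < hy w0 ∧ hy w0 < 2 * hy w ∧ hy w < 2 * hy w0} := by
    have := continuous_hy
    exact IsOpen.and (isOpen_lt (by fun_prop) continuous_const)
      (IsOpen.and (isOpen_lt continuous_const (by fun_prop)) (isOpen_lt this continuous_const))
  refine (continuousOn_tsum (fun v => ?_) (summable_exp_Qo w0 (Y := Y / 6) (by positivity))
    fun v w hw => ?_).continuousAt (ho.mem_nhds ⟨by simpa using p0, by linarith, by linarith⟩)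
  · exact (continuous_const.mul (Complex.continuous_ofReal.comp (Real.continuous_exp.comp
      (continuous_const.mul (continuous_Qf _ _))))).continuousOn
  · rw [norm_mul, Complex.norm_real, Real.norm_of_nonneg (Real.exp_pos _).le]
    refine (mul_le_of_le_one_left (Real.exp_pos _).le (h.1 _ _)).trans (Real.exp_le_exp.2 ?_)
    have := Qf_le hw.1 hw.2.1 hw.2.2 (ι v.1) (ι v.2)
    unfold Qo
    nlinarith

/-- Right multiplication of row vectors by `σ`. -/
def rowE (σ : SL2) : O × O ≃ O × O where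
  toFun v := (v.1 * σ 0 0 + v.2 * σ 1 0, v.1 * σ 0 1 + v.2 * σ 1 1)
  invFun v := (v.1 * σ 1 1 - v.2 * σ 1 0, v.2 * σ 0 0 - v.1 * σ 0 1)
  left_inv v := by
    ext1
    · linear_combination v.1 * σ.det_eq
    · linear_combination v.2 * σ.det_eq
  right_inv v := by
    ext1
    · linear_combination v.1 * σ.det_eq
    · linear_combination v.2 * σ.det_eq

/-- The second row. -/
def row (γ : Gam) : O × O := ((γ : SL2) 1 0, (γ : SL2) 1 1)

theorem nT_mul_apply (t : O) (γ : SL2) (j : Fin 2) : (nT t * γ) 1 j = γ 1 j := by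
  simp [nT, mkSL, Matrix.SpecialLinearGroup.coe_mul, Matrix.mul_apply, Fin.sum_univ_two]

theorem hasSum_fiber {N : ℕ} (hN : N ≠ 0) (w : H) {v : O × O} (hv : xi v.1 v.2 ≠ 0) :
    HasSum (fun γ : {γ : Gam // row γ = v} => wt N (γ.1 • w).1) 1 := by
  obtain ⟨g, hg, h0, h1⟩ := exists_Gam_of_xi_ne hv
  let f : O → {γ : Gam // row γ = v} := fun t => ⟨⟨nT t * g, Gam.mul_mem (nT_mem t) hg⟩,
    Prod.ext ((nT_mul_apply t g 0).trans h0) ((nT_mul_apply t g 1).trans h1)⟩
  have hf : Function.Bijective f := by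
    refine ⟨fun s t hst => ?_, fun γ => ?_⟩
    · have e : nT s * g = nT t * g := congrArg (fun x => (x.1 : SL2)) hst
      exact congrArg (fun σ : SL2 => σ 0 1) (mul_right_cancel e)
    · obtain ⟨t, ht⟩ := exists_nT_mul (σ := γ.1) (τ := g)
        ((congrArg Prod.fst γ.2).trans h0.symm) ((congrArg Prod.snd γ.2).trans h1.symm)
      exact ⟨t, Subtype.ext (Subtype.ext ht.symm)⟩
  rw [← (Equiv.ofBijective f hf).hasSum_iff]
  convert hasSum_wt hN (g • w).1 using 2 with t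
  change wt N ((nT t * g) • w).1 = _
  rw [mul_smul, nT_smul]

/-- Folding a sum over second rows into a sum over the group. -/
theorem hasSum_fold {N : ℕ} (hN : N ≠ 0) (w : H) {G : O × O → ℂ} (hG : Summable fun v => ‖G v‖)
    (h0 : ∀ v, xi v.1 v.2 = 0 → G v = 0) :
    HasSum (fun γ : Gam => (wt N (γ • w).1 : ℂ) * G (row γ)) (∑' v, G v) := by
  have f1 : ∀ v, HasSum (fun γ : {γ : Gam // row γ = v} => (wt N (γ.1 • w).1 : ℂ) * G (row γ.1))
      (G v) := fun v => by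
    simp only [fun γ : {γ : Gam // row γ = v} => γ.2]
    by_cases hv : xi v.1 v.2 = 0
    · simp only [h0 v hv, mul_zero]; exact hasSum_zero
    · simpa using (Complex.hasSum_ofReal.2 (hasSum_fiber hN w hv)).mul_right (G v)
  have f2 : ∀ v, HasSum
      (fun γ : {γ : Gam // row γ = v} => ‖(wt N (γ.1 • w).1 : ℂ) * G (row γ.1)‖) ‖G v‖ := fun v => by
    simp only [fun γ : {γ : Gam // row γ = v} => γ.2, norm_mul, Complex.norm_real,
      Real.norm_of_nonneg (wt_nonneg _ _)]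
    by_cases hv : xi v.1 v.2 = 0
    · simp only [h0 v hv, norm_zero, mul_zero]; exact hasSum_zero
    · simpa using (hasSum_fiber hN w hv).mul_right ‖G v‖
  rw [← (Equiv.sigmaFiberEquiv row).hasSum_iff]
  have s : Summable fun x : Σ v, {γ : Gam // row γ = v} =>
      (wt N (x.2.1 • w).1 : ℂ) * G (row x.2.1) := by
    refine Summable.of_norm ((summable_sigma_of_nonneg fun _ => norm_nonneg _).2
      ⟨fun v => (f2 v).summable, ?_⟩)
    simpa only [fun v => (f2 v).tsum_eq] using hG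
  rw [(s.hasSum.sigma f1).tsum_eq]
  exact s.hasSum

theorem pow_mul_exp_le {Y : ℝ} (hY : 0 < Y) (k : ℕ) {x : ℝ} (hx : 0 ≤ x) :
    x ^ k * Real.exp (-Y * x) ≤ k.factorial / Y ^ k := by
  have h := Real.pow_div_factorial_le_exp (Y * x) (by positivity) k
  have hk : (0 : ℝ) < k.factorial := by exact_mod_cast k.factorial_pos
  rw [div_le_iff₀ hk, mul_pow] at h
  rw [le_div_iff₀ (by positivity), neg_mul, Real.exp_neg]
  have := Real.exp_pos (Y * x)
  calc _ = Y ^ k * x ^ k / Real.exp (Y * x) := by field_simp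
    _ ≤ _ := by rw [div_le_iff₀ this, mul_comm (k.factorial : ℝ)]; exact h

theorem integrableOn_prof {Y : ℝ} (hY : 0 < Y) : IntegrableOn
    (fun y : ℝ => (y + y ^ (-(4 : ℝ)) + 1) * Real.exp (-Y / y) * (y ^ 3)⁻¹) (Set.Ioi 0) := by
  obtain ⟨K, hK⟩ : ∃ K : ℝ, ∀ x : ℝ, 0 ≤ x →
      (x ^ 0 + x ^ 1 + x ^ 2 + x ^ 3 + x ^ 5 + x ^ 7) * Real.exp (-Y * x) ≤ K :=
    ⟨_, fun x hx => by
      simp only [add_mul]
      exact add_le_add (add_le_add (add_le_add (add_le_add (add_le_add (pow_mul_exp_le hY 0 hx)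
        (pow_mul_exp_le hY 1 hx)) (pow_mul_exp_le hY 2 hx)) (pow_mul_exp_le hY 3 hx))
        (pow_mul_exp_le hY 5 hx)) (pow_mul_exp_le hY 7 hx)⟩
  refine Integrable.mono' (integrable_inv_one_add_sq.const_mul K).integrableOn
    (Measurable.aestronglyMeasurable (by fun_prop)) ?_
  refine (ae_restrict_iff' measurableSet_Ioi).2 (Eventually.of_forall fun y (hy0 : 0 < y) => ?_)
  rw [Real.norm_of_nonneg (by positivity), ← div_eq_mul_inv K, le_div_iff₀ (by positivity)]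
  refine le_trans (le_of_eq ?_) (hK y⁻¹ (by positivity))
  rw [Real.rpow_neg hy0.le, show (4 : ℝ) = (4 : ℕ) by norm_num, Real.rpow_natCast,
    div_eq_mul_inv (-Y)]
  field_simp
  ring

theorem lintegral_lt_top {g : ℝ → ℝ} (hg : Measurable g) (h0 : ∀ y, 0 < y → 0 ≤ g y)
    (hi : IntegrableOn (fun y => g y * (y ^ 3)⁻¹) (Set.Ioi 0)) (N : ℕ) :
    ∫⁻ w : H, ENNReal.ofReal (wt N w.1) * ENNReal.ofReal (g (hy w)) ∂μH < ∞ := by
  rw [lintegral_μH (f := fun w : H => ENNReal.ofReal (wt N w.1) * ENNReal.ofReal (g (hy w)))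
    (((measurable_wt N).comp measurable_fst).ennreal_ofReal.mul
    (hg.comp continuous_hy.measurable).ennreal_ofReal)]
  have e : ∀ y ∈ Set.Ioi (0 : ℝ), (∫⁻ z : ℂ, ENNReal.ofReal (wt N (hp z y).1) *
      ENNReal.ofReal (g (hy (hp z y)))) * ENNReal.ofReal (y ^ 3)⁻¹ =
      (∫⁻ z : ℂ, ENNReal.ofReal (wt N z)) * ENNReal.ofReal (g y * (y ^ 3)⁻¹) := fun y hy0 => by
    simp only [hp_fst, hy_hp _ hy0]
    rw [lintegral_mul_const _ (measurable_wt N).ennreal_ofReal, mul_assoc,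
      ENNReal.ofReal_mul (h0 y hy0)]
  rw [setLIntegral_congr_fun measurableSet_Ioi e,
    lintegral_const_mul' _ _ (integrable_wt N).lintegral_lt_top.ne]
  exact ENNReal.mul_lt_top (integrable_wt N).lintegral_lt_top hi.lintegral_lt_top

end EisA

end Crest.Agent.R17
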