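import Crest.Agent.R17.Poisson

/-!
# Row 17, theta module D (part D2): Poisson summation for a periodic function against a shifted
Gaussian, and the bounds which give the absolute convergence of the Fourier expansion
-/

set_option autoImplicit false

noncomputable section

namespace Crest.Agent.R17

theorem d2_summable_shift {X : ℝ} (hX : 0 < X) (u : ℂ) :
    Summable fun k : O => gw (‖ι k + u‖ ^ 2 / X) := by
  refine ((summable_gw' (X := 2 * X) (by positivity)).mul_left
    (gw (-(‖u‖ ^ 2 / X)))).of_nonneg_of_le (fun _ => (gw_pos _).le) fun k => ?_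
  rw [← gw_add]
  apply gw_antitone
  have h1 : ‖ι k‖ ≤ ‖ι k + u‖ + ‖u‖ := by
    simpa using norm_sub_le (ι k + u) u
  have h2 : nr k ≤ 2 * ‖ι k + u‖ ^ 2 + 2 * ‖u‖ ^ 2 := by
    rw [← norm_ι_sq]
    have h3 := pow_le_pow_left₀ (norm_nonneg _) h1 2
    nlinarith [sq_nonneg (‖ι k + u‖ - ‖u‖)]
  have e : -(‖u‖ ^ 2 / X) + nr k / (2 * X) = (nr k / 2 - ‖u‖ ^ 2) / X := by
    field_simp
    ring
  rw [e]
  exact div_le_div_of_nonneg_right (by linarith) hX.le

theorem d2_summable_mul {X : ℝ} (hX : 0 < X) : Summable fun h : O => gw (X * nr h) := by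
  refine (summable_gw' (inv_pos.2 hX)).congr fun h => ?_
  rw [div_inv_eq_mul, mul_comm]

theorem d2_summable_mul' {X : ℝ} (hX : 0 < X) :
    Summable fun h : O => gw (X * nr h) * (1 + nr h) := by
  refine (summable_gw (inv_pos.2 hX) 1).congr fun h => ?_
  rw [div_inv_eq_mul, mul_comm (nr h) X, Real.rpow_one]

theorem d2_tsum_mul_le {X : ℝ} (hX : 0 < X) : X * ∑' h : O, gw (X * nr h) ≤ X + 7 := by
  have h := tsum_gw_le (inv_pos.2 hX)
  have e : (fun k : O => gw (nr k / X⁻¹)) = fun k : O => gw (X * nr k) := by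
    funext k
    rw [div_inv_eq_mul, mul_comm]
  rw [e] at h
  refine (mul_le_mul_of_nonneg_left h hX.le).trans (le_of_eq ?_)
  field_simp

theorem d2_tsum_shift_le {X : ℝ} (hX : 0 < X) (u : ℂ) :
    ∑' k : O, gw (‖ι k + u‖ ^ 2 / X) ≤ X + 7 := by
  have H := poisson_shift hX u 0
  simp only [mul_zero, eC_zero, mul_one, add_zero, norm_ι_sq] at H
  rw [← Complex.ofReal_tsum] at H
  have h1 := congrArg norm H
  rw [Complex.norm_real, Real.norm_of_nonneg (tsum_nonneg fun _ => (gw_pos _).le), norm_mul,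
    Complex.norm_real, Real.norm_of_nonneg hX.le] at h1
  rw [h1]
  refine le_trans (mul_le_mul_of_nonneg_left ?_ hX.le) (d2_tsum_mul_le hX)
  refine tsum_of_norm_bounded (d2_summable_mul hX).hasSum fun h => ?_
  rw [norm_mul, norm_eC, mul_one, Complex.norm_real, Real.norm_of_nonneg (gw_pos _).le]

theorem d2_norm_ft_le {q : O} (hq : q ≠ 0) {f : O → ℂ} (hb : ∀ k, ‖f k‖ ≤ 1) (h : O) :
    ‖ft q f h‖ ≤ nr q := by
  unfold ft
  refine (norm_sum_le _ _).trans ?_
  refine (Finset.sum_le_card_nsmul _ _ 1 fun x _ => ?_).trans (le_of_eq ?_)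
  · rw [norm_mul, norm_eq, mul_one]
    exact hb x
  · rw [card_res hq, nsmul_eq_mul, mul_one]

/-- Poisson summation for a periodic function against a shifted Gaussian. -/
theorem d2_poisson {q : O} (hq : q ≠ 0) (f : O → ℂ) (hf : ∀ x t, f (x + q * t) = f x)
    (hb : ∀ k, ‖f k‖ ≤ 1) {X : ℝ} (hX : 0 < X) (u : ℂ) :
    ∑' k : O, f k * (gw (‖ι k + u‖ ^ 2 / X) : ℂ) =
      ∑' h : O, ft q f h * ((X / nr q * gw (X / nr q * nr h) : ℝ) : ℂ) * eC (ι h * u / ι q) := by
  classical
  have hq0 := nr_pos hq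
  have hιq : ι q ≠ 0 := fun h0 => hq (ι_injective (by rw [h0, map_zero]))
  have hX' : 0 < X / nr q := div_pos hX hq0
  have hs : Summable fun k : O => f k * (gw (‖ι k + u‖ ^ 2 / X) : ℂ) := by
    refine Summable.of_norm_bounded (d2_summable_shift hX u) fun k => ?_
    rw [norm_mul, Complex.norm_real, Real.norm_of_nonneg (gw_pos _).le]
    exact mul_le_of_le_one_left (gw_pos _).le (hb k)
  let e : res q × O ≃ O := Equiv.ofBijective (fun z => (z.1 : O) + q * z.2) (by
    constructor
    · rintro ⟨⟨x, hx⟩, k⟩ ⟨⟨x', hx'⟩, k'⟩ hz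
      simp only at hz
      obtain ⟨r, -, hr⟩ := exists_unique_res hq (x + q * k)
      have h1 : x = r := hr x ⟨hx, ⟨k, by ring⟩⟩
      have h2 : x' = r := hr x' ⟨hx', ⟨k', by rw [hz]; ring⟩⟩
      have h3 : x = x' := h1.trans h2.symm
      subst h3
      have h4 : k = k' := mul_left_cancel₀ hq (add_left_cancel hz)
      rw [h4]
    · intro k
      obtain ⟨r, ⟨hr, c, hc⟩, -⟩ := exists_unique_res hq k
      exact ⟨(⟨r, hr⟩, c), by simp only; rw [← hc]; ring⟩)
  have he : ∀ z : res q × O, e z = (z.1 : O) + q * z.2 := fun _ => rfl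
  have t1 := (e.summable_iff.2 hs).tsum_prod
  simp only [Function.comp] at t1
  rw [← e.tsum_eq, t1, tsum_fintype]
  simp only [he]
  have inner : ∀ x : O, ∑' k : O, f (x + q * k) * (gw (‖ι (x + q * k) + u‖ ^ 2 / X) : ℂ) =
      ∑' h : O, f x * eq (h * x) q * ((X / nr q * gw (X / nr q * nr h) : ℝ) : ℂ) *
        eC (ι h * u / ι q) := by
    intro x
    have H := poisson_shift hX' ((ι x + u) / ι q) 0
    simp only [mul_zero, eC_zero, mul_one, add_zero] at H
    have e1 : ∀ k : O, f (x + q * k) * (gw (‖ι (x + q * k) + u‖ ^ 2 / X) : ℂ)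
        = f x * (gw (‖ι k + (ι x + u) / ι q‖ ^ 2 / (X / nr q)) : ℂ) := by
      intro k
      rw [hf x k]
      congr 3
      have : ι k + (ι x + u) / ι q = (ι (x + q * k) + u) / ι q := by
        rw [map_add, map_mul]
        field_simp
        ring
      rw [this, norm_div, div_pow, norm_ι_sq]
      field_simp
    simp only [e1]
    rw [tsum_mul_left, H, ← tsum_mul_left, ← tsum_mul_left, ← (Equiv.neg O).tsum_eq]
    refine tsum_congr fun h => ?_
    simp only [Equiv.neg_apply, norm_ι_sq, nr, norm_neg, eq, map_neg, map_mul]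
    rw [show -(-ι h * ((ι x + u) / ι q)) = ι h * ι x / ι q + ι h * u / ι q by ring, eC_add]
    push_cast
    ring
  simp only [inner]
  rw [Finset.sum_coe_sort (res q) (fun x => ∑' h : O, f x * eq (h * x) q *
    ((X / nr q * gw (X / nr q * nr h) : ℝ) : ℂ) * eC (ι h * u / ι q))]
  have hs2 : ∀ x : O, Summable fun h : O => f x * eq (h * x) q *
      ((X / nr q * gw (X / nr q * nr h) : ℝ) : ℂ) * eC (ι h * u / ι q) := by
    intro x
    refine Summable.of_norm_bounded ((d2_summable_mul hX').mul_left (‖f x‖ * (X / nr q)))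
      fun h => ?_
    rw [norm_mul, norm_mul, norm_mul, norm_eq, norm_eC, mul_one, mul_one, Complex.norm_real,
      Real.norm_of_nonneg (mul_pos hX' (gw_pos _)).le, mul_assoc]
  rw [← Summable.tsum_finsetSum fun x _ => hs2 x]
  refine tsum_congr fun h => ?_
  rw [ft, Finset.sum_mul, Finset.sum_mul]

/-- Absolute convergence of the series on `O × O`. -/
theorem d2_summable_pair {X T : ℝ} (hX : 0 < X) (hT : 0 < T) (u : O → ℂ) :
    Summable fun v : O × O => gw (T * nr v.1) * gw (‖ι v.2 + u v.1‖ ^ 2 / X) := by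
  rw [summable_prod_of_nonneg fun v => (mul_pos (gw_pos _) (gw_pos _)).le]
  refine ⟨fun c => (d2_summable_shift hX (u c)).mul_left (gw (T * nr c)), ?_⟩
  refine ((d2_summable_mul hT).mul_right (X + 7)).of_nonneg_of_le
    (fun c => tsum_nonneg fun d => (mul_pos (gw_pos _) (gw_pos _)).le) fun c => ?_
  simp only
  rw [tsum_mul_left]
  exact mul_le_mul_of_nonneg_left (d2_tsum_shift_le hX (u c)) (gw_pos _).le

/-- Absolute convergence of the dual series on `O × O`. -/
theorem d2_summable_dual {K T : ℝ} (hK : 0 < K) (hT : 0 < T) :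
    Summable fun v : O × O =>
      nr v.1 * (gw (T * nr v.1) * (K / nr v.1 * gw (K / nr v.1 * nr v.2))) := by
  have hnn : ∀ v : O × O,
      0 ≤ nr v.1 * (gw (T * nr v.1) * (K / nr v.1 * gw (K / nr v.1 * nr v.2))) := fun v => by
    have h1 := gw_pos (T * nr v.1)
    have h2 := gw_pos (K / nr v.1 * nr v.2)
    positivity
  rw [summable_prod_of_nonneg hnn]
  constructor
  · intro c
    rcases eq_or_ne c 0 with rfl | hc
    · simp
    · exact (((d2_summable_mul (div_pos hK (nr_pos hc))).mul_left (K / nr c)).mul_left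
        (gw (T * nr c))).mul_left (nr c)
  · refine ((d2_summable_mul' hT).mul_right (K + 7)).of_nonneg_of_le
      (fun c => tsum_nonneg fun d => hnn (c, d)) fun c => ?_
    have hg := gw_pos (T * nr c)
    simp only
    rcases eq_or_ne c 0 with rfl | hc
    · have h0 : 0 ≤ gw (T * nr (0 : O)) * (1 + nr (0 : O)) * (K + 7) := by positivity
      simpa using h0
    · have hc0 := nr_pos hc
      rw [tsum_mul_left, tsum_mul_left, tsum_mul_left]
      have h1 := d2_tsum_mul_le (div_pos hK hc0)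
      have h2 : nr c * (K / nr c + 7) ≤ (1 + nr c) * (K + 7) := by
        rw [mul_add, mul_div_cancel₀ _ hc0.ne']
        nlinarith
      calc _ ≤ nr c * (gw (T * nr c) * (K / nr c + 7)) :=
            mul_le_mul_of_nonneg_left (mul_le_mul_of_nonneg_left h1 hg.le) hc0.le
        _ = gw (T * nr c) * (nr c * (K / nr c + 7)) := by ring
        _ ≤ gw (T * nr c) * ((1 + nr c) * (K + 7)) := mul_le_mul_of_nonneg_left h2 hg.le
        _ = _ := by ring

theorem d2_nr_nine_mul (c : O) : nr (9 * c) = 81 * nr c := by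
  have h : nm (9 : O) = 81 := by simpa using nm_natCast 9
  rw [nr_mul, nr, h]
  norm_num

end Crest.Agent.R17
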