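import Crest.Agent.R17.ThetaUnf
import Crest.Agent.R17.ThetaKub
import Crest.Agent.R17.ThetaDens
import Crest.Agent.R17.ThetaEisAuxD2
import Crest.Agent.R17.ThetaEisAuxA

/-!
# Row 17, theta module D: the incomplete Eisenstein series
`θ_Y(w) = Y^{4/3} ∑_v ξ(v) exp(-Y Q_w(v))`, its automorphy and its Fourier expansion
-/

set_option autoImplicit false

noncomputable section

namespace Crest.Agent.R17

open scoped ComplexConjugate ENNReal Topology
open MeasureTheory Filter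

/-- The series. -/
def thY (ξ : O → O → ℂ) (Y : ℝ) (w : H) : ℂ :=
  ((Y ^ (4 / 3 : ℝ) : ℝ) : ℂ) * ∑' v : O × O, ξ v.1 v.2 * (Real.exp (-Y * Qo w v.1 v.2) : ℂ)

open Classical in
/-- The Gauss sums in its Fourier expansion. -/
def Gx (ξ : O → O → ℂ) (r c : O) : ℂ :=
  if c = 0 then 0 else ∑ d ∈ res (9 * c), ξ c d * eq (r * d) (9 * c)

/-- Constants. -/
def k1 : ℝ := 2 * Real.pi / (81 * Real.sqrt 3)
def b1 : ℝ := 4 * Real.pi ^ 2 / 243

theorem k1_pos : 0 < k1 := by unfold k1; positivity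
theorem b1_pos : 0 < b1 := by unfold b1; positivity

open Classical in
/-- The Fourier coefficient of `thY ξ Y` at the frequency `r / 9` and height `y`. -/
def Acoef (ξ : O → O → ℂ) (Y : ℝ) (r : O) (y : ℝ) : ℂ :=
  (if r = 0 then (∑' d : O, ξ 0 d) * ((Y ^ (4 / 3 : ℝ) * Real.exp (-Y / y) : ℝ) : ℂ) else 0) +
    (k1 : ℂ) * Sk (Gx ξ r) (Fk y (b1 * nr r)) Y

/-- The seed of the Poincaré series. -/
def seed (N : ℕ) (Y : ℝ) (w : H) : ℂ :=
  ((wt N w.1 * (Y ^ (4 / 3 : ℝ) * Real.exp (-Y / hy w)) : ℝ) : ℂ)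

theorem d2_norm_Gx_le {ξ : O → O → ℂ} (h : XiOK ξ) (r c : O) : ‖Gx ξ r c‖ ≤ 81 * nr c := by
  unfold Gx
  split_ifs with hc
  · rw [norm_zero]
    positivity
  · rw [← d2_nr_nine_mul]
    exact d2_norm_ft_le (mul_ne_zero (by decide) hc) (h.1 c) r

theorem polyG_Gx {ξ : O → O → ℂ} (h : XiOK ξ) (r : O) : PolyG (Gx ξ r) :=
  ⟨81, 1, zero_le_one, by simp [Gx], fun c => by
    rw [Real.rpow_one]; exact d2_norm_Gx_le h r c⟩

theorem norm_tsum_xi_zero_le {ξ : O → O → ℂ} (h : XiOK ξ) : ‖∑' d : O, ξ 0 d‖ ≤ 6 := by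
  have h1 := EisA.tsum_zero_le h (f := fun _ => 1) (fun _ => zero_le_one) fun _ => le_rfl
  simp only [mul_one] at h1
  exact (norm_tsum_le_tsum_norm (summable_of_ne_finset_zero (s := EisA.U6) fun d hd => by
    rw [EisA.xi_zero_eq h hd, norm_zero])).trans h1
theorem tsum_xi_zero : ∑' d : O, xi 0 d = 1 := by
  rw [tsum_eq_single 1 fun d hd => ?_]
  · simp [xi, primary_one, cub]
  · by_contra h
    have h1 : IsCoprime 0 d := by
      by_contra h1
      exact h ((xis_one ▸ xiOK_xis 1).2.1 0 d h1)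
    have h2 : Primary d := by
      by_contra h2
      exact h (by simp [xi, h2])
    exact hd (h2.eq_one_of_isUnit (isCoprime_zero_left.1 h1))
theorem continuous_thY {ξ : O → O → ℂ} (h : XiOK ξ) {Y : ℝ} (hY : 0 < Y) :
    Continuous (thY ξ Y) := continuous_const.mul (EisA.continuous_tsum h hY)
/-- Crude bound, uniform in `z`. -/
theorem norm_thY_le {Y : ℝ} (hY : 0 < Y) : ∃ C : ℝ, ∀ ξ : O → O → ℂ, XiOK ξ → ∀ w : H,
    ‖thY ξ Y w‖ ≤ C * (1 + (hy w)⁻¹) := by
  refine ⟨Y ^ (4 / 3 : ℝ) * (6 + 7 * EisA.a0 ^ 2 / Y ^ 2 + 49 * EisA.a0 / Y), fun ξ h w => ?_⟩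
  have e : ∀ v : O × O, ‖ξ v.1 v.2 * (Real.exp (-Y * Qo w v.1 v.2) : ℂ)‖ =
      ‖ξ v.1 v.2‖ * Real.exp (-Y * Qo w v.1 v.2) := fun v => by
    rw [norm_mul, Complex.norm_real, Real.norm_of_nonneg (Real.exp_pos _).le]
  rw [thY, norm_mul, Complex.norm_real, Real.norm_of_nonneg (by positivity), mul_assoc]
  refine mul_le_mul_of_nonneg_left ((norm_tsum_le_tsum_norm
    (by simpa only [e] using EisA.summable_norm h hY w)).trans ?_) (by positivity)
  simp only [e]
  refine (EisA.tsum_norm_le h hY w).trans ?_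
  have := EisA.a0_pos
  have := hy_pos w
  have h1 : 0 ≤ 49 * EisA.a0 / Y := by positivity
  have h2 : 0 ≤ (6 + 7 * EisA.a0 ^ 2 / Y ^ 2) * (hy w)⁻¹ := by positivity
  nlinarith
theorem thY_smul {Y : ℝ} (σ : SL2) (w : H) : thY xi Y (σ • w) = thY (xis σ) Y w := by
  rw [thY, thY]
  congr 1
  refine Eq.trans ?_ ((EisA.rowE σ).tsum_eq _)
  refine tsum_congr fun v => ?_
  rw [Qo_smul, ← xis_row σ]
  rfl
theorem thY_aut {Y : ℝ} {γ : SL2} (h : γ ∈ Gam) (w : H) :
    thY xi Y (γ • w) = kap γ * thY xi Y w := by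
  have e : ∀ c d, xis γ c d = kap γ * xi c d := fun c d => by
    rw [← xis_one, ← xis_mul h, mul_one]
  rw [thY_smul, thY, thY]
  simp only [e, mul_assoc, tsum_mul_left]
  ring
theorem measurable_seed (N : ℕ) (Y : ℝ) : Measurable (seed N Y) := by
  have h1 := measurable_wt N
  have h2 := continuous_hy.measurable
  unfold seed
  fun_prop
/-- `θ_Y` as a Poincaré series. -/
theorem thY_eq_tsum {N : ℕ} (hN : N ≠ 0) {Y : ℝ} (hY : 0 < Y) (w : H) :
    (Summable fun γ : Gam => conj (kap γ) * seed N Y (γ • w)) ∧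
      thY xi Y w = ∑' γ : Gam, conj (kap γ) * seed N Y (γ • w) := by
  have h := EisA.hasSum_fold hN w (G := fun v => ((Y ^ (4 / 3 : ℝ) : ℝ) : ℂ) *
      (xi v.1 v.2 * (Real.exp (-Y * Qo w v.1 v.2) : ℂ)))
    (by
      simp only [norm_mul, Complex.norm_real, Real.norm_of_nonneg (Real.exp_pos _).le]
      exact (EisA.summable_norm (xis_one ▸ xiOK_xis 1) hY w).mul_left _)
    fun v hv => by simp only [hv, zero_mul, mul_zero]
  have e : ∀ γ : Gam, conj (kap γ) * seed N Y (γ • w) = (wt N (γ • w).1 : ℂ) *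
      (((Y ^ (4 / 3 : ℝ) : ℝ) : ℂ) * (xi (EisA.row γ).1 (EisA.row γ).2 *
        (Real.exp (-Y * Qo w (EisA.row γ).1 (EisA.row γ).2) : ℂ))) := fun γ => by
    have h1 : hy (γ • w) = _ := hy_smul γ w
    rw [seed, h1, div_inv_eq_mul, ← xi_row γ.2, EisA.row]
    push_cast
    ring
  simp only [e]
  exact ⟨h.summable, by rw [h.tsum_eq, thY, tsum_mul_left]⟩
/-- A function of moderate growth is integrable against the seed. -/
theorem integrable_mul_seed {F : H → ℂ} (hF : Measurable F) {C : ℝ}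
    (hb : ∀ w, ‖F w‖ ≤ C * (hy w + hy w ^ (-(4 : ℝ)) + 1)) (N : ℕ) {Y : ℝ} (hY : 0 < Y) :
    Integrable (fun w => F w * conj (seed N Y w)) μH := by
  refine ⟨(hF.mul (Complex.continuous_conj.measurable.comp
    (measurable_seed N Y))).aestronglyMeasurable, ?_⟩
  refine lt_of_le_of_lt (lintegral_mono fun w => ?_) (EisA.lintegral_lt_top
    (g := fun y => |C| * Y ^ (4 / 3 : ℝ) * ((y + y ^ (-(4 : ℝ)) + 1) * Real.exp (-Y / y)))
    (by fun_prop) (fun y hy0 => by positivity)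
    (by simpa only [mul_assoc, IntegrableOn] using
      (EisA.integrableOn_prof hY).const_mul (|C| * Y ^ (4 / 3 : ℝ))) N)
  have p := hy_pos w
  have q := wt_nonneg N w.1
  rw [← ENNReal.ofReal_mul q, ← ofReal_norm]
  refine ENNReal.ofReal_le_ofReal ?_
  rw [norm_mul, Complex.norm_conj, seed, Complex.norm_real, Real.norm_of_nonneg (by positivity)]
  have h1 : ‖F w‖ ≤ |C| * (hy w + hy w ^ (-(4 : ℝ)) + 1) :=
    (hb w).trans (mul_le_mul_of_nonneg_right (le_abs_self C) (by positivity))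
  exact (mul_le_mul_of_nonneg_right h1 (by positivity)).trans_eq (by ring)

theorem d2_k1_Fk {Y y : ℝ} (hY : 0 < Y) (r c : O) :
    k1 * Fk y (b1 * nr r) (Y * nr c) = gw (Real.sqrt 3 / (2 * Real.pi) * (Y * y) * nr c) *
      (k1 * y / Y / nr c * gw (k1 * y / Y / nr c * nr r)) := by
  rcases eq_or_ne c 0 with rfl | hc
  · simp [Fk]
  have hc0 := nr_pos hc
  have h3 : 0 < Real.sqrt 3 := Real.sqrt_pos.2 (by norm_num)
  have h33 : Real.sqrt 3 ^ 2 = 3 := Real.sq_sqrt (by norm_num)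
  have hpi := Real.pi_pos
  have e : -y * (Y * nr c + b1 * nr r / (Y * nr c)) =
      -(2 * Real.pi / Real.sqrt 3) * (Real.sqrt 3 / (2 * Real.pi) * (Y * y) * nr c) +
        -(2 * Real.pi / Real.sqrt 3) * (k1 * y / Y / nr c * nr r) := by
    have e1 : 2 * Real.pi / Real.sqrt 3 * k1 = b1 := by
      unfold k1 b1
      field_simp
      rw [h33]
      norm_num
    rw [← e1]
    field_simp
    ring
  unfold Fk gw
  rw [e, Real.exp_add]
  field_simp

theorem d2_exp_Qo {Y y : ℝ} (hY : 0 < Y) (hy0 : 0 < y) (z : ℂ) (c d : O) :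
    Real.exp (-Y * Qo (hp z y) c d) = gw (Real.sqrt 3 / (2 * Real.pi) * (Y * y) * nr c) *
      gw (‖ι d + ι c * z‖ ^ 2 / (81 * (k1 * y / Y))) := by
  have h3 : 0 < Real.sqrt 3 := Real.sqrt_pos.2 (by norm_num)
  have hpi := Real.pi_pos
  rw [Qo, Qf_hp z hy0, norm_ι_sq, ← gw_add, gw, add_comm (ι d)]
  congr 1
  unfold k1
  field_simp
  ring

open Classical in
/-- The inner sum for a fixed `c`. -/
theorem d2_inner {ξ : O → O → ℂ} (h : XiOK ξ) {Y y : ℝ} (hY : 0 < Y) (hy0 : 0 < y) (z : ℂ) (c : O) :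
    ∑' d : O, ξ c d * (Real.exp (-Y * Qo (hp z y) c d) : ℂ) =
      (if c = 0 then (∑' d : O, ξ 0 d) * (Real.exp (-Y / y) : ℂ) else 0) +
        ∑' r : O, (k1 : ℂ) * (Gx ξ r c * (Fk y (b1 * nr r) (Y * nr c) : ℂ)) * eC (ι r * z / 9) := by
  split_ifs with hc
  · subst hc
    simp only [Gx, if_true, zero_mul, mul_zero, tsum_zero, add_zero]
    rw [← tsum_mul_right]
    refine tsum_congr fun d => ?_
    by_cases hd : IsCoprime (0 : O) d
    · have h1 : nm d = 1 := isUnit_iff_nm.1 (isCoprime_zero_left.1 hd)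
      rw [Qo, map_zero, Qf_zero_left, norm_ι_sq, hy_hp z hy0, nr, h1]
      congr 3
      push_cast
      ring
    · rw [h.2.1 0 d hd, zero_mul, zero_mul]
  · have hk := k1_pos
    have hc0 := nr_pos hc
    have hιc : ι c ≠ 0 := fun h0 => hc (ι_injective (by rw [h0, map_zero]))
    have H := d2_poisson (q := 9 * c) (mul_ne_zero (by decide) hc) (ξ c) (h.2.2 c) (h.1 c)
      (X := 81 * (k1 * y / Y)) (by positivity) (ι c * z)
    have e1 : 81 * (k1 * y / Y) / nr (9 * c) = k1 * y / Y / nr c := by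
      rw [d2_nr_nine_mul]
      field_simp
    rw [e1] at H
    simp only [d2_exp_Qo hY hy0, Complex.ofReal_mul, mul_left_comm (ξ c _)]
    rw [tsum_mul_left, H, zero_add, ← tsum_mul_left]
    refine tsum_congr fun r => ?_
    have e2 : ι r * (ι c * z) / ι (9 * c) = ι r * z / 9 := by
      rw [map_mul, map_ofNat]
      field_simp
    have e3 : Gx ξ r c = ft (9 * c) (ξ c) r := by
      rw [Gx, if_neg hc, ft]
    have e4 := congrArg (fun t : ℝ => (t : ℂ)) (d2_k1_Fk (y := y) hY r c)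
    simp only [Complex.ofReal_mul] at e4
    rw [e2, e3, mul_left_comm (k1 : ℂ), e4]
    simp only [Complex.ofReal_mul]
    ring

theorem d2_summable_terms {ξ : O → O → ℂ} (h : XiOK ξ) {Y y : ℝ} (hY : 0 < Y) (hy0 : 0 < y) :
    Summable fun v : O × O =>
      ‖(k1 : ℂ) * (Gx ξ v.2 v.1 * (Fk y (b1 * nr v.2) (Y * nr v.1) : ℂ))‖ := by
  have hk := k1_pos
  have h3 : 0 < Real.sqrt 3 := Real.sqrt_pos.2 (by norm_num)
  have hpi := Real.pi_pos
  refine ((d2_summable_dual (K := k1 * y / Y) (T := Real.sqrt 3 / (2 * Real.pi) * (Y * y))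
    (by positivity) (by positivity)).mul_left 81).of_nonneg_of_le (fun _ => norm_nonneg _)
    fun v => ?_
  rw [mul_left_comm, ← Complex.ofReal_mul, d2_k1_Fk hY, norm_mul, Complex.norm_real, ← mul_assoc 81]
  have h1 := gw_pos (Real.sqrt 3 / (2 * Real.pi) * (Y * y) * nr v.1)
  have h2 := gw_pos (k1 * y / Y / nr v.1 * nr v.2)
  rw [Real.norm_of_nonneg (by positivity)]
  exact mul_le_mul_of_nonneg_right (d2_norm_Gx_le h _ _) (by positivity)

/-- Fourier expansion (Poisson summation `poisson_shift` in each class `d mod 9c`). -/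
theorem thY_fourier {ξ : O → O → ℂ} (h : XiOK ξ) {Y y : ℝ} (hY : 0 < Y) (hy0 : 0 < y) :
    (Summable fun r => ‖Acoef ξ Y r y‖) ∧
      ∀ z : ℂ, thY ξ Y (hp z y) = ∑' r : O, Acoef ξ Y r y * eC (ι r * z / 9) := by
  classical
  have hk := k1_pos
  have h3 : 0 < Real.sqrt 3 := Real.sqrt_pos.2 (by norm_num)
  have hpi := Real.pi_pos
  have hS := d2_summable_terms h hY hy0
  set a : ℂ := (∑' d : O, ξ 0 d) * (Real.exp (-Y / y) : ℂ) with ha
  set P : ℂ := ((Y ^ (4 / 3 : ℝ) : ℝ) : ℂ) with hP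
  have hA : ∀ r, Acoef ξ Y r y = P * ((if r = 0 then a else 0) +
      ∑' c : O, (k1 : ℂ) * (Gx ξ r c * (Fk y (b1 * nr r) (Y * nr c) : ℂ))) := by
    intro r
    rw [Acoef, Sk, tsum_mul_left, ha, hP]
    split_ifs
    · push_cast
      ring
    · ring
  have hite : ∀ b : ℂ, HasSum (fun r : O => if r = 0 then b else 0) b := fun b => hasSum_ite_eq 0 b
  constructor
  · simp only [hA]
    exact (((hite a).summable.add hS.of_norm.prod_symm.prod).mul_left P).norm
  · intro z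
    have hS1 : Summable fun v : O × O =>
        ξ v.1 v.2 * (Real.exp (-Y * Qo (hp z y) v.1 v.2) : ℂ) := by
      refine Summable.of_norm_bounded (d2_summable_pair (X := 81 * (k1 * y / Y))
        (T := Real.sqrt 3 / (2 * Real.pi) * (Y * y)) (by positivity) (by positivity)
        fun c => ι c * z) fun v => ?_
      rw [norm_mul, Complex.norm_real, Real.norm_of_nonneg (Real.exp_pos _).le, d2_exp_Qo hY hy0]
      exact mul_le_of_le_one_left (mul_pos (gw_pos _) (gw_pos _)).le (h.1 _ _)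
    have hS2 : Summable fun v : O × O =>
        (k1 : ℂ) * (Gx ξ v.2 v.1 * (Fk y (b1 * nr v.2) (Y * nr v.1) : ℂ)) * eC (ι v.2 * z / 9) := by
      refine Summable.of_norm_bounded hS fun v => ?_
      rw [norm_mul, norm_eC, mul_one]
    have hcomm := Summable.tsum_comm (f := fun c r : O =>
      (k1 : ℂ) * (Gx ξ r c * (Fk y (b1 * nr r) (Y * nr c) : ℂ)) * eC (ι r * z / 9)) hS2
    rw [thY, hS1.tsum_prod]
    simp only [d2_inner h hY hy0 z, hA, mul_assoc P]
    rw [tsum_mul_left, (hite a).summable.tsum_add hS2.prod, (hite a).tsum_eq, ← hcomm]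
    congr 1
    have e1 : ∀ r : O, ((if r = 0 then a else 0) +
        ∑' c : O, (k1 : ℂ) * (Gx ξ r c * (Fk y (b1 * nr r) (Y * nr c) : ℂ))) * eC (ι r * z / 9) =
        (if r = 0 then a else 0) + ∑' c : O,
          (k1 : ℂ) * (Gx ξ r c * (Fk y (b1 * nr r) (Y * nr c) : ℂ)) * eC (ι r * z / 9) := by
      intro r
      rw [add_mul, tsum_mul_right]
      split_ifs with hr
      · subst hr
        simp
      · simp
    simp only [e1]
    have hS3 : Summable fun r : O => ∑' c : O,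
        (k1 : ℂ) * (Gx ξ r c * (Fk y (b1 * nr r) (Y * nr c) : ℂ)) * eC (ι r * z / 9) :=
      hS2.prod_symm.prod
    rw [(hite a).summable.tsum_add hS3, (hite a).tsum_eq]

theorem measurable_Acoef (ξ : O → O → ℂ) (Y : ℝ) (r : O) : Measurable (Acoef ξ Y r) := by
  unfold Acoef
  refine Measurable.add ?_ ((measurable_Sk_Fk _ _ _).const_mul _)
  split_ifs
  · fun_prop
  · exact measurable_const

end Crest.Agent.R17
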