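import Crest.Agent.R17.Recip
import Crest.Agent.R17.Poisson
import Crest.Agent.R17.Weight

/-!
# Row 17, theta module A: hyperbolic 3-space

A point is `w = (z, v) : ℂ × ℝ` with height `y = exp v` (`hy w`).  `Qf w` is the positive Hermitian
form of determinant one attached to `w`; a matrix `g` with `det g ≠ 0` acts by `actC g`, and
`Qf (g w) v = Qf w (v g) / |det g|`.  `μH = dz dy / y³` is invariant.
-/

set_option autoImplicit false

noncomputable section

namespace Crest.Agent.R17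

open scoped ComplexConjugate ENNReal
open MeasureTheory

/-- Hyperbolic space in the coordinates `(z, log y)`. -/
abbrev H : Type := ℂ × ℝ

/-- The height. -/
def hy (w : H) : ℝ := Real.exp w.2

/-- The point with coordinates `(z, y)`, `y > 0`. -/
def hp (z : ℂ) (y : ℝ) : H := (z, Real.log y)

/-- The invariant measure `dz dy / y³`. -/
def μH : Measure H :=
  (volume : Measure (ℂ × ℝ)).withDensity fun w => ENNReal.ofReal (Real.exp (-2 * w.2))

/-- The Hermitian form `(|c z + d|² + |c|² y²) / y`. -/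
def Qf (w : H) (c d : ℂ) : ℝ := (‖c * w.1 + d‖ ^ 2 + ‖c‖ ^ 2 * hy w ^ 2) / hy w

/-- The action of a complex matrix of non-zero determinant. -/
def actC (g : Matrix (Fin 2) (Fin 2) ℂ) (w : H) : H :=
  hp (((g 0 0 * w.1 + g 0 1) * conj (g 1 0 * w.1 + g 1 1) +
        g 0 0 * conj (g 1 0) * (hy w : ℂ) ^ 2) / ((hy w * Qf w (g 1 0) (g 1 1) : ℝ) : ℂ))
    (‖g.det‖ / Qf w (g 1 0) (g 1 1))

/-! ## part A1: algebra -/

theorem hy_pos (w : H) : 0 < hy w := Real.exp_pos _
theorem hy_hp (z : ℂ) {y : ℝ} (h : 0 < y) : hy (hp z y) = y := Real.exp_log h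
@[simp] theorem hp_fst (z : ℂ) (y : ℝ) : (hp z y).1 = z := rfl
theorem hp_hy (w : H) : hp w.1 (hy w) = w := by
  simp [hp, hy]
theorem continuous_hy : Continuous hy := Real.continuous_exp.comp continuous_snd
theorem Qf_nonneg (w : H) (c d : ℂ) : 0 ≤ Qf w c d := by
  have := hy_pos w
  unfold Qf
  positivity
theorem Qf_pos (w : H) {c d : ℂ} (h : c ≠ 0 ∨ d ≠ 0) : 0 < Qf w c d := by
  have := hy_pos w
  unfold Qf
  refine div_pos ?_ this
  by_cases hc : c = 0
  · have hd : d ≠ 0 := h.resolve_left (not_not.2 hc)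
    have := norm_pos_iff.2 hd
    rw [hc, zero_mul, zero_add]
    positivity
  · have := norm_pos_iff.2 hc
    positivity
theorem Qf_hp (z : ℂ) {y : ℝ} (h : 0 < y) (c d : ℂ) :
    Qf (hp z y) c d = (‖c * z + d‖ ^ 2 + ‖c‖ ^ 2 * y ^ 2) / y := by
  rw [Qf, hy_hp z h, hp_fst]
theorem Qf_zero_left (w : H) (d : ℂ) : Qf w 0 d = ‖d‖ ^ 2 / hy w := by
  simp [Qf]
theorem Qf_mul (w : H) (ρ c d : ℂ) : Qf w (ρ * c) (ρ * d) = ‖ρ‖ ^ 2 * Qf w c d := by
  unfold Qf
  rw [show ρ * c * w.1 + ρ * d = ρ * (c * w.1 + d) by ring, norm_mul, norm_mul]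
  ring
theorem continuous_Qf (c d : ℂ) : Continuous fun w : H => Qf w c d := by
  have := continuous_hy
  unfold Qf
  exact Continuous.div (by fun_prop) this fun w => (hy_pos w).ne'
/-- Two vectors: `|det (v, v')|² ≤ Q(v) Q(v')`. -/
theorem norm_det_sq_le_Qf (w : H) (c d c' d' : ℂ) :
    ‖c * d' - c' * d‖ ^ 2 ≤ Qf w c d * Qf w c' d' := by
  have hy0 := hy_pos w
  unfold Qf
  rw [div_mul_div_comm, le_div_iff₀ (mul_pos hy0 hy0)]
  have h1 : ‖c * d' - c' * d‖ ≤ ‖c‖ * ‖c' * w.1 + d'‖ + ‖c'‖ * ‖c * w.1 + d‖ := by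
    rw [show c * d' - c' * d = c * (c' * w.1 + d') - c' * (c * w.1 + d) by ring, ← norm_mul,
      ← norm_mul]
    exact norm_sub_le _ _
  have h2 := mul_le_mul_of_nonneg_right (pow_le_pow_left₀ (norm_nonneg _) h1 2)
    (mul_pos hy0 hy0).le
  refine h2.trans ?_
  nlinarith [sq_nonneg (‖c * w.1 + d‖ * ‖c' * w.1 + d'‖ - ‖c‖ * ‖c'‖ * hy w ^ 2)]
theorem ThH_row {g : Matrix (Fin 2) (Fin 2) ℂ} (hg : g.det ≠ 0) : g 1 0 ≠ 0 ∨ g 1 1 ≠ 0 := by
  by_contra h
  rw [not_or, not_not, not_not] at h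
  exact hg (by rw [Matrix.det_fin_two, h.1, h.2]; ring)
theorem ThH_lagrange (v₁ v₂ u₁ u₂ : ℂ) :
    ‖v₁ * conj u₁ + v₂ * conj u₂‖ ^ 2 + ‖v₁ * u₂ - v₂ * u₁‖ ^ 2 =
      (‖v₁‖ ^ 2 + ‖v₂‖ ^ 2) * (‖u₁‖ ^ 2 + ‖u₂‖ ^ 2) := by
  simp only [Complex.sq_norm, Complex.normSq_apply, Complex.add_re, Complex.add_im, Complex.mul_re,
    Complex.mul_im, Complex.sub_re, Complex.sub_im, Complex.conj_re, Complex.conj_im]
  ring
theorem hy_actC {g : Matrix (Fin 2) (Fin 2) ℂ} (hg : g.det ≠ 0) (w : H) :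
    hy (actC g w) = ‖g.det‖ / Qf w (g 1 0) (g 1 1) := by
  exact hy_hp _ (div_pos (norm_pos_iff.2 hg) (Qf_pos w (ThH_row hg)))
theorem Qf_actC {g : Matrix (Fin 2) (Fin 2) ℂ} (hg : g.det ≠ 0) (w : H) (c d : ℂ) :
    Qf (actC g w) c d = Qf w (c * g 0 0 + d * g 1 0) (c * g 0 1 + d * g 1 1) / ‖g.det‖ := by
  have hy0 := hy_pos w
  have hQ := Qf_pos w (ThH_row hg)
  have hD := norm_pos_iff.2 hg
  have hN : hy w * Qf w (g 1 0) (g 1 1) =
      ‖g 1 0 * w.1 + g 1 1‖ ^ 2 + ‖g 1 0 * (hy w : ℂ)‖ ^ 2 := by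
    rw [Qf, mul_div_cancel₀ _ hy0.ne', norm_mul, Complex.norm_real, Real.norm_of_nonneg hy0.le,
      mul_pow]
  have hL := ThH_lagrange ((c * g 0 0 + d * g 1 0) * w.1 + (c * g 0 1 + d * g 1 1))
    ((c * g 0 0 + d * g 1 0) * (hy w : ℂ)) (g 1 0 * w.1 + g 1 1) (g 1 0 * (hy w : ℂ))
  rw [← hN, show ((c * g 0 0 + d * g 1 0) * w.1 + (c * g 0 1 + d * g 1 1)) * (g 1 0 * (hy w : ℂ)) -
      (c * g 0 0 + d * g 1 0) * (hy w : ℂ) * (g 1 0 * w.1 + g 1 1) = -(c * g.det * (hy w : ℂ)) by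
        rw [Matrix.det_fin_two]; ring, norm_neg, norm_mul, norm_mul,
    norm_mul (c * g 0 0 + d * g 1 0), Complex.norm_real, Real.norm_of_nonneg hy0.le] at hL
  have hN0 : ((hy w * Qf w (g 1 0) (g 1 1) : ℝ) : ℂ) ≠ 0 :=
    Complex.ofReal_ne_zero.2 (mul_pos hy0 hQ).ne'
  have h1 : c * (actC g w).1 + d =
      (((c * g 0 0 + d * g 1 0) * w.1 + (c * g 0 1 + d * g 1 1)) * conj (g 1 0 * w.1 + g 1 1) +
        (c * g 0 0 + d * g 1 0) * (hy w : ℂ) * conj (g 1 0 * (hy w : ℂ))) /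
        ((hy w * Qf w (g 1 0) (g 1 1) : ℝ) : ℂ) := by
    rw [eq_div_iff hN0, actC, hp_fst, add_mul, mul_assoc, div_mul_cancel₀ _ hN0, hN]
    push_cast
    rw [← Complex.mul_conj', ← Complex.mul_conj']
    simp only [map_mul, Complex.conj_ofReal]
    ring
  rw [Qf, h1, hy_actC hg, norm_div, Complex.norm_real, Real.norm_of_nonneg (mul_pos hy0 hQ).le,
    div_pow, eq_sub_of_add_eq hL, Qf.eq_1 w (c * g 0 0 + d * g 1 0)]
  field_simp
  ring
theorem ext_Qf {w w' : H} (h : ∀ c d, Qf w c d = Qf w' c d) : w = w' := by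
  have h1 := h 0 1
  rw [Qf_zero_left, Qf_zero_left, norm_one, one_pow, one_div, one_div, inv_inj] at h1
  have h2 := h 1 (-w.1)
  unfold Qf at h2
  rw [← h1, div_left_inj' (hy_pos w).ne', add_left_inj, one_mul, one_mul, add_neg_cancel,
    norm_zero, eq_comm, zero_pow two_ne_zero, pow_eq_zero_iff two_ne_zero, norm_eq_zero,
    add_neg_eq_zero] at h2
  exact Prod.ext h2.symm (Real.exp_injective h1)
theorem actC_one (w : H) : actC 1 w = w := by
  refine ext_Qf fun c d => ?_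
  rw [Qf_actC (by simp)]
  simp
theorem actC_mul {g g' : Matrix (Fin 2) (Fin 2) ℂ} (hg : g.det ≠ 0) (hg' : g'.det ≠ 0) (w : H) :
    actC (g * g') w = actC g (actC g' w) := by
  refine ext_Qf fun c d => ?_
  rw [Qf_actC (by rw [Matrix.det_mul]; exact mul_ne_zero hg hg'), Qf_actC hg, Qf_actC hg',
    Matrix.det_mul, norm_mul, div_div, mul_comm ‖g.det‖]
  simp only [Matrix.mul_apply, Fin.sum_univ_two]
  congr 2 <;> ring
theorem actC_smul {ρ : ℂ} (hρ : ρ ≠ 0) {g : Matrix (Fin 2) (Fin 2) ℂ} (hg : g.det ≠ 0) (w : H) :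
    actC (ρ • g) w = actC g w := by
  refine ext_Qf fun c d => ?_
  have h1 : (ρ • g).det = ρ ^ 2 * g.det := by rw [Matrix.det_smul, Fintype.card_fin]
  rw [Qf_actC (by rw [h1]; exact mul_ne_zero (pow_ne_zero _ hρ) hg), Qf_actC hg, h1, norm_mul,
    norm_pow, ← mul_div_mul_left _ ‖g.det‖ (pow_ne_zero 2 (norm_ne_zero_iff.2 hρ)), ← Qf_mul]
  simp only [Matrix.smul_apply, smul_eq_mul]
  congr 2 <;> ring
theorem continuous_actC {g : Matrix (Fin 2) (Fin 2) ℂ} (hg : g.det ≠ 0) : Continuous (actC g) := by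
  have h1 := continuous_hy
  have h2 := continuous_Qf (g 1 0) (g 1 1)
  have hQ := fun w => Qf_pos w (ThH_row hg)
  unfold actC hp
  refine Continuous.prodMk (Continuous.div (by fun_prop) (by fun_prop) fun w => ?_)
    (Continuous.log (continuous_const.div h2 fun w => (hQ w).ne') fun w => ?_)
  · exact Complex.ofReal_ne_zero.2 (mul_pos (hy_pos w) (hQ w)).ne'
  · exact (div_pos (norm_pos_iff.2 hg) (hQ w)).ne'
theorem actC_upper {a d : ℂ} (ha : a ≠ 0) (hd : d ≠ 0) (b z : ℂ) {y : ℝ} (h : 0 < y) :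
    actC !![a, b; 0, d] (hp z y) = hp ((a * z + b) / d) (‖a‖ / ‖d‖ * y) := by
  have hd' := norm_pos_iff.2 hd
  have hc : conj d ≠ 0 := (map_ne_zero _).2 hd
  unfold actC
  simp only [Matrix.of_apply, Matrix.cons_val', Matrix.cons_val_zero, Matrix.cons_val_one,
    Matrix.cons_val_fin_one, Matrix.det_fin_two_of, Qf_zero_left, hy_hp z h, hp_fst]
  congr 1
  · rw [mul_div_cancel₀ _ h.ne']
    push_cast
    rw [← Complex.mul_conj']
    simp only [zero_mul, zero_add, map_zero, mul_zero, add_zero]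
    field_simp
  · rw [mul_zero, sub_zero, norm_mul]
    field_simp
/-- The inverse of `(α x; β δ)` near the geodesic above the cusp `α / β`. -/
theorem actC_geod {α x β δ : ℂ} (hdet : α * δ - x * β = 1) (hβ : β ≠ 0) (z : ℂ) {y : ℝ}
    (h : 0 < y) :
    actC !![δ, -x; -β, α] (hp (α / β + z) y) =
      hp (-δ / β - conj z / (β ^ 2 * ((‖z‖ ^ 2 + y ^ 2 : ℝ) : ℂ)))
        (y / (‖β‖ ^ 2 * (‖z‖ ^ 2 + y ^ 2))) := by
  have hb := norm_pos_iff.2 hβ
  have hc : conj β ≠ 0 := (map_ne_zero _).2 hβ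
  have hS : 0 < ‖z‖ ^ 2 + y ^ 2 := by positivity
  have hS' : ((‖z‖ ^ 2 + y ^ 2 : ℝ) : ℂ) ≠ 0 := Complex.ofReal_ne_zero.2 hS.ne'
  have e1 : -β * (α / β + z) + α = -β * z := by field_simp; ring
  have e2 : δ * (α / β + z) + -x = 1 / β + δ * z := by
    field_simp
    linear_combination hdet
  have hQ : Qf (hp (α / β + z) y) (-β) α = ‖β‖ ^ 2 * (‖z‖ ^ 2 + y ^ 2) / y := by
    rw [Qf_hp _ h, e1, norm_mul, norm_neg]
    ring
  unfold actC
  simp only [Matrix.of_apply, Matrix.cons_val', Matrix.cons_val_zero, Matrix.cons_val_one,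
    Matrix.cons_val_fin_one, Matrix.det_fin_two_of, hy_hp _ h, hp_fst, hQ, e1, e2]
  congr 1
  · rw [mul_div_cancel₀ _ h.ne', Complex.ofReal_mul, Complex.ofReal_pow, ← Complex.mul_conj']
    have e3 : z * conj z = ((‖z‖ ^ 2 + y ^ 2 : ℝ) : ℂ) - (y : ℂ) ^ 2 := by
      rw [Complex.mul_conj']
      push_cast
      ring
    generalize ((‖z‖ ^ 2 + y ^ 2 : ℝ) : ℂ) = S at hS' e3 ⊢
    simp only [map_mul, map_neg]
    field_simp
    linear_combination (-β * δ) * e3
  · rw [show δ * α - -x * -β = 1 by linear_combination hdet, norm_one, one_div, inv_div]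

/-! ## part A2: the invariant measure -/

theorem A2_meas_dens : Measurable fun w : H => ENNReal.ofReal (Real.exp (-2 * w.2)) := by
  fun_prop

theorem A2_lintegral {f : H → ℝ≥0∞} (hf : Measurable f) :
    ∫⁻ w, f w ∂μH = ∫⁻ v : ℝ, ENNReal.ofReal (Real.exp (-2 * v)) * ∫⁻ z : ℂ, f (z, v) := by
  rw [μH, lintegral_withDensity_eq_lintegral_mul _ A2_meas_dens hf, Measure.volume_eq_prod,
    lintegral_prod_symm _ (A2_meas_dens.mul hf).aemeasurable]
  refine lintegral_congr fun v => ?_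
  simp only [Pi.mul_apply]
  exact lintegral_const_mul _ (hf.comp measurable_prodMk_right)

theorem A2_exp (v : ℝ) : Real.exp v * (Real.exp v ^ 3)⁻¹ = Real.exp (-2 * v) := by
  rw [← Real.exp_nat_mul, ← Real.exp_neg, ← Real.exp_add]
  congr 1
  push_cast
  ring

theorem lintegral_μH {f : H → ℝ≥0∞} (hf : Measurable f) :
    ∫⁻ w, f w ∂μH = ∫⁻ y in Set.Ioi (0 : ℝ), (∫⁻ z : ℂ, f (hp z y)) * ENNReal.ofReal (y ^ 3)⁻¹ := by
  rw [A2_lintegral hf, ← Real.range_exp, ← Set.image_univ,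
    lintegral_image_eq_lintegral_abs_deriv_mul MeasurableSet.univ
      (fun x _ => (Real.hasDerivAt_exp x).hasDerivWithinAt) Real.exp_injective.injOn,
    Measure.restrict_univ]
  refine lintegral_congr fun v => ?_
  simp only [hp, Real.log_exp]
  rw [mul_left_comm, ← ENNReal.ofReal_mul (abs_nonneg _), abs_of_pos (Real.exp_pos v), A2_exp,
    mul_comm]
theorem integral_μH {f : H → ℂ} (hf : Integrable f μH) :
    ∫ w, f w ∂μH = ∫ y in Set.Ioi (0 : ℝ), (∫ z : ℂ, f (hp z y)) * (((y ^ 3)⁻¹ : ℝ) : ℂ) := by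
  have hlt : ∀ᵐ w : H, ENNReal.ofReal (Real.exp (-2 * w.2)) < ∞ :=
    Filter.Eventually.of_forall fun _ => ENNReal.ofReal_lt_top
  have hint := (integrable_withDensity_iff_integrable_smul' A2_meas_dens hlt).1 hf
  rw [μH, integral_withDensity_eq_integral_toReal_smul A2_meas_dens hlt, Measure.volume_eq_prod,
    integral_prod_symm _ hint, ← Real.range_exp, ← Set.image_univ,
    integral_image_eq_integral_abs_deriv_smul MeasurableSet.univ
      (fun x _ => (Real.hasDerivAt_exp x).hasDerivWithinAt) Real.exp_injective.injOn,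
    Measure.restrict_univ]
  refine integral_congr_ae (Filter.Eventually.of_forall fun v => ?_)
  simp only [hp, Real.log_exp]
  rw [integral_smul, ENNReal.toReal_ofReal (Real.exp_pos _).le, abs_of_pos (Real.exp_pos v),
    ← A2_exp, Complex.real_smul, Complex.real_smul]
  push_cast
  ring
instance isOpenPosMeasure_μH : μH.IsOpenPosMeasure :=
  (withDensity_absolutelyContinuous' A2_meas_dens.aemeasurable
    (Filter.Eventually.of_forall fun _ =>
      (ENNReal.ofReal_pos.2 (Real.exp_pos _)).ne')).isOpenPosMeasure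
instance isLocallyFiniteMeasure_μH : IsLocallyFiniteMeasure μH :=
  IsLocallyFiniteMeasure.withDensity_ofReal (by fun_prop)

/-- the coordinates `(z / y, log y)`, in which `μH` is Lebesgue measure -/
def A2B (p : ℂ × ℝ) : H := (Real.exp p.2 • p.1, p.2)

theorem A2B_meas : Measurable A2B := by
  unfold A2B
  fun_prop

theorem A2B_mp : MeasurePreserving A2B volume μH := by
  refine ⟨A2B_meas, Measure.ext_of_lintegral _ fun f hf => ?_⟩
  rw [lintegral_map hf A2B_meas, A2_lintegral hf, Measure.volume_eq_prod,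
    lintegral_prod_symm (fun a => f (A2B a)) (hf.comp A2B_meas).aemeasurable]
  refine lintegral_congr fun v => ?_
  have h1 : Measurable fun z : ℂ => f (z, v) := hf.comp measurable_prodMk_right
  have h2 := lintegral_map (μ := (volume : Measure ℂ)) h1 (measurable_const_smul (Real.exp v))
  rw [Measure.map_addHaar_smul _ (Real.exp_pos v).ne', lintegral_smul_measure,
    Complex.finrank_real_complex, abs_of_pos (by positivity), ← Real.exp_nat_mul,
    ← Real.exp_neg] at h2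
  refine h2.symm.trans ?_
  rw [smul_eq_mul]
  congr 3
  push_cast
  ring

theorem A2_transfer {T S : ℂ × ℝ → ℂ × ℝ} (hT : Measurable T)
    (hS : MeasurePreserving S volume volume) (h : ∀ p, T (A2B p) = A2B (S p)) :
    MeasurePreserving T μH μH := by
  refine ⟨hT, ?_⟩
  conv_lhs => rw [← A2B_mp.map_eq]
  rw [Measure.map_map hT A2B_meas, show T ∘ A2B = A2B ∘ S from funext h]
  exact (A2B_mp.comp hS).map_eq

theorem A2_inv : MeasurePreserving (actC !![0, -1; 1, 0]) μH μH := by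
  have h1 : MeasurePreserving (fun u : ℂ => -conj u) volume volume :=
    (Measure.measurePreserving_neg volume).comp Complex.conjLIE.measurePreserving
  have hS : MeasurePreserving (fun p : ℂ × ℝ => (-conj p.1, -Real.log (1 + ‖p.1‖ ^ 2) - p.2))
      volume volume :=
    h1.skew_product (g := fun (u : ℂ) (v : ℝ) => -Real.log (1 + ‖u‖ ^ 2) - v) (by fun_prop)
      (Filter.Eventually.of_forall fun u => (Measure.measurePreserving_sub_left volume _).map_eq)
  refine A2_transfer (continuous_actC (by simp)).measurable hS fun p => ?_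
  obtain ⟨u, v⟩ := p
  have he := Real.exp_pos v
  have hu : 0 < 1 + ‖u‖ ^ 2 := by positivity
  have hQ : Qf (A2B (u, v)) 1 0 = Real.exp v * (1 + ‖u‖ ^ 2) := by
    simp only [Qf, A2B, hy, one_mul, add_zero, norm_one, norm_smul, Real.norm_of_nonneg he.le]
    field_simp
    ring
  have e1 : Real.exp (-Real.log (1 + ‖u‖ ^ 2) - v) = (Real.exp v * (1 + ‖u‖ ^ 2))⁻¹ := by
    rw [Real.exp_sub, Real.exp_neg, Real.exp_log hu]
    field_simp
  simp only [actC, Matrix.of_apply, Matrix.cons_val', Matrix.cons_val_zero, Matrix.cons_val_one,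
    Matrix.cons_val_fin_one, hQ, Matrix.det_fin_two_of]
  refine Prod.ext ?_ ?_
  · simp only [hp, A2B, hy, e1, Complex.real_smul, map_mul, Complex.conj_ofReal, zero_mul,
      one_mul, add_zero, zero_add]
    have a1 : (Real.exp v : ℂ) ≠ 0 := by exact_mod_cast he.ne'
    have a2 : ((1 + ‖u‖ ^ 2 : ℝ) : ℂ) ≠ 0 := by exact_mod_cast hu.ne'
    rw [Complex.ofReal_mul, Complex.ofReal_mul, Complex.ofReal_inv, Complex.ofReal_mul]
    field_simp
  · simp only [hp, A2B]
    rw [← Real.log_exp (-Real.log (1 + ‖u‖ ^ 2) - v), e1]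
    simp

theorem A2_upper {a d : ℂ} (ha : a ≠ 0) (hd : d ≠ 0) (b : ℂ) :
    MeasurePreserving (actC !![a, b; 0, d]) μH μH := by
  have hn : 0 < ‖a‖ / ‖d‖ := by positivity
  have hρ : ‖a / d / ((‖a‖ / ‖d‖ : ℝ) : ℂ)‖ = 1 := by
    rw [norm_div, norm_div, Complex.norm_real, Real.norm_of_nonneg hn.le, div_self hn.ne']
  let ρ : Circle := ⟨a / d / ((‖a‖ / ‖d‖ : ℝ) : ℂ), mem_sphere_zero_iff_norm.2 hρ⟩
  have h1 : MeasurePreserving (fun p : ℝ × ℂ => (Real.log (‖a‖ / ‖d‖) + p.1,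
      (ρ : ℂ) * p.2 + Real.exp (-(Real.log (‖a‖ / ‖d‖) + p.1)) • (b / d)))
      (volume.prod volume) (volume.prod volume) :=
    (measurePreserving_add_left volume (Real.log (‖a‖ / ‖d‖))).skew_product
      (g := fun (v : ℝ) (u : ℂ) => (ρ : ℂ) * u + Real.exp (-(Real.log (‖a‖ / ‖d‖) + v)) • (b / d))
      (by fun_prop) (Filter.Eventually.of_forall fun v =>
        ((measurePreserving_add_right volume _).comp (rotation ρ).measurePreserving).map_eq)
  have hS := (Measure.measurePreserving_swap.comp h1).comp Measure.measurePreserving_swap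
  refine A2_transfer (continuous_actC (by simp [ha, hd])).measurable hS fun p => ?_
  obtain ⟨u, v⟩ := p
  have he := Real.exp_pos v
  rw [← hp_hy (A2B (u, v)), actC_upper ha hd _ _ (hy_pos _)]
  refine Prod.ext ?_ ?_
  · simp only [hp, A2B, Function.comp_apply, Prod.swap_prod_mk, smul_add, smul_smul,
      ← Real.exp_add, add_neg_cancel, Real.exp_zero, one_smul]
    rw [Real.exp_add, Real.exp_log hn, Complex.real_smul, Complex.real_smul, Complex.ofReal_mul]
    have a1 : ((‖a‖ / ‖d‖ : ℝ) : ℂ) ≠ 0 := by exact_mod_cast hn.ne'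
    show _ = _ * (a / d / ((‖a‖ / ‖d‖ : ℝ) : ℂ) * u) + _
    field_simp
  · simp only [hp, A2B, hy, Function.comp_apply, Prod.swap_prod_mk]
    rw [Real.log_mul hn.ne' he.ne', Real.log_exp]

theorem measurePreserving_actC {g : Matrix (Fin 2) (Fin 2) ℂ} (hg : g.det ≠ 0) :
    MeasurePreserving (actC g) μH μH := by
  by_cases hc : g 1 0 = 0
  · have h1 : g = !![g 0 0, g 0 1; 0, g 1 1] := by
      conv_lhs => rw [Matrix.eta_fin_two g, hc]
    rw [Matrix.det_fin_two, hc, mul_zero, sub_zero] at hg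
    rw [h1]
    exact A2_upper (left_ne_zero_of_mul hg) (right_ne_zero_of_mul hg) _
  · have h1 : g = !![1, g 0 0 / g 1 0; 0, 1] *
        (!![0, -1; 1, 0] * !![g 1 0, g 1 1; 0, g.det / g 1 0]) := by
      rw [Matrix.det_fin_two, Matrix.mul_fin_two, Matrix.mul_fin_two]
      conv_lhs => rw [Matrix.eta_fin_two g]
      congr <;> field_simp <;> ring
    have he : g.det / g 1 0 ≠ 0 := div_ne_zero hg hc
    have d1 : (!![1, g 0 0 / g 1 0; 0, 1] : Matrix (Fin 2) (Fin 2) ℂ).det ≠ 0 := by simp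
    have d2 : (!![0, -1; 1, 0] : Matrix (Fin 2) (Fin 2) ℂ).det ≠ 0 := by simp
    have d3 : (!![g 1 0, g 1 1; 0, g.det / g 1 0] : Matrix (Fin 2) (Fin 2) ℂ).det ≠ 0 := by
      rw [Matrix.det_fin_two_of, mul_zero, sub_zero]
      exact mul_ne_zero hc he
    have h2 : actC g = actC !![1, g 0 0 / g 1 0; 0, 1] ∘ actC !![0, -1; 1, 0] ∘
        actC !![g 1 0, g 1 1; 0, g.det / g 1 0] := by
      funext w
      conv_lhs => rw [h1]
      rw [actC_mul d1 (by rw [Matrix.det_mul]; exact mul_ne_zero d2 d3), actC_mul d2 d3]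
      rfl
    rw [h2]
    exact (A2_upper one_ne_zero one_ne_zero _).comp (A2_inv.comp (A2_upper hc he _))

/-! ## integral matrices -/

/-- Integral matrices. -/
abbrev Mat : Type := Matrix (Fin 2) (Fin 2) O

/-- `SL₂(O)`. -/
abbrev SL2 : Type := Matrix.SpecialLinearGroup (Fin 2) O

/-- The action of an integral matrix of non-zero determinant. -/
def act (g : Mat) (w : H) : H := actC (g.map ι) w

/-- The form `Qf` on integral vectors. -/
def Qo (w : H) (c d : O) : ℝ := Qf w (ι c) (ι d)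

theorem det_map_ι (g : Mat) : (g.map ι).det = ι g.det := (ι.map_det g).symm

theorem det_map_ι_ne {g : Mat} (hg : g.det ≠ 0) : (g.map ι).det ≠ 0 := by
  rw [det_map_ι]; exact fun h => hg (ι_injective (by simpa using h))

theorem act_one (w : H) : act 1 w = w := by
  unfold act; rw [Matrix.map_one _ (map_zero ι) (map_one ι)]; exact actC_one w

theorem act_mul {g g' : Mat} (hg : g.det ≠ 0) (hg' : g'.det ≠ 0) (w : H) :
    act (g * g') w = act g (act g' w) := by
  unfold act; rw [Matrix.map_mul]; exact actC_mul (det_map_ι_ne hg) (det_map_ι_ne hg') w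

theorem SL2.det_ne (σ : SL2) : (σ : Mat).det ≠ 0 := by rw [σ.det_coe]; exact one_ne_zero

instance : MulAction SL2 H where
  smul σ w := act σ w
  one_smul w := act_one w
  mul_smul σ τ w := act_mul σ.det_ne τ.det_ne w

theorem smul_def (σ : SL2) (w : H) : σ • w = act σ w := rfl

/-- The matrix `(a b; c d)` as an element of `SL₂(O)`. -/
def mkSL (a b c d : O) (h : a * d - b * c = 1) : SL2 :=
  ⟨!![a, b; c, d], by rw [Matrix.det_fin_two_of]; exact h⟩

@[simp] theorem mkSL_00 (a b c d : O) (h) : mkSL a b c d h 0 0 = a := rfl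
@[simp] theorem mkSL_01 (a b c d : O) (h) : mkSL a b c d h 0 1 = b := rfl
@[simp] theorem mkSL_10 (a b c d : O) (h) : mkSL a b c d h 1 0 = c := rfl
@[simp] theorem mkSL_11 (a b c d : O) (h) : mkSL a b c d h 1 1 = d := rfl

/-- The translation by `t`. -/
def nT (t : O) : SL2 := mkSL 1 t 0 1 (by ring)

theorem SL2.det_eq (σ : SL2) : σ 0 0 * σ 1 1 - σ 0 1 * σ 1 0 = 1 := by
  have := σ.det_coe; rwa [Matrix.det_fin_two] at this

/-! ## part A3: integral versions (immediate from A1, A2) -/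

theorem act_smul {ρ : O} (hρ : ρ ≠ 0) {g : Mat} (hg : g.det ≠ 0) (w : H) :
    act (ρ • g) w = act g w := by
  unfold act
  rw [show (ρ • g).map ι = ι ρ • g.map ι by ext i j; simp]
  exact actC_smul ((map_ne_zero_iff ι ι_injective).2 hρ) (det_map_ι_ne hg) w
theorem continuous_act {g : Mat} (hg : g.det ≠ 0) : Continuous (act g) :=
  continuous_actC (det_map_ι_ne hg)
theorem measurePreserving_act {g : Mat} (hg : g.det ≠ 0) : MeasurePreserving (act g) μH μH :=
  measurePreserving_actC (det_map_ι_ne hg)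
theorem continuous_smul_SL (σ : SL2) : Continuous fun w : H => σ • w := continuous_act σ.det_ne
theorem measurePreserving_smul_SL (σ : SL2) : MeasurePreserving (fun w : H => σ • w) μH μH :=
  measurePreserving_act σ.det_ne
theorem act_adjugate {g : Mat} (hg : g.det ≠ 0) (w : H) :
    act g.adjugate (act g w) = w ∧ act g (act g.adjugate w) = w := by
  have h1 : g.adjugate.det ≠ 0 := by rw [Matrix.det_adjugate]; exact pow_ne_zero _ hg
  have h2 : (1 : Mat).det ≠ 0 := by simp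
  rw [← act_mul h1 hg, ← act_mul hg h1, Matrix.adjugate_mul, Matrix.mul_adjugate,
    act_smul hg h2, act_one]
  exact ⟨rfl, rfl⟩
theorem act_upper {a d : O} (ha : a ≠ 0) (hd : d ≠ 0) (b : O) (z : ℂ) {y : ℝ} (h : 0 < y) :
    act !![a, b; 0, d] (hp z y) = hp ((ι a * z + ι b) / ι d) (‖ι a‖ / ‖ι d‖ * y) := by
  unfold act
  rw [show (!![a, b; 0, d] : Mat).map ι = !![ι a, ι b; 0, ι d] by
    ext i j; fin_cases i <;> fin_cases j <;> simp]
  exact actC_upper ((map_ne_zero_iff ι ι_injective).2 ha) ((map_ne_zero_iff ι ι_injective).2 hd)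
    _ z h
theorem nT_smul (t : O) (w : H) : nT t • w = (w.1 + ι t, w.2) := by
  have h := act_upper one_ne_zero one_ne_zero t w.1 (hy_pos w)
  rw [hp_hy] at h
  refine h.trans ?_
  simp [hp, hy]
theorem nT_add (s t : O) : nT (s + t) = nT s * nT t := by
  refine Matrix.SpecialLinearGroup.ext _ _ fun i j => ?_
  fin_cases i <;> fin_cases j <;> simp [nT, mkSL, Matrix.mul_apply, Fin.sum_univ_two, add_comm]
theorem Qo_smul (σ : SL2) (w : H) (c d : O) :
    Qo (σ • w) c d = Qo w (c * σ 0 0 + d * σ 1 0) (c * σ 0 1 + d * σ 1 1) := by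
  rw [smul_def, Qo, act, Qf_actC (det_map_ι_ne σ.det_ne), det_map_ι, σ.det_coe, map_one, norm_one,
    div_one, Qo]
  simp only [Matrix.map_apply, map_add, map_mul]
theorem hy_smul (σ : SL2) (w : H) : hy (σ • w) = (Qo w (σ 1 0) (σ 1 1))⁻¹ := by
  rw [smul_def, act, hy_actC (det_map_ι_ne σ.det_ne), det_map_ι, σ.det_coe, map_one, norm_one,
    one_div, Qo]
  rfl
/-- Two matrices with the same second row (first column) differ by a translation. -/
theorem exists_nT_mul {σ τ : SL2} (h0 : σ 1 0 = τ 1 0) (h1 : σ 1 1 = τ 1 1) :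
    ∃ t, σ = nT t * τ := by
  have hσ := σ.det_eq
  have hτ := τ.det_eq
  rw [h0, h1] at hσ
  refine ⟨σ 0 1 * τ 0 0 - σ 0 0 * τ 0 1, ?_⟩
  refine Matrix.SpecialLinearGroup.ext _ _ fun i j => ?_
  fin_cases i <;> fin_cases j <;>
    simp [nT, mkSL, Matrix.mul_apply, Fin.sum_univ_two, h0, h1]
  · linear_combination τ 0 0 * hσ - σ 0 0 * hτ
  · linear_combination τ 0 1 * hσ - σ 0 1 * hτ
theorem exists_mul_nT {σ τ : SL2} (h0 : σ 0 0 = τ 0 0) (h1 : σ 1 0 = τ 1 0) :
    ∃ t, σ = τ * nT t := by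
  have hσ := σ.det_eq
  have hτ := τ.det_eq
  rw [h0, h1] at hσ
  refine ⟨τ 1 1 * σ 0 1 - τ 0 1 * σ 1 1, ?_⟩
  refine Matrix.SpecialLinearGroup.ext _ _ fun i j => ?_
  fin_cases i <;> fin_cases j <;>
    simp [nT, mkSL, Matrix.mul_apply, Fin.sum_univ_two, h0, h1]
  · linear_combination τ 0 1 * hσ - σ 0 1 * hτ
  · linear_combination τ 1 1 * hσ - σ 1 1 * hτ
theorem exists_SL_col {α β : O} (h : IsCoprime α β) : ∃ σ : SL2, σ 0 0 = α ∧ σ 1 0 = β := by
  obtain ⟨u, v, h⟩ := h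
  exact ⟨mkSL α (-v) β u (by linear_combination h), rfl, rfl⟩
theorem exists_SL_row {c d : O} (h : IsCoprime c d) : ∃ σ : SL2, σ 1 0 = c ∧ σ 1 1 = d := by
  obtain ⟨u, v, h⟩ := h
  exact ⟨mkSL v (-u) c d (by linear_combination h), rfl, rfl⟩
/-- Hermite normal form. -/
theorem exists_hermite {g : Mat} (hg : g.det ≠ 0) : ∃ (σ : SL2) (ρ b e : O), ρ ≠ 0 ∧ e ≠ 0 ∧
    g = (σ : Mat) * !![ρ, b; 0, e] := by
  classical
  rw [Matrix.det_fin_two] at hg
  obtain ⟨α, hα⟩ := EuclideanDomain.gcd_dvd_left (g 0 0) (g 1 0)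
  obtain ⟨β, hβ⟩ := EuclideanDomain.gcd_dvd_right (g 0 0) (g 1 0)
  have hB := EuclideanDomain.gcd_eq_gcd_ab (g 0 0) (g 1 0)
  generalize EuclideanDomain.gcd (g 0 0) (g 1 0) = ρ at hα hβ hB
  generalize EuclideanDomain.gcdA (g 0 0) (g 1 0) = A at hB
  generalize EuclideanDomain.gcdB (g 0 0) (g 1 0) = B at hB
  have hd : g 0 0 * g 1 1 - g 0 1 * g 1 0 = ρ * (α * g 1 1 - β * g 0 1) := by
    rw [hα, hβ]; ring
  rw [hd] at hg
  have hρ := left_ne_zero_of_mul hg
  have h1 : α * A + β * B = 1 := by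
    apply mul_left_cancel₀ hρ
    rw [hα, hβ] at hB
    linear_combination -hB
  refine ⟨mkSL α (-B) β A (by linear_combination h1), ρ, A * g 0 1 + B * g 1 1,
    α * g 1 1 - β * g 0 1, hρ, right_ne_zero_of_mul hg, ?_⟩
  refine Matrix.ext fun i j => ?_
  fin_cases i <;> fin_cases j <;> simp [mkSL, Matrix.mul_apply, Fin.sum_univ_two]
  · rw [hα, mul_comm]
  · linear_combination -g 0 1 * h1
  · rw [hβ, mul_comm]
  · linear_combination -g 1 1 * h1
instance : Countable SL2 :=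
  haveI : Countable Mat := inferInstanceAs (Countable (Fin 2 → Fin 2 → O))
  inferInstanceAs (Countable {A : Mat // A.det = 1})

end Crest.Agent.R17
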