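import Crest.Agent.R17.ThetaVan

/-!
# Row 17, theta module K, auxiliary lemmas: moving matrices past a cusp, Fourier series of translates
-/

set_option autoImplicit false

noncomputable section

namespace Crest.Agent.R17.K1

open scoped ComplexConjugate

theorem det_ne {a d : O} (ha : a ≠ 0) (hd : d ≠ 0) (b : O) : (!![a, b; 0, d] : Mat).det ≠ 0 := by
  rw [Matrix.det_fin_two_of, mul_zero, sub_zero]
  exact mul_ne_zero ha hd

theorem act_swap {g : Mat} (hg : g.det ≠ 0) {σ τ : SL2} (h : g * (σ : Mat) = (τ : Mat) * g)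
    (w : H) : act g (σ • w) = τ • act g w := by
  rw [smul_def, smul_def, ← act_mul hg σ.det_ne, h, act_mul τ.det_ne hg]

theorem coprime (σ : SL2) : IsCoprime (σ 0 0) (σ 1 0) :=
  ⟨σ 1 1, -σ 0 1, by linear_combination σ.det_eq⟩

theorem eta (σ : SL2) : (σ : Mat) = !![σ 0 0, σ 0 1; σ 1 0, σ 1 1] := Matrix.eta_fin_two _

theorem cong {N : O} {σ τ : SL2} (h00 : N ∣ σ 0 0 - τ 0 0) (h01 : N ∣ σ 0 1 - τ 0 1)
    (h10 : N ∣ σ 1 0 - τ 1 0) (h11 : N ∣ σ 1 1 - τ 1 1) : Cong N σ τ := by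
  intro i j
  fin_cases i <;> fin_cases j <;> assumption

theorem Th_per {q p : O} (hq : q ≠ 0) (hp : p ≠ 0) (w : H) {x y : O} (h : p ∣ x - y) :
    Th 1 (act !![q, x; 0, p] w) = Th 1 (act !![q, y; 0, p] w) := by
  obtain ⟨t, ht⟩ := h
  have e : (!![q, x; 0, p] : Mat) = (nT t : Mat) * !![q, y; 0, p] := by
    change _ = !![1, t; 0, 1] * _
    rw [Matrix.mul_fin_two]
    congr <;> simp
    linear_combination ht
  rw [e, act_mul (nT t).det_ne (det_ne hq hp y), ← smul_def, Th_aut (nT_mem t), kap_nT, one_mul]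

theorem Th_upper {p : O} (hp : p ≠ 0) {τ : SL2} (h1 : p ^ 2 ∣ τ 1 0) (h2 : p ∣ τ 1 1 - τ 0 0)
    (a : O) (w : H) : Th 1 (act !![p, 9 * a; 0, p] (τ • w)) = Th τ (act !![p, 9 * a; 0, p] w) := by
  obtain ⟨γ, hγ⟩ := h1
  obtain ⟨ε, hε⟩ := h2
  let τ' := mkSL (τ 0 0 + 9 * a * p * γ) (τ 0 1 + 9 * a * ε - 81 * a ^ 2 * γ) (τ 1 0)
    (τ 1 1 - 9 * a * p * γ) (by
      linear_combination τ.det_eq + 9 * a * p * γ * hε - (9 * a * ε - 81 * a ^ 2 * γ) * hγ)
  rw [act_swap (det_ne hp hp _) (τ := τ'), Th_smul, Th_cong (σ := τ') (τ := τ)]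
  · exact cong ⟨a * p * γ, by simp only [τ', mkSL_00]; ring⟩
      ⟨a * ε - 9 * a ^ 2 * γ, by simp only [τ', mkSL_01]; ring⟩ (by simp [τ'])
      ⟨-(a * p * γ), by simp only [τ', mkSL_11]; ring⟩
  · change Jc (τ 0 0 + 9 * a * p * γ) (τ 1 0) = _
    rcases eq_or_ne γ 0 with rfl | h0
    · simp
    have h3 : τ 1 0 ≠ 0 := by rw [hγ]; exact mul_ne_zero (pow_ne_zero _ hp) h0
    refine Jc_congr h3 (coprime τ') ⟨a * p * γ, by ring⟩ (Dvd.dvd.trans (b := p * γ) ?_
      ⟨9 * a, by ring⟩)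
    refine BasicB.prod_dvd_of_subset (mul_ne_zero hp h0) fun q hq => ?_
    obtain ⟨a1, a2, a3⟩ := (mem_pf h3).1 hq
    refine (mem_pf (mul_ne_zero hp h0)).2 ⟨a1, a2, a1.dvd_of_dvd_pow (n := 2) (a3.trans ?_)⟩
    exact ⟨γ, by rw [hγ]; ring⟩
  · change _ = !![_, _; _, _] * _
    rw [eta τ, Matrix.mul_fin_two, Matrix.mul_fin_two]
    congr 1
    simp
    exact ⟨⟨by linear_combination 9 * a * hγ, by linear_combination 9 * a * hε⟩,
      by ring, by linear_combination -9 * a * hγ⟩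

theorem Th_cube {p : O} (hp : Primary p) {τ : SL2} (h1 : p ^ 3 ∣ τ 1 0) (w : H) :
    Th 1 (act !![p ^ 3, 0; 0, 1] (τ • w)) = Th τ (act !![p ^ 3, 0; 0, 1] w) := by
  obtain ⟨γ, hγ⟩ := h1
  let τ' := mkSL (τ 0 0) (p ^ 3 * τ 0 1) γ (τ 1 1) (by
    linear_combination τ.det_eq + τ 0 1 * hγ)
  obtain ⟨k, hk⟩ := hp.nine_dvd_cube
  rw [act_swap (det_ne (pow_ne_zero _ hp.ne_zero) one_ne_zero _) (τ := τ'), Th_smul,
    Th_cong (σ := τ') (τ := τ)]
  · exact cong (by simp [τ']) ⟨k * τ 0 1, by simp only [τ', mkSL_01]; linear_combination τ 0 1 * hk⟩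
      ⟨-(k * γ), by simp only [τ', mkSL_10]; linear_combination -hγ - γ * hk⟩ (by simp [τ'])
  · change Jc (τ 0 0) γ = _
    rw [hγ, Jc_mul_cube hp (hγ ▸ coprime τ)]
  · change _ = !![_, _; _, _] * _
    rw [eta τ, Matrix.mul_fin_two, Matrix.mul_fin_two]
    congr 1
    simp [hγ, mul_comm]

/-- The coefficients of `Th τ` at height `|q|`. -/
def F (τ : SL2) (q r : O) : ℂ := tt τ r * ((nr q ^ (1 / 3 : ℝ) * Mk 1 (b1 * nr (q * r)) : ℝ) : ℂ)

theorem F_eq (τ : SL2) {q : O} (hq : q ≠ 0) (r : O) :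
    F τ q r = tt τ r * (Mk (‖ι q‖ * 1) (b1 * nr r) : ℂ) := by
  have h0 : 0 < ‖ι q‖ := norm_pos_iff.2 ((map_ne_zero_iff ι ι_injective).2 hq)
  rw [Mk_mul one_pos h0, norm_ι_sq, F, nr_mul, mul_left_comm b1, ← norm_ι_sq q,
    ← Real.rpow_natCast, ← Real.rpow_mul h0.le]
  norm_num

/-- A weighted sum of translates as a trigonometric series with frequencies `n / 9`. -/
theorem series (τ : SL2) {q p : O} (hq : q ≠ 0) (hp0 : p ≠ 0) (s : Finset O) (χ : O → ℂ) :
    ∃ d : O → ℂ, (Summable fun n => ‖d n‖) ∧ (∀ n, ¬ q ∣ n → d n = 0) ∧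
      (∀ r, d (q * r) = F τ q r * ∑ a ∈ s, χ a * eq (r * a) p) ∧
      ∀ z, HasSum (fun n => d n * eC (ι n * z / ι 9))
        (∑ a ∈ s, χ a * Th τ (act !![q * p, 9 * a; 0, p] (hp z 1))) := by
  have hι : ∀ {x : O}, x ≠ 0 → ι x ≠ 0 := fun h => (map_ne_zero_iff ι ι_injective).2 h
  have h0 : 0 < ‖ι q‖ * 1 := by simpa using hι hq
  have hi : Function.Injective fun r => q * r := mul_right_injective₀ hq
  have hF : Summable fun r => ‖F τ q r‖ := by simpa only [F_eq τ hq] using summable_Th τ h0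
  let d := Function.extend (fun r => q * r) (fun r => F τ q r * ∑ a ∈ s, χ a * eq (r * a) p) 0
  have d0 : ∀ n, n ∉ Set.range (fun r => q * r) → d n = 0 := fun n hn =>
    Function.extend_apply' _ _ _ hn
  have d1 : ∀ r, d (q * r) = _ := hi.extend_apply _ _
  refine ⟨d, (hi.summable_iff fun n hn => by rw [d0 n hn, norm_zero]).1 ?_,
    fun n hn => d0 n fun ⟨r, h⟩ => hn ⟨r, h.symm⟩, d1, fun z => ?_⟩
  · refine Summable.of_nonneg_of_le (fun _ => norm_nonneg _) (fun r => ?_)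
      (hF.mul_right (∑ a ∈ s, ‖χ a‖))
    rw [Function.comp_apply, d1, norm_mul]
    refine mul_le_mul_of_nonneg_left ((norm_sum_le _ _).trans (le_of_eq ?_)) (norm_nonneg _)
    simp only [norm_mul, norm_eq, mul_one]
  · refine (hi.hasSum_iff fun n hn => by rw [d0 n hn, zero_mul]).1 ?_
    have key : ∀ a, HasSum (fun r => χ a * (F τ q r * (eq (r * a) p * eC (ι (q * r) * z / ι 9))))
        (χ a * Th τ (act !![q * p, 9 * a; 0, p] (hp z 1))) := fun a => by
      refine HasSum.mul_left _ ?_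
      have h1 : Summable fun r => F τ q r * (eq (r * a) p * eC (ι (q * r) * z / ι 9)) :=
        Summable.of_norm (by simpa only [norm_mul, norm_eq, norm_eC, mul_one] using hF)
      refine Eq.subst (motive := HasSum _) (Eq.symm ?_) h1.hasSum
      rw [act_upper (mul_ne_zero hq hp0) hp0 _ _ one_pos, map_mul, norm_mul,
        mul_div_cancel_right₀ _ (norm_ne_zero_iff.2 (hι hp0)), Th, hy_hp _ h0]
      refine tsum_congr fun r => ?_
      rw [F_eq τ hq, eq, ← eC_add, hp_fst]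
      congr 2
      have := hι hp0
      simp only [map_mul, map_ofNat]
      field_simp
      ring
    convert hasSum_sum (s := s) fun a _ => key a using 2 with r
    rw [Function.comp_apply, d1, Finset.mul_sum, Finset.sum_mul]
    exact Finset.sum_congr rfl fun a _ => by ring

end Crest.Agent.R17.K1
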