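import Crest.Agent.R17.ThetaLim

/-!
# Row 17, theta module L: the coefficients at `u λ^j` are bounded (periodicity in `j`)
-/

set_option autoImplicit false

noncomputable section

namespace Crest.Agent.R17

open scoped ComplexConjugate

theorem Lam_four : lam ^ 4 = 9 := by
  rw [show lam ^ 4 = (lam ^ 2) ^ 2 by ring, lam_sq]
  norm_num

theorem Lam_periodic {ξ : O → O → ℂ} (h : XiOK ξ) (r c x y : O) (hxy : 9 * c ∣ x - y) :
    ξ c x * eq (r * x) (9 * c) = ξ c y * eq (r * y) (9 * c) := by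
  obtain ⟨t, ht⟩ := hxy
  rw [show x = y + 9 * c * t by linear_combination ht, h.2.2,
    eq_congr (y := r * y) ⟨r * t, by ring⟩]

theorem Lam_decomp {c : O} {n : ℕ} (h : ¬ lam ^ n ∣ c) :
    ∃ (u : O) (k : ℕ) (c₁ : O), IsUnit u ∧ Primary c₁ ∧ k < n ∧ c = u * lam ^ k * c₁ := by
  have hc : c ≠ 0 := fun h0 => h (h0 ▸ dvd_zero _)
  obtain ⟨u, k, hu, hk⟩ := exists_eq_unit_lam_primary hc
  refine ⟨u, k, _, hu, BasicB.primary_prod_pow (fun _ => BasicB.pf_sub) _, ?_, hk⟩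
  by_contra hlt
  apply h
  rw [hk]
  exact ((pow_dvd_pow _ (not_lt.1 hlt)).mul_left _).mul_right _

/-- If the prime-to-`λ` part of `c` is `c₁` and `λ^4 c / c₁ ∣ r`, the Gauss sum does not see a factor
`λ³` (substitute `d ↦ m³ d`, `m ≡ λ (mod c₁)`, `m ≡ 1 (mod 9)`; `xis_mul_cube`). -/
theorem Gx_lam_cube (σ : SL2) {u c₁ r : O} {k : ℕ} (hu : IsUnit u) (hc : Primary c₁)
    (hr : lam ^ (k + 4) ∣ r) :
    Gx (xis σ) (lam ^ 3 * r) (u * lam ^ k * c₁) = Gx (xis σ) r (u * lam ^ k * c₁) := by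
  have hc0 : u * lam ^ k * c₁ ≠ 0 :=
    mul_ne_zero (mul_ne_zero hu.ne_zero (pow_ne_zero _ prime_lam.ne_zero)) hc.ne_zero
  have h9 : IsCoprime c₁ 9 := by
    have := hc.isCoprime_three.pow_right (n := 2)
    rwa [show (3 : O) ^ 2 = 9 by norm_num] at this
  obtain ⟨a, b, hab⟩ := h9
  set m : O := a * c₁ + 9 * b * lam with hm
  have hm1 : (9 : O) ∣ m - 1 := ⟨b * lam - b, by rw [hm]; linear_combination hab⟩
  have hm2 : c₁ ∣ m - lam := ⟨a - lam * a, by rw [hm]; linear_combination lam * hab⟩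
  have hm9 : IsCoprime m 9 := by
    obtain ⟨t, ht⟩ := hm1
    exact ⟨1, -t, by linear_combination ht⟩
  have hml : IsCoprime m lam := hm9.of_isCoprime_of_dvd_right ⟨lam ^ 3, by rw [← Lam_four]; ring⟩
  have hmc : IsCoprime m c₁ := by
    obtain ⟨t, ht⟩ := hm2
    have h1 : IsCoprime lam c₁ := (prime_lam.irreducible.coprime_iff_not_dvd).2 hc.not_lam_dvd
    have h2 := h1.add_mul_left_left t
    rwa [show lam + c₁ * t = m by linear_combination -ht] at h2
  have hcop : IsCoprime m (u * lam ^ k * c₁) :=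
    (((isCoprime_one_right (x := m)).of_isCoprime_of_dvd_right hu.dvd).mul_right
      hml.pow_right).mul_right hmc
  rw [Gx, Gx, if_neg hc0, if_neg hc0,
    ← sum_res_affine (mul_ne_zero (by norm_num) hc0) _ (Lam_periodic (xiOK_xis σ) r _)
      (a := m ^ 3) (hm9.mul_right hcop).pow_left 0]
  refine Finset.sum_congr rfl fun d _ => ?_
  rw [add_zero, xis_mul_cube σ hm1 hcop]
  congr 1
  refine eq_congr ?_
  obtain ⟨r', rfl⟩ := hr
  obtain ⟨t, ht⟩ := hm2.trans (sub_dvd_pow_sub_pow m lam 3)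
  obtain ⟨v, hv⟩ := hu.exists_right_inv
  refine ⟨-(v * r' * t * d), ?_⟩
  rw [← Lam_four]
  linear_combination (-(lam ^ (k + 4) * r' * d)) * ht + (lam ^ (k + 4) * r' * d * c₁ * t) * hv
theorem Gx_eq_zero_of_dvd {σ : SL2} (h : ¬ (9 : O) ∣ σ 1 0) (r : O) {c : O} (hc : (9 : O) ∣ c) :
    Gx (xis σ) r c = 0 := by
  rw [Gx]
  split_ifs
  · rfl
  refine Finset.sum_eq_zero fun d _ => ?_
  rw [xis, xi, if_neg, zero_mul]
  rintro ⟨h1, t, ht⟩
  apply h
  obtain ⟨c', rfl⟩ := hc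
  have h2 : (9 : O) ∣ d * σ 1 0 := by
    have := dvd_sub (dvd_mul_of_dvd_left (dvd_mul_right 9 c') (σ 1 1)) h1
    rwa [sub_sub_cancel] at this
  have h3 : IsCoprime (3 : O) d := ⟨-(3 * c' * σ 0 1) - t, σ 0 0, by linear_combination ht⟩
  have h4 := h3.pow_left (m := 2)
  rw [show (3 : O) ^ 2 = 9 by norm_num] at h4
  exact h4.dvd_of_dvd_mul_left h2
theorem tt_lam_period {σ : SL2} (h : ¬ (9 : O) ∣ σ 1 0) {r : O} (hr : lam ^ 7 ∣ r) :
    tt σ (lam ^ 3 * r) = tt σ r := by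
  have : Gx (xis σ) (lam ^ 3 * r) = Gx (xis σ) r := by
    funext c
    by_cases hc : (9 : O) ∣ c
    · rw [Gx_eq_zero_of_dvd h _ hc, Gx_eq_zero_of_dvd h _ hc]
    · rw [← Lam_four] at hc
      obtain ⟨u, k, c₁, hu, hc₁, hk, rfl⟩ := Lam_decomp hc
      exact Gx_lam_cube σ hu hc₁ ((pow_dvd_pow _ (by omega)).trans hr)
  rw [tt, tt, this]
theorem Gx_xi_dilate (r : O) {c : O} (hc : (9 : O) ∣ c) :
    Gx xi (lam ^ 3 * r) (lam ^ 3 * c) = 27 * Gx xi r c := by
  by_cases hc0 : c = 0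
  · simp [Gx, hc0]
  have hl : lam ^ 3 ≠ 0 := pow_ne_zero _ prime_lam.ne_zero
  have h9c : 9 * c ≠ 0 := mul_ne_zero (by norm_num) hc0
  have hper := Lam_periodic (xis_one ▸ xiOK_xis 1 : XiOK xi) r c
  rw [Gx, Gx, if_neg hc0, if_neg (mul_ne_zero hl hc0)]
  have h1 : ∀ d, xi (lam ^ 3 * c) d * eq (lam ^ 3 * r * d) (9 * (lam ^ 3 * c)) =
      xi c d * eq (r * d) (9 * c) := by
    intro d
    rw [mul_assoc, mul_left_comm 9, eq_mul_mul hl]
    congr 1
    unfold xi
    by_cases hd : Primary d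
    · rw [if_pos ⟨hc.mul_left _, hd⟩, if_pos ⟨hc, hd⟩, cub_mul_right, cub_pow_right,
        cub_pow_three hd ((prime_lam.irreducible.coprime_iff_not_dvd).2 hd.not_lam_dvd).symm,
        one_mul]
    · rw [if_neg fun h => hd h.2, if_neg fun h => hd h.2]
  simp only [h1]
  rw [show 9 * (lam ^ 3 * c) = 9 * c * lam ^ 3 by ring, sum_res_mul h9c hl _
    fun x y h => hper x y ((dvd_mul_right _ _).trans h), Finset.mul_sum]
  refine Finset.sum_congr rfl fun x _ => ?_
  rw [Finset.sum_congr rfl fun y _ => hper (x + 9 * c * y) x ⟨y, by ring⟩, Finset.sum_const,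
    card_res hl, nm_pow, nm_lam, nsmul_eq_mul]
  norm_num
/-- At `∞`: `t(λ³ r) - t(r) / 3` is the density of the sums with `v_λ(c) ≤ 6`, hence periodic. -/
theorem tt_one_lam_rec {r : O} (hr : lam ^ 7 ∣ r) :
    tt 1 (lam ^ 6 * r) - tt 1 (lam ^ 3 * r) / 3 = tt 1 (lam ^ 3 * r) - tt 1 r / 3 := by
  classical
  have hl : lam ^ 3 ≠ 0 := pow_ne_zero _ prime_lam.ne_zero
  have hok : XiOK xi := xis_one ▸ xiOK_xis 1
  let dil : (O → ℂ) → O → ℂ := fun g c => if h : lam ^ 3 ∣ c then g h.choose else 0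
  have d1 : ∀ g c, dil g (lam ^ 3 * c) = g c := by
    intro g c
    have h : lam ^ 3 ∣ lam ^ 3 * c := dvd_mul_right _ _
    simp only [dil, dif_pos h]
    rw [← mul_left_cancel₀ hl h.choose_spec]
  have d2 : ∀ g c, ¬ lam ^ 3 ∣ c → dil g c = 0 := fun g c h => dif_neg h
  let hh : O → O → ℂ := fun s => Gx xi (lam ^ 3 * s) - fun c => 27 * dil (Gx xi s) c
  have hP : ∀ s, PolyG fun c => 27 * dil (Gx xi s) c := fun s =>
    ((polyG_Gx hok s).dilate hl (d1 _) (d2 _)).const_mul 27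
  have hW : ∀ s, WD (hh s) ((tt 1 (lam ^ 3 * s) - tt 1 s / 3) / k1) := by
    intro s
    have a1 := (tt_spec 1 (lam ^ 3 * s)).1
    have a2 := (tt_spec 1 s).1
    rw [xis_one] at a1 a2
    have a3 := WD.sub (polyG_Gx hok _) (hP s) a1 ((a2.dilate hl (d1 _) (d2 _)).const_mul 27)
    have e : nr (lam ^ 3) ^ (-(4 / 3 : ℝ)) = 1 / 81 := by
      rw [nr_pow, nr, nm_lam, ← Real.rpow_natCast, ← Real.rpow_mul (by norm_num)]
      norm_num
    rw [e] at a3
    convert a3 using 1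
    push_cast
    ring
  have hval : ∀ s c, hh s c = if lam ^ 7 ∣ c then 0 else Gx xi (lam ^ 3 * s) c := by
    intro s c
    simp only [hh, Pi.sub_apply]
    split_ifs with h
    · obtain ⟨c', rfl⟩ := h
      rw [show lam ^ 7 * c' = lam ^ 3 * (9 * c') by rw [← Lam_four]; ring, d1,
        Gx_xi_dilate _ (dvd_mul_right _ _), sub_self]
    · by_cases h3 : lam ^ 3 ∣ c
      · obtain ⟨c', rfl⟩ := h3
        have h4 : ¬ (9 : O) ∣ c' := by
          rintro ⟨t, rfl⟩
          exact h ⟨t, by rw [← Lam_four]; ring⟩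
        have h5 : Gx xi s c' = 0 := by
          rw [Gx]
          split_ifs
          · rfl
          · exact Finset.sum_eq_zero fun d _ => by rw [xi, if_neg fun h => h4 h.1, zero_mul]
        rw [d1, h5, mul_zero, sub_zero]
      · rw [d2 _ _ h3, mul_zero, sub_zero]
  have heq : hh (lam ^ 3 * r) = hh r := by
    funext c
    rw [hval, hval]
    split_ifs with h
    · rfl
    · obtain ⟨u, k, c₁, hu, hc₁, hk, rfl⟩ := Lam_decomp h
      have := Gx_lam_cube 1 hu hc₁ (r := lam ^ 3 * r) (k := k)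
        ((pow_dvd_pow _ (by omega : k + 4 ≤ 3 + 7)).trans
          (by rw [pow_add]; exact mul_dvd_mul_left _ hr))
      rwa [xis_one] at this
  have h1 := hW (lam ^ 3 * r)
  rw [heq] at h1
  have h2 := WD.unique ((polyG_Gx hok _).sub (hP r)) h1 (hW r)
  have hk : (k1 : ℂ) ≠ 0 := by exact_mod_cast k1_pos.ne'
  rw [div_left_inj' hk, ← mul_assoc, ← pow_add] at h2
  exact h2
theorem tt_lam_bound : ∃ C : ℝ, 0 < C ∧ ∀ (σ : SL2) (u : O) (j : ℕ), IsUnit u →
    ‖tt σ (u * lam ^ j)‖ ≤ C := by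
  obtain ⟨C, hC, hb⟩ := norm_tt_le
  have hsmall : ∀ (σ : SL2) (u : O) (j : ℕ), IsUnit u → j ≤ 12 → ‖tt σ (u * lam ^ j)‖ ≤ C * 81 := by
    intro σ u j hu hj
    refine (hb σ _ (mul_ne_zero hu.ne_zero (pow_ne_zero _ prime_lam.ne_zero))).trans
      (mul_le_mul_of_nonneg_left ?_ hC.le)
    rw [nr_mul, nr_pow, nr, nr, nm_lam, isUnit_iff_nm.1 hu, Nat.cast_one, one_mul]
    have h1 : ((3 : ℕ) : ℝ) ^ j ≤ 81 ^ 3 := by
      refine (pow_le_pow_right₀ (by norm_num) hj).trans ?_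
      norm_num
    refine (Real.rpow_le_rpow (by positivity) h1 (by norm_num)).trans (le_of_eq ?_)
    rw [← Real.rpow_natCast, ← Real.rpow_mul (by norm_num)]
    norm_num
  have hdvd : ∀ (u : O) (j : ℕ), 7 ≤ j → lam ^ 7 ∣ u * lam ^ j := fun u j hj =>
    (pow_dvd_pow _ hj).mul_left _
  have hone : ∀ (u : O), IsUnit u → ∀ j : ℕ, ‖tt 1 (u * lam ^ j)‖ ≤ 2 * (C * 81) := by
    intro u hu
    have hD : ∀ j : ℕ, ‖tt 1 (u * lam ^ (j + 3)) - tt 1 (u * lam ^ j) / 3‖ ≤ 4 / 3 * (C * 81) := by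
      intro j
      induction j using Nat.strong_induction_on with
      | _ j ih =>
        by_cases hj : j ≤ 9
        · have a1 := hsmall 1 u (j + 3) hu (by omega)
          have a2 := hsmall 1 u j hu (by omega)
          have a3 := norm_sub_le (tt 1 (u * lam ^ (j + 3))) (tt 1 (u * lam ^ j) / 3)
          rw [norm_div, Complex.norm_ofNat] at a3
          linarith
        · obtain ⟨i, rfl⟩ : ∃ i, j = i + 3 := ⟨j - 3, by omega⟩
          have a1 := tt_one_lam_rec (hdvd u i (by omega))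
          rw [show lam ^ 6 * (u * lam ^ i) = u * lam ^ (i + 3 + 3) by ring,
            show lam ^ 3 * (u * lam ^ i) = u * lam ^ (i + 3) by ring] at a1
          rw [a1]
          exact ih i (by omega)
    intro j
    induction j using Nat.strong_induction_on with
    | _ j ih =>
      by_cases hj : j ≤ 12
      · have := hsmall 1 u j hu hj
        linarith [mul_pos hC (show (0 : ℝ) < 81 by norm_num)]
      · obtain ⟨i, rfl⟩ : ∃ i, j = i + 3 := ⟨j - 3, by omega⟩
        have a1 := hD i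
        have a2 := ih i (by omega)
        have a3 := norm_add_le (tt 1 (u * lam ^ (i + 3)) - tt 1 (u * lam ^ i) / 3)
          (tt 1 (u * lam ^ i) / 3)
        rw [sub_add_cancel, norm_div, Complex.norm_ofNat] at a3
        linarith
  refine ⟨2 * (C * 81), by positivity, fun σ u j hu => ?_⟩
  by_cases h : (9 : O) ∣ σ 1 0
  · have h1 : ¬ lam ∣ σ 1 1 := by
      intro h1
      have h2 : lam ∣ σ 1 0 := (Dvd.intro (lam ^ 3) (by rw [← Lam_four]; ring)).trans h
      have h3 := dvd_sub (h1.mul_left (σ 0 0)) (h2.mul_left (σ 0 1))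
      rw [SL2.det_eq] at h3
      exact prime_lam.not_dvd_one h3
    obtain ⟨u₀, hu₀, hp⟩ := exists_unit_primary h1
    obtain ⟨v, hv⟩ := hu₀.exists_left_inv
    have hmem : σ * mkSL v 0 0 u₀ (by rw [hv]; ring) ∈ Gam := by
      rw [mem_Gam]
      simp only [Matrix.SpecialLinearGroup.coe_mul, Matrix.mul_apply, Fin.sum_univ_two, mkSL_00,
        mkSL_01, mkSL_10, mkSL_11, mul_zero, add_zero, zero_add]
      exact ⟨h.mul_right _, by rwa [mul_comm]⟩
    have h2 := tt_mul_Gam hmem 1 (v ^ 2 * (u * lam ^ j))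
    rw [mul_one, tt_mul_diag σ hv] at h2
    rw [h2, norm_mul, norm_kap hmem, one_mul, ← mul_assoc]
    exact hone _ (((IsUnit.of_mul_eq_one _ hv).pow 2).mul hu) j
  · induction j using Nat.strong_induction_on with
    | _ j ih =>
      by_cases hj : j ≤ 12
      · have := hsmall σ u j hu hj
        linarith [mul_pos hC (show (0 : ℝ) < 81 by norm_num)]
      · obtain ⟨i, rfl⟩ : ∃ i, j = i + 3 := ⟨j - 3, by omega⟩
        rw [show u * lam ^ (i + 3) = lam ^ 3 * (u * lam ^ i) by ring,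
          tt_lam_period h (hdvd u i (by omega))]
        exact ih i (by omega)

end Crest.Agent.R17
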