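import Crest.Agent.R17.ThetaVan
import Crest.Agent.R17.ThetaLam
import Crest.Agent.R17.ThetaHeckeAux

/-!
# Row 17, theta module K: the Hecke identity and Patterson's relations
-/

set_option autoImplicit false

noncomputable section

namespace Crest.Agent.R17

open scoped ComplexConjugate

/-- The Hecke identity (`vanish_of_ct`, `hecke_ct`). -/
theorem hecke_id {p : O} (hp : Prime p) (hp' : Primary p) (w : H) :
    ∑ a ∈ res p, Th 1 (act !![p, a; 0, p] w) =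
      Th 1 (act !![p ^ 3, 0; 0, 1] w) + ∑ a ∈ res p, cub p a * Th 1 (act !![p ^ 2, a; 0, p] w) := by
  have h0 := hp.ne_zero
  have hP := nr_pos h0
  have e2 : nr (p * p) ^ (-(1 / 3 : ℝ)) = nr p ^ (-(2 / 3 : ℝ)) := by
    rw [← sq, nr_pow, ← Real.rpow_natCast, ← Real.rpow_mul hP.le]
    norm_num
  have e3 : nr (p ^ 3) ^ (-(1 / 3 : ℝ)) = (nr p)⁻¹ := by
    rw [nr_pow, ← Real.rpow_natCast, ← Real.rpow_mul hP.le, ← Real.rpow_neg_one]
    norm_num
  have h := vanish_of_ct (J := res p ⊕ Unit ⊕ res p)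
    (Sum.elim (fun a => !![p, a; 0, p]) (Sum.elim (fun _ => !![p ^ 3, 0; 0, 1])
      fun a => !![p ^ 2, a; 0, p]))
    (by
      rintro (a | _ | a)
      · exact K1.det_ne h0 h0 _
      · exact K1.det_ne (pow_ne_zero _ h0) one_ne_zero _
      · exact K1.det_ne (pow_ne_zero _ h0) h0 _)
    (Sum.elim (fun _ => 1) (Sum.elim (fun _ => -1) fun a => -cub p a)) (fun α β => by
      have h1 := hecke_ct hp hp' α β
      rw [Finset.mul_sum, Finset.mul_sum, ← Finset.sum_coe_sort (res p),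
        ← Finset.sum_coe_sort (res p)] at h1
      simp only [Fintype.sum_sum_type, Sum.elim_inl, Sum.elim_inr, Matrix.det_fin_two_of,
        Matrix.of_apply, Matrix.cons_val', Matrix.cons_val_zero, Matrix.cons_val_one,
        Matrix.cons_val_fin_one, mul_zero, zero_mul, sub_zero, zero_add, add_zero, one_mul,
        mul_one, ← pow_succ, e2, e3, Fintype.sum_unique, h1, neg_mul, Finset.sum_neg_distrib,
        Nat.reduceAdd, mul_assoc, mul_left_comm (cub p _)]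
      ring) w
  simp only [Fintype.sum_sum_type, Sum.elim_inl, Sum.elim_inr, one_mul, neg_mul,
    Fintype.sum_unique, Finset.sum_neg_distrib] at h
  rw [← Finset.sum_coe_sort (res p), ← Finset.sum_coe_sort (res p)]
  linear_combination h

/-- Transfer to the cusp `σ ∞`, `σ ≡ 1 (mod p³)`; `σ' = diag(p,1) σ diag(p,1)⁻¹`. -/
theorem hecke_id_cusp {p : O} (hp : Prime p) (hp' : Primary p) {σ σ' : SL2} (hσ : Cong (p ^ 3) σ 1)
    (h00 : σ' 0 0 = σ 0 0) (h01 : σ' 0 1 = p * σ 0 1) (h10 : p * σ' 1 0 = σ 1 0)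
    (h11 : σ' 1 1 = σ 1 1) (w : H) :
    ∑ a ∈ res p, Th σ (act !![p, 9 * a; 0, p] w) =
      Th σ (act !![p ^ 3, 0; 0, 1] w) +
        cub p 9 * ∑ a ∈ res p, cub p a * Th σ' (act !![p ^ 2, 9 * a; 0, p] w) := by
  have h0 := hp.ne_zero
  have h9 : IsCoprime 9 p := by
    rw [show (9 : O) = 3 ^ 2 by norm_num]
    exact hp'.isCoprime_three.symm.pow_left
  have c10 : p ^ 3 ∣ σ 1 0 := by simpa using hσ 1 0
  have c11 : p ∣ σ 1 1 - σ 0 0 := (dvd_pow_self p three_ne_zero).trans (by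
    simpa using dvd_sub (hσ 1 1) (hσ 0 0))
  have c10' : p ^ 2 ∣ σ' 1 0 := by
    rwa [← h10, pow_succ', mul_dvd_mul_iff_left h0] at c10
  have h := hecke_id hp hp' (σ • w)
  rw [← sum_res_affine h0 _ (fun x y => K1.Th_per h0 h0 _) h9 0,
    ← sum_res_affine h0 (fun a => cub p a * Th 1 (act !![p ^ 2, a; 0, p] (σ • w)))
      (fun x y hxy => by rw [K1.Th_per (pow_ne_zero _ h0) h0 _ hxy, Gauss_cub_per p x y hxy]) h9 0,
    K1.Th_cube hp' c10] at h
  have e : ∀ a w, act !![p ^ 2, 9 * a; 0, p] w = act !![p, 9 * a; 0, p] (act !![p, 0; 0, 1] w) :=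
    fun a w => by
      rw [← act_mul (K1.det_ne h0 h0 _) (K1.det_ne h0 one_ne_zero _), Matrix.mul_fin_two]
      simp [sq]
  have e' : act !![p, 0; 0, 1] (σ • w) = σ' • act !![p, 0; 0, 1] w :=
    K1.act_swap (K1.det_ne h0 one_ne_zero _) (by
      rw [K1.eta σ, K1.eta σ', Matrix.mul_fin_two, Matrix.mul_fin_two, h00, h01, ← h10, h11]
      simp [mul_comm]) w
  simp only [add_zero, e, e', K1.Th_upper h0 ((pow_dvd_pow p (by norm_num)).trans c10) c11,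
    K1.Th_upper h0 c10' (h00 ▸ h11 ▸ c11), cub_mul_right, mul_assoc] at h
  simp only [e, Finset.mul_sum]
  exact h

/-- The identity read on the Fourier coefficients. -/
theorem hecke_coeff {p : O} (hp : Prime p) (hp' : Primary p) {σ σ' : SL2} (hσ : Cong (p ^ 3) σ 1)
    (h00 : σ' 0 0 = σ 0 0) (h01 : σ' 0 1 = p * σ 0 1) (h10 : p * σ' 1 0 = σ 1 0)
    (h11 : σ' 1 1 = σ 1 1) (r : O) :
    tt σ (p ^ 3 * r) = tt σ r ∧ (¬ p ∣ r → tt σ (p ^ 2 * r) = 0) ∧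
      (¬ p ∣ r → tt σ (p * r) =
        ((nr p ^ (-(2 / 3 : ℝ)) : ℝ) : ℂ) * cub p 9 * gc p r * tt σ' r) := by
  have h0 := hp.ne_zero
  have hP := nr_pos h0
  obtain ⟨A, sA, -, eA, hA⟩ := K1.series σ one_ne_zero h0 (res p) 1
  obtain ⟨B, sB, zB, eB, hB⟩ := K1.series σ (pow_ne_zero 3 h0) one_ne_zero {0} 1
  obtain ⟨C, sC, -, eC', hC⟩ := K1.series σ' h0 h0 (res p) (cub p)
  have key : A = fun n => B n + cub p 9 * C n := by
    refine coeff_unique (q := 9) (by norm_num) sA (Summable.of_nonneg_of_le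
      (fun _ => norm_nonneg _) (fun n => (norm_add_le _ _).trans (by rw [norm_mul]))
      (sB.add (sC.mul_left _))) fun z => ?_
    have h := (hB z).add ((hC z).mul_left (cub p 9))
    simp only [← mul_assoc, ← add_mul] at h
    rw [(hA z).tsum_eq, h.tsum_eq]
    simpa [sq] using hecke_id_cusp hp hp' hσ h00 h01 h10 h11 (R17.hp z 1)
  have hM : ∀ n, ((Mk 1 (b1 * nr n) : ℝ) : ℂ) ≠ 0 := fun n =>
    Complex.ofReal_ne_zero.2 (Mk_pos one_pos (mul_nonneg b1_pos.le (Nat.cast_nonneg _))).ne'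
  have hP' : ((nr p : ℝ) : ℂ) ≠ 0 := Complex.ofReal_ne_zero.2 hP.ne'
  have a1 : ∀ n, A (p * n) = tt σ (p * n) * nr p * Mk 1 (b1 * nr (p * n)) := fun n => by
    have := eA (p * n)
    simp only [one_mul, Pi.one_apply, sum_res_eq_char h0, dvd_mul_right, if_true, K1.F, nr, nm_one,
      Nat.cast_one, Real.one_rpow] at this
    rw [this]
    push_cast
    ring
  have c1 : ∀ n, C (p * (p * n)) = 0 := fun n => by
    rw [eC', ← gc, gc_sqfree hp' hp.squarefree, (cub_eq_zero_iff hp').2 fun h =>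
      hp.not_isUnit (h.isUnit_of_dvd' dvd_rfl (dvd_mul_right _ _))]
    simp
  refine ⟨?_, fun hr => ?_, fun hr => ?_⟩
  · have h := congrFun key (p ^ 3 * r)
    rw [eB, K1.F, show p ^ 3 * r = p * (p * (p * r)) by ring, a1, c1, nr_pow, ← Real.rpow_natCast,
      ← Real.rpow_mul hP.le] at h
    rw [show p ^ 3 * r = p * (p * (p * r)) by ring]
    refine mul_right_cancel₀ hP' (mul_right_cancel₀ (hM _) (h.trans ?_))
    simp [eq_zero_left, mul_assoc]
  · have h := congrFun key (p ^ 2 * r)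
    rw [zB _ fun h => hr (by rwa [pow_succ, mul_dvd_mul_iff_left (pow_ne_zero 2 h0)] at h),
      sq, mul_assoc, a1, c1] at h
    rw [sq, mul_assoc]
    simpa [hM, h0, nm_eq_zero] using h
  · have h := congrFun key (p * r)
    rw [zB _ fun h => hr (by
      rw [pow_succ', mul_dvd_mul_iff_left h0] at h
      exact (dvd_pow_self p two_ne_zero).trans h), a1, eC', ← gc, K1.F] at h
    refine mul_right_cancel₀ hP' (mul_right_cancel₀ (hM _) (h.trans ?_))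
    have : nr p ^ (1 / 3 : ℝ) = nr p ^ (-(2 / 3 : ℝ)) * nr p := by
      rw [← Real.rpow_add_one hP.ne']
      norm_num
    rw [this]
    push_cast
    ring

theorem hecke_norm {p : O} (hp : Prime p) (hp' : Primary p) (σ : SL2) : ∃ σ' : SL2, ∀ r : O,
    tt σ (p ^ 3 * r) = tt σ r ∧ (¬ p ∣ r → tt σ (p ^ 2 * r) = 0) ∧
      (¬ p ∣ r → ‖tt σ (p * r)‖ = nr p ^ (-(1 / 6 : ℝ)) * ‖tt σ' r‖) := by
  obtain ⟨τ, h9, hτ⟩ := exists_cong_crt σ (N := p ^ 3) (hp'.pow 3).isCoprime_three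
  have hγ : σ * τ⁻¹ ∈ Gam := Cong.mul_inv_mem fun i j => dvd_sub_comm.1 (h9 i j)
  have htt : ∀ r, tt σ r = kap (σ * τ⁻¹) * tt τ r := fun r => by
    rw [← tt_mul_Gam hγ, inv_mul_cancel_right]
  obtain ⟨c, hc⟩ : p ∣ τ 1 0 := by
    have := hτ 1 0
    rw [show (1 : SL2) 1 0 = 0 from rfl, sub_zero] at this
    exact (dvd_pow_self p three_ne_zero).trans this
  have hdet := τ.det_eq
  refine ⟨mkSL (τ 0 0) (p * τ 0 1) c (τ 1 1) (by linear_combination hdet + τ 0 1 * hc), fun r => ?_⟩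
  obtain ⟨h1, h2, h3⟩ := hecke_coeff hp hp' hτ
    (σ' := mkSL (τ 0 0) (p * τ 0 1) c (τ 1 1) (by linear_combination hdet + τ 0 1 * hc)) rfl rfl hc.symm rfl r
  refine ⟨by rw [htt, htt r, h1], fun h => by rw [htt, h2 h, mul_zero], fun h => ?_⟩
  have hP := nr_pos hp.ne_zero
  have h9' : IsCoprime p 9 := by
    rw [show (9 : O) = 3 ^ 2 by norm_num]
    exact hp'.isCoprime_three.pow_right
  rw [htt, h3 h, gc_sqfree hp' hp.squarefree, norm_mul, norm_kap hγ, one_mul, norm_mul, norm_mul,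
    norm_mul, norm_mul, norm_cub hp' h9', Complex.norm_conj,
    norm_cub hp' ((hp.coprime_iff_not_dvd).2 h), norm_gc hp' hp.squarefree, Complex.norm_real,
    Real.norm_of_nonneg (Real.rpow_nonneg hP.le _), mul_one, one_mul, Real.sqrt_eq_rpow,
    ← Real.rpow_add hP]
  norm_num

theorem K2_cube (σ : SL2) {d : O} (hd : Primary d) (r : O) : tt σ (d ^ 3 * r) = tt σ r := by
  refine Primary.induction (P := fun d => tt σ (d ^ 3 * r) = tt σ r) (by simp) ?_ hd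
  intro p n hp hp' _ ih
  obtain ⟨σ', h⟩ := hecke_norm hp hp' σ
  rw [mul_pow, mul_assoc, (h _).1, ih]

theorem K2_not_dvd {r p : O} (hr : r ≠ 0) (h : pf r = ∅) (hp : Prime p) (hp' : Primary p) :
    ¬ p ∣ r := fun hd => by
  have := (mem_pf hr).2 ⟨hp, hp', hd⟩
  rw [h] at this
  exact Finset.notMem_empty _ this

theorem K2_coprime {r n : O} (hr : r ≠ 0) (h : pf r = ∅) (hn : Primary n) : IsCoprime n r :=
  isCoprime_of_disjoint_pf hn hr (by rw [h]; exact Finset.disjoint_empty_right _)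

theorem K2_mod {σ : SL2} {r n : O} (hr : r ≠ 0) (h : pf r = ∅) (hn : Primary n)
    (hne : tt σ (n * r) ≠ 0) : ∀ p ∈ pf n, vp p n % 3 ≠ 2 := by
  intro p hpn h2
  obtain ⟨hp, hp', -⟩ := (mem_pf hn.ne_zero).1 hpn
  obtain ⟨m, hm⟩ := (pow_dvd_iff_le_vp hp hn.ne_zero).2 (le_refl (vp p n))
  have hpm : ¬ p ∣ m := fun hd => by
    have : p ^ (vp p n + 1) ∣ n := by
      conv_rhs => rw [hm]
      rw [pow_succ]
      exact mul_dvd_mul_left _ hd
    have := (pow_dvd_iff_le_vp hp hn.ne_zero).1 this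
    omega
  obtain ⟨σ', hσ'⟩ := hecke_norm hp hp' σ
  apply hne
  have e : n * r = (p ^ (vp p n / 3)) ^ 3 * (p ^ 2 * (m * r)) := by
    conv_lhs => rw [hm, ← Nat.div_add_mod (vp p n) 3, h2]
    ring
  rw [e, K2_cube σ (hp'.pow _)]
  exact (hσ' _).2.1 fun hd => (hp.dvd_or_dvd hd).elim hpm (K2_not_dvd hr h hp hp')

theorem K2_sqfree {p n : O} (hp : Prime p) (h : Squarefree (p * n)) : Squarefree n ∧ ¬ p ∣ n :=
  ⟨h.of_mul_right, fun hd => hp.not_isUnit (h p (mul_dvd_mul_left p hd))⟩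

theorem K2_pf {u : O} (hu : IsUnit u) (j : ℕ) : u * lam ^ j ≠ 0 ∧ pf (u * lam ^ j) = ∅ :=
  ⟨mul_ne_zero hu.ne_zero (pow_ne_zero _ prime_lam.ne_zero), by
    rw [pf_unit_mul hu, BasicB.pf_lam_pow]⟩

theorem K2_norm_le {r : O} (hr : r ≠ 0) (h : pf r = ∅) {C : ℝ} (hC : ∀ σ, ‖tt σ r‖ ≤ C) {n : O}
    (hn : Primary n) : Squarefree n → ∀ σ, ‖tt σ (n * r)‖ ≤ nr n ^ (-(1 / 6 : ℝ)) * C := by
  refine Primary.induction
    (P := fun n => Squarefree n → ∀ σ, ‖tt σ (n * r)‖ ≤ nr n ^ (-(1 / 6 : ℝ)) * C)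
    (fun _ σ => by simpa [nr] using hC σ) ?_ hn
  intro p n hp hp' _ ih hs σ
  obtain ⟨h1, h2⟩ := K2_sqfree hp hs
  obtain ⟨σ', hσ'⟩ := hecke_norm hp hp' σ
  rw [mul_assoc, (hσ' _).2.2 fun hd => (hp.dvd_or_dvd hd).elim h2 (K2_not_dvd hr h hp hp'),
    nr_mul, Real.mul_rpow (Nat.cast_nonneg _) (Nat.cast_nonneg _), mul_assoc]
  exact mul_le_mul_of_nonneg_left (ih h1 σ') (Real.rpow_nonneg (Nat.cast_nonneg _) _)

theorem K2_rpow_cube {x : ℝ} (hx : 0 ≤ x) : (x ^ 3) ^ (1 / 6 : ℝ) = Real.sqrt x := by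
  rw [← Real.rpow_natCast, ← Real.rpow_mul hx, Real.sqrt_eq_rpow]
  norm_num

/-- Support and size of the coefficients, uniformly in the cusp. -/
theorem tt_support : ∃ C : ℝ, 0 < C ∧ ∀ (σ : SL2) (ν : O), ν ≠ 0 → tt σ ν ≠ 0 →
    ∃ (u : O) (j : ℕ) (n d : O), IsUnit u ∧ Primary n ∧ Squarefree n ∧ Primary d ∧
      ν = u * lam ^ j * (n * d ^ 3) ∧
      ‖tt σ ν‖ * nr ν ^ (1 / 6 : ℝ) ≤ C * (3 : ℝ) ^ ((j : ℝ) / 6) * Real.sqrt (nr d) := by
  obtain ⟨C, hC0, hC⟩ := tt_lam_bound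
  refine ⟨C, hC0, fun σ ν hν hne => ?_⟩
  obtain ⟨u, j, hu, e⟩ := exists_eq_unit_lam_primary hν
  have hμ : Primary (∏ p ∈ pf ν, p ^ vp p ν) := BasicB.primary_prod_pow (fun _ => BasicB.pf_sub) _
  generalize ∏ p ∈ pf ν, p ^ vp p ν = μ at e hμ
  obtain ⟨hr, hpf⟩ := K2_pf hu j
  obtain ⟨e', hn, hs, hd⟩ := eq_sq1_mul_cu hμ (K2_mod hr hpf hμ (by rwa [mul_comm, ← e]))
  generalize sq1 μ = n at e' hn hs
  generalize cu μ = d at e' hd
  subst e'
  refine ⟨u, j, n, d, hu, hn, hs, hd, e, ?_⟩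
  have h1 : tt σ ν = tt σ (n * (u * lam ^ j)) := by
    rw [← K2_cube σ hd (n * (u * lam ^ j)), e]
    congr 1
    ring
  have h2 := K2_norm_le hr hpf (fun σ => hC σ u j hu) hn hs σ
  have hN := nr_pos hn.ne_zero
  have h3 : nr ν ^ (1 / 6 : ℝ) =
      (3 : ℝ) ^ ((j : ℝ) / 6) * (nr n ^ (1 / 6 : ℝ) * Real.sqrt (nr d)) := by
    have hu1 : nr u = 1 := by simp [nr, isUnit_iff_nm.1 hu]
    have hl : nr lam = 3 := by simp [nr, nm_lam]
    rw [e, nr_mul, nr_mul, nr_mul, nr_pow, nr_pow, hu1, hl, one_mul,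
      Real.mul_rpow (by positivity) (by positivity), Real.mul_rpow (by positivity) (by positivity),
      K2_rpow_cube (Nat.cast_nonneg _), ← Real.rpow_natCast, ← Real.rpow_mul (by norm_num),
      mul_one_div]
  rw [h1, h3]
  refine (mul_le_mul_of_nonneg_right h2 (by positivity)).trans_eq ?_
  rw [Real.rpow_neg hN.le]
  have := (Real.rpow_pos_of_pos hN (1 / 6)).ne'
  field_simp

/-- The normalised coefficients at `∞`, with the angular factor. -/
def tauh (r : O) : ℂ := tt 1 (9 * r) * ((nr r ^ (1 / 6 : ℝ) : ℝ) : ℂ) * conj (arg r)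

theorem K2_nine {r : O} (hr : r ≠ 0) (h : pf r = ∅) : 9 * r ≠ 0 ∧ pf (9 * r) = ∅ := by
  have e : (9 : O) = lam ^ 4 := by
    rw [show lam ^ 4 = (lam ^ 2) ^ 2 by ring, lam_sq]; norm_num
  have h9 : (9 : O) ≠ 0 := by rw [e]; exact pow_ne_zero _ prime_lam.ne_zero
  refine ⟨mul_ne_zero h9 hr, ?_⟩
  rw [pf_mul h9 hr, h, e, BasicB.pf_lam_pow, Finset.union_empty]

theorem K2_prime {p r : O} (hp : Prime p) (hp' : Primary p) (h : ¬ p ∣ r) :
    tt 1 (9 * (p * r)) = ((nr p ^ (-(2 / 3 : ℝ)) : ℝ) : ℂ) * gc p r * tt 1 (9 * r) := by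
  have h9 : IsCoprime p 9 := by
    rw [show (9 : O) = 3 ^ 2 by norm_num]
    exact hp'.isCoprime_three.pow_right
  have h1 := (hecke_coeff hp hp' (σ := 1) (σ' := 1) (fun _ _ => by simp) rfl (mul_zero p).symm
    (mul_zero p) rfl (9 * r)).2.2
    fun hd => (hp.dvd_or_dvd hd).elim ((hp.coprime_iff_not_dvd).1 h9) h
  rw [mul_left_comm, h1, mul_comm 9 r, gc_mul_unit hp' h9.symm]
  linear_combination (((nr p ^ (-(2 / 3 : ℝ)) : ℝ) : ℂ) * gc p r * tt 1 (r * 9)) *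
    Gauss_conj_mul (norm_cub hp' h9)

theorem K2_formula {r : O} (hr : r ≠ 0) (h : pf r = ∅) {m : O} (hm : Primary m) : Squarefree m →
    tt 1 (9 * (m * r)) = ((nr m ^ (-(2 / 3 : ℝ)) : ℝ) : ℂ) * gc m r * tt 1 (9 * r) := by
  refine Primary.induction (P := fun m => Squarefree m →
    tt 1 (9 * (m * r)) = ((nr m ^ (-(2 / 3 : ℝ)) : ℝ) : ℂ) * gc m r * tt 1 (9 * r))
    (fun _ => by simp [nr]) ?_ hm
  intro p n hp hp' hn ih hs
  obtain ⟨h1, h2⟩ := K2_sqfree hp hs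
  have hc := (hp.coprime_iff_not_dvd).2 h2
  rw [mul_assoc p, K2_prime hp hp' fun hd => (hp.dvd_or_dvd hd).elim h2 (K2_not_dvd hr h hp hp'),
    ih h1, mul_comm n r, gc_mul_unit hp' hc.symm, gc_mul hp' hn hc, cub_recip hn hp', conj_cub,
    nr_mul, Real.mul_rpow (Nat.cast_nonneg _) (Nat.cast_nonneg _), Complex.ofReal_mul]
  ring

theorem K2_full {r : O} (hr : r ≠ 0) (h : pf r = ∅) {m d : O} (hm : Primary m) (hs : Squarefree m)
    (hd : Primary d) : tt 1 (9 * (r * (m * d ^ 3))) =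
      ((nr m ^ (-(2 / 3 : ℝ)) : ℝ) : ℂ) * gc m r * tt 1 (9 * r) := by
  rw [← K2_formula hr h hm hs, ← K2_cube 1 hd (9 * (m * r))]
  congr 1
  ring

/-- **Patterson's formula**, up to a non-zero constant. -/
theorem tauh_eq_th : ∃ (r₀ : O) (c : ℂ), r₀ ≠ 0 ∧ pf r₀ = ∅ ∧ c ≠ 0 ∧
    ∀ n, Primary n → tauh (r₀ * n) = c * conj (cub n r₀) * th n := by
  obtain ⟨ν, hν, hne⟩ := exists_tt_one_ne
  obtain ⟨u, j, hu, e⟩ := exists_eq_unit_lam_primary hν
  have hμ : Primary (∏ p ∈ pf ν, p ^ vp p ν) := BasicB.primary_prod_pow (fun _ => BasicB.pf_sub) _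
  generalize ∏ p ∈ pf ν, p ^ vp p ν = μ at e hμ
  obtain ⟨hr, hpf⟩ := K2_pf hu j
  generalize u * lam ^ j = r at e hr hpf
  obtain ⟨hr9, hpf9⟩ := K2_nine hr hpf
  have hτ : tt 1 (9 * r) ≠ 0 := by
    obtain ⟨e', hn, hs, hd⟩ := eq_sq1_mul_cu hμ (K2_mod (σ := 1) hr9 hpf9 hμ (by
      rwa [mul_comm, mul_assoc, ← e]))
    rw [e, e', K2_full hr hpf hn hs hd] at hne
    exact right_ne_zero_of_mul hne
  refine ⟨r, tauh r, hr, hpf, ?_, fun n hn => ?_⟩
  · refine mul_ne_zero (mul_ne_zero hτ ?_) ?_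
    · exact Complex.ofReal_ne_zero.2 (Real.rpow_pos_of_pos (nr_pos hr) _).ne'
    · rw [← norm_ne_zero_iff, Complex.norm_conj, norm_arg hr]
      exact one_ne_zero
  by_cases hv : ∀ p ∈ pf n, vp p n % 3 ≠ 2
  · obtain ⟨e', hm, hs, hd⟩ := eq_sq1_mul_cu hn hv
    rw [th, if_pos ⟨hn, hv⟩]
    generalize sq1 n = m at e' hm hs
    generalize cu n = d at e' hd
    have hM := nr_pos hm.ne_zero
    have h1 : cub n r = cub m r := by
      rw [e', cub_mul_left hm.ne_zero (hd.pow 3).ne_zero, cub_pow_left hd.ne_zero,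
        cub_pow_three hd (K2_coprime hr hpf hd), mul_one]
    have h2 : nr (r * n) ^ (1 / 6 : ℝ) =
        nr r ^ (1 / 6 : ℝ) * (nr m ^ (1 / 6 : ℝ) * Real.sqrt (nr d)) := by
      rw [e', nr_mul, nr_mul, nr_pow, Real.mul_rpow (by positivity) (by positivity),
        Real.mul_rpow (by positivity) (by positivity), K2_rpow_cube (Nat.cast_nonneg _)]
    have h3 : ((nr m ^ (-(2 / 3 : ℝ)) : ℝ) : ℂ) * ((nr m ^ (1 / 6 : ℝ) : ℝ) : ℂ) =
        ((Real.sqrt (nr m) : ℝ) : ℂ)⁻¹ := by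
      rw [← Complex.ofReal_mul, ← Complex.ofReal_inv, ← Real.rpow_add hM, Real.sqrt_eq_rpow,
        ← Real.rpow_neg hM.le]
      norm_num
    have h4 : tt 1 (9 * (r * n)) = ((nr m ^ (-(2 / 3 : ℝ)) : ℝ) : ℂ) * gc m r * tt 1 (9 * r) := by
      rw [e', K2_full hr hpf hm hs hd]
    rw [tauh, tauh, h4, h1, h2, arg_mul, map_mul, gc_sqfree hm hs r, div_eq_mul_inv (gc m 1), ← h3,
      Complex.ofReal_mul, Complex.ofReal_mul]
    ring
  · have h0 : tt 1 (9 * (r * n)) = 0 := by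
      by_contra h0
      exact hv (K2_mod (σ := 1) hr9 hpf9 hn (by rwa [mul_comm, mul_assoc]))
    rw [th, if_neg fun h => hv h.2, tauh, h0, zero_mul, zero_mul, mul_zero]

end Crest.Agent.R17
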