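import Crest.Agent.R17.ThetaNorm

/-!
# Row 17, theta module H: auxiliary measure theory for parts H2, H3 of `ThetaLim`
-/

set_option autoImplicit false

noncomputable section

namespace Crest.Agent.R17.LimB

open scoped ComplexConjugate ENNReal Topology
open MeasureTheory Filter

theorem enorm_sq_le (x y z : ℂ) : ‖x - z‖ₑ ^ 2 ≤ 2 * ‖x - y‖ₑ ^ 2 + 2 * ‖y - z‖ₑ ^ 2 := by
  have h1 : ‖x - z‖ ≤ ‖x - y‖ + ‖y - z‖ := norm_sub_le_norm_sub_add_norm_sub x y z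
  have h2 : ‖x - z‖ ^ 2 ≤ 2 * ‖x - y‖ ^ 2 + 2 * ‖y - z‖ ^ 2 := by
    nlinarith [norm_nonneg (x - z), norm_nonneg (x - y), norm_nonneg (y - z),
      sq_nonneg (‖x - y‖ - ‖y - z‖)]
  have e : ∀ u : ℂ, ‖u‖ₑ ^ 2 = ENNReal.ofReal (‖u‖ ^ 2) := fun u => by
    rw [← ofReal_norm, ENNReal.ofReal_pow (norm_nonneg _)]
  rw [e, e, e]
  calc ENNReal.ofReal (‖x - z‖ ^ 2) ≤ ENNReal.ofReal (2 * ‖x - y‖ ^ 2 + 2 * ‖y - z‖ ^ 2) :=
        ENNReal.ofReal_le_ofReal h2
    _ = _ := by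
        rw [ENNReal.ofReal_add (by positivity) (by positivity), ENNReal.ofReal_mul (by norm_num),
          ENNReal.ofReal_mul (by norm_num)]
        simp

theorem lint_tri {α : Type*} [MeasurableSpace α] (μ : Measure α) {ϖ : α → ℝ≥0∞}
    (hϖ : Measurable ϖ) {f g : α → ℂ} (h : α → ℂ) (hf : Measurable f) (hg : Measurable g) :
    ∫⁻ x, ϖ x * ‖f x - h x‖ₑ ^ 2 ∂μ ≤
      2 * ∫⁻ x, ϖ x * ‖f x - g x‖ₑ ^ 2 ∂μ + 2 * ∫⁻ x, ϖ x * ‖g x - h x‖ₑ ^ 2 ∂μ := by
  have hm : Measurable fun x => ϖ x * ‖f x - g x‖ₑ ^ 2 :=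
    hϖ.mul ((hf.sub hg).enorm.pow_const 2)
  rw [← lintegral_const_mul' _ _ (by simp), ← lintegral_const_mul' _ _ (by simp),
    ← lintegral_add_left (hm.const_mul 2)]
  refine lintegral_mono fun x => ?_
  calc ϖ x * ‖f x - h x‖ₑ ^ 2 ≤ ϖ x * (2 * ‖f x - g x‖ₑ ^ 2 + 2 * ‖g x - h x‖ₑ ^ 2) := by
        gcongr; exact enorm_sq_le _ _ _
    _ = _ := by ring

theorem lint_tri' {α : Type*} [MeasurableSpace α] (μ : Measure α)
    {f g : α → ℂ} (h : α → ℂ) (hf : Measurable f) (hg : Measurable g) :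
    ∫⁻ x, ‖f x - h x‖ₑ ^ 2 ∂μ ≤
      2 * ∫⁻ x, ‖f x - g x‖ₑ ^ 2 ∂μ + 2 * ∫⁻ x, ‖g x - h x‖ₑ ^ 2 ∂μ := by
  simpa using lint_tri μ (ϖ := fun _ => 1) measurable_const h hf hg

theorem tendsto_two_mul {α : Type*} {l : Filter α} {f : α → ℝ≥0∞} (h : Tendsto f l (𝓝 0)) :
    Tendsto (fun x => 2 * f x) l (𝓝 0) := by
  simpa using ENNReal.Tendsto.const_mul (a := 2) h (Or.inr (by simp))

/-- Local `L²` limits which are continuous are unique. -/
theorem eq_of_local {F : ℝ → H → ℂ} {G G' : H → ℂ} (hF : ∀ Y, 0 < Y → Measurable (F Y))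
    (hG : Continuous G) (hG' : Continuous G')
    (h : ∀ K : Set H, IsCompact K →
      Tendsto (fun Y => ∫⁻ w in K, ‖F Y w - G w‖ₑ ^ 2 ∂μH) (𝓝[>] 0) (𝓝 0))
    (h' : ∀ K : Set H, IsCompact K →
      Tendsto (fun Y => ∫⁻ w in K, ‖F Y w - G' w‖ₑ ^ 2 ∂μH) (𝓝[>] 0) (𝓝 0)) (w : H) :
    G w = G' w := by
  have hK : IsCompact (Metric.closedBall w 1) := isCompact_closedBall w 1
  have h0 : ∫⁻ x in Metric.closedBall w 1, ‖G x - G' x‖ₑ ^ 2 ∂μH = 0 := by
    have ht := (tendsto_two_mul (h _ hK)).add (tendsto_two_mul (h' _ hK))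
    rw [add_zero] at ht
    refine le_antisymm (ge_of_tendsto ht ?_) zero_le
    filter_upwards [self_mem_nhdsWithin] with Y hY
    have := lint_tri' (μH.restrict (Metric.closedBall w 1)) G' hG.measurable (hF Y hY)
    refine this.trans (le_of_eq ?_)
    congr 2
    refine lintegral_congr fun x => ?_
    rw [← enorm_neg, neg_sub]
  have hm : Measurable fun x => ‖G x - G' x‖ₑ ^ 2 :=
    (hG.measurable.sub hG'.measurable).enorm.pow_const 2
  rw [lintegral_eq_zero_iff hm] at h0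
  have h1 : G =ᵐ[μH.restrict (Metric.ball w 1)] G' := by
    refine ae_restrict_of_ae_restrict_of_subset Metric.ball_subset_closedBall ?_
    filter_upwards [h0] with x hx
    have : ‖G x - G' x‖ₑ = 0 := by simpa using hx
    exact sub_eq_zero.1 (enorm_eq_zero.1 this)
  exact Measure.eqOn_open_of_ae_eq h1 Metric.isOpen_ball hG.continuousOn hG'.continuousOn
    (Metric.mem_ball_self one_pos)

theorem continuous_Mk {b : ℝ} (hb : 0 ≤ b) : Continuous fun y => Mk y b := by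
  unfold Mk
  refine (Real.continuous_rpow_const (by norm_num)).mul ?_
  exact continuousOn_W0.comp_continuous (by fun_prop) fun y => by
    simp only [Set.mem_Ici]; positivity

theorem b1_nr_nonneg (r : O) : 0 ≤ b1 * nr r := mul_nonneg b1_pos.le (Nat.cast_nonneg _)

theorem summable_mul_eC {a : O → ℂ} (ha : Summable fun r => ‖a r‖) (ξ : O → ℂ) :
    Summable fun r => a r * eC (ξ r) :=
  Summable.of_norm (by simpa [norm_eC] using ha)

/-- The coefficients of `θ_Y` are Cauchy in `ℓ²(L²(a, a'))`. -/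
theorem strip_cauchy (σ : SL2) {a : ℝ} (ha : 0 < a) (a' : ℝ) {ε : ℝ≥0∞} (hε : 0 < ε) :
    ∃ δ : ℝ, 0 < δ ∧ ∀ Y ∈ Set.Ioo 0 δ, ∀ Y' ∈ Set.Ioo 0 δ,
      ∑' r : O, ∫⁻ y in Set.Ioo a a',
        ‖Acoef (xis σ) Y r y - Acoef (xis σ) Y' r y‖ₑ ^ 2 ≤ ε := by
  obtain ⟨C, hC, hs⟩ := strip_le_N2
  set D : ℝ≥0∞ := ENNReal.ofReal (a' ^ 3) * ENNReal.ofReal (C * (1 + (a ^ 2)⁻¹)) with hD
  have hDt : D ≠ ⊤ := ENNReal.mul_ne_top ENNReal.ofReal_ne_top ENNReal.ofReal_ne_top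
  obtain ⟨δ, hδ, hc⟩ := N2_cauchy (ε := ε / D) (ENNReal.div_pos hε.ne' hDt)
  refine ⟨δ, hδ, fun Y hY Y' hY' => ?_⟩
  have hx : XiOK xi := xis_one ▸ xiOK_xis 1
  have hm : ∀ r, Measurable fun y => Acoef (xis σ) Y r y - Acoef (xis σ) Y' r y := fun r =>
    (measurable_Acoef _ _ _).sub (measurable_Acoef _ _ _)
  have key := hs (thY xi Y - thY xi Y') σ
    (fun r y => Acoef (xis σ) Y r y - Acoef (xis σ) Y' r y) a
    ((continuous_thY hx hY.1).sub (continuous_thY hx hY'.1)).measurable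
    (fun γ hγ w => by
      simp only [Pi.sub_apply]
      rw [thY_aut hγ, thY_aut hγ, ← mul_sub, norm_mul, norm_kap hγ, one_mul])
    hm
    (fun y hy0 => by
      obtain ⟨s1, e1⟩ := thY_fourier (xiOK_xis σ) hY.1 hy0
      obtain ⟨s2, e2⟩ := thY_fourier (xiOK_xis σ) hY'.1 hy0
      refine ⟨(s1.add s2).of_nonneg_of_le (fun _ => norm_nonneg _) fun r => norm_sub_le _ _,
        fun z => ?_⟩
      simp only [Pi.sub_apply]
      rw [thY_smul, thY_smul, e1, e2, ← (summable_mul_eC s1 _).tsum_sub (summable_mul_eC s2 _)]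
      exact tsum_congr fun r => by ring) ha
  calc ∑' r : O, ∫⁻ y in Set.Ioo a a', ‖Acoef (xis σ) Y r y - Acoef (xis σ) Y' r y‖ₑ ^ 2
      ≤ ∑' r : O, ENNReal.ofReal (a' ^ 3) * ∫⁻ y in Set.Ioi a,
          ‖Acoef (xis σ) Y r y - Acoef (xis σ) Y' r y‖ₑ ^ 2 * ENNReal.ofReal (y ^ 3)⁻¹ := by
        refine ENNReal.tsum_le_tsum fun r => ?_
        rw [← lintegral_const_mul' _ _ ENNReal.ofReal_ne_top]
        refine le_trans (setLIntegral_mono' measurableSet_Ioo fun y hy => ?_)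
          (lintegral_mono_set Set.Ioo_subset_Ioi_self)
        have hy0 : 0 < y := ha.trans hy.1
        have h1 : (1 : ℝ≥0∞) ≤ ENNReal.ofReal (a' ^ 3) * ENNReal.ofReal (y ^ 3)⁻¹ := by
          have ha' : 0 < a' := hy0.trans hy.2
          rw [← ENNReal.ofReal_mul (by positivity), ENNReal.one_le_ofReal, ← div_eq_mul_inv,
            one_le_div (by positivity)]
          exact pow_le_pow_left₀ hy0.le hy.2.le 3
        calc _ = ‖Acoef (xis σ) Y r y - Acoef (xis σ) Y' r y‖ₑ ^ 2 * 1 := (mul_one _).symm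
          _ ≤ ‖Acoef (xis σ) Y r y - Acoef (xis σ) Y' r y‖ₑ ^ 2 *
              (ENNReal.ofReal (a' ^ 3) * ENNReal.ofReal (y ^ 3)⁻¹) := by gcongr
          _ = _ := by ring
    _ ≤ ENNReal.ofReal (a' ^ 3) * (ENNReal.ofReal (C * (1 + (a ^ 2)⁻¹)) * (ε / D)) := by
        rw [ENNReal.tsum_mul_left]
        gcongr
        exact key.trans (by gcongr; exact hc Y hY Y' hY')
    _ = D * (ε / D) := by rw [hD, mul_assoc]
    _ ≤ ε := ENNReal.mul_div_le

/-- Exhaustion by compact sets. -/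
theorem lintegral_le_of_compact {f : H → ℝ≥0∞} {c : ℝ≥0∞}
    (h : ∀ K : Set H, IsCompact K → ∫⁻ w in K, f w ∂μH ≤ c) : ∫⁻ w, f w ∂μH ≤ c := by
  have hU : (⋃ n : ℕ, Metric.closedBall (0 : H) n) = Set.univ := Metric.iUnion_closedBall_nat 0
  have hd : Directed (· ⊆ ·) fun n : ℕ => Metric.closedBall (0 : H) n :=
    Monotone.directed_le fun m n hmn =>
      Metric.closedBall_subset_closedBall (by exact_mod_cast hmn)
  rw [← setLIntegral_univ, ← hU, setLIntegral_iUnion_of_directed _ hd]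
  exact iSup_le fun n => h _ (isCompact_closedBall _ _)

theorem setLIntegral_smul_le (σ : SL2) {K : Set H} (hK : IsCompact K) {f : H → ℝ≥0∞}
    (hf : Measurable f) :
    ∫⁻ w in K, f (σ • w) ∂μH ≤ ∫⁻ w in (fun w : H => σ • w) '' K, f w ∂μH := by
  have hK' : IsCompact ((fun w : H => σ • w) '' K) := hK.image (continuous_smul_SL σ)
  rw [← (measurePreserving_smul_SL σ).setLIntegral_comp_preimage hK'.measurableSet hf]
  exact lintegral_mono_set (Set.subset_preimage_image _ _)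

theorem ι_nine : ι (9 : O) = 9 := map_ofNat ι 9

end Crest.Agent.R17.LimB
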