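import Crest.Agent.R17.ThetaNorm
import Crest.Agent.R17.ThetaLimAuxB

/-!
# Row 17, theta module H: the cubic theta function `Th 1` and its expansions `Th σ` at the cusps
-/

set_option autoImplicit false

noncomputable section

namespace Crest.Agent.R17

open scoped ComplexConjugate ENNReal Topology
open MeasureTheory Filter

/-- The coefficients at the cusp `σ ∞`. -/
def tt (σ : SL2) (r : O) : ℂ := (k1 : ℂ) * Classical.epsilon (WD (Gx (xis σ) r))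

/-- The expansion at the cusp `σ ∞`. -/
def Th (σ : SL2) (w : H) : ℂ :=
  ∑' r : O, tt σ r * (Mk (hy w) (b1 * nr r) : ℂ) * eC (ι r * w.1 / 9)

/-! ## part H1: the coefficients -/

namespace LimH1

theorem enorm_add_sq (u v : ℂ) : ‖u + v‖ₑ ^ 2 ≤ 2 * ‖u‖ₑ ^ 2 + 2 * ‖v‖ₑ ^ 2 := by
  have h : ‖u + v‖₊ ^ 2 ≤ 2 * ‖u‖₊ ^ 2 + 2 * ‖v‖₊ ^ 2 := by
    rw [← NNReal.coe_le_coe]
    push_cast
    have h1 := norm_add_le u v
    have h2 := norm_nonneg (u + v)
    nlinarith [sq_nonneg (‖u‖ - ‖v‖)]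
  simp only [enorm_eq_nnnorm]
  exact_mod_cast h

/-- Splitting off a bounded term. -/
theorem lintegral_add_le {u v w : ℝ → ℂ} {S : Set ℝ} (hS : MeasurableSet S) {c : ℂ} {e : ℝ}
    (h : ∀ y ∈ S, u y = v y + c * w y) (hv : ∀ y ∈ S, ‖v y‖ ≤ e) :
    ∫⁻ y in S, ‖u y‖ₑ ^ 2 ≤
      2 * volume S * ENNReal.ofReal e ^ 2 + 2 * ‖c‖ₑ ^ 2 * ∫⁻ y in S, ‖w y‖ₑ ^ 2 := by
  calc ∫⁻ y in S, ‖u y‖ₑ ^ 2
      ≤ ∫⁻ y in S, (2 * ENNReal.ofReal e ^ 2 + 2 * ‖c‖ₑ ^ 2 * ‖w y‖ₑ ^ 2) := by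
        refine setLIntegral_mono' hS fun y hy => ?_
        rw [h y hy]
        refine (enorm_add_sq _ _).trans ?_
        rw [enorm_mul, mul_pow, ← mul_assoc]
        gcongr
        rw [← ofReal_norm]
        exact ENNReal.ofReal_le_ofReal (hv y hy)
    _ = _ := by
        rw [lintegral_add_left measurable_const, setLIntegral_const,
          lintegral_const_mul' _ _ (by finiteness)]
        ring

/-- The contribution of `c = 0`. -/
def E0 (ξ : O → O → ℂ) (Y : ℝ) (r : O) (y : ℝ) : ℂ :=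
  Acoef ξ Y r y - (k1 : ℂ) * Sk (Gx ξ r) (Fk y (b1 * nr r)) Y

theorem norm_E0_le {ξ : O → O → ℂ} (h : XiOK ξ) {Y y : ℝ} (hY : 0 < Y) (hy0 : 0 < y) (r : O) :
    ‖E0 ξ Y r y‖ ≤ 6 * Y ^ (4 / 3 : ℝ) := by
  have h0 : 0 ≤ Y ^ (4 / 3 : ℝ) := by positivity
  unfold E0 Acoef
  rw [add_sub_cancel_right]
  split_ifs
  · rw [norm_mul, Complex.norm_real, Real.norm_of_nonneg (by positivity)]
    refine mul_le_mul (norm_tsum_xi_zero_le h) ?_ (by positivity) (by norm_num)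
    refine mul_le_of_le_one_right h0 (Real.exp_le_one_iff.2 ?_)
    exact div_nonpos_of_nonpos_of_nonneg (by linarith) hy0.le
  · rw [norm_zero]; positivity

theorem lintegral_Ioo_le {u : ℝ → ℝ≥0∞} {a a' : ℝ} (ha : 0 < a) :
    ∫⁻ y in Set.Ioo a a', u y ≤
      ENNReal.ofReal (a' ^ 3) * ∫⁻ y in Set.Ioi a, u y * ENNReal.ofReal (y ^ 3)⁻¹ := by
  calc ∫⁻ y in Set.Ioo a a', u y
      ≤ ∫⁻ y in Set.Ioo a a', ENNReal.ofReal (a' ^ 3) * (u y * ENNReal.ofReal (y ^ 3)⁻¹) := by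
        refine setLIntegral_mono' measurableSet_Ioo fun y hy => ?_
        have hy0 : 0 < y := ha.trans hy.1
        have ha' : 0 < a' := hy0.trans hy.2
        rw [mul_left_comm, ← ENNReal.ofReal_mul (by positivity)]
        refine le_mul_of_one_le_right' (ENNReal.one_le_ofReal.2 ?_)
        rw [← div_eq_mul_inv, one_le_div (by positivity)]
        exact pow_le_pow_left₀ hy0.le hy.2.le 3
    _ ≤ ∫⁻ y in Set.Ioi a, ENNReal.ofReal (a' ^ 3) * (u y * ENNReal.ofReal (y ^ 3)⁻¹) :=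
        lintegral_mono_set Set.Ioo_subset_Ioi_self
    _ = _ := lintegral_const_mul' _ _ ENNReal.ofReal_ne_top

theorem xiOK_xi : XiOK xi := xis_one ▸ xiOK_xis 1

theorem norm_thY_aut {Y : ℝ} {γ : SL2} (h : γ ∈ Gam) (w : H) :
    ‖thY xi Y (γ • w)‖ = ‖thY xi Y w‖ := by
  rw [thY_aut h, norm_mul, norm_kap h, one_mul]

/-- The strips of `θ_Y`. -/
theorem strip_one : ∃ C : ℝ, 0 < C ∧ ∀ (σ : SL2) (a : ℝ), 0 < a → ∀ Y : ℝ, 0 < Y →
    ∑' r, ∫⁻ y in Set.Ioi a, ‖Acoef (xis σ) Y r y‖ₑ ^ 2 * ENNReal.ofReal (y ^ 3)⁻¹ ≤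
      ENNReal.ofReal (C * (1 + (a ^ 2)⁻¹)) * N2 Gam (thY xi Y) := by
  obtain ⟨C, hC, h⟩ := strip_le_N2
  refine ⟨C, hC, fun σ a ha Y hY => h _ σ _ a (continuous_thY xiOK_xi hY).measurable
    (fun γ hγ w => norm_thY_aut hγ w) (fun r => measurable_Acoef _ _ _) (fun y hy0 => ?_) ha⟩
  refine ⟨(thY_fourier (xiOK_xis σ) hY hy0).1, fun z => ?_⟩
  rw [thY_smul, (thY_fourier (xiOK_xis σ) hY hy0).2]

/-- The strips of `θ_Y - θ_{Y'}`. -/
theorem strip_two : ∃ C : ℝ, 0 < C ∧ ∀ (σ : SL2) (a : ℝ), 0 < a → ∀ Y Y' : ℝ, 0 < Y → 0 < Y' →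
    ∑' r, ∫⁻ y in Set.Ioi a, ‖Acoef (xis σ) Y r y - Acoef (xis σ) Y' r y‖ₑ ^ 2 *
        ENNReal.ofReal (y ^ 3)⁻¹ ≤
      ENNReal.ofReal (C * (1 + (a ^ 2)⁻¹)) * N2 Gam (thY xi Y - thY xi Y') := by
  obtain ⟨C, hC, h⟩ := strip_le_N2
  refine ⟨C, hC, fun σ a ha Y Y' hY hY' => h _ σ
    (fun r y => Acoef (xis σ) Y r y - Acoef (xis σ) Y' r y) a
    ((continuous_thY xiOK_xi hY).sub (continuous_thY xiOK_xi hY')).measurable
    (fun γ hγ w => ?_) (fun r => (measurable_Acoef _ _ _).sub (measurable_Acoef _ _ _))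
    (fun y hy0 => ?_) ha⟩
  · simp only [Pi.sub_apply]
    rw [thY_aut hγ, thY_aut hγ, ← mul_sub, norm_mul, norm_kap hγ, one_mul]
  · obtain ⟨h1, h2⟩ := thY_fourier (xiOK_xis σ) hY hy0
    obtain ⟨h3, h4⟩ := thY_fourier (xiOK_xis σ) hY' hy0
    refine ⟨(h1.add h3).of_nonneg_of_le (fun _ => norm_nonneg _) fun r => norm_sub_le _ _,
      fun z => ?_⟩
    have h5 : ∀ {A : O → ℂ}, (Summable fun r => ‖A r‖) →
        Summable fun r => A r * eC (ι r * z / 9) := fun hA =>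
      Summable.of_norm (by simpa only [norm_mul, norm_eC, mul_one] using hA)
    simp only [Pi.sub_apply]
    rw [thY_smul, thY_smul, h2, h4, ← (h5 h1).tsum_sub (h5 h3)]
    simp only [sub_mul]

theorem tendsto_N2_pair : Tendsto (fun p : ℝ × ℝ => N2 Gam (thY xi p.1 - thY xi p.2))
    (𝓝[>] 0 ×ˢ 𝓝[>] 0) (𝓝 0) := by
  rw [ENNReal.tendsto_nhds_zero]
  intro ε hε
  obtain ⟨δ, hδ, h⟩ := N2_cauchy hε
  filter_upwards [prod_mem_prod (Ioo_mem_nhdsGT hδ) (Ioo_mem_nhdsGT hδ)] with p hp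
  exact h _ hp.1 _ hp.2

theorem cauchy_of_tendsto {Φ : ℝ → ℝ → ℝ≥0∞}
    (h : Tendsto (fun p : ℝ × ℝ => Φ p.1 p.2) (𝓝[>] 0 ×ˢ 𝓝[>] 0) (𝓝 0)) {ε : ℝ≥0∞} (hε : 0 < ε) :
    ∃ δ : ℝ, 0 < δ ∧ ∀ Y ∈ Set.Ioo 0 δ, ∀ Y' ∈ Set.Ioo 0 δ, Φ Y Y' ≤ ε := by
  obtain ⟨s, hs, h1⟩ := Filter.mem_prod_self_iff.1 (ENNReal.tendsto_nhds_zero.1 h ε hε)
  obtain ⟨δ, hδ, h2⟩ := mem_nhdsGT_iff_exists_Ioo_subset.1 hs
  exact ⟨δ, hδ, fun Y hY Y' hY' => h1 (Set.mk_mem_prod (h2 hY) (h2 hY'))⟩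

theorem tendsto_rpow : Tendsto (fun Y : ℝ => 6 * Y ^ (4 / 3 : ℝ)) (𝓝[>] 0) (𝓝 0) := by
  have h : Continuous fun Y : ℝ => 6 * Y ^ (4 / 3 : ℝ) :=
    continuous_const.mul (Real.continuous_rpow_const (by norm_num))
  have h1 := (h.tendsto 0).mono_left (nhdsWithin_le_nhds (s := Set.Ioi 0))
  simpa using h1

theorem tendsto_comb {α : Type*} {l : Filter α} {e : α → ℝ} {u : α → ℝ≥0∞} {c d : ℝ≥0∞}
    (hc : c ≠ ⊤) (hd : d ≠ ⊤) (he : Tendsto e l (𝓝 0)) (hu : Tendsto u l (𝓝 0)) :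
    Tendsto (fun x => c * ENNReal.ofReal (e x) ^ 2 + d * u x) l (𝓝 0) := by
  have h1 : Tendsto (fun x => ENNReal.ofReal (e x) ^ 2) l (𝓝 0) := by
    simpa using ENNReal.Tendsto.pow (n := 2) (ENNReal.tendsto_ofReal he)
  simpa using (ENNReal.Tendsto.const_mul h1 (Or.inr hc)).add
    (ENNReal.Tendsto.const_mul hu (Or.inr hd))

theorem k1_ne : (k1 : ℂ) ≠ 0 := Complex.ofReal_ne_zero.2 k1_pos.ne'

theorem b_nonneg (r : O) : 0 ≤ b1 * nr r := mul_nonneg b1_pos.le (Nat.cast_nonneg _)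

theorem cauchy_Sk (σ : SL2) (r : O) {a : ℝ} (a' : ℝ) (ha : 0 < a) :
    Tendsto (fun p : ℝ × ℝ => ∫⁻ y in Set.Ioo a a',
      ‖Sk (Gx (xis σ) r) (Fk y (b1 * nr r)) p.1 - Sk (Gx (xis σ) r) (Fk y (b1 * nr r)) p.2‖ₑ ^ 2)
      (𝓝[>] 0 ×ˢ 𝓝[>] 0) (𝓝 0) := by
  obtain ⟨C, -, h⟩ := strip_two
  have he : Tendsto (fun p : ℝ × ℝ => k1⁻¹ * (6 * p.1 ^ (4 / 3 : ℝ) + 6 * p.2 ^ (4 / 3 : ℝ)))
      (𝓝[>] 0 ×ˢ 𝓝[>] 0) (𝓝 0) := by
    simpa using ((tendsto_rpow.comp tendsto_fst).add (tendsto_rpow.comp tendsto_snd)).const_mul k1⁻¹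
  have hv : volume (Set.Ioo a a') ≠ ⊤ := by simp
  have h1 := tendsto_comb (c := 2 * volume (Set.Ioo a a'))
    (d := 2 * ‖(k1 : ℂ)⁻¹‖ₑ ^ 2 * (ENNReal.ofReal (a' ^ 3) * ENNReal.ofReal (C * (1 + (a ^ 2)⁻¹))))
    (by finiteness) (by finiteness) he tendsto_N2_pair
  refine tendsto_of_tendsto_of_tendsto_of_le_of_le' tendsto_const_nhds h1
    (Eventually.of_forall fun _ => zero_le) ?_
  filter_upwards [prod_mem_prod self_mem_nhdsWithin self_mem_nhdsWithin] with p hp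
  have hY : 0 < p.1 := hp.1
  have hY' : 0 < p.2 := hp.2
  refine (lintegral_add_le measurableSet_Ioo (c := (k1 : ℂ)⁻¹)
    (v := fun y => (k1 : ℂ)⁻¹ * (E0 (xis σ) p.2 r y - E0 (xis σ) p.1 r y))
    (w := fun y => Acoef (xis σ) p.1 r y - Acoef (xis σ) p.2 r y)
    (e := k1⁻¹ * (6 * p.1 ^ (4 / 3 : ℝ) + 6 * p.2 ^ (4 / 3 : ℝ))) (fun y _ => ?_)
    (fun y hy => ?_)).trans ?_
  · have := k1_ne
    simp only [E0]
    field_simp
    ring
  · have hy0 : 0 < y := ha.trans hy.1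
    rw [norm_mul, norm_inv, Complex.norm_real, Real.norm_of_nonneg k1_pos.le]
    refine mul_le_mul_of_nonneg_left ((norm_sub_le _ _).trans ?_) (inv_pos.2 k1_pos).le
    linarith [norm_E0_le (xiOK_xis σ) hY hy0 r, norm_E0_le (xiOK_xis σ) hY' hy0 r]
  · rw [mul_assoc (2 * ‖(k1 : ℂ)⁻¹‖ₑ ^ 2), mul_assoc (ENNReal.ofReal (a' ^ 3))]
    refine add_le_add le_rfl (mul_le_mul_right ((lintegral_Ioo_le ha).trans
      (mul_le_mul_right (le_trans ?_ (h σ a ha p.1 p.2 hY hY')) _)) _)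
    exact ENNReal.le_tsum (f := fun r => ∫⁻ y in Set.Ioi a,
      ‖Acoef (xis σ) p.1 r y - Acoef (xis σ) p.2 r y‖ₑ ^ 2 * ENNReal.ofReal (y ^ 3)⁻¹) r

end LimH1

/-- From `N2_cauchy`, `strip_le_N2`, `exists_wd_of_cauchy`, `WD.unique`. -/
theorem tt_spec (σ : SL2) (r : O) : WD (Gx (xis σ) r) (tt σ r / k1) ∧ ∀ a a' : ℝ, 0 < a →
    Tendsto (fun Y => ∫⁻ y in Set.Ioo a a',
      ‖Acoef (xis σ) Y r y - tt σ r * (Mk y (b1 * nr r) : ℂ)‖ₑ ^ 2) (𝓝[>] 0) (𝓝 0) := by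
  have hg := polyG_Gx (xiOK_xis σ) r
  obtain ⟨t, ht, h⟩ := exists_wd_of_cauchy hg (LimH1.b_nonneg r) fun a a' ha ε hε =>
    LimH1.cauchy_of_tendsto (LimH1.cauchy_Sk σ r a' ha) hε
  have h1 : tt σ r = k1 * t := by
    rw [tt, WD.unique hg (Classical.epsilon_spec ⟨t, ht⟩) ht]
  refine ⟨by rwa [h1, mul_div_cancel_left₀ _ LimH1.k1_ne], fun a a' ha => ?_⟩
  have hv : volume (Set.Ioo a a') ≠ ⊤ := by simp
  have h2 := LimH1.tendsto_comb (c := 2 * volume (Set.Ioo a a')) (d := 2 * ‖(k1 : ℂ)‖ₑ ^ 2)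
    (by finiteness) (by finiteness) LimH1.tendsto_rpow (h a a' ha)
  refine tendsto_of_tendsto_of_tendsto_of_le_of_le' tendsto_const_nhds h2
    (Eventually.of_forall fun _ => zero_le) ?_
  filter_upwards [self_mem_nhdsWithin] with Y hY
  refine LimH1.lintegral_add_le measurableSet_Ioo (v := LimH1.E0 (xis σ) Y r) (fun y _ => ?_)
    fun y hy => LimH1.norm_E0_le (xiOK_xis σ) hY (ha.trans hy.1) r
  rw [h1, LimH1.E0]
  ring

theorem tt_one_zero_ne : tt 1 0 ≠ 0 := by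
  obtain ⟨t, ht, h⟩ := wd_xi_zero
  have h1 := (tt_spec 1 0).1
  rw [xis_one] at h1
  have h2 := WD.unique (polyG_Gx LimH1.xiOK_xi 0) h1 h
  intro h3
  rw [h3, zero_div] at h2
  exact ht h2.symm

/-- The `L²` bound (take `a = 1 / |r|` in `strip_le_N2`). -/
theorem norm_tt_le : ∃ C : ℝ, 0 < C ∧ ∀ (σ : SL2) (r : O), r ≠ 0 →
    ‖tt σ r‖ ≤ C * nr r ^ (1 / 3 : ℝ) := by
  obtain ⟨C, hC, h⟩ := LimH1.strip_one
  obtain ⟨D, δ, hδ, hD⟩ := N2_thY_le
  have hW : 0 < W0 (4 * b1) := W0_pos (by have := b1_pos; positivity)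
  set D' := max D 1 with hD'
  have hD0 : 0 < D' := lt_max_of_lt_right one_pos
  refine ⟨Real.sqrt (32 * C * D') / W0 (4 * b1), by positivity, fun σ r hr => ?_⟩
  have hn1 := one_le_nr hr
  have hn0 : 0 < nr r := nr_pos hr
  -- `s = N(r)^{-1/6}`, `a = s³`
  set s : ℝ := nr r ^ (-(1 / 6) : ℝ) with hs
  have hs0 : 0 < s := by positivity
  have hs1 : s ≤ 1 := Real.rpow_le_one_of_one_le_of_nonpos hn1 (by norm_num)
  have hs6 : s ^ 6 * nr r = 1 := by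
    rw [hs, ← Real.rpow_natCast, ← Real.rpow_mul hn0.le, ← Real.rpow_add_one hn0.ne']
    norm_num
  have hs2 : s ^ 2 * nr r ^ (1 / 3 : ℝ) = 1 := by
    rw [hs, ← Real.rpow_natCast, ← Real.rpow_mul hn0.le, ← Real.rpow_add hn0]
    norm_num
  have ha : 0 < s ^ 3 := by positivity
  have hlow : ∀ y ∈ Set.Ioo (s ^ 3) (2 * s ^ 3), s ^ 2 * W0 (4 * b1) ≤ Mk y (b1 * nr r) := by
    intro y hy
    have hy0 : 0 < y := ha.trans hy.1
    have hb := b1_pos
    refine mul_le_mul ?_ (W0_antitoneOn (Set.mem_Ici.2 (by positivity))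
      (Set.mem_Ici.2 (by positivity)) ?_) hW.le (by positivity)
    · have h1 : s ^ 2 = (s ^ 3) ^ (2 / 3 : ℝ) := by
        rw [← Real.rpow_natCast s 3, ← Real.rpow_mul hs0.le, ← Real.rpow_natCast]
        norm_num
      rw [h1]
      exact Real.rpow_le_rpow ha.le hy.1.le (by norm_num)
    · have h1 : y ^ 2 ≤ (2 * s ^ 3) ^ 2 := pow_le_pow_left₀ hy0.le hy.2.le 2
      calc y ^ 2 * (b1 * nr r) ≤ (2 * s ^ 3) ^ 2 * (b1 * nr r) := by gcongr
        _ = 4 * b1 * (s ^ 6 * nr r) := by ring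
        _ = 4 * b1 := by rw [hs6, mul_one]
  have key : ENNReal.ofReal ((‖tt σ r‖ * (s ^ 2 * W0 (4 * b1))) ^ 2 * s ^ 3) ≤
      ENNReal.ofReal (32 * C * D' * s ^ 3) := by
    have h1 := ((ENNReal.Tendsto.const_mul (a := 2)
      ((tt_spec σ r).2 (s ^ 3) (2 * s ^ 3) ha) (Or.inr (by simp))).const_add
        (ENNReal.ofReal (32 * C * D' * s ^ 3)))
    rw [mul_zero, add_zero] at h1
    refine ge_of_tendsto h1 ?_
    filter_upwards [Ioo_mem_nhdsGT hδ] with Y hY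
    have hm : Measurable fun y => 2 * ‖Acoef (xis σ) Y r y‖ₑ ^ 2 :=
      ((measurable_Acoef _ _ _).enorm.pow_const 2).const_mul 2
    calc ENNReal.ofReal ((‖tt σ r‖ * (s ^ 2 * W0 (4 * b1))) ^ 2 * s ^ 3)
        = ∫⁻ _ in Set.Ioo (s ^ 3) (2 * s ^ 3),
            ENNReal.ofReal ((‖tt σ r‖ * (s ^ 2 * W0 (4 * b1))) ^ 2) := by
          rw [setLIntegral_const, Real.volume_Ioo, ← ENNReal.ofReal_mul (by positivity)]
          congr 2
          ring
      _ ≤ ∫⁻ y in Set.Ioo (s ^ 3) (2 * s ^ 3), (2 * ‖Acoef (xis σ) Y r y‖ₑ ^ 2 +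
            2 * ‖Acoef (xis σ) Y r y - tt σ r * (Mk y (b1 * nr r) : ℂ)‖ₑ ^ 2) := by
          refine setLIntegral_mono' measurableSet_Ioo fun y hy => ?_
          have h2 := LimH1.enorm_add_sq (Acoef (xis σ) Y r y)
            (-(Acoef (xis σ) Y r y - tt σ r * (Mk y (b1 * nr r) : ℂ)))
          rw [enorm_neg, ← sub_eq_add_neg, sub_sub_cancel] at h2
          refine le_trans ?_ h2
          rw [← ofReal_norm, ← ENNReal.ofReal_pow (norm_nonneg _)]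
          refine ENNReal.ofReal_le_ofReal (pow_le_pow_left₀ (by positivity) ?_ 2)
          rw [norm_mul, Complex.norm_real]
          exact mul_le_mul_of_nonneg_left ((hlow y hy).trans (le_abs_self _)) (norm_nonneg _)
      _ = 2 * (∫⁻ y in Set.Ioo (s ^ 3) (2 * s ^ 3), ‖Acoef (xis σ) Y r y‖ₑ ^ 2) +
            2 * ∫⁻ y in Set.Ioo (s ^ 3) (2 * s ^ 3),
              ‖Acoef (xis σ) Y r y - tt σ r * (Mk y (b1 * nr r) : ℂ)‖ₑ ^ 2 := by
          rw [lintegral_add_left hm, lintegral_const_mul' _ _ (by simp),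
            lintegral_const_mul' _ _ (by simp)]
      _ ≤ _ := by
          refine add_le_add ?_ le_rfl
          have h2 : ∫⁻ y in Set.Ioi (s ^ 3),
              ‖Acoef (xis σ) Y r y‖ₑ ^ 2 * ENNReal.ofReal (y ^ 3)⁻¹ ≤
              ENNReal.ofReal (C * (1 + ((s ^ 3) ^ 2)⁻¹)) * ENNReal.ofReal D' :=
            (ENNReal.le_tsum (f := fun r => ∫⁻ y in Set.Ioi (s ^ 3),
              ‖Acoef (xis σ) Y r y‖ₑ ^ 2 * ENNReal.ofReal (y ^ 3)⁻¹) r).trans
              ((h σ _ ha Y hY.1).trans (mul_le_mul_right ((hD Y hY).trans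
                (ENNReal.ofReal_le_ofReal (le_max_left _ _))) _))
          refine (mul_le_mul_right ((LimH1.lintegral_Ioo_le ha).trans
            (mul_le_mul_right h2 _)) _).trans ?_
          rw [← ENNReal.ofReal_mul (by positivity), ← ENNReal.ofReal_mul (by positivity),
            ← ENNReal.ofReal_ofNat 2, ← ENNReal.ofReal_mul (by positivity)]
          refine ENNReal.ofReal_le_ofReal ?_
          have h3 : s ^ 6 ≤ 1 := pow_le_one₀ hs0.le hs1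
          have h4 : 2 * ((2 * s ^ 3) ^ 3 * (C * (1 + ((s ^ 3) ^ 2)⁻¹) * D')) =
              16 * C * D' * s ^ 3 * (s ^ 6 + 1) := by
            field_simp
            ring
          rw [h4]
          have h5 : 0 < C * D' * s ^ 3 := by positivity
          nlinarith
  rw [ENNReal.ofReal_le_ofReal_iff (by positivity)] at key
  have h1 : ‖tt σ r‖ * (s ^ 2 * W0 (4 * b1)) ≤ Real.sqrt (32 * C * D') :=
    Real.le_sqrt_of_sq_le (le_of_mul_le_mul_right key ha)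
  rw [div_mul_eq_mul_div, le_div_iff₀ hW]
  calc ‖tt σ r‖ * W0 (4 * b1) = ‖tt σ r‖ * W0 (4 * b1) * (s ^ 2 * nr r ^ (1 / 3 : ℝ)) := by
        rw [hs2, mul_one]
    _ = ‖tt σ r‖ * (s ^ 2 * W0 (4 * b1)) * nr r ^ (1 / 3 : ℝ) := by ring
    _ ≤ _ := by gcongr

theorem LimH1.term_le : ∃ C : ℝ, 0 < C ∧ ∀ (σ : SL2) (r : O), r ≠ 0 → ∀ y : ℝ, 0 < y →
    ‖tt σ r * (Mk y (b1 * nr r) : ℂ)‖ ≤ C * y ^ (-(10 / 3) : ℝ) * nr r ^ (-(5 / 3) : ℝ) := by
  obtain ⟨C, hC, h⟩ := norm_tt_le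
  obtain ⟨D, hD, h'⟩ := W0_le_rpow (A := 2) (by norm_num)
  have hb := b1_pos
  refine ⟨C * D * b1 ^ (-2 : ℝ), by positivity, fun σ r hr y hy0 => ?_⟩
  have hn0 : 0 < nr r := nr_pos hr
  rw [norm_mul, Complex.norm_real, Real.norm_of_nonneg (Mk_pos hy0 (LimH1.b_nonneg r)).le, Mk]
  have h1 := h' (y ^ 2 * (b1 * nr r)) (by positivity)
  have h2 : 0 < W0 (y ^ 2 * (b1 * nr r)) := W0_pos (by positivity)
  have h3 := h σ r hr
  have e1 : y ^ (-(10 / 3) : ℝ) = y ^ (2 / 3 : ℝ) * (y ^ 2) ^ (-2 : ℝ) := by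
    rw [← Real.rpow_natCast y 2, ← Real.rpow_mul hy0.le, ← Real.rpow_add hy0]
    norm_num
  have e2 : nr r ^ (-(5 / 3) : ℝ) = nr r ^ (1 / 3 : ℝ) * nr r ^ (-2 : ℝ) := by
    rw [← Real.rpow_add hn0]
    norm_num
  calc ‖tt σ r‖ * (y ^ (2 / 3 : ℝ) * W0 (y ^ 2 * (b1 * nr r)))
      ≤ C * nr r ^ (1 / 3 : ℝ) * (y ^ (2 / 3 : ℝ) * (D * (y ^ 2 * (b1 * nr r)) ^ (-2 : ℝ))) := by
        gcongr
    _ = _ := by
        rw [Real.mul_rpow (by positivity) (by positivity), Real.mul_rpow hb.le hn0.le, e1, e2]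
        ring

theorem summable_Th (σ : SL2) {y : ℝ} (hy0 : 0 < y) :
    Summable fun r : O => ‖tt σ r * (Mk y (b1 * nr r) : ℂ)‖ := by
  obtain ⟨C, -, h⟩ := LimH1.term_le
  refine Summable.of_norm_bounded_eventually ((summable_nr_rpow (σ := 5 / 3) (by norm_num)).mul_left
    (C * y ^ (-(10 / 3) : ℝ))) ?_
  filter_upwards [eventually_cofinite_ne (0 : O)] with r hr
  rw [norm_norm]
  exact h σ r hr y hy0

theorem continuous_Th (σ : SL2) : Continuous (Th σ) := by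
  rw [continuous_iff_continuousAt]
  intro w₀
  have h0 := hy_pos w₀
  set y := hy w₀ / 2 with hy'
  have hy0 : 0 < y := by positivity
  have hs : hy ⁻¹' Set.Ioo y (4 * y) ∈ 𝓝 w₀ :=
    (isOpen_Ioo.preimage continuous_hy).mem_nhds ⟨by linarith, by linarith⟩
  refine ContinuousOn.continuousAt ?_ hs
  refine continuousOn_tsum (u := fun r => (4 : ℝ) ^ (2 / 3 : ℝ) * ‖tt σ r * (Mk y (b1 * nr r) : ℂ)‖)
    (fun r => Continuous.continuousOn ?_) ((summable_Th σ hy0).mul_left _) fun r w hw => ?_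
  · have h1 : Continuous fun w : H => Mk (hy w) (b1 * nr r) :=
      (continuousOn_Mk (LimH1.b_nonneg r)).comp_continuous continuous_hy fun w => hy_pos w
    exact (continuous_const.mul (Complex.continuous_ofReal.comp h1)).mul
      (continuous_eC.comp (by fun_prop))
  · have hb := LimH1.b_nonneg r
    have hw0 := hy_pos w
    rw [norm_mul, norm_eC, mul_one, norm_mul, norm_mul, Complex.norm_real, Complex.norm_real,
      Real.norm_of_nonneg (Mk_pos hw0 hb).le, Real.norm_of_nonneg (Mk_pos hy0 hb).le,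
      mul_left_comm]
    refine mul_le_mul_of_nonneg_left ?_ (norm_nonneg _)
    rw [Mk, Mk, ← mul_assoc ((4 : ℝ) ^ (2 / 3 : ℝ)), ← Real.mul_rpow (by norm_num) hy0.le]
    refine mul_le_mul (Real.rpow_le_rpow hw0.le hw.2.le (by norm_num))
      (W0_antitoneOn (Set.mem_Ici.2 (by positivity)) (Set.mem_Ici.2 (by positivity)) ?_)
      (W0_pos (by positivity)).le (by positivity)
    have := hw.1.le
    gcongr

theorem norm_Th_le (σ : SL2) : ∃ C : ℝ, ∀ w, ‖Th σ w‖ ≤ C * (hy w + hy w ^ (-(4 : ℝ)) + 1) := by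
  classical
  obtain ⟨C, hC, h⟩ := LimH1.term_le
  have hZ := summable_nr_rpow (σ := 5 / 3) (by norm_num)
  have hZ0 : 0 ≤ ∑' r : O, nr r ^ (-(5 / 3) : ℝ) := tsum_nonneg fun _ => by positivity
  have hW := W0_pos le_rfl
  refine ⟨‖tt σ 0‖ * W0 0 + C * ∑' r : O, nr r ^ (-(5 / 3) : ℝ), fun w => ?_⟩
  have hy0 := hy_pos w
  set y := hy w with hy'
  have h4 : 0 < y ^ (-(4 : ℝ)) := by positivity
  have h1 : y ^ (2 / 3 : ℝ) ≤ y + y ^ (-(4 : ℝ)) + 1 := by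
    rcases le_total y 1 with h1 | h1
    · linarith [Real.rpow_le_one hy0.le h1 (show (0 : ℝ) ≤ 2 / 3 by norm_num)]
    · have := Real.rpow_le_rpow_of_exponent_le h1 (show (2 / 3 : ℝ) ≤ 1 by norm_num)
      rw [Real.rpow_one] at this
      linarith
  have h2 : y ^ (-(10 / 3) : ℝ) ≤ y + y ^ (-(4 : ℝ)) + 1 := by
    rcases le_total y 1 with h1 | h1
    · linarith [Real.rpow_le_rpow_of_exponent_ge hy0 h1 (show (-(4 : ℝ)) ≤ -(10 / 3) by norm_num)]
    · linarith [Real.rpow_le_one_of_one_le_of_nonpos h1 (show (-(10 / 3) : ℝ) ≤ 0 by norm_num)]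
  have hS : HasSum (fun r : O => (if r = 0 then ‖tt σ 0‖ * W0 0 * y ^ (2 / 3 : ℝ) else 0) +
      C * y ^ (-(10 / 3) : ℝ) * nr r ^ (-(5 / 3) : ℝ))
      (‖tt σ 0‖ * W0 0 * y ^ (2 / 3 : ℝ) +
        C * y ^ (-(10 / 3) : ℝ) * ∑' r : O, nr r ^ (-(5 / 3) : ℝ)) :=
    (hasSum_ite_eq (0 : O) _).add (hZ.hasSum.mul_left _)
  refine (tsum_of_norm_bounded hS fun r => ?_).trans ?_
  · rw [norm_mul, norm_eC, mul_one]
    by_cases hr : r = 0
    · subst hr
      rw [if_pos rfl, norm_mul, Complex.norm_real,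
        Real.norm_of_nonneg (Mk_pos hy0 (LimH1.b_nonneg 0)).le, Mk]
      have e : y ^ 2 * (b1 * nr 0) = 0 := by simp
      rw [e]
      have : 0 ≤ C * y ^ (-(10 / 3) : ℝ) * nr 0 ^ (-(5 / 3) : ℝ) := by positivity
      linarith
    · rw [if_neg hr, zero_add]
      exact h σ r hr y hy0
  · rw [add_mul, mul_right_comm C]
    gcongr

/-! ## part H2: convergence and automorphy -/

theorem tendsto_strip (σ : SL2) {a : ℝ} (ha : 0 < a) (a' : ℝ) :
    Tendsto (fun Y => ∑' r : O, ∫⁻ y in Set.Ioo a a',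
      ‖Acoef (xis σ) Y r y - tt σ r * (Mk y (b1 * nr r) : ℂ)‖ₑ ^ 2) (𝓝[>] 0) (𝓝 0) := by
  rw [ENNReal.tendsto_nhds_zero]
  intro ε hε
  obtain ⟨δ, hδ, hc⟩ := LimB.strip_cauchy σ ha a' (ENNReal.half_pos hε.ne')
  filter_upwards [Ioo_mem_nhdsGT hδ] with Y hY
  rw [ENNReal.tsum_eq_iSup_sum]
  refine iSup_le fun S => ?_
  have ht : Tendsto (fun Y' => ε + ∑ r ∈ S, 2 * ∫⁻ y in Set.Ioo a a',
      ‖Acoef (xis σ) Y' r y - tt σ r * (Mk y (b1 * nr r) : ℂ)‖ₑ ^ 2) (𝓝[>] 0)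
      (𝓝 (ε + ∑ r ∈ S, 0)) :=
    tendsto_const_nhds.add (tendsto_finsetSum _ fun r _ =>
      LimB.tendsto_two_mul ((tt_spec σ r).2 a a' ha))
  rw [Finset.sum_const_zero, add_zero] at ht
  refine ge_of_tendsto ht ?_
  filter_upwards [Ioo_mem_nhdsGT hδ] with Y' hY'
  calc _ ≤ ∑ r ∈ S, (2 * (∫⁻ y in Set.Ioo a a',
          ‖Acoef (xis σ) Y r y - Acoef (xis σ) Y' r y‖ₑ ^ 2) + 2 * ∫⁻ y in Set.Ioo a a',
          ‖Acoef (xis σ) Y' r y - tt σ r * (Mk y (b1 * nr r) : ℂ)‖ₑ ^ 2) :=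
        Finset.sum_le_sum fun r _ =>
          LimB.lint_tri' _ _ (measurable_Acoef _ _ _) (measurable_Acoef _ _ _)
    _ ≤ _ := by
        rw [Finset.sum_add_distrib, ← Finset.mul_sum]
        gcongr
        calc _ ≤ 2 * (ε / 2) := by
              gcongr
              exact (ENNReal.sum_le_tsum S).trans (hc Y hY Y' hY')
          _ ≤ ε := ENNReal.mul_div_le

theorem LimB.Th_hp (σ : SL2) (z : ℂ) {y : ℝ} (hy0 : 0 < y) :
    Th σ (hp z y) = ∑' r : O, tt σ r * (Mk y (b1 * nr r) : ℂ) * eC (ι r * z / 9) := by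
  unfold Th; rw [hy_hp z hy0, hp_fst]

theorem LimB.measurable_thY {Y : ℝ} (hY : 0 < Y) : Measurable (thY xi Y) :=
  (continuous_thY (xis_one ▸ xiOK_xis 1) hY).measurable

theorem tendsto_local (σ : SL2) {K : Set H} (hK : IsCompact K) :
    Tendsto (fun Y => ∫⁻ w in K, ‖thY xi Y (σ • w) - Th σ w‖ₑ ^ 2 ∂μH) (𝓝[>] 0) (𝓝 0) := by
  obtain ⟨C, a, a', ha, h⟩ := compact_le_strip hK
  have ht := ENNReal.Tendsto.const_mul (a := ENNReal.ofReal C) (tendsto_strip σ ha a')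
    (Or.inr ENNReal.ofReal_ne_top)
  rw [mul_zero] at ht
  refine tendsto_of_tendsto_of_tendsto_of_le_of_le' tendsto_const_nhds ht
    (Eventually.of_forall fun _ => zero_le) ?_
  filter_upwards [self_mem_nhdsWithin] with Y hY
  refine h (fun w => thY xi Y (σ • w) - Th σ w)
    (fun r y => Acoef (xis σ) Y r y - tt σ r * (Mk y (b1 * nr r) : ℂ))
    (((LimB.measurable_thY hY).comp (continuous_smul_SL σ).measurable).sub
      (continuous_Th σ).measurable)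
    (fun r => (measurable_Acoef _ _ _).sub (Continuous.measurable (continuous_const.mul
      (Complex.continuous_ofReal.comp (LimB.continuous_Mk (LimB.b1_nr_nonneg r))))))
    fun y hy0 => ?_
  obtain ⟨s1, e1⟩ := thY_fourier (xiOK_xis σ) hY hy0
  have s2 := summable_Th σ hy0
  refine ⟨(s1.add s2).of_nonneg_of_le (fun _ => norm_nonneg _) fun r => norm_sub_le _ _,
    fun z => ?_⟩
  rw [thY_smul, e1, LimB.Th_hp σ z hy0,
    ← (LimB.summable_mul_eC s1 _).tsum_sub (LimB.summable_mul_eC s2 _)]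
  exact tsum_congr fun r => by ring

theorem LimB.tendsto_local_one {K : Set H} (hK : IsCompact K) :
    Tendsto (fun Y => ∫⁻ w in K, ‖thY xi Y w - Th 1 w‖ₑ ^ 2 ∂μH) (𝓝[>] 0) (𝓝 0) := by
  simpa only [one_smul] using tendsto_local 1 hK

theorem Th_smul (σ : SL2) (w : H) : Th 1 (σ • w) = Th σ w := by
  refine LimB.eq_of_local (F := fun Y w => thY xi Y (σ • w)) (G := fun w => Th 1 (σ • w))
    (fun Y hY => (LimB.measurable_thY hY).comp (continuous_smul_SL σ).measurable)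
    ((continuous_Th 1).comp (continuous_smul_SL σ)) (continuous_Th σ) (fun K hK => ?_)
    (fun K hK => tendsto_local σ hK) w
  refine tendsto_of_tendsto_of_tendsto_of_le_of_le' tendsto_const_nhds
    (LimB.tendsto_local_one (hK.image (continuous_smul_SL σ)))
    (Eventually.of_forall fun _ => zero_le) ?_
  filter_upwards [self_mem_nhdsWithin] with Y hY
  exact LimB.setLIntegral_smul_le σ hK (f := fun w => ‖thY xi Y w - Th 1 w‖ₑ ^ 2)
    (((LimB.measurable_thY hY).sub (continuous_Th 1).measurable).enorm.pow_const 2)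

theorem Th_aut {γ : SL2} (h : γ ∈ Gam) (w : H) : Th 1 (γ • w) = kap γ * Th 1 w := by
  rw [Th_smul]
  refine LimB.eq_of_local (F := fun Y w => thY xi Y (γ • w)) (G' := fun w => kap γ * Th 1 w)
    (fun Y hY => (LimB.measurable_thY hY).comp (continuous_smul_SL γ).measurable)
    (continuous_Th γ) (continuous_const.mul (continuous_Th 1)) (fun K hK => tendsto_local γ hK)
    (fun K hK => ?_) w
  refine (LimB.tendsto_local_one hK).congr fun Y => lintegral_congr fun x => ?_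
  rw [thY_aut h, ← mul_sub, enorm_mul, ← ofReal_norm (kap γ), norm_kap h, ENNReal.ofReal_one,
    one_mul]

theorem tendsto_N2 : Tendsto (fun Y => N2 Gam (thY xi Y - Th 1)) (𝓝[>] 0) (𝓝 0) := by
  rw [ENNReal.tendsto_nhds_zero]
  intro ε hε
  obtain ⟨δ, hδ, hc⟩ := N2_cauchy (ENNReal.half_pos hε.ne')
  filter_upwards [Ioo_mem_nhdsGT hδ] with Y hY
  refine LimB.lintegral_le_of_compact fun K hK => ?_
  have ht := (tendsto_const_nhds (x := ε)).add (LimB.tendsto_two_mul (LimB.tendsto_local_one hK))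
  rw [add_zero] at ht
  refine ge_of_tendsto ht ?_
  filter_upwards [Ioo_mem_nhdsGT hδ] with Y' hY'
  have hw : Measurable fun w => ENNReal.ofReal (wOf Gam w) := (isWt_wOf Gam).meas.ennreal_ofReal
  refine (LimB.lint_tri (μH.restrict K) hw (Th 1) (LimB.measurable_thY hY.1)
    (LimB.measurable_thY hY'.1)).trans (add_le_add ?_ ?_)
  · calc _ ≤ 2 * (ε / 2) := by
          gcongr
          exact (setLIntegral_le_lintegral _ _).trans (hc Y hY Y' hY')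
      _ ≤ ε := ENNReal.mul_div_le
  · gcongr with w
    exact mul_le_of_le_one_left' (ENNReal.ofReal_le_one.2 ((isWt_wOf Gam).le_one w))

theorem N2_Th_lt_top : N2 Gam (Th 1) < ⊤ := by
  obtain ⟨C, δ, hδ, hC⟩ := N2_thY_le
  have h1 := (ENNReal.tendsto_nhds_zero.1 tendsto_N2) 1 one_pos
  obtain ⟨Y, hY1, hY⟩ := (h1.and (Ioo_mem_nhdsGT hδ)).exists
  have hw : Measurable fun w => ENNReal.ofReal (wOf Gam w) := (isWt_wOf Gam).meas.ennreal_ofReal
  have h2 := LimB.lint_tri μH hw (fun _ => 0) (continuous_Th 1).measurable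
    (LimB.measurable_thY hY.1)
  simp only [sub_zero] at h2
  have h3 : ∫⁻ w, ENNReal.ofReal (wOf Gam w) * ‖Th 1 w - thY xi Y w‖ₑ ^ 2 ∂μH ≤ 1 := by
    refine le_trans (le_of_eq (lintegral_congr fun w => ?_)) hY1
    rw [← enorm_neg, neg_sub]; rfl
  refine lt_of_le_of_lt h2 (lt_of_le_of_lt (add_le_add (mul_le_mul_right h3 2)
    (mul_le_mul_right (hC Y hY) 2)) ?_)
  exact ENNReal.add_lt_top.2 ⟨by simp, ENNReal.mul_lt_top (by simp) ENNReal.ofReal_lt_top⟩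

/-! ## part H3: relations between the coefficients (`coeff_unique`) -/

theorem LimB.tt_eq (σ : SL2) {c : O → ℂ}
    (hc : Summable fun r => ‖c r * (Mk 1 (b1 * nr r) : ℂ)‖)
    (h : ∀ z, Th σ (hp z 1) = ∑' r, c r * (Mk 1 (b1 * nr r) : ℂ) * eC (ι r * z / 9)) (r : O) :
    tt σ r = c r := by
  have h9 : (9 : O) ≠ 0 := fun h0 => by
    have := congrArg ι h0
    rw [LimB.ι_nine, map_zero] at this
    norm_num at this
  have := coeff_unique h9 (summable_Th σ one_pos) hc fun z => by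
    rw [LimB.ι_nine, ← h, LimB.Th_hp σ z one_pos]
  have hM : (Mk 1 (b1 * nr r) : ℂ) ≠ 0 :=
    Complex.ofReal_ne_zero.2 (Mk_pos one_pos (LimB.b1_nr_nonneg r)).ne'
  exact mul_right_cancel₀ hM (congrFun this r)

theorem LimB.Th_mul (σ τ : SL2) (w : H) : Th (σ * τ) w = Th σ (τ • w) := by
  rw [← Th_smul, mul_smul, Th_smul]

theorem LimB.Th_Gam {γ : SL2} (h : γ ∈ Gam) (σ : SL2) (w : H) :
    Th (γ * σ) w = kap γ * Th σ w := by
  rw [← Th_smul, mul_smul, Th_aut h, Th_smul]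

theorem tt_eq_of_Th {σ τ : SL2} {c : ℂ} (h : ∀ w, Th σ w = c * Th τ w) (r : O) :
    tt σ r = c * tt τ r := by
  refine LimB.tt_eq σ (c := fun r => c * tt τ r) ?_ (fun z => ?_) r
  · simpa only [mul_assoc, norm_mul] using (summable_Th τ one_pos).mul_left ‖c‖
  · rw [h, LimB.Th_hp τ z one_pos, ← tsum_mul_left]
    exact tsum_congr fun r => by ring

theorem tt_mul_Gam {γ : SL2} (h : γ ∈ Gam) (σ : SL2) (r : O) :
    tt (γ * σ) r = kap γ * tt σ r := tt_eq_of_Th (LimB.Th_Gam h σ) r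

theorem tt_mul_nT (σ : SL2) (t r : O) : tt (σ * nT t) r = tt σ r * eq (r * t) 9 := by
  refine LimB.tt_eq _ (c := fun r => tt σ r * eq (r * t) 9) ?_ (fun z => ?_) r
  · simpa only [norm_mul, norm_eq, mul_one] using summable_Th σ one_pos
  · have e : nT t • hp z 1 = hp (z + ι t) 1 := nT_smul t _
    rw [LimB.Th_mul, e, LimB.Th_hp σ _ one_pos]
    refine tsum_congr fun r => ?_
    have : ι r * (z + ι t) / 9 = ι (r * t) / ι 9 + ι r * z / 9 := by
      rw [LimB.ι_nine, map_mul]; ring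
    rw [this, eC_add, eq]; ring

theorem tt_mul_diag (σ : SL2) {u v : O} (h : u * v = 1) (r : O) :
    tt (σ * mkSL u 0 0 v (by rw [h]; ring)) (u ^ 2 * r) = tt σ r := by
  have hu : IsUnit u := IsUnit.of_mul_eq_one v h
  have hv : IsUnit v := IsUnit.of_mul_eq_one u (by rw [mul_comm, h])
  have hu1 : nr u = 1 := by simp [nr, isUnit_iff_nm.1 hu]
  have hv1 : nr v = 1 := by simp [nr, isUnit_iff_nm.1 hv]
  have huv : ∀ s : O, v ^ 2 * (u ^ 2 * s) = s := fun s => by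
    rw [← mul_assoc, ← mul_pow, mul_comm v u, h, one_pow, one_mul]
  have huv' : ∀ s : O, u ^ 2 * (v ^ 2 * s) = s := fun s => by
    rw [← mul_assoc, ← mul_pow, h, one_pow, one_mul]
  have hn : ∀ s : O, nr (u ^ 2 * s) = nr s := fun s => by rw [nr_mul, nr_pow, hu1]; ring
  let E : O ≃ O := ⟨fun s => u ^ 2 * s, fun s => v ^ 2 * s, huv, huv'⟩
  have key := LimB.tt_eq (σ * mkSL u 0 0 v (by rw [h]; ring)) (c := fun s => tt σ (v ^ 2 * s))
    ?_ (fun z => ?_) (u ^ 2 * r)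
  · rw [key, huv]
  · rw [← E.summable_iff]
    refine (summable_Th σ one_pos).congr fun s => ?_
    simp only [E, Function.comp, Equiv.coe_fn_mk, huv, hn]
  · have hι : ι u * ι v = 1 := by rw [← map_mul, h, map_one]
    have hιv : ι v ≠ 0 := right_ne_zero_of_mul_eq_one hι
    have e : mkSL u 0 0 v (by rw [h]; ring) • hp z 1 = hp (ι u ^ 2 * z) 1 := by
      have := act_upper hu.ne_zero hv.ne_zero 0 z one_pos
      rw [norm_ι, norm_ι, hu1, hv1, map_zero, add_zero, div_self (by simp), one_mul] at this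
      refine Eq.trans this ?_
      congr 1
      field_simp
      linear_combination (-ι u * z) * hι
    rw [LimB.Th_mul, e, LimB.Th_hp σ _ one_pos]
    refine Eq.trans (tsum_congr fun s => ?_) (E.tsum_eq _)
    simp only [E, Equiv.coe_fn_mk, huv, hn, map_mul, map_pow]
    congr 2
    ring

theorem tt_one_eq_zero {r : O} (h : ¬ (9 : O) ∣ r) : tt 1 r = 0 := by
  by_contra h0
  have key : ∀ t, eq (r * t) 9 = 1 := fun t => by
    have h1 := tt_mul_Gam (nT_mem t) 1 r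
    have h2 := tt_mul_nT 1 t r
    rw [mul_one, kap_nT, one_mul] at h1
    rw [one_mul, h1] at h2
    exact (mul_left_cancel₀ h0 (h2.symm.trans (mul_one _).symm))
  have h9 : (9 : O) ≠ 0 := fun h0 => by
    have := congrArg ι h0
    rw [LimB.ι_nine, map_zero] at this
    norm_num at this
  exact h (dvd_of_eq_eq_one h9 (by simpa using key 1) (key om))

/-- Congruent matrices. -/
theorem Th_cong {σ τ : SL2} (h : Cong 9 σ τ) (hJ : Jc (σ 0 0) (σ 1 0) = Jc (τ 0 0) (τ 1 0)) :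
    Th σ = Th τ := by
  have hc : IsCoprime (τ 0 0) (τ 1 0) :=
    ⟨τ 1 1, -τ 0 1, by linear_combination SL2.det_eq τ⟩
  have hJ0 : Jc (τ 0 0) (τ 1 0) ≠ 0 := by
    rw [← norm_ne_zero_iff, norm_Jc hc]; exact one_ne_zero
  have hk : kap (σ * τ⁻¹) = 1 := by
    have := kap_mul_Jc h
    rw [hJ] at this
    exact mul_right_cancel₀ hJ0 (this.trans (one_mul _).symm)
  funext w
  have := LimB.Th_Gam h.mul_inv_mem τ w
  rwa [inv_mul_cancel_right, hk, one_mul] at this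

theorem norm_tt_cong {σ τ : SL2} (h : Cong 9 σ τ) (r : O) : ‖tt σ r‖ = ‖tt τ r‖ := by
  have := tt_mul_Gam h.mul_inv_mem τ r
  rw [inv_mul_cancel_right] at this
  rw [this, norm_mul, norm_kap h.mul_inv_mem, one_mul]

/-- The theta function is not reduced to its constant term. -/
theorem exists_tt_one_ne : ∃ r : O, r ≠ 0 ∧ tt 1 (9 * r) ≠ 0 := by
  by_contra hne
  push Not at hne
  have h0 : ∀ r : O, r ≠ 0 → tt 1 r = 0 := fun r hr => by
    by_cases h9 : (9 : O) ∣ r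
    · obtain ⟨s, rfl⟩ := h9
      exact hne s (right_ne_zero_of_mul hr)
    · exact tt_one_eq_zero h9
  have hTh : ∀ w, ‖Th 1 w‖ = ‖tt 1 0‖ * (hy w ^ (2 / 3 : ℝ) * W0 0) := fun w => by
    unfold Th
    rw [tsum_eq_single 0 fun r hr => by rw [h0 r hr]; ring, norm_mul, norm_eC, mul_one, norm_mul,
      Complex.norm_real, Real.norm_of_nonneg (Mk_pos (hy_pos w) (LimB.b1_nr_nonneg 0)).le]
    simp [Mk, nr]
  let γ : SL2 := mkSL 1 0 9 1 (by ring)
  have hγ : γ ∈ Gam := mem_Gam.2 ⟨dvd_rfl, by simp [γ, Primary]⟩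
  have h1 := congrArg norm (Th_aut hγ (hp 0 1))
  rw [norm_mul, norm_kap hγ, one_mul, hTh, hTh, hy_smul, hy_hp 0 one_pos] at h1
  have h2 := mul_right_cancel₀ (W0_pos le_rfl).ne'
    (mul_left_cancel₀ (norm_ne_zero_iff.2 tt_one_zero_ne) h1)
  have h3 : Qo (hp 0 1) (γ 1 0) (γ 1 1) = 82 := by
    change Qf (hp 0 1) (ι 9) (ι 1) = 82
    rw [Qf_hp 0 one_pos, LimB.ι_nine, map_one]
    norm_num
  rw [h3, Real.one_rpow] at h2
  exact absurd h2 (Real.rpow_lt_one (by norm_num) (by norm_num) (by norm_num)).ne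

end Crest.Agent.R17
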