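import Crest.Agent.R17.ThetaArith

/-!
# Row 17, theta module F: the norm formula; `θ_Y` is Cauchy in `L²(Γ \ H)` as `Y → 0`
-/

set_option autoImplicit false

noncomputable section

namespace Crest.Agent.R17

open scoped ComplexConjugate ENNReal Topology
open MeasureTheory Filter

/-- The square of the norm on `Δ \ H`. -/
def N2 (Δ : Subgroup SL2) (f : H → ℂ) : ℝ≥0∞ :=
  ∫⁻ w, ENNReal.ofReal (wOf Δ w) * ‖f w‖ₑ ^ 2 ∂μH

/-- `Φ(ε) = ∫ e^{-u} u^{1/3} Φ₀(ε / u) du`. -/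
def Phi1 (ε : ℝ) : ℂ :=
  ∫ u in Set.Ioi (0 : ℝ), ((Real.exp (-u) * u ^ (1 / 3 : ℝ) : ℝ) : ℂ) * Phi0 (ε / u)

theorem tn1_measurable_Phi0 : Measurable Phi0 := by
  unfold Phi0
  refine Measurable.mul (Complex.measurable_ofReal.comp (measurable_id.pow_const _)) ?_
  refine Measurable.tsum (fun c => ?_)
  refine Measurable.const_mul (Complex.measurable_ofReal.comp ?_) _
  fun_prop

theorem tn1_integrableOn_gamma {s : ℝ} (hs : 0 ≤ s) :
    IntegrableOn (fun u : ℝ => Real.exp (-u) * u ^ s) (Set.Ioi 0) := by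
  have := Real.GammaIntegral_convergent (s := s + 1) (by linarith)
  simpa using this

theorem tn1_integrableOn_Phi1 {ε : ℝ} (hε : 0 < ε) :
    IntegrableOn (fun u : ℝ => ((Real.exp (-u) * u ^ (1 / 3 : ℝ) : ℝ) : ℂ) * Phi0 (ε / u))
      (Set.Ioi 0) := by
  obtain ⟨ρ, C, -, -, hC⟩ := phi0_tendsto
  refine Integrable.mono' ((tn1_integrableOn_gamma (s := 1 / 3) (by norm_num)).mul_const C) ?_ ?_
  · refine Measurable.aestronglyMeasurable ?_
    refine Measurable.mul (Complex.measurable_ofReal.comp ?_)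
      (tn1_measurable_Phi0.comp (measurable_const.div measurable_id))
    exact (Real.measurable_exp.comp measurable_neg).mul (measurable_id.pow_const _)
  · refine (ae_restrict_iff' measurableSet_Ioi).2 (Eventually.of_forall fun u hu => ?_)
    have hu : 0 < u := hu
    rw [norm_mul, Complex.norm_real, Real.norm_of_nonneg (by positivity)]
    exact mul_le_mul_of_nonneg_left (hC _ (by positivity)) (by positivity)

theorem phi1_tendsto : ∃ ρ : ℂ, Tendsto Phi1 (𝓝[>] 0) (𝓝 ρ) := by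
  obtain ⟨ρ, C, -, hρ, hC⟩ := phi0_tendsto
  refine ⟨∫ u in Set.Ioi (0 : ℝ), ((Real.exp (-u) * u ^ (1 / 3 : ℝ) : ℝ) : ℂ) * (ρ : ℂ), ?_⟩
  unfold Phi1
  refine tendsto_integral_filter_of_dominated_convergence
    (fun u : ℝ => Real.exp (-u) * u ^ (1 / 3 : ℝ) * C) ?_ ?_
    ((tn1_integrableOn_gamma (s := 1 / 3) (by norm_num)).mul_const C) ?_
  · filter_upwards [self_mem_nhdsWithin] with ε hε
    exact (tn1_integrableOn_Phi1 hε).aestronglyMeasurable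
  · filter_upwards [self_mem_nhdsWithin] with ε hε
    have hε : 0 < ε := hε
    refine (ae_restrict_iff' measurableSet_Ioi).2 (Eventually.of_forall fun u hu => ?_)
    have hu : 0 < u := hu
    rw [norm_mul, Complex.norm_real, Real.norm_of_nonneg (by positivity)]
    exact mul_le_mul_of_nonneg_left (hC _ (by positivity)) (by positivity)
  · refine (ae_restrict_iff' measurableSet_Ioi).2 (Eventually.of_forall fun u hu => ?_)
    have hu : 0 < u := hu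
    refine Tendsto.const_mul _ (hρ.comp ?_)
    refine tendsto_nhdsWithin_iff.2 ⟨?_, ?_⟩
    · have : Tendsto (fun ε : ℝ => ε / u) (𝓝 0) (𝓝 (0 / u)) := tendsto_id.div_const u
      rw [zero_div] at this
      exact this.mono_left nhdsWithin_le_nhds
    · filter_upwards [self_mem_nhdsWithin] with ε hε
      exact div_pos hε hu

/-- The substitution `u = A / y`. -/
theorem tn1_subst {A : ℝ} (hA : 0 < A) (g : ℝ → ℂ) :
    (IntegrableOn g (Set.Ioi 0) ↔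
      IntegrableOn (fun y : ℝ => (A / y ^ 2) • g (A / y)) (Set.Ioi 0)) ∧
    ∫ u in Set.Ioi (0 : ℝ), g u = ∫ y in Set.Ioi (0 : ℝ), (A / y ^ 2) • g (A / y) := by
  have hd : ∀ y ∈ Set.Ioi (0 : ℝ),
      HasDerivWithinAt (fun y : ℝ => A / y) (-(A / y ^ 2)) (Set.Ioi 0) y := by
    intro y hy0
    have hy0 : (0 : ℝ) < y := hy0
    have := (hasDerivAt_inv hy0.ne').const_mul A
    refine HasDerivAt.hasDerivWithinAt ?_
    simp only [div_eq_mul_inv]
    rw [← mul_neg]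
    exact this
  have hi : Set.InjOn (fun y : ℝ => A / y) (Set.Ioi 0) := by
    intro y hy0 y' hy' h
    have hy0 : (0 : ℝ) < y := hy0
    have hy' : (0 : ℝ) < y' := hy'
    simp only at h
    rw [div_eq_div_iff hy0.ne' hy'.ne'] at h
    exact (mul_left_cancel₀ hA.ne' h).symm
  have him : (fun y : ℝ => A / y) '' Set.Ioi 0 = Set.Ioi 0 := by
    ext u
    constructor
    · rintro ⟨y, hy0, rfl⟩
      exact div_pos hA hy0
    · intro hu
      have hu : (0 : ℝ) < u := hu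
      exact ⟨A / u, div_pos hA hu, by field_simp⟩
  have h1 := integrableOn_image_iff_integrableOn_abs_deriv_smul measurableSet_Ioi hd hi g
  have h2 := integral_image_eq_integral_abs_deriv_smul measurableSet_Ioi hd hi g
  rw [him] at h1 h2
  have habs : ∀ y : ℝ, |-(A / y ^ 2)| = A / y ^ 2 := fun y => by
    rw [abs_neg, abs_of_nonneg (by positivity)]
  simp only [habs] at h1 h2
  exact ⟨h1, h2⟩

theorem tn1_Acoef_zero {Y y : ℝ} (hY : 0 < Y) (hy0 : 0 < y) :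
    Acoef xi Y 0 y = ((Y ^ (4 / 3 : ℝ) * Real.exp (-Y / y) : ℝ) : ℂ) +
      (k1 : ℂ) * (((y ^ (2 / 3 : ℝ) : ℝ) : ℂ) * Phi0 (y * Y)) := by
  have h0 : b1 * nr (0 : O) = 0 := by
    have : nm (0 : O) = 0 := nm_eq_zero.2 rfl
    simp [nr, this]
  unfold Acoef
  rw [if_pos rfl, tsum_xi_zero, one_mul, h0, Sk_xi_zero hY hy0]

theorem tn1_mean {Y y : ℝ} (hY : 0 < Y) (hy0 : 0 < y) :
    ∫ z : ℂ, (wt 9 z : ℂ) * thY xi Y (hp z y) = V0 * Acoef xi Y 0 y := by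
  have hx : XiOK xi := xis_one ▸ xiOK_xis 1
  obtain ⟨h1, h2⟩ := thY_fourier hx hY hy0
  have := integral_wt_tsum (N := 9) (by norm_num) (ξ := fun r => ι r / 9)
    (fun r => by
      constructor
      · intro h
        apply ι_injective
        rw [map_zero]
        simpa using h
      · rintro rfl; simp)
    (fun r => ⟨r, by push_cast; ring⟩) h1
  rw [← this]
  refine integral_congr_ae (Eventually.of_forall fun z => ?_)
  simp only [h2]
  congr 1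
  refine tsum_congr fun r => ?_
  congr 2
  ring

theorem tn1_integrable_seed {Y Y' : ℝ} (hY : 0 < Y) (hY' : 0 < Y') :
    Integrable (fun w => thY xi Y w * conj (seed 9 Y' w)) μH := by
  have hx : XiOK xi := xis_one ▸ xiOK_xis 1
  obtain ⟨C, hC⟩ := norm_thY_le hY
  refine integrable_mul_seed (C := 2 * |C|) (continuous_thY hx hY).measurable (fun w => ?_) 9 hY'
  have hw := hy_pos w
  have h4 : 0 ≤ hy w ^ (-(4 : ℝ)) := by positivity
  have h1 : (hy w)⁻¹ ≤ hy w ^ (-(4 : ℝ)) + 1 := by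
    rcases le_total (hy w) 1 with h | h
    · have : hy w ^ (-(1 : ℝ)) ≤ hy w ^ (-(4 : ℝ)) :=
        Real.rpow_le_rpow_of_exponent_ge hw h (by norm_num)
      rw [Real.rpow_neg_one] at this
      linarith
    · have : (hy w)⁻¹ ≤ 1 := inv_le_one_of_one_le₀ h
      linarith
  have h2 : 0 ≤ (hy w)⁻¹ := by positivity
  calc ‖thY xi Y w‖ ≤ C * (1 + (hy w)⁻¹) := hC xi hx w
    _ ≤ |C| * (1 + (hy w)⁻¹) := mul_le_mul_of_nonneg_right (le_abs_self C) (by positivity)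
    _ ≤ |C| * (2 * (hy w + hy w ^ (-(4 : ℝ)) + 1)) :=
        mul_le_mul_of_nonneg_left (by linarith) (abs_nonneg C)
    _ = _ := by ring

theorem tn1_radial {Y Y' : ℝ} (hY : 0 < Y) (hY' : 0 < Y') :
    ∫ y in Set.Ioi (0 : ℝ), Acoef xi Y 0 y * ((Y' ^ (4 / 3 : ℝ) * Real.exp (-Y' / y) : ℝ) : ℂ) *
        (((y ^ 3)⁻¹ : ℝ) : ℂ) =
      (((Y * Y') ^ (4 / 3 : ℝ) / (Y + Y') ^ 2 : ℝ) : ℂ) + k1 * Phi1 (Y * Y') := by
  have hA : 0 < Y + Y' := by positivity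
  obtain ⟨a1, a2⟩ := tn1_subst hA (fun u : ℝ =>
    (((Y * Y') ^ (4 / 3 : ℝ) / (Y + Y') ^ 2 : ℝ) : ℂ) * ((Real.exp (-u) * u ^ (1 : ℝ) : ℝ) : ℂ))
  obtain ⟨b1', b2⟩ := tn1_subst hY' (fun u : ℝ =>
    (k1 : ℂ) * (((Real.exp (-u) * u ^ (1 / 3 : ℝ) : ℝ) : ℂ) * Phi0 (Y * Y' / u)))
  have i1 := a1.1 ((tn1_integrableOn_gamma (s := 1) (by norm_num)).ofReal.const_mul _)
  have i2 := b1'.1 ((tn1_integrableOn_Phi1 (mul_pos hY hY')).const_mul _)
  have g1 : ∫ u in Set.Ioi (0 : ℝ), Real.exp (-u) * u ^ (1 : ℝ) = 1 := by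
    have := Real.Gamma_eq_integral (s := 2) (by norm_num)
    rw [Real.Gamma_two, show (2 : ℝ) - 1 = 1 by norm_num] at this
    exact this.symm
  rw [integral_const_mul, integral_complex_ofReal, g1] at a2
  rw [integral_const_mul] at b2
  have e1 : (((Y * Y') ^ (4 / 3 : ℝ) / (Y + Y') ^ 2 : ℝ) : ℂ) =
      (((Y * Y') ^ (4 / 3 : ℝ) / (Y + Y') ^ 2 : ℝ) : ℂ) * ((1 : ℝ) : ℂ) := by simp
  unfold Phi1
  rw [e1, a2, b2, ← integral_add i1 i2]
  refine setIntegral_congr_fun measurableSet_Ioi (fun y hy0 => ?_)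
  have hy0 : (0 : ℝ) < y := hy0
  rw [tn1_Acoef_zero hY hy0, show Y * Y' / (Y' / y) = y * Y by field_simp]
  have r1 : Y ^ (4 / 3 : ℝ) * Real.exp (-Y / y) * (Y' ^ (4 / 3 : ℝ) * Real.exp (-Y' / y)) *
      (y ^ 3)⁻¹ = (Y + Y') / y ^ 2 * ((Y * Y') ^ (4 / 3 : ℝ) / (Y + Y') ^ 2 *
        (Real.exp (-((Y + Y') / y)) * ((Y + Y') / y) ^ (1 : ℝ))) := by
    rw [Real.rpow_one, Real.mul_rpow hY.le hY'.le,
      show -((Y + Y') / y) = -Y / y + -Y' / y by ring, Real.exp_add]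
    field_simp
  have r2 : y ^ (2 / 3 : ℝ) * (Y' ^ (4 / 3 : ℝ) * Real.exp (-Y' / y)) * (y ^ 3)⁻¹ =
      Y' / y ^ 2 * (Real.exp (-(Y' / y)) * (Y' / y) ^ (1 / 3 : ℝ)) := by
    have s1 : Y' ^ (4 / 3 : ℝ) = Y' * Y' ^ (1 / 3 : ℝ) := by
      rw [show (4 / 3 : ℝ) = 1 + 1 / 3 by norm_num, Real.rpow_add hY', Real.rpow_one]
    have s2 : y ^ (2 / 3 : ℝ) = y / y ^ (1 / 3 : ℝ) := by
      rw [show (2 / 3 : ℝ) = 1 - 1 / 3 by norm_num, Real.rpow_sub hy0, Real.rpow_one]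
    have s3 : 0 < y ^ (1 / 3 : ℝ) := by positivity
    rw [s1, s2, Real.div_rpow hY'.le hy0.le, neg_div]
    field_simp
  have r1' := congrArg (fun t : ℝ => (t : ℂ)) r1
  have r2' := congrArg (fun t : ℝ => (t : ℂ)) r2
  simp only [Complex.ofReal_mul] at r1' r2'
  simp only [Complex.real_smul, Complex.ofReal_mul]
  linear_combination r1' + (k1 : ℂ) * Phi0 (y * Y) * r2'

/-- The inner product formula (`IsWt.inner_unfold`, `integral_μH`, `integral_wt_tsum`). -/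
theorem inner_thY {Y Y' : ℝ} (hY : 0 < Y) (hY' : 0 < Y') :
    Integrable (fun w => (wOf Gam w : ℂ) * (thY xi Y w * conj (thY xi Y' w))) μH ∧
    ∫ w, (wOf Gam w : ℂ) * (thY xi Y w * conj (thY xi Y' w)) ∂μH =
      V0 * ((((Y * Y') ^ (4 / 3 : ℝ) / (Y + Y') ^ 2 : ℝ) : ℂ) + k1 * Phi1 (Y * Y')) := by
  have hx : XiOK xi := xis_one ▸ xiOK_xis 1
  have hint := tn1_integrable_seed hY hY'
  obtain ⟨h1, h2⟩ := (isWt_wOf Gam).inner_unfold (μ := μH)
    (fun γ => measurePreserving_smul_SL (γ : SL2)) (fun γ : Gam => kap γ)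
    (continuous_thY hx hY).measurable (measurable_seed 9 Y')
    (fun γ w => thY_aut γ.2 w) hint (fun w => (thY_eq_tsum (N := 9) (by norm_num) hY' w).1)
  have h3 : ∀ w, thY xi Y' w = ∑' γ : Gam, conj (kap γ) * seed 9 Y' (γ • w) :=
    fun w => (thY_eq_tsum (N := 9) (by norm_num) hY' w).2
  simp only [← h3] at h1 h2
  refine ⟨h1, ?_⟩
  rw [h2, integral_μH hint, ← tn1_radial hY hY', ← integral_const_mul]
  refine setIntegral_congr_fun measurableSet_Ioi (fun y hy0 => ?_)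
  have hy0 : (0 : ℝ) < y := hy0
  have e : ∀ z : ℂ, thY xi Y (hp z y) * conj (seed 9 Y' (hp z y)) =
      (wt 9 z : ℂ) * thY xi Y (hp z y) * ((Y' ^ (4 / 3 : ℝ) * Real.exp (-Y' / y) : ℝ) : ℂ) := by
    intro z
    unfold seed
    rw [Complex.conj_ofReal, hy_hp z hy0, hp_fst, Complex.ofReal_mul]
    ring
  simp only [e]
  rw [integral_mul_const, tn1_mean hY hy0]
  ring

theorem tn1_N2_eq {f : H → ℂ}
    (hf : Integrable (fun w => (wOf Gam w : ℂ) * (f w * conj (f w))) μH) :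
    N2 Gam f = ENNReal.ofReal ‖∫ w, (wOf Gam w : ℂ) * (f w * conj (f w)) ∂μH‖ := by
  have h0 : ∀ w, 0 ≤ wOf Gam w := (isWt_wOf Gam).nonneg
  have e : ∀ w, (wOf Gam w : ℂ) * (f w * conj (f w)) = ((wOf Gam w * ‖f w‖ ^ 2 : ℝ) : ℂ) := by
    intro w
    rw [Complex.mul_conj, Complex.normSq_eq_norm_sq]
    push_cast
    ring
  simp only [e] at hf ⊢
  have hn : ∀ w, 0 ≤ wOf Gam w * ‖f w‖ ^ 2 := fun w => mul_nonneg (h0 w) (by positivity)
  have hf' : Integrable (fun w => wOf Gam w * ‖f w‖ ^ 2) μH := by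
    refine hf.norm.congr (Eventually.of_forall fun w => ?_)
    simp only
    rw [Complex.norm_real, Real.norm_of_nonneg (hn w)]
  rw [integral_complex_ofReal, Complex.norm_real, Real.norm_of_nonneg (integral_nonneg hn),
    ofReal_integral_eq_lintegral_ofReal hf' (Eventually.of_forall hn)]
  unfold N2
  refine lintegral_congr fun w => ?_
  rw [ENNReal.ofReal_mul (h0 w), ENNReal.ofReal_pow (norm_nonneg _), ofReal_norm]

theorem tn1_close : ∃ L : ℂ, ∀ η : ℝ, 0 < η → ∃ δ : ℝ, 0 < δ ∧ ∀ Y ∈ Set.Ioo 0 δ,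
    ∀ Y' ∈ Set.Ioo 0 δ,
      ‖∫ w, (wOf Gam w : ℂ) * (thY xi Y w * conj (thY xi Y' w)) ∂μH - L‖ ≤ η := by
  obtain ⟨ρ, hρ⟩ := phi1_tendsto
  refine ⟨V0 * (k1 * ρ), fun η hη => ?_⟩
  have t1 : Tendsto (fun p : ℝ => p ^ (1 / 3 : ℝ)) (𝓝[>] 0) (𝓝 0) := by
    have := (Real.continuousAt_rpow_const 0 (1 / 3) (Or.inr (by norm_num))).tendsto
    rw [Real.zero_rpow (by norm_num)] at this
    exact this.mono_left nhdsWithin_le_nhds
  have t2 : Tendsto (fun p : ℝ => ‖Phi1 p - ρ‖) (𝓝[>] 0) (𝓝 0) :=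
    tendsto_iff_norm_sub_tendsto_zero.1 hρ
  have t3 : Tendsto (fun p : ℝ => V0 * (p ^ (1 / 3 : ℝ) + k1 * ‖Phi1 p - ρ‖)) (𝓝[>] 0) (𝓝 0) := by
    have := (t1.add (t2.const_mul k1)).const_mul V0
    simpa using this
  obtain ⟨δ, hδ, hsub⟩ := (mem_nhdsGT_iff_exists_Ioo_subset).1 (t3.eventually (gt_mem_nhds hη))
  have hδ : 0 < δ := hδ
  refine ⟨min δ 1, lt_min hδ one_pos, fun Y hY Y' hY' => ?_⟩
  have hp0 : 0 < Y * Y' := mul_pos hY.1 hY'.1
  have hpδ : Y * Y' < δ := by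
    have a1 : Y < δ := hY.2.trans_le (min_le_left _ _)
    have a2 : Y' < 1 := hY'.2.trans_le (min_le_right _ _)
    nlinarith [hY.1]
  have hlt : V0 * ((Y * Y') ^ (1 / 3 : ℝ) + k1 * ‖Phi1 (Y * Y') - ρ‖) < η := hsub ⟨hp0, hpδ⟩
  refine le_trans ?_ hlt.le
  rw [(inner_thY hY.1 hY'.1).2, ← mul_sub, norm_mul, Complex.norm_real,
    Real.norm_of_nonneg V0_pos.le, add_sub_assoc, ← mul_sub]
  refine mul_le_mul_of_nonneg_left ((norm_add_le _ _).trans (add_le_add ?_ ?_)) V0_pos.le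
  · have hA : 0 < Y + Y' := add_pos hY.1 hY'.1
    rw [Complex.norm_real, Real.norm_of_nonneg (by positivity), div_le_iff₀ (by positivity),
      show (4 / 3 : ℝ) = 1 / 3 + 1 by norm_num, Real.rpow_add hp0, Real.rpow_one]
    refine mul_le_mul_of_nonneg_left ?_ (by positivity)
    nlinarith [sq_nonneg (Y - Y')]
  · rw [norm_mul, Complex.norm_real, Real.norm_of_nonneg k1_pos.le]

theorem N2_thY_le : ∃ C δ : ℝ, 0 < δ ∧ ∀ Y ∈ Set.Ioo 0 δ, N2 Gam (thY xi Y) ≤ ENNReal.ofReal C := by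
  obtain ⟨L, hL⟩ := tn1_close
  obtain ⟨δ, hδ, h⟩ := hL 1 one_pos
  refine ⟨‖L‖ + 1, δ, hδ, fun Y hY => ?_⟩
  rw [tn1_N2_eq (inner_thY hY.1 hY.1).1]
  refine ENNReal.ofReal_le_ofReal ?_
  have := h Y hY Y hY
  have h2 := norm_sub_norm_le (∫ w, (wOf Gam w : ℂ) * (thY xi Y w * conj (thY xi Y w)) ∂μH) L
  linarith

theorem N2_cauchy {ε : ℝ≥0∞} (hε : 0 < ε) : ∃ δ : ℝ, 0 < δ ∧ ∀ Y ∈ Set.Ioo 0 δ, ∀ Y' ∈ Set.Ioo 0 δ,
    N2 Gam (thY xi Y - thY xi Y') ≤ ε := by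
  obtain ⟨L, hL⟩ := tn1_close
  obtain ⟨η, -, hη, hηε⟩ := ENNReal.lt_iff_exists_real_btwn.1 hε
  have hη0 : 0 < η := ENNReal.ofReal_pos.1 hη
  obtain ⟨δ, hδ, h⟩ := hL (η / 4) (by positivity)
  refine ⟨δ, hδ, fun Y hY Y' hY' => le_trans ?_ hηε.le⟩
  have i1 := (inner_thY hY.1 hY.1).1
  have i2 := (inner_thY hY.1 hY'.1).1
  have i3 := (inner_thY hY'.1 hY.1).1
  have i4 := (inner_thY hY'.1 hY'.1).1
  have e : ∀ w, (wOf Gam w : ℂ) * ((thY xi Y - thY xi Y') w * conj ((thY xi Y - thY xi Y') w)) =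
      ((wOf Gam w : ℂ) * (thY xi Y w * conj (thY xi Y w)) -
        (wOf Gam w : ℂ) * (thY xi Y w * conj (thY xi Y' w))) -
      ((wOf Gam w : ℂ) * (thY xi Y' w * conj (thY xi Y w)) -
        (wOf Gam w : ℂ) * (thY xi Y' w * conj (thY xi Y' w))) := by
    intro w
    simp only [Pi.sub_apply, map_sub]
    ring
  have i5 : Integrable (fun w => (wOf Gam w : ℂ) *
      ((thY xi Y - thY xi Y') w * conj ((thY xi Y - thY xi Y') w))) μH := by
    simp only [e]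
    exact (i1.sub i2).sub (i3.sub i4)
  rw [tn1_N2_eq i5]
  refine ENNReal.ofReal_le_ofReal ?_
  simp only [e]
  have j := integral_sub (i1.sub i2) (i3.sub i4)
  simp only [Pi.sub_apply] at j
  rw [j, integral_sub i1 i2, integral_sub i3 i4]
  have b1 := h Y hY Y hY
  have b2 := h Y hY Y' hY'
  have b3 := h Y' hY' Y hY
  have b4 := h Y' hY' Y' hY'
  generalize ∫ w, (wOf Gam w : ℂ) * (thY xi Y w * conj (thY xi Y w)) ∂μH = A at b1 ⊢
  generalize ∫ w, (wOf Gam w : ℂ) * (thY xi Y w * conj (thY xi Y' w)) ∂μH = B at b2 ⊢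
  generalize ∫ w, (wOf Gam w : ℂ) * (thY xi Y' w * conj (thY xi Y w)) ∂μH = C at b3 ⊢
  generalize ∫ w, (wOf Gam w : ℂ) * (thY xi Y' w * conj (thY xi Y' w)) ∂μH = D at b4 ⊢
  rw [show A - B - (C - D) = ((A - L) - (B - L)) - ((C - L) - (D - L)) by ring]
  have c1 := norm_sub_le ((A - L) - (B - L)) ((C - L) - (D - L))
  have c2 := norm_sub_le (A - L) (B - L)
  have c3 := norm_sub_le (C - L) (D - L)
  linarith

/-- The norm on a strip in terms of the coefficients. -/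
theorem NormF2.lintegral_strip {g : H → ℂ} {A : O → ℝ → ℂ} (hg : Measurable g)
    (hA : ∀ r, Measurable (A r))
    (hF : ∀ y, 0 < y → (Summable fun r => ‖A r y‖) ∧
      ∀ z, g (hp z y) = ∑' r, A r y * eC (ι r * z / 9))
    {S : Set ℝ} (hS : MeasurableSet S) (hS0 : S ⊆ Set.Ioi 0) {m : ℕ} (hm : m ≠ 0) (t : ℂ) :
    ∫⁻ w, (hy ⁻¹' S).indicator (fun w : H => ENNReal.ofReal (wt (9 * m) (w.1 - t))) w *
        ‖g w‖ₑ ^ 2 ∂μH =
      ENNReal.ofReal V0 * ∑' r, ∫⁻ y in S, ‖A r y‖ₑ ^ 2 * ENNReal.ofReal (y ^ 3)⁻¹ := by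
  have hm1 : Measurable fun w : H => ENNReal.ofReal (wt (9 * m) (w.1 - t)) :=
    ((measurable_wt _).comp (measurable_fst.sub_const t)).ennreal_ofReal
  have hm2 : Measurable fun y : ℝ => ENNReal.ofReal (y ^ 3)⁻¹ := by fun_prop
  have hm3 : Measurable fun w : H => (hy ⁻¹' S).indicator
      (fun w : H => ENNReal.ofReal (wt (9 * m) (w.1 - t))) w * ‖g w‖ₑ ^ 2 :=
    (hm1.indicator (continuous_hy.measurable hS)).mul (hg.enorm.pow_const 2)
  have hm4 : ∀ r, AEMeasurable (fun y : ℝ => ‖A r y‖ₑ ^ 2 * ENNReal.ofReal (y ^ 3)⁻¹)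
      (volume.restrict S) := fun r => (((hA r).enorm.pow_const 2).mul hm2).aemeasurable
  rw [lintegral_μH hm3, ← lintegral_tsum hm4,
    ← lintegral_const_mul' _ _ ENNReal.ofReal_ne_top]
  have h1 : ∫⁻ y in S, ENNReal.ofReal V0 * ∑' r, ‖A r y‖ₑ ^ 2 * ENNReal.ofReal (y ^ 3)⁻¹ =
      ∫⁻ y in Set.Ioi (0 : ℝ), S.indicator (fun y =>
        ENNReal.ofReal V0 * ∑' r, ‖A r y‖ₑ ^ 2 * ENNReal.ofReal (y ^ 3)⁻¹) y := by
    rw [lintegral_indicator hS, Measure.restrict_restrict hS, Set.inter_eq_left.2 hS0]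
  rw [h1]
  refine setLIntegral_congr_fun measurableSet_Ioi fun y hy0 => ?_
  have hy0' : 0 < y := hy0
  by_cases hyS : y ∈ S
  · have h2 : ∀ z : ℂ, (hy ⁻¹' S).indicator
        (fun w : H => ENNReal.ofReal (wt (9 * m) (w.1 - t))) (hp z y) =
        ENNReal.ofReal (wt (9 * m) (z - t)) := fun z =>
      Set.indicator_of_mem (by simpa [hy_hp z hy0'] using hyS) _
    simp only [h2, (hF y hy0').2, Set.indicator_of_mem hyS]
    rw [parseval hm t (hF y hy0').1, ENNReal.tsum_mul_right, mul_assoc]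
  · have h2 : ∀ z : ℂ, (hy ⁻¹' S).indicator
        (fun w : H => ENNReal.ofReal (wt (9 * m) (w.1 - t))) (hp z y) = 0 := fun z =>
      Set.indicator_of_notMem (by simpa [hy_hp z hy0'] using hyS) _
    simp [h2, Set.indicator_of_notMem hyS]

/-- Passing from the global norm to the Fourier coefficients at the cusp `σ ∞`
(`parseval`, `lintegral_μH`, `IsWt.lintegral_le`, `tsum_strip_le`). -/
theorem strip_le_N2 : ∃ C : ℝ, 0 < C ∧ ∀ (f : H → ℂ) (σ : SL2) (A : O → ℝ → ℂ) (a : ℝ),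
    Measurable f → (∀ γ ∈ Gam, ∀ w, ‖f (γ • w)‖ = ‖f w‖) → (∀ r, Measurable (A r)) →
    (∀ y, 0 < y → (Summable fun r => ‖A r y‖) ∧
      ∀ z, f (σ • hp z y) = ∑' r, A r y * eC (ι r * z / 9)) → 0 < a →
    ∑' r, ∫⁻ y in Set.Ioi a, ‖A r y‖ₑ ^ 2 * ENNReal.ofReal (y ^ 3)⁻¹ ≤
      ENNReal.ofReal (C * (1 + (a ^ 2)⁻¹)) * N2 Gam f := by
  obtain ⟨C, hC, h⟩ := tsum_strip_le
  refine ⟨V0⁻¹ * C, mul_pos (inv_pos.2 V0_pos) hC, fun f σ A a hf hinv hA hF ha => ?_⟩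
  have hσ : Measurable fun w : H => σ • w := (continuous_smul_SL σ).measurable
  have hσ' : Measurable fun w : H => σ⁻¹ • w := (continuous_smul_SL σ⁻¹).measurable
  have key := NormF2.lintegral_strip (g := fun w => f (σ • w)) (hf.comp hσ) hA hF
    (S := Set.Ioi a) measurableSet_Ioi (Set.Ioi_subset_Ioi ha.le) one_ne_zero 0
  set φ : H → ℝ≥0∞ := (hy ⁻¹' Set.Ioi a).indicator
    (fun w : H => ENNReal.ofReal (wt (9 * 1) (w.1 - 0))) with hφ
  have hφm : Measurable φ :=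
    (((measurable_wt _).comp (measurable_fst.sub_const 0)).ennreal_ofReal).indicator
      (continuous_hy.measurable measurableSet_Ioi)
  have hFm : Measurable fun w => ‖f w‖ₑ ^ 2 := hf.enorm.pow_const 2
  have h1 := (isWt_wOf Gam).lintegral_le (μ := μH)
    (fun γ => measurePreserving_smul_SL (γ : SL2)) (φ := fun w => φ (σ⁻¹ • w))
    (F := fun w => ‖f w‖ₑ ^ 2) (hφm.comp hσ') hFm
    (fun γ w => by
      have := hinv γ γ.2 w
      simp only [← ofReal_norm]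
      exact congrArg (fun x => ENNReal.ofReal x ^ 2) this)
    (m := ENNReal.ofReal (C * (1 + (a ^ 2)⁻¹))) (fun w => by
      refine le_trans (le_of_eq (tsum_congr fun δ => ?_)) (h Gam σ (9 * 1) 0 a w (by norm_num) ha)
      by_cases h1 : a < hy (σ⁻¹ • δ • w)
      · rw [if_pos h1, hφ, Set.indicator_of_mem (by exact h1)]
      · rw [if_neg h1, hφ, Set.indicator_of_notMem (by exact h1)])
  have h2 := (measurePreserving_smul_SL σ).lintegral_comp
    (f := fun w => φ (σ⁻¹ • w) * ‖f w‖ₑ ^ 2) ((hφm.comp hσ').mul hFm)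
  simp only [inv_smul_smul] at h2
  rw [← h2, key] at h1
  have hV : ENNReal.ofReal V0⁻¹ * ENNReal.ofReal V0 = 1 := by
    rw [← ENNReal.ofReal_mul (inv_pos.2 V0_pos).le, inv_mul_cancel₀ V0_pos.ne', ENNReal.ofReal_one]
  calc _ = ENNReal.ofReal V0⁻¹ * (ENNReal.ofReal V0 *
        ∑' r, ∫⁻ y in Set.Ioi a, ‖A r y‖ₑ ^ 2 * ENNReal.ofReal (y ^ 3)⁻¹) := by
        rw [← mul_assoc, hV, one_mul]
    _ ≤ ENNReal.ofReal V0⁻¹ * (ENNReal.ofReal (C * (1 + (a ^ 2)⁻¹)) * N2 Gam f) := by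
        exact mul_le_mul_right h1 _
    _ = _ := by rw [← mul_assoc, ← ENNReal.ofReal_mul (inv_pos.2 V0_pos).le, mul_assoc]

/-- Conversely, the norm on a compact set is dominated by the coefficients. -/
theorem compact_le_strip {K : Set H} (hK : IsCompact K) : ∃ (C a a' : ℝ), 0 < a ∧
    ∀ (f : H → ℂ) (A : O → ℝ → ℂ), Measurable f → (∀ r, Measurable (A r)) →
    (∀ y, 0 < y → (Summable fun r => ‖A r y‖) ∧
      ∀ z, f (hp z y) = ∑' r, A r y * eC (ι r * z / 9)) →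
    ∫⁻ w in K, ‖f w‖ₑ ^ 2 ∂μH ≤
      ENNReal.ofReal C * ∑' r, ∫⁻ y in Set.Ioo a a', ‖A r y‖ₑ ^ 2 := by
  obtain ⟨R, hR⟩ := hK.isBounded.exists_norm_le
  obtain ⟨m, t, hm, hw⟩ := exists_wt_ge R
  have hN : (0 : ℝ) < ((9 * m : ℕ) : ℝ) ^ 2 := by positivity
  refine ⟨((9 * m : ℕ) : ℝ) ^ 2 * V0 * (Real.exp (-R - 1) ^ 3)⁻¹, Real.exp (-R - 1),
    Real.exp (R + 1), Real.exp_pos _, fun f A hf hA hF => ?_⟩
  set a := Real.exp (-R - 1) with ha
  set a' := Real.exp (R + 1) with ha'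
  have ha0 : 0 < a := Real.exp_pos _
  have key := NormF2.lintegral_strip hf hA hF (S := Set.Ioo a a') measurableSet_Ioo
    (fun y hy => ha0.trans hy.1) hm t
  calc ∫⁻ w in K, ‖f w‖ₑ ^ 2 ∂μH
      ≤ ∫⁻ w in K, ENNReal.ofReal (((9 * m : ℕ) : ℝ) ^ 2) * ((hy ⁻¹' Set.Ioo a a').indicator
          (fun w : H => ENNReal.ofReal (wt (9 * m) (w.1 - t))) w * ‖f w‖ₑ ^ 2) ∂μH := by
        refine setLIntegral_mono' hK.measurableSet fun w hwK => le_of_eq ?_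
        have h1 : ‖w.1‖ ≤ R := (norm_fst_le w).trans (hR w hwK)
        have h2 : |w.2| ≤ R := (norm_snd_le w).trans (hR w hwK)
        have h3 : w ∈ hy ⁻¹' Set.Ioo a a' :=
          ⟨Real.exp_lt_exp.2 (by linarith [(abs_le.1 h2).1]),
            Real.exp_lt_exp.2 (by linarith [(abs_le.1 h2).2])⟩
        rw [Set.indicator_of_mem h3, hw _ h1, ← mul_assoc, ← ENNReal.ofReal_mul hN.le,
          mul_inv_cancel₀ hN.ne', ENNReal.ofReal_one, one_mul]
    _ ≤ ∫⁻ w, ENNReal.ofReal (((9 * m : ℕ) : ℝ) ^ 2) * ((hy ⁻¹' Set.Ioo a a').indicator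
          (fun w : H => ENNReal.ofReal (wt (9 * m) (w.1 - t))) w * ‖f w‖ₑ ^ 2) ∂μH :=
        setLIntegral_le_lintegral _ _
    _ = ENNReal.ofReal (((9 * m : ℕ) : ℝ) ^ 2) * (ENNReal.ofReal V0 *
          ∑' r, ∫⁻ y in Set.Ioo a a', ‖A r y‖ₑ ^ 2 * ENNReal.ofReal (y ^ 3)⁻¹) := by
        rw [lintegral_const_mul' _ _ ENNReal.ofReal_ne_top, key]
    _ ≤ ENNReal.ofReal (((9 * m : ℕ) : ℝ) ^ 2) * (ENNReal.ofReal V0 *
          ∑' r, ENNReal.ofReal (a ^ 3)⁻¹ * ∫⁻ y in Set.Ioo a a', ‖A r y‖ₑ ^ 2) := by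
        gcongr with r
        rw [← lintegral_const_mul' _ _ ENNReal.ofReal_ne_top]
        refine setLIntegral_mono' measurableSet_Ioo fun y hy => ?_
        rw [mul_comm]
        gcongr
        exact hy.1.le
    _ = _ := by
        rw [ENNReal.tsum_mul_left, ENNReal.ofReal_mul (mul_pos hN V0_pos).le,
          ENNReal.ofReal_mul hN.le, mul_assoc, mul_assoc]

end Crest.Agent.R17
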