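import Crest.Agent.R17.ThetaH

/-!
# Row 17, theta module B: coordinates on `ℂ`, box integrals, counting of primitive vectors
-/

set_option autoImplicit false

noncomputable section

namespace Crest.Agent.R17.UnfB

open scoped ComplexConjugate ENNReal
open MeasureTheory

/-- First coordinate in the basis `1, ω`. -/
def cs (z : ℂ) : ℝ := z.re + z.im / Real.sqrt 3

/-- Second coordinate in the basis `1, ω`. -/
def ct (z : ℂ) : ℝ := 2 * z.im / Real.sqrt 3

theorem s3 : 0 < Real.sqrt 3 := Real.sqrt_pos.2 (by norm_num)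

theorem one_le_s3 : 1 ≤ Real.sqrt 3 := Real.one_le_sqrt.2 (by norm_num)

theorem coord (z : ℂ) : z = cs z + ct z * omC := by
  have h3 := s3
  apply Complex.ext
  · simp only [cs, ct, omC, Complex.add_re, Complex.ofReal_re, Complex.re_ofReal_mul]
    ring
  · simp only [cs, ct, omC, Complex.add_im, Complex.ofReal_im, Complex.im_ofReal_mul]
    field_simp
    ring

theorem cs_add (z : ℂ) (a b : ℝ) : cs (z + (a + b * omC)) = cs z + a := by
  have h3 := s3
  simp only [cs, omC, Complex.add_re, Complex.ofReal_re, Complex.re_ofReal_mul, Complex.add_im,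
    Complex.ofReal_im, Complex.im_ofReal_mul]
  field_simp
  ring

theorem ct_add (z : ℂ) (a b : ℝ) : ct (z + (a + b * omC)) = ct z + b := by
  have h3 := s3
  simp only [ct, omC, Complex.add_im, Complex.ofReal_im, Complex.im_ofReal_mul]
  field_simp
  ring

theorem measurable_cs : Measurable cs := by unfold cs; fun_prop

theorem measurable_ct : Measurable ct := by unfold ct; fun_prop

theorem mp : MeasurePreserving (fun z : ℂ => (z.im, cs z)) volume (volume.prod volume) := by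
  have h1 : MeasurePreserving (fun p : ℝ × ℝ => (p.1, p.2 + p.1 / Real.sqrt 3))
      ((volume : Measure ℝ).prod volume) ((volume : Measure ℝ).prod volume) :=
    (MeasurePreserving.id volume).skew_product (g := fun y x : ℝ => x + y / Real.sqrt 3)
      (by fun_prop) (Filter.Eventually.of_forall fun y => map_add_right_eq_self _ _)
  exact h1.comp ((Measure.measurePreserving_swap (μ := (volume : Measure ℝ)) (ν := volume)).comp
    Complex.volume_preserving_equiv_real_prod)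

theorem integral_coord {F G : ℝ → ℂ} (hF : Integrable F) (hG : Integrable G) :
    Integrable (fun z : ℂ => F (cs z) * G (ct z)) ∧
      ∫ z : ℂ, F (cs z) * G (ct z) = (Real.sqrt 3 / 2 : ℝ) * ((∫ x, F x) * ∫ x, G x) := by
  have h3 := s3
  have hc : 2 / Real.sqrt 3 ≠ 0 := by positivity
  have hG' : Integrable fun y : ℝ => G (2 / Real.sqrt 3 * y) := hG.comp_mul_left' hc
  have hI := hG'.mul_prod hF
  have e : ∀ z : ℂ, F (cs z) * G (ct z) =
      (fun p : ℝ × ℝ => G (2 / Real.sqrt 3 * p.1) * F p.2) (z.im, cs z) := by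
    intro z
    simp only [ct]
    rw [mul_comm]
    congr 2
    ring
  simp only [e]
  refine ⟨mp.integrable_comp_of_integrable hI, ?_⟩
  have h1 := integral_map (μ := (volume : Measure ℂ)) mp.measurable.aemeasurable
    (f := fun p : ℝ × ℝ => G (2 / Real.sqrt 3 * p.1) * F p.2)
    (by rw [mp.map_eq]; exact hI.aestronglyMeasurable)
  rw [← h1, mp.map_eq, integral_prod_mul (fun y : ℝ => G (2 / Real.sqrt 3 * y)) F,
    Measure.integral_comp_mul_left, inv_div, abs_of_pos (by positivity), Complex.real_smul]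
  ring

/-- A truncated exponential. -/
def ex (N : ℕ) (k : ℤ) : ℝ → ℂ :=
  (Set.Ico (0 : ℝ) N).indicator fun s => Complex.exp (2 * Real.pi * Complex.I * k / N * s)

theorem integrable_ex (N : ℕ) (k : ℤ) : Integrable (ex N k) := by
  refine IntegrableOn.integrable_indicator ?_ measurableSet_Ico
  exact (Continuous.integrableOn_Icc (by fun_prop)).mono_set Set.Ico_subset_Icc_self

theorem integral_ex {N : ℕ} (hN : N ≠ 0) (k : ℤ) :
    ∫ x, ex N k x = if k = 0 then (N : ℂ) else 0 := by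
  rw [ex, integral_indicator measurableSet_Ico, integral_Ico_eq_integral_Ioc,
    ← intervalIntegral.integral_of_le (Nat.cast_nonneg N)]
  have hN' : (N : ℂ) ≠ 0 := by exact_mod_cast hN
  split_ifs with hk
  · simp [hk]
  · have hk' : (k : ℂ) ≠ 0 := by exact_mod_cast hk
    have hpi : (Real.pi : ℂ) ≠ 0 := by exact_mod_cast Real.pi_ne_zero
    rw [integral_exp_mul_complex (by simp [hk', hN', hpi])]
    have : 2 * Real.pi * Complex.I * k / N * ((N : ℝ) : ℂ) = k * (2 * Real.pi * Complex.I) := by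
      push_cast
      field_simp
    rw [this, Complex.exp_int_mul_two_pi_mul_I]
    simp

theorem eC_coord (m : O) (N : ℕ) (z : ℂ) : eC (ι m / N * z) =
    Complex.exp (2 * Real.pi * Complex.I * m.im / N * cs z) *
      Complex.exp (2 * Real.pi * Complex.I * (m.re - m.im : ℤ) / N * ct z) := by
  have h3 : ((Real.sqrt 3 : ℝ) : ℂ) ≠ 0 := by exact_mod_cast s3.ne'
  have h1 : (ι m * z).im = Real.sqrt 3 / 2 * (m.re * ct z + m.im * cs z - m.im * ct z) := by
    rw [← pois_im, ← coord z]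
    simp only [Complex.ofReal_intCast]
    rfl
  have h2 : ι m / N * z = ι m * z / ((N : ℝ) : ℂ) := by
    push_cast
    ring
  rw [← Complex.exp_add, h2, eC, Complex.div_ofReal_im, h1]
  congr 1
  push_cast
  field_simp
  ring

theorem mem_Ico_iff (N : ℕ) (s : ℝ) (j : ℤ) :
    s + j ∈ Set.Ico (0 : ℝ) N ↔ j ∈ Finset.Ico ⌈-s⌉ (⌈-s⌉ + N) := by
  rw [Set.mem_Ico, Finset.mem_Ico, Int.ceil_le, ← sub_lt_iff_lt_add, Int.lt_ceil]
  push_cast
  constructor <;> rintro ⟨h1, h2⟩ <;> constructor <;> linarith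

/-- Proportional primitive vectors differ by a unit. -/
theorem exists_unit {v v' : O × O} (h : IsCoprime v.1 v.2) (h' : IsCoprime v'.1 v'.2)
    (hd : v.1 * v'.2 - v'.1 * v.2 = 0) : ∃ k < 6, v' = ((-om) ^ k * v.1, (-om) ^ k * v.2) := by
  obtain ⟨a, b, hab⟩ := h
  obtain ⟨a', b', hab'⟩ := h'
  have h1 : v'.1 = (a * v'.1 + b * v'.2) * v.1 := by
    linear_combination (-v'.1) * hab - b * hd
  have h2 : v'.2 = (a * v'.1 + b * v'.2) * v.2 := by
    linear_combination (-v'.2) * hab + a * hd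
  have hu : IsUnit (a * v'.1 + b * v'.2) :=
    IsUnit.of_mul_eq_one (a' * v.1 + b' * v.2) (by linear_combination hab' - a' * h1 - b' * h2)
  obtain ⟨k, hk, e⟩ := isUnit_iff_pow.1 hu
  exact ⟨k, hk, Prod.ext (by rw [← e]; exact h1) (by rw [← e]; exact h2)⟩

theorem floor_mem {T x : ℝ} (hT : 0 ≤ T) (hx : |x| ≤ 1) :
    ⌊2 * T * x⌋ ∈ Finset.Icc (-⌈2 * T⌉) ⌈2 * T⌉ := by
  obtain ⟨h1, h2⟩ := abs_le.1 hx
  have h3 := Int.le_ceil (2 * T)
  rw [Finset.mem_Icc, Int.le_floor]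
  constructor
  · push_cast
    nlinarith
  · have h4 := Int.floor_le (2 * T * x)
    have : (⌊2 * T * x⌋ : ℝ) ≤ ⌈2 * T⌉ := by nlinarith
    exact_mod_cast this

theorem half (S : Finset (O × O)) (ζ : O × O → ℂ) {T : ℝ} (hT : 0 ≤ T) (h1 : ∀ v ∈ S, ‖ζ v‖ ≤ 1)
    (h2 : ∀ v ∈ S, ∀ v' ∈ S, T * ‖ζ v - ζ v'‖ < 1 → v.1 * v'.2 - v'.1 * v.2 = 0)
    (h3 : ∀ v ∈ S, IsCoprime v.1 v.2) : (S.card : ℝ) ≤ 192 * (1 + T ^ 2) := by
  classical
  have h := Finset.card_le_mul_card_image_of_maps_to (s := S)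
    (f := fun v => (⌊2 * T * (ζ v).re⌋, ⌊2 * T * (ζ v).im⌋))
    (t := Finset.Icc (-⌈2 * T⌉) ⌈2 * T⌉ ×ˢ Finset.Icc (-⌈2 * T⌉) ⌈2 * T⌉)
    (fun v hv => Finset.mem_product.2
      ⟨floor_mem hT ((Complex.abs_re_le_norm _).trans (h1 v hv)),
        floor_mem hT ((Complex.abs_im_le_norm _).trans (h1 v hv))⟩) 6 (by
      intro b _
      rcases (S.filter fun v => (⌊2 * T * (ζ v).re⌋, ⌊2 * T * (ζ v).im⌋) = b).eq_empty_or_nonempty
        with h | ⟨v, hv⟩
      · simp [h]
      refine le_trans (Finset.card_le_card (t := (Finset.range 6).image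
        fun k => ((-om) ^ k * v.1, (-om) ^ k * v.2)) fun v' hv' => ?_)
        (Finset.card_image_le.trans (by simp))
      obtain ⟨hv, e⟩ := Finset.mem_filter.1 hv
      obtain ⟨hv', e'⟩ := Finset.mem_filter.1 hv'
      obtain ⟨e1, e2⟩ := Prod.mk.inj (e.trans e'.symm)
      have a1 := Int.abs_sub_lt_one_of_floor_eq_floor e1
      have a2 := Int.abs_sub_lt_one_of_floor_eq_floor e2
      rw [← mul_sub, abs_mul, abs_of_nonneg (by positivity)] at a1 a2
      have a3 := Complex.norm_le_abs_re_add_abs_im (ζ v - ζ v')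
      rw [Complex.sub_re, Complex.sub_im] at a3
      obtain ⟨k, hk, ek⟩ := exists_unit (h3 v hv) (h3 v' hv') (h2 v hv v' hv' (by nlinarith))
      exact Finset.mem_image.2 ⟨k, Finset.mem_range.2 hk, ek.symm⟩)
  have h0 : 0 ≤ ⌈2 * T⌉ := Int.ceil_nonneg (by positivity)
  have hc : ((Finset.Icc (-⌈2 * T⌉) ⌈2 * T⌉).card : ℝ) = 2 * ⌈2 * T⌉ + 1 := by
    have : ((Finset.Icc (-⌈2 * T⌉) ⌈2 * T⌉).card : ℤ) = 2 * ⌈2 * T⌉ + 1 := by
      rw [Int.card_Icc]
      omega
    exact_mod_cast this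
  have h4 := Int.ceil_lt_add_one (2 * T)
  have h5 : (0 : ℝ) ≤ ⌈2 * T⌉ := by exact_mod_cast h0
  have h6 : (S.card : ℝ) ≤ 6 * ((2 * ⌈2 * T⌉ + 1) * (2 * ⌈2 * T⌉ + 1)) := by
    rw [← hc]
    rw [Finset.card_product] at h
    exact_mod_cast h
  have h7 : (2 * (⌈2 * T⌉ : ℝ) + 1) * (2 * ⌈2 * T⌉ + 1) ≤ (4 * T + 3) * (4 * T + 3) :=
    mul_self_le_mul_self (by positivity) (by linarith)
  nlinarith [sq_nonneg (4 * T - 3)]

/-- One half of the count, in terms of the two coordinates of the vector. -/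
theorem half' (S : Finset (O × O)) (u u' : O × O → ℂ) {T y : ℝ} (hT : 0 ≤ T) (hy : 0 < y)
    (h0 : ∀ v ∈ S, u' v ≠ 0) (h1 : ∀ v ∈ S, ‖u v‖ ≤ ‖u' v‖) (h2 : ∀ v ∈ S, ‖u' v‖ ^ 2 ≤ y * T)
    (hd : ∀ v v', ‖u v * u' v' - u' v * u v'‖ = y * ‖ι (v.1 * v'.2 - v'.1 * v.2)‖)
    (h3 : ∀ v ∈ S, IsCoprime v.1 v.2) : (S.card : ℝ) ≤ 192 * (1 + T ^ 2) := by
  refine half S (fun v => u v / u' v) hT (fun v hv => ?_) (fun v hv v' hv' h => ?_) h3
  · rw [norm_div]
    exact div_le_one_of_le₀ (h1 v hv) (norm_nonneg _)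
  · by_contra hne
    have a1 : 1 ≤ ‖ι (v.1 * v'.2 - v'.1 * v.2)‖ := by
      rw [norm_ι]
      exact Real.one_le_sqrt.2 (one_le_nr hne)
    have p := norm_pos_iff.2 (h0 v hv)
    have p' := norm_pos_iff.2 (h0 v' hv')
    rw [div_sub_div _ _ (h0 v hv) (h0 v' hv'), norm_div, hd, norm_mul, ← mul_div_assoc,
      div_lt_one (by positivity)] at h
    have a2 : y * T ≤ T * (y * ‖ι (v.1 * v'.2 - v'.1 * v.2)‖) := by
      have := mul_le_mul_of_nonneg_left a1 (mul_nonneg hy.le hT)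
      linarith
    nlinarith [h2 v hv, h2 v' hv', sq_nonneg (‖u' v‖ - ‖u' v'‖)]

theorem card_le (w : H) (T : ℝ) (S : Finset (O × O))
    (h : ∀ v ∈ S, IsCoprime v.1 v.2 ∧ Qo w v.1 v.2 ≤ T) : (S.card : ℝ) ≤ 384 * (1 + T ^ 2) := by
  classical
  rcases S.eq_empty_or_nonempty with rfl | ⟨v0, hv0⟩
  · simp only [Finset.card_empty, Nat.cast_zero]
    positivity
  have hT : 0 ≤ T := (Qf_nonneg _ _ _).trans (h v0 hv0).2
  have hy0 := hy_pos w
  let u : O × O → ℂ := fun v => ι v.1 * w.1 + ι v.2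
  let u' : O × O → ℂ := fun v => ι v.1 * (hy w : ℂ)
  have hQ : ∀ v : O × O, hy w * Qo w v.1 v.2 = ‖u v‖ ^ 2 + ‖u' v‖ ^ 2 := by
    intro v
    simp only [Qo, Qf, u, u', norm_mul, Complex.norm_real, Real.norm_eq_abs, mul_pow, sq_abs]
    field_simp
  have hpos : ∀ v ∈ S, 0 < ‖u v‖ ^ 2 + ‖u' v‖ ^ 2 := by
    intro v hv
    rw [← hQ]
    refine mul_pos hy0 (Qf_pos w ?_)
    by_contra hn
    push Not at hn
    have e1 : v.1 = 0 := ι_injective (by simpa using hn.1)
    have e2 : v.2 = 0 := ι_injective (by simpa using hn.2)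
    have := (h v hv).1
    rw [e1, e2] at this
    exact not_isCoprime_zero_zero this
  have hle : ∀ v ∈ S, ‖u v‖ ^ 2 + ‖u' v‖ ^ 2 ≤ hy w * T := fun v hv => by
    rw [← hQ]
    exact mul_le_mul_of_nonneg_left (h v hv).2 hy0.le
  have hd : ∀ v v', ‖u v * u' v' - u' v * u v'‖ = hy w * ‖ι (v.1 * v'.2 - v'.1 * v.2)‖ := by
    intro v v'
    have : u v * u' v' - u' v * u v' = -((hy w : ℂ) * ι (v.1 * v'.2 - v'.1 * v.2)) := by
      simp only [u, u', map_sub, map_mul]
      ring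
    rw [this, norm_neg, norm_mul, Complex.norm_real, Real.norm_eq_abs, abs_of_pos hy0]
  have a1 := half' (S.filter fun v => ‖u v‖ ≤ ‖u' v‖) u u' hT hy0 (fun v hv h0 => by
      obtain ⟨hv, h1⟩ := Finset.mem_filter.1 hv
      have := hpos v hv
      rw [h0, norm_zero] at h1 this
      rw [le_antisymm h1 (norm_nonneg _)] at this
      simp at this)
    (fun v hv => (Finset.mem_filter.1 hv).2)
    (fun v hv => by nlinarith [hle v (Finset.mem_filter.1 hv).1, sq_nonneg ‖u v‖]) hd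
    fun v hv => (h v (Finset.mem_filter.1 hv).1).1
  have a2 := half' (S.filter fun v => ¬‖u v‖ ≤ ‖u' v‖) u' u hT hy0 (fun v hv h0 => by
      obtain ⟨hv, h1⟩ := Finset.mem_filter.1 hv
      rw [h0, norm_zero] at h1
      exact h1 (norm_nonneg _))
    (fun v hv => (not_le.1 (Finset.mem_filter.1 hv).2).le)
    (fun v hv => by nlinarith [hle v (Finset.mem_filter.1 hv).1, sq_nonneg ‖u' v‖])
    (fun v v' => by rw [← hd, norm_sub_rev])
    fun v hv => (h v (Finset.mem_filter.1 hv).1).1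
  have := Finset.card_filter_add_card_filter_not (s := S) fun v => ‖u v‖ ≤ ‖u' v‖
  rw [← this]
  push_cast
  linarith

end Crest.Agent.R17.UnfB
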