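import Crest.Agent.R17.ThetaUnf

/-!
# Row 17, theta module J, part 1: lemmas for the abstract orthogonality lemma
-/

set_option autoImplicit false

noncomputable section

namespace Crest.Agent.R17.J1

open scoped ComplexConjugate ENNReal Topology
open MeasureTheory Filter

/-- Left coset representatives of the image of an injective homomorphism. -/
theorem exists_reps {Γ Δ : Type*} [Group Γ] [Group Δ] (ψ : Δ →* Γ) (hψ : Function.Injective ψ) :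
    ∃ e : Δ × (Γ ⧸ ψ.range) ≃ Γ, ∀ p, e p = p.2.out * ψ p.1 := by
  refine ⟨Equiv.ofBijective (fun p => p.2.out * ψ p.1) ⟨?_, fun γ => ?_⟩, fun _ => rfl⟩
  · rintro ⟨δ, q⟩ ⟨δ', q'⟩ h
    simp only at h
    have h1 : q = q' := by
      rw [← q.out_eq', ← q'.out_eq', QuotientGroup.eq]
      refine ⟨δ * δ'⁻¹, ?_⟩
      rw [map_mul, map_inv, mul_inv_eq_iff_eq_mul, mul_assoc, ← h, inv_mul_cancel_left]
    subst h1
    rw [hψ (mul_left_cancel h)]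
  · obtain ⟨⟨_, δ, rfl⟩, h⟩ := QuotientGroup.mk_out_eq_mul ψ.range γ
    refine ⟨(δ⁻¹, QuotientGroup.mk γ), ?_⟩
    simp only [h, map_inv, mul_inv_cancel_right]

theorem cs {X : Type*} [MeasurableSpace X] (ν : Measure X) {u v : X → ℂ} (hu : Measurable u)
    (hv : Measurable v) :
    ∫⁻ x, ‖u x * conj (v x)‖ₑ ∂ν ≤
      (∫⁻ x, ‖u x‖ₑ ^ 2 ∂ν) ^ (1 / 2 : ℝ) * (∫⁻ x, ‖v x‖ₑ ^ 2 ∂ν) ^ (1 / 2 : ℝ) := by
  have h := ENNReal.lintegral_mul_le_Lp_mul_Lq ν Real.HolderConjugate.two_two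
    hu.enorm.aemeasurable hv.enorm.aemeasurable
  simp only [Pi.mul_apply, ENNReal.rpow_two] at h
  simpa only [enorm_mul, RCLike.enorm_conj] using h

theorem integrable_mul_conj {X : Type*} [MeasurableSpace X] {ν : Measure X} {u v : X → ℂ}
    (hu : Measurable u) (hv : Measurable v) (hu2 : ∫⁻ x, ‖u x‖ₑ ^ 2 ∂ν < ⊤)
    (hv2 : ∫⁻ x, ‖v x‖ₑ ^ 2 ∂ν < ⊤) : Integrable (fun x => u x * conj (v x)) ν :=
  ⟨(hu.mul (Complex.continuous_conj.measurable.comp hv)).aestronglyMeasurable,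
    (cs ν hu hv).trans_lt (ENNReal.mul_lt_top (ENNReal.rpow_lt_top_of_nonneg (by norm_num) hu2.ne)
      (ENNReal.rpow_lt_top_of_nonneg (by norm_num) hv2.ne))⟩

/-- Orthogonality passes to `L²` limits. -/
theorem orth_lim {X : Type*} [MeasurableSpace X] {ν : Measure X} {u v : X → ℂ} {w : ℕ → X → ℂ}
    (hu : Measurable u) (hv : Measurable v) (hw : ∀ n, Measurable (w n))
    (hu2 : ∫⁻ x, ‖u x‖ₑ ^ 2 ∂ν < ⊤) (hv2 : ∫⁻ x, ‖v x‖ₑ ^ 2 ∂ν < ⊤)
    (hlim : Tendsto (fun n => ∫⁻ x, ‖w n x - v x‖ₑ ^ 2 ∂ν) atTop (𝓝 0))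
    (h : ∀ n, Integrable (fun x => u x * conj (w n x)) ν ∧ ∫ x, u x * conj (w n x) ∂ν = 0) :
    ∫ x, u x * conj (v x) ∂ν = 0 := by
  have h1 := integrable_mul_conj hu hv hu2 hv2
  have h2 : ∀ n, ‖∫ x, u x * conj (v x) ∂ν‖ₑ ≤ (∫⁻ x, ‖u x‖ₑ ^ 2 ∂ν) ^ (1 / 2 : ℝ) *
      (∫⁻ x, ‖w n x - v x‖ₑ ^ 2 ∂ν) ^ (1 / 2 : ℝ) := by
    intro n
    rw [← enorm_neg, ← zero_sub, ← (h n).2, ← integral_sub (h n).1 h1]
    refine (enorm_integral_le_lintegral_enorm _).trans (le_trans (le_of_eq ?_)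
      (cs ν hu ((hw n).sub hv)))
    simp only [map_sub, mul_sub]
  have h3 : Tendsto (fun n => (∫⁻ x, ‖u x‖ₑ ^ 2 ∂ν) ^ (1 / 2 : ℝ) *
      (∫⁻ x, ‖w n x - v x‖ₑ ^ 2 ∂ν) ^ (1 / 2 : ℝ)) atTop (𝓝 0) := by
    have h4 := ENNReal.Tendsto.const_mul (a := (∫⁻ x, ‖u x‖ₑ ^ 2 ∂ν) ^ (1 / 2 : ℝ))
      (((ENNReal.continuous_rpow_const (y := 1 / 2)).tendsto 0).comp hlim)
      (Or.inr (ENNReal.rpow_lt_top_of_nonneg (by norm_num) hu2.ne).ne)
    rwa [ENNReal.zero_rpow_of_pos (by norm_num), mul_zero] at h4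
  exact enorm_eq_zero.1 (le_antisymm (ge_of_tendsto' h3 h2) zero_le)

theorem sq_sum_lt_top {X J : Type*} [MeasurableSpace X] [Fintype J] {ν : Measure X}
    {v : J → X → ℂ} (hv : ∀ j, Measurable (v j)) (hv2 : ∀ j, ∫⁻ x, ‖v j x‖ₑ ^ 2 ∂ν < ⊤)
    (a : J → ℂ) : ∫⁻ x, ‖∑ j, a j * v j x‖ₑ ^ 2 ∂ν < ⊤ := by
  have h1 : Integrable (fun x => (∑ j, a j * v j x) * conj (∑ j, a j * v j x)) ν := by
    simp only [map_sum, map_mul, Finset.sum_mul_sum]
    refine integrable_finsetSum _ fun i _ => integrable_finsetSum _ fun j _ => ?_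
    exact ((integrable_mul_conj (hv i) (hv j) (hv2 i) (hv2 j)).const_mul (a i * conj (a j))).congr
      (Eventually.of_forall fun x => mul_mul_mul_comm _ _ _ _)
  simpa only [HasFiniteIntegral, enorm_mul, RCLike.enorm_conj, ← sq] using h1.2

section

variable {Γ Δ X : Type*} [Group Γ] [Countable Γ] [Group Δ] [Countable Δ] [MulAction Γ X]
  [MulAction Δ X] [MeasurableSpace X] {μ : Measure X} {ϖ ϖ' : X → ℝ}

omit [Countable Δ] in
/-- Comparison of the norms for the two groups. -/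
theorem norm_le (hΓ : ∀ γ : Γ, MeasurePreserving (fun x : X => γ • x) μ μ) (hϖ : IsWt Γ ϖ)
    (hϖ' : IsWt Δ ϖ') {g g' : X → X} (hg : MeasurePreserving g μ μ)
    (hg' : MeasurePreserving g' μ μ) (hgg' : ∀ x, g' (g x) = x ∧ g (g' x) = x) (ψ : Δ →* Γ)
    (hψ : Function.Injective ψ) [ψ.range.FiniteIndex] (hint : ∀ δ x, g (δ • x) = ψ δ • g x)
    {F : X → ℝ≥0∞} (hF : Measurable F) (hinv : ∀ (γ : Γ) x, F (γ • x) = F x) :
    ∫⁻ x, ENNReal.ofReal (ϖ' x) * F (g x) ∂μ ≤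
      Nat.card (Γ ⧸ ψ.range) * ∫⁻ x, ENNReal.ofReal (ϖ x) * F x ∂μ := by
  rw [← hg'.lintegral_comp (f := fun x => ENNReal.ofReal (ϖ' x) * F (g x))
    (hϖ'.meas.ennreal_ofReal.mul (hF.comp hg.measurable))]
  simp only [(hgg' _).2]
  refine hϖ.lintegral_le hΓ (φ := fun x => ENNReal.ofReal (ϖ' (g' x)))
    (hϖ'.meas.comp hg'.measurable).ennreal_ofReal hF hinv fun x => le_of_eq ?_
  obtain ⟨e, he⟩ := exists_reps ψ hψ
  have h1 : ∀ δ y, g' (ψ δ • y) = δ • g' y := fun δ y => by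
    conv_lhs => rw [← (hgg' y).2, ← hint, (hgg' _).1]
  have h2 : ∀ y, ∑' δ : Δ, ENNReal.ofReal (ϖ' (δ⁻¹ • y)) = 1 := fun y => by
    refine ((Equiv.inv Δ).tsum_eq fun δ => ENNReal.ofReal (ϖ' (δ • y))).trans ?_
    rw [← ENNReal.ofReal_tsum_of_nonneg (fun _ => hϖ'.nonneg _) (hϖ'.sum y).summable,
      (hϖ'.sum y).tsum_eq, ENNReal.ofReal_one]
  rw [← (e.trans (Equiv.inv Γ)).tsum_eq, ENNReal.tsum_prod', ENNReal.tsum_comm]
  simp only [Equiv.trans_apply, Equiv.inv_apply, he, mul_inv_rev, mul_smul, ← map_inv, h1, h2]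
  have := Fintype.ofFinite (Γ ⧸ ψ.range)
  rw [tsum_fintype, Finset.sum_const, Finset.card_univ, Nat.card_eq_fintype_card, nsmul_one]

omit [Countable Γ] in
/-- Unfolding the pairing with a translated Poincaré series. -/
theorem pair_eq_zero (hΓ : ∀ γ : Γ, MeasurePreserving (fun x : X => γ • x) μ μ)
    (hΔ : ∀ δ : Δ, MeasurePreserving (fun x : X => δ • x) μ μ) (hϖ' : IsWt Δ ϖ') (κ : Γ →* ℂ)
    {g g' : X → X} (hg : MeasurePreserving g μ μ) (hgg' : ∀ x, g' (g x) = x) (ψ : Δ →* Γ)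
    (hψ : Function.Injective ψ) [ψ.range.FiniteIndex] (hκψ : ∀ δ, κ (ψ δ) = 1)
    (hint : ∀ δ x, g (δ • x) = ψ δ • g x) {f θ φ : X → ℂ} (hf : Measurable f) (hφ : Measurable φ)
    (hinv : ∀ (δ : Δ) x, f (δ • x) = f x)
    (hser : ∀ x, (Summable fun γ : Γ => conj (κ γ) * φ (γ • x)) ∧
      θ x = ∑' γ : Γ, conj (κ γ) * φ (γ • x))
    (horth : ∀ γ : Γ, Integrable (fun x => f (g' (γ • x)) * conj (φ x)) μ ∧
      ∫ x, f (g' (γ • x)) * conj (φ x) ∂μ = 0) :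
    Integrable (fun x => (ϖ' x : ℂ) * (f x * conj (θ (g x)))) μ ∧
      ∫ x, (ϖ' x : ℂ) * (f x * conj (θ (g x))) ∂μ = 0 := by
  have := Fintype.ofFinite (Γ ⧸ ψ.range)
  obtain ⟨e, he⟩ := exists_reps ψ hψ
  set Φ : X → ℂ := fun x => ∑ q : Γ ⧸ ψ.range, conj (κ q.out) * φ (q.out • g x) with hΦ
  have h1 : ∀ x, HasSum (fun δ : Δ => conj (1 : ℂ) * Φ (δ • x)) (θ (g x)) := by
    intro x
    have h2 := (e.hasSum_iff.2 (hser (g x)).1.hasSum).prod_fiberwise fun δ => hasSum_fintype _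
    rw [← (hser (g x)).2] at h2
    simpa only [Function.comp_apply, he, map_mul, hκψ, mul_one, map_one, one_mul, mul_smul, hΦ,
      hint] using h2
  have h3 : ∀ γ : Γ, Integrable (fun x => f x * conj (φ (γ • g x))) μ ∧
      ∫ x, f x * conj (φ (γ • g x)) ∂μ = 0 := by
    intro γ
    have hT := (hΓ γ).comp hg
    have h4 := hT.integrable_comp_of_integrable (horth γ⁻¹).1
    have h5 := integral_map hT.measurable.aemeasurable
      (f := fun x => f (g' (γ⁻¹ • x)) * conj (φ x)) (by rw [hT.map_eq]; exact (horth γ⁻¹).1.1)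
    rw [hT.map_eq, (horth γ⁻¹).2] at h5
    simp only [Function.comp_def, inv_smul_smul, hgg'] at h4 h5
    exact ⟨h4, h5.symm⟩
  have h6 : ∀ x, f x * conj (Φ x) = ∑ q : Γ ⧸ ψ.range, κ q.out * (f x * conj (φ (q.out • g x))) :=
    fun x => by simp only [hΦ, map_sum, map_mul, Complex.conj_conj, Finset.mul_sum, mul_left_comm]
  have h7 := hϖ'.inner_unfold hΔ (fun _ => 1) (φ := Φ) hf
    (Finset.measurable_sum _ fun q _ => (hφ.comp ((hΓ q.out).comp hg).measurable).const_mul _)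
    (fun δ x => by rw [hinv, one_mul])
    (by
      simp only [h6]
      exact integrable_finsetSum _ fun q _ => (h3 _).1.const_mul _) fun x => (h1 x).summable
  simp only [(h1 _).tsum_eq, h6] at h7
  refine ⟨h7.1, h7.2.trans ?_⟩
  rw [integral_finsetSum _ fun q _ => (h3 _).1.const_mul _]
  exact Finset.sum_eq_zero fun q _ => by rw [integral_const_mul, (h3 _).2, mul_zero]

end

theorem vanish {Γ Δ X J : Type*} [Group Γ] [Countable Γ] [Group Δ] [Countable Δ]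
    [MulAction Γ X] [MulAction Δ X] [MeasurableSpace X] [Fintype J] {μ : Measure X}
    (hΓ : ∀ γ : Γ, MeasurePreserving (fun x : X => γ • x) μ μ)
    (hΔ : ∀ δ : Δ, MeasurePreserving (fun x : X => δ • x) μ μ)
    {ϖ ϖ' : X → ℝ} (hϖ : IsWt Γ ϖ) (hϖ' : IsWt Δ ϖ') (κ : Γ →* ℂ) (hκ : ∀ γ, ‖κ γ‖ = 1)
    (g g' : J → X → X) (hg : ∀ j, MeasurePreserving (g j) μ μ)
    (hg' : ∀ j, MeasurePreserving (g' j) μ μ) (hgg' : ∀ j x, g' j (g j x) = x ∧ g j (g' j x) = x)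
    (ψ : J → Δ →* Γ) (hψ : ∀ j, Function.Injective (ψ j)) (hfin : ∀ j, (ψ j).range.FiniteIndex)
    (hκψ : ∀ j δ, κ (ψ j δ) = 1) (hint : ∀ j δ x, g j (δ • x) = ψ j δ • g j x)
    {Θ : X → ℂ} {θ φ : ℕ → X → ℂ} (hΘm : Measurable Θ) (hθm : ∀ n, Measurable (θ n))
    (hφm : ∀ n, Measurable (φ n)) (hΘ : ∀ (γ : Γ) x, Θ (γ • x) = κ γ * Θ x)
    (hθ : ∀ n (γ : Γ) x, θ n (γ • x) = κ γ * θ n x)
    (hser : ∀ n x, (Summable fun γ : Γ => conj (κ γ) * φ n (γ • x)) ∧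
      θ n x = ∑' γ : Γ, conj (κ γ) * φ n (γ • x))
    (hL2 : ∫⁻ x, ENNReal.ofReal (ϖ x) * ‖Θ x‖ₑ ^ 2 ∂μ < ⊤)
    (hlim : Tendsto (fun n => ∫⁻ x, ENNReal.ofReal (ϖ x) * ‖θ n x - Θ x‖ₑ ^ 2 ∂μ) atTop (𝓝 0))
    (a : J → ℂ)
    (horth : ∀ n i (γ : Γ),
      Integrable (fun x => (∑ j, a j * Θ (g j (g' i (γ • x)))) * conj (φ n x)) μ ∧
      ∫ x, (∑ j, a j * Θ (g j (g' i (γ • x)))) * conj (φ n x) ∂μ = 0) :
    ∀ᵐ x ∂μ, ∑ j, a j * Θ (g j x) = 0 := by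
  set f : X → ℂ := fun x => ∑ j, a j * Θ (g j x) with hf
  have hW : Measurable fun x => ENNReal.ofReal (ϖ' x) := hϖ'.meas.ennreal_ofReal
  have hW' : ∀ᵐ x ∂μ, ENNReal.ofReal (ϖ' x) < ⊤ := Eventually.of_forall fun _ =>
    ENNReal.ofReal_lt_top
  set ν : Measure X := μ.withDensity fun x => ENNReal.ofReal (ϖ' x) with hν
  have hκ' : ∀ γ, ‖κ γ‖ₑ = 1 := fun γ => by rw [← ofReal_norm, hκ, ENNReal.ofReal_one]
  have hm : ∀ j, Measurable fun x => Θ (g j x) := fun j => hΘm.comp (hg j).measurable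
  have hfm : Measurable f := Finset.measurable_sum _ fun j _ => (hm j).const_mul _
  have hinv : ∀ (δ : Δ) x, f (δ • x) = f x := fun δ x => by
    simp only [hf, hint, hΘ, hκψ, one_mul]
  have h1 : ∀ j {u : X → ℂ}, Measurable u → (∀ (γ : Γ) x, u (γ • x) = κ γ * u x) →
      ∫⁻ x, ‖u (g j x)‖ₑ ^ 2 ∂ν ≤
        Nat.card (Γ ⧸ (ψ j).range) * ∫⁻ x, ENNReal.ofReal (ϖ x) * ‖u x‖ₑ ^ 2 ∂μ := by
    intro j u hu hu'
    have := hfin j
    rw [hν, lintegral_withDensity_eq_lintegral_mul _ hW (g := fun x => ‖u (g j x)‖ₑ ^ 2)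
      ((hu.comp (hg j).measurable).enorm.pow_const 2)]
    exact norm_le hΓ hϖ hϖ' (hg j) (hg' j) (hgg' j) (ψ j) (hψ j) (hint j)
      (F := fun x => ‖u x‖ₑ ^ 2) (hu.enorm.pow_const 2) fun γ x => by
        simp only [hu', enorm_mul, hκ', one_mul]
  have h2 : ∀ j, ∫⁻ x, ‖Θ (g j x)‖ₑ ^ 2 ∂ν < ⊤ := fun j =>
    (h1 j hΘm hΘ).trans_lt (ENNReal.mul_lt_top (ENNReal.natCast_lt_top _) hL2)
  have h3 : ∫⁻ x, ‖f x‖ₑ ^ 2 ∂ν < ⊤ := sq_sum_lt_top hm h2 a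
  have h4 : ∀ i, ∫ x, f x * conj (Θ (g i x)) ∂ν = 0 := by
    intro i
    have := hfin i
    refine orth_lim (w := fun n x => θ n (g i x)) hfm (hm i)
      (fun n => (hθm n).comp (hg i).measurable) h3 (h2 i) ?_ fun n => ?_
    · have h5 := ENNReal.Tendsto.const_mul (a := Nat.card (Γ ⧸ (ψ i).range)) hlim
        (Or.inr (ENNReal.natCast_ne_top _))
      rw [mul_zero] at h5
      exact tendsto_of_tendsto_of_tendsto_of_le_of_le tendsto_const_nhds h5 (fun _ => zero_le)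
        fun n => h1 i (u := fun x => θ n x - Θ x) ((hθm n).sub hΘm) fun γ x => by
          rw [hθ, hΘ, mul_sub]
    · rw [hν, integrable_withDensity_iff_integrable_smul' hW hW',
        integral_withDensity_eq_integral_toReal_smul hW hW']
      simp only [ENNReal.toReal_ofReal (hϖ'.nonneg _), Complex.real_smul]
      exact pair_eq_zero hΓ hΔ hϖ' κ (hg i) (fun x => (hgg' i x).1) (ψ i) (hψ i) (hκψ i) (hint i)
        hfm (hφm n) hinv (hser n) (horth n i)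
  have h5 : ∫ x, f x * conj (f x) ∂ν = 0 := by
    have h6 : ∀ x, f x * conj (f x) = ∑ i, conj (a i) * (f x * conj (Θ (g i x))) := fun x => by
      conv_lhs => rw [show conj (f x) = ∑ i, conj (a i) * conj (Θ (g i x)) by
        simp only [hf, map_sum, map_mul]]
      simp only [Finset.mul_sum, mul_left_comm]
    simp only [h6]
    rw [integral_finsetSum _ fun i _ => (integrable_mul_conj hfm (hm i) h3 (h2 i)).const_mul _]
    exact Finset.sum_eq_zero fun i _ => by rw [integral_const_mul, h4, mul_zero]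
  have h6 := integrable_mul_conj hfm hfm h3 h3
  simp only [Complex.mul_conj', ← Complex.ofReal_pow] at h5 h6
  rw [integral_complex_ofReal, Complex.ofReal_eq_zero, integral_eq_zero_iff_of_nonneg
    (fun x => sq_nonneg _) (by simpa using h6.norm), hν, EventuallyEq, ae_withDensity_iff hW] at h5
  have h7 : ∀ᵐ x ∂μ, ∀ δ : Δ, ENNReal.ofReal (ϖ' (δ • x)) ≠ 0 → ‖f (δ • x)‖ ^ 2 = 0 :=
    ae_all_iff.2 fun δ => (hΔ δ).quasiMeasurePreserving.ae h5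
  filter_upwards [h7] with x hx
  by_contra h
  have h8 : ∀ δ : Δ, ϖ' (δ • x) = 0 := fun δ => by
    by_contra h'
    have h9 := hx δ (ENNReal.ofReal_pos.2 ((hϖ'.nonneg _).lt_of_ne' h')).ne'
    rw [hinv, pow_eq_zero_iff two_ne_zero, norm_eq_zero] at h9
    exact h h9
  have h9 := hϖ'.sum x
  simp only [h8] at h9
  exact zero_ne_one (hasSum_zero.unique h9)

end Crest.Agent.R17.J1
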