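import Crest.Agent.R17.ThetaCusp
import Crest.Agent.R17.ThetaVanAuxJ1

/-!
# Row 17, theta module J: a combination of translates of `θ` without constant terms vanishes
-/

set_option autoImplicit false

noncomputable section

namespace Crest.Agent.R17

open scoped ComplexConjugate ENNReal Topology
open MeasureTheory Filter

/-- **Abstract orthogonality lemma.**  `Γ` acts on `X`; `g j` are measure preserving bijections
intertwining a group `Δ` (acting on `X`) with finite-index subgroups `ψ j Δ ⊆ ker κ` of `Γ`.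
If `θ n → Θ` in `L²(Γ \ X)`, every `θ n` is a Poincaré series with seed `φ n`, and the translates of
`f = ∑ a j • Θ ∘ g j` are orthogonal to the seeds, then `f = 0` almost everywhere. -/
theorem vanish_abstract {Γ Δ X J : Type*} [Group Γ] [Countable Γ] [Group Δ] [Countable Δ]
    [MulAction Γ X] [MulAction Δ X] [MeasurableSpace X] [Fintype J] {μ : Measure X}
    (hΓ : ∀ γ : Γ, MeasurePreserving (fun x : X => γ • x) μ μ)
    (hΔ : ∀ δ : Δ, MeasurePreserving (fun x : X => δ • x) μ μ)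
    {ϖ ϖ' : X → ℝ} (hϖ : IsWt Γ ϖ) (hϖ' : IsWt Δ ϖ') (κ : Γ →* ℂ) (hκ : ∀ γ, ‖κ γ‖ = 1)
    (g g' : J → X → X) (hg : ∀ j, MeasurePreserving (g j) μ μ)
    (hg' : ∀ j, MeasurePreserving (g' j) μ μ) (hgg' : ∀ j x, g' j (g j x) = x ∧ g j (g' j x) = x)
    (ψ : J → Δ →* Γ) (hψ : ∀ j, Function.Injective (ψ j)) (hfin : ∀ j, (ψ j).range.FiniteIndex)
    (hκψ : ∀ j δ, κ (ψ j δ) = 1) (hint : ∀ j δ x, g j (δ • x) = ψ j δ • g j x)
    {Θ : X → ℂ} {θ φ : ℕ → X → ℂ} (hΘm : Measurable Θ) (hθm : ∀ n, Measurable (θ n))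
    (hφm : ∀ n, Measurable (φ n)) (hΘ : ∀ (γ : Γ) x, Θ (γ • x) = κ γ * Θ x)
    (hθ : ∀ n (γ : Γ) x, θ n (γ • x) = κ γ * θ n x)
    (hser : ∀ n x, (Summable fun γ : Γ => conj (κ γ) * φ n (γ • x)) ∧
      θ n x = ∑' γ : Γ, conj (κ γ) * φ n (γ • x))
    (hL2 : ∫⁻ x, ENNReal.ofReal (ϖ x) * ‖Θ x‖ₑ ^ 2 ∂μ < ⊤)
    (hlim : Tendsto (fun n => ∫⁻ x, ENNReal.ofReal (ϖ x) * ‖θ n x - Θ x‖ₑ ^ 2 ∂μ) atTop (𝓝 0))
    (a : J → ℂ)
    (horth : ∀ n i (γ : Γ),
      Integrable (fun x => (∑ j, a j * Θ (g j (g' i (γ • x)))) * conj (φ n x)) μ ∧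
      ∫ x, (∑ j, a j * Θ (g j (g' i (γ • x)))) * conj (φ n x) ∂μ = 0) :
    ∀ᵐ x ∂μ, ∑ j, a j * Θ (g j x) = 0 :=
  J1.vanish hΓ hΔ hϖ hϖ' κ hκ g g' hg hg' hgg' ψ hψ hfin hκψ hint hΘm hθm hφm hΘ hθ hser hL2 hlim a
    horth

theorem ThV_finiteIndex {G F : Type*} [Group G] [Finite F] (K : Subgroup G) (f : G → F)
    (h : ∀ x y, f x = f y → x⁻¹ * y ∈ K) : K.FiniteIndex := by
  have : Finite (G ⧸ K) := by
    refine Finite.of_surjective (fun t : Set.range f => (t.2.choose : G ⧸ K)) fun q => ?_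
    obtain ⟨x, rfl⟩ := QuotientGroup.mk_surjective q
    exact ⟨⟨f x, x, rfl⟩,
      QuotientGroup.eq.2 (h _ _ (Exists.choose_spec (⟨x, rfl⟩ : ∃ y, f y = f x)))⟩
  exact Subgroup.finiteIndex_of_finite_quotient

theorem ThV_cancel_right {g A B : Mat} (hg : g.det ≠ 0) (h : A * g = B * g) : A = B := by
  have h1 := congrArg (· * g.adjugate) h
  simp only [Matrix.mul_assoc, Matrix.mul_adjugate, Matrix.mul_smul, Matrix.mul_one] at h1
  exact smul_right_injective _ hg h1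

theorem ThV_cancel_left {g A B : Mat} (hg : g.det ≠ 0) (h : g * A = g * B) : A = B := by
  have h1 := congrArg (g.adjugate * ·) h
  simp only [← Matrix.mul_assoc, Matrix.adjugate_mul, Matrix.smul_mul, Matrix.one_mul] at h1
  exact smul_right_injective _ hg h1

theorem ThV_cong_iff {N : O} {σ : SL2} : Cong N σ 1 ↔ ∃ m : Mat, (σ : Mat) = 1 + N • m := by
  constructor
  · intro h
    choose m hm using h
    refine ⟨Matrix.of m, Matrix.ext fun i j => ?_⟩
    rw [Matrix.add_apply, Matrix.smul_apply, Matrix.of_apply, smul_eq_mul, ← hm i j]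
    simp
  · rintro ⟨m, hm⟩ i j
    refine ⟨m i j, ?_⟩
    have := congrFun (congrFun hm i) j
    rw [Matrix.add_apply, Matrix.smul_apply, smul_eq_mul] at this
    rw [this]
    simp

theorem ThV_conj_right {g : Mat} (hg : g.det ≠ 0) {N : O} {δ : SL2} (h : Cong (N * g.det) δ 1) :
    ∃ γ : SL2, Cong N γ 1 ∧ g * (δ : Mat) = (γ : Mat) * g := by
  obtain ⟨m, hm⟩ := ThV_cong_iff.1 h
  have e : g * (δ : Mat) = (1 + N • (g * m * g.adjugate)) * g := by
    rw [hm, Matrix.mul_add, Matrix.add_mul, Matrix.smul_mul, Matrix.mul_assoc _ g.adjugate,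
      Matrix.adjugate_mul, Matrix.mul_smul, Matrix.mul_smul, Matrix.mul_one, Matrix.mul_one,
      Matrix.one_mul, smul_smul]
  have hd : (1 + N • (g * m * g.adjugate)).det = 1 := by
    have := congrArg Matrix.det e
    rw [Matrix.det_mul, Matrix.det_mul, δ.det_coe, mul_comm] at this
    exact (mul_right_cancel₀ hg this).symm
  exact ⟨⟨_, hd⟩, ThV_cong_iff.2 ⟨_, rfl⟩, e⟩

theorem ThV_conj_left {g : Mat} (hg : g.det ≠ 0) {N : O} {γ : SL2} (h : Cong (N * g.det) γ 1) :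
    ∃ δ : SL2, Cong N δ 1 ∧ g * (δ : Mat) = (γ : Mat) * g := by
  obtain ⟨m, hm⟩ := ThV_cong_iff.1 h
  have e : g * (1 + N • (g.adjugate * m * g)) = (γ : Mat) * g := by
    rw [hm, Matrix.mul_add, Matrix.add_mul, Matrix.mul_smul, ← Matrix.mul_assoc,
      ← Matrix.mul_assoc, Matrix.mul_adjugate, Matrix.smul_mul, Matrix.smul_mul, Matrix.smul_mul,
      Matrix.mul_one, Matrix.one_mul, Matrix.one_mul, smul_smul]
  have hd : (1 + N • (g.adjugate * m * g)).det = 1 := by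
    have := congrArg Matrix.det e
    rw [Matrix.det_mul, Matrix.det_mul, γ.det_coe, mul_comm] at this
    exact mul_right_cancel₀ hg this
  exact ⟨⟨_, hd⟩, ThV_cong_iff.2 ⟨_, rfl⟩, e⟩

theorem ThV_cong_mono {M N : O} (h : M ∣ N) {σ τ : SL2} (hc : Cong N σ τ) : Cong M σ τ :=
  fun i j => h.trans (hc i j)

/-- The elements of `SL₂(O)` which are conjugated into `Gam` by all the `g j`. -/
def ThV_D0 {J : Type} (g : J → Mat) : Subgroup SL2 where
  carrier := {δ | ∀ j, ∃ γ : Gam, g j * (δ : Mat) = ((γ : SL2) : Mat) * g j}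
  one_mem' j := ⟨1, by simp⟩
  mul_mem' := by
    intro δ δ' h h' j
    obtain ⟨γ, hγ⟩ := h j
    obtain ⟨γ', hγ'⟩ := h' j
    refine ⟨γ * γ', ?_⟩
    rw [Matrix.SpecialLinearGroup.coe_mul, ← Matrix.mul_assoc, hγ, Matrix.mul_assoc, hγ',
      ← Matrix.mul_assoc]
    rfl
  inv_mem' := by
    intro δ h j
    obtain ⟨γ, hγ⟩ := h j
    refine ⟨γ⁻¹, ?_⟩
    have h1 : (((γ⁻¹ : Gam) : SL2) : Mat) * ((γ : SL2) : Mat) = 1 := by
      rw [← Matrix.SpecialLinearGroup.coe_mul, ← Subgroup.coe_mul, inv_mul_cancel]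
      rfl
    have h2 : (δ : Mat) * ((δ⁻¹ : SL2) : Mat) = 1 := by
      rw [← Matrix.SpecialLinearGroup.coe_mul, mul_inv_cancel]
      rfl
    calc g j * ((δ⁻¹ : SL2) : Mat)
        = (((γ⁻¹ : Gam) : SL2) : Mat) * (((γ : SL2) : Mat) * g j) * ((δ⁻¹ : SL2) : Mat) := by
          rw [← Matrix.mul_assoc, h1, Matrix.one_mul]
      _ = _ := by rw [← hγ, Matrix.mul_assoc, Matrix.mul_assoc, h2, Matrix.mul_one]

theorem ThV_exists_psi {J : Type} (g : J → Mat) (hg : ∀ j, (g j).det ≠ 0) (j : J) :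
    ∃ ψ : ThV_D0 g →* Gam, ∀ δ : ThV_D0 g,
      g j * ((δ : SL2) : Mat) = (((ψ δ : Gam) : SL2) : Mat) * g j := by
  choose f hf using fun δ : ThV_D0 g => δ.2 j
  refine ⟨MonoidHom.mk' f fun δ δ' => ?_, hf⟩
  refine Subtype.ext (Subtype.ext (ThV_cancel_right (hg j) ?_))
  rw [← hf]
  rw [Subgroup.coe_mul, Matrix.SpecialLinearGroup.coe_mul, ← Matrix.mul_assoc, hf,
    Matrix.mul_assoc, hf, ← Matrix.mul_assoc]
  rfl

/-- Growth and constant term of a translate of `θ` by an integral matrix. -/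
theorem Th_act_ct {g : Mat} (hg : g.det ≠ 0) :
    (∃ C : ℝ, ∀ w, ‖Th 1 (act g w)‖ ≤ C * (hy w + hy w ^ (-(4 : ℝ)) + 1)) ∧
    ∀ N : ℕ, N ≠ 0 → 9 * g.det ∣ (N : O) → ∀ y : ℝ, 0 < y →
      ∫ z, (wt N z : ℂ) * Th 1 (act g (hp z y)) =
        ((V0 * Mk y 0 * nr g.det ^ (-(1 / 3 : ℝ)) : ℝ) : ℂ) * Cv (g 0 0) (g 1 0) := by
  obtain ⟨σ, ρ, b, e, hρ, he, hgU⟩ := exists_hermite hg
  have hU : (!![ρ, b; 0, e] : Mat).det = ρ * e := by simp [Matrix.det_fin_two_of]
  have hdet : g.det = ρ * e := by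
    rw [hgU, Matrix.det_mul, σ.det_coe, one_mul, hU]
  have hρ' : ι ρ ≠ 0 := (map_ne_zero_iff ι ι_injective).2 hρ
  have he' : ι e ≠ 0 := (map_ne_zero_iff ι ι_injective).2 he
  have ha : 0 < ‖ι ρ‖ / ‖ι e‖ := div_pos (norm_pos_iff.2 hρ') (norm_pos_iff.2 he')
  have key : ∀ (z : ℂ) (y : ℝ), 0 < y → Th 1 (act g (hp z y)) =
      Th σ (hp ((ι ρ * z + ι b) / ι e) (‖ι ρ‖ / ‖ι e‖ * y)) := by
    intro z y hy0
    rw [hgU, act_mul σ.det_ne (by rw [hU]; exact mul_ne_zero hρ he), ← smul_def, Th_smul,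
      act_upper hρ he b z hy0]
  have ha2 : (‖ι ρ‖ / ‖ι e‖) ^ 2 = nr ρ / nr e := by rw [div_pow, norm_ι_sq, norm_ι_sq]
  generalize ‖ι ρ‖ / ‖ι e‖ = a at ha key ha2
  constructor
  · obtain ⟨C, hC⟩ := norm_Th_le σ
    refine ⟨|C| * (a + a ^ (-(4 : ℝ)) + 1), fun w => ?_⟩
    have hy0 := hy_pos w
    rw [← hp_hy w, key _ _ hy0, hp_hy]
    refine (hC _).trans ?_
    rw [hy_hp _ (mul_pos ha hy0), Real.mul_rpow ha.le hy0.le, mul_assoc]
    have h1 : 0 < a ^ (-(4 : ℝ)) := Real.rpow_pos_of_pos ha _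
    have h2 : 0 < hy w ^ (-(4 : ℝ)) := Real.rpow_pos_of_pos hy0 _
    refine mul_le_mul (le_abs_self C) ?_ (by positivity) (abs_nonneg C)
    have h3 := mul_pos ha h2
    have h4 := mul_pos h1 hy0
    nlinarith
  · intro N hN hdvd y hy0
    have hay := mul_pos ha hy0
    simp only [key _ _ hy0]
    simp only [Th, hy_hp _ hay, hp_fst]
    have e1 : ∀ (r : O) (z : ℂ), tt σ r * (Mk (a * y) (b1 * nr r) : ℂ) *
        eC (ι r * ((ι ρ * z + ι b) / ι e) / 9) =
        tt σ r * (Mk (a * y) (b1 * nr r) : ℂ) * eC (ι r * ι b / (9 * ι e)) *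
          eC (ι r * ι ρ / (9 * ι e) * z) := by
      intro r z
      rw [mul_assoc _ (eC _), ← eC_add]
      congr 2
      field_simp
      ring
    simp only [e1]
    rw [integral_wt_tsum hN (ξ := fun r => ι r * ι ρ / (9 * ι e))
      (a := fun r => tt σ r * (Mk (a * y) (b1 * nr r) : ℂ) * eC (ι r * ι b / (9 * ι e)))]
    · have h00 : g 0 0 = ρ * σ 0 0 := by
        simp [hgU, Matrix.mul_apply, Fin.sum_univ_two, mul_comm]
      have h10 : g 1 0 = ρ * σ 1 0 := by
        simp [hgU, Matrix.mul_apply, Fin.sum_univ_two, mul_comm]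
      have h3 : a ^ (2 / 3 : ℝ) = nr (ρ * e) ^ (-(1 / 3 : ℝ)) * nr ρ ^ (2 / 3 : ℝ) := by
        have hρ0 := nr_pos hρ
        have he0 := nr_pos he
        rw [show (2 / 3 : ℝ) = (2 : ℕ) * (1 / 3) by norm_num, Real.rpow_natCast_mul ha.le, ha2,
          Real.rpow_natCast_mul hρ0.le, nr_mul, Real.rpow_neg (mul_pos hρ0 he0).le,
          ← Real.inv_rpow (mul_pos hρ0 he0).le, ← Real.mul_rpow (by positivity) (by positivity)]
        congr 1
        field_simp
      rw [h00, h10, Cv_spec hρ, hdet]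
      simp only [nr, nm_zero, Nat.cast_zero, mul_zero, map_zero, zero_mul, zero_div, eC_zero,
        mul_one]
      rw [Mk_mul hy0 ha, mul_zero, h3]
      push_cast
      ring
    · intro r
      simp [hρ', he', map_eq_zero_iff ι ι_injective]
    · intro r
      obtain ⟨k, hk⟩ := hdvd
      refine ⟨ρ * k * r * ρ, ?_⟩
      rw [← map_natCast ι N, hk, hdet]
      simp only [map_mul, map_ofNat]
      field_simp
    · simp only [norm_mul _ (eC _), norm_eC, mul_one]
      exact summable_Th σ hay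

/-- A common subgroup on which all the translates are invariant. -/
theorem exists_common_subgroup {J : Type} [Fintype J] (g : J → Mat) (hg : ∀ j, (g j).det ≠ 0) :
    ∃ (Δ : Subgroup SL2) (ψ : J → Δ →* Gam), (∀ j, Function.Injective (ψ j)) ∧
      (∀ j, (ψ j).range.FiniteIndex) ∧ (∀ j δ, kap (ψ j δ : Gam) = 1) ∧
      ∀ j (δ : Δ), g j * ((δ : SL2) : Mat) = (((ψ j δ : Gam) : SL2) : Mat) * g j := by
  classical
  choose ψ hψ using ThV_exists_psi g hg
  have hinj : ∀ j, Function.Injective (ψ j) := by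
    intro j δ δ' h
    refine Subtype.ext (Subtype.ext (ThV_cancel_left (hg j) ?_))
    rw [hψ, hψ, h]
  have hD : ∏ j, (g j).det ≠ 0 := Finset.prod_ne_zero_iff.2 fun j _ => hg j
  have hdvd : ∀ j, (g j).det ∣ ∏ j, (g j).det := fun j =>
    Finset.dvd_prod_of_mem _ (Finset.mem_univ j)
  have hfin : ∀ j, (ψ j).range.FiniteIndex := by
    intro j
    have h1 : ((ψ j).range.map Gam.subtype).FiniteIndex := by
      refine finiteIndex_of_cong (N := 9 * (∏ j, (g j).det) * (g j).det)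
        (mul_ne_zero (mul_ne_zero (by norm_num) hD) (hg j)) fun γ hγ => ?_
      obtain ⟨δ, hδ, e⟩ := ThV_conj_left (hg j) hγ
      have hδ0 : δ ∈ ThV_D0 g := by
        intro i
        obtain ⟨γ', hγ', e'⟩ := ThV_conj_right (hg i) (N := 9)
          (ThV_cong_mono (mul_dvd_mul_left _ (hdvd i)) hδ)
        exact ⟨⟨γ', by simpa using hγ'.mul_inv_mem⟩, e'⟩
      refine ⟨ψ j ⟨δ, hδ0⟩, ⟨_, rfl⟩, Subtype.ext (ThV_cancel_right (hg j) ?_)⟩
      exact (hψ j ⟨δ, hδ0⟩).symm.trans e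
    have h2 := h1.index_ne_zero
    rw [Subgroup.index_map_of_injective _ Gam.subtype_injective] at h2
    exact ⟨left_ne_zero_of_mul h2⟩
  let K : Subgroup (ThV_D0 g) :=
    { carrier := {δ | ∀ j, kap (ψ j δ : Gam) = 1}
      one_mem' := fun j => by rw [map_one]; exact kap_one
      mul_mem' := fun {δ δ'} h h' j => by
        rw [map_mul, Subgroup.coe_mul, kap_mul (ψ j δ).2 (ψ j δ').2, h j, h' j, mul_one]
      inv_mem' := fun {δ} h j => by
        rw [map_inv, Subgroup.coe_inv, kap_inv (ψ j δ).2, h j, map_one] }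
  have hK : K.FiniteIndex := by
    have : Finite {x : ℂ // x ^ 3 = 1} := by
      refine Set.Finite.to_subtype ((Polynomial.nthRoots 3 (1 : ℂ)).finite_toSet.subset ?_)
      intro x hx
      exact (Polynomial.mem_nthRoots (by norm_num)).2 hx
    refine ThV_finiteIndex K (F := J → {x : ℂ // x ^ 3 = 1})
      (fun δ j => ⟨kap (ψ j δ : Gam), kap_pow_three (ψ j δ).2⟩) fun x y h j => ?_
    have h1 : kap (ψ j x : Gam) = kap (ψ j y : Gam) := congrArg Subtype.val (congrFun h j)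
    rw [map_mul, map_inv, Subgroup.coe_mul, kap_mul (ψ j x)⁻¹.2 (ψ j y).2, Subgroup.coe_inv,
      kap_inv (ψ j x).2, ← h1, Complex.conj_mul', norm_kap (ψ j x).2]
    simp
  refine ⟨K.map (ThV_D0 g).subtype,
    fun j => (ψ j).comp (Subgroup.inclusion (Subgroup.map_subtype_le K)),
    fun j => (hinj j).comp (Subgroup.inclusion_injective _), fun j => ?_, fun j δ => ?_,
    fun j δ => hψ j (Subgroup.inclusion (Subgroup.map_subtype_le K) δ)⟩
  · rw [MonoidHom.range_comp, Subgroup.inclusion_range, Subgroup.subgroupOf,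
      Subgroup.comap_map_eq_self_of_injective (ThV_D0 g).subtype_injective]
    refine ⟨?_⟩
    rw [Subgroup.index_map_of_injective _ (hinj j)]
    exact mul_ne_zero hK.index_ne_zero (hfin j).index_ne_zero
  · obtain ⟨_, δ', hδ', rfl⟩ := δ
    exact hδ' j

/-- **Vanishing criterion.** -/
theorem vanish_of_ct {J : Type} [Fintype J] (g : J → Mat) (hg : ∀ j, (g j).det ≠ 0) (a : J → ℂ)
    (h : ∀ α β : O, ∑ j, a j * ((nr (g j).det ^ (-(1 / 3 : ℝ)) : ℝ) : ℂ) *
      Cv (g j 0 0 * α + g j 0 1 * β) (g j 1 0 * α + g j 1 1 * β) = 0) (w : H) :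
    ∑ j, a j * Th 1 (act (g j) w) = 0 := by
  classical
  obtain ⟨Δ, ψ, hinj, hfin, hκψ, hint⟩ := exists_common_subgroup g hg
  have hD : ∏ j, (g j).det ≠ 0 := Finset.prod_ne_zero_iff.2 fun j _ => hg j
  have hdvd : ∀ j, (g j).det ∣ ∏ j, (g j).det := fun j =>
    Finset.dvd_prod_of_mem _ (Finset.mem_univ j)
  set q : O := 9 * ((∏ j, (g j).det) * ∏ j, (g j).det) with hq
  have hq0 : q ≠ 0 := mul_ne_zero (by norm_num) (mul_ne_zero hD hD)
  have hN : nm q ≠ 0 := fun h => hq0 (nm_eq_zero.1 h)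
  have hY : ∀ n : ℕ, (0 : ℝ) < 1 / (n + 1) := fun n => by positivity
  have hadj : ∀ j, (g j).adjugate.det = (g j).det := fun j => by
    rw [Matrix.det_adjugate, Fintype.card_fin, pow_one]
  have hadj' : ∀ j, (g j).adjugate.det ≠ 0 := fun j => by rw [hadj]; exact hg j
  have hxi : XiOK xi := xis_one ▸ xiOK_xis 1
  let κ : Gam →* ℂ :=
    { toFun := fun γ => kap γ
      map_one' := kap_one
      map_mul' := fun γ γ' => kap_mul γ.2 γ'.2 }
  have hae := vanish_abstract (Γ := Gam) (Δ := Δ) (μ := μH)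
    (fun γ => measurePreserving_smul_SL γ) (fun δ => measurePreserving_smul_SL δ)
    (isWt_wOf Gam) (isWt_wOf Δ) κ (fun γ => norm_kap γ.2) (fun j => act (g j))
    (fun j => act (g j).adjugate) (fun j => measurePreserving_act (hg j))
    (fun j => measurePreserving_act (hadj' j)) (fun j x => act_adjugate (hg j) x) ψ hinj hfin hκψ
    (fun j δ x => by
      change act (g j) (act ((δ : SL2) : Mat) x) = act (((ψ j δ : Gam) : SL2) : Mat) (act (g j) x)
      rw [← act_mul (hg j) (SL2.det_ne _), ← act_mul (SL2.det_ne _) (hg j), hint])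
    (Θ := Th 1) (θ := fun n => thY xi (1 / (n + 1))) (φ := fun n => seed (nm q) (1 / (n + 1)))
    (continuous_Th 1).measurable (fun n => (continuous_thY hxi (hY n)).measurable)
    (fun n => measurable_seed _ _) (fun γ x => Th_aut γ.2 x) (fun n γ x => thY_aut γ.2 x)
    (fun n x => thY_eq_tsum hN (hY n) x) N2_Th_lt_top
    (tendsto_N2.comp (tendsto_nhdsWithin_iff.2
      ⟨tendsto_one_div_add_atTop_nhds_zero_nat, Eventually.of_forall hY⟩)) a ?_
  · have hc : Continuous fun x => ∑ j, a j * Th 1 (act (g j) x) :=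
      continuous_finsetSum _ fun j _ =>
        continuous_const.mul ((continuous_Th 1).comp (continuous_act (hg j)))
    exact congrFun ((Continuous.ae_eq_iff_eq μH hc continuous_const).1 hae) w
  intro n i γ
  set A : Mat := (g i).adjugate * ((γ : SL2) : Mat) with hA
  have hAd : A.det = (g i).det := by rw [hA, Matrix.det_mul, hadj, (γ : SL2).det_coe, mul_one]
  have hG : ∀ j, (g j * A).det = (g j).det * (g i).det := fun j => by rw [Matrix.det_mul, hAd]
  have hG' : ∀ j, (g j * A).det ≠ 0 := fun j => by rw [hG]; exact mul_ne_zero (hg j) (hg i)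
  have e : ∀ j x, act (g j) (act (g i).adjugate (γ • x)) = act (g j * A) x := by
    intro j x
    rw [act_mul (hg j) (by rw [hAd]; exact hg i), hA, act_mul (hadj' i) (SL2.det_ne _)]
    rfl
  simp only [e]
  choose C hC using fun j => (Th_act_ct (hG' j)).1
  have hcont : ∀ j, Continuous fun x => Th 1 (act (g j * A) x) := fun j =>
    (continuous_Th 1).comp (continuous_act (hG' j))
  have hI : Integrable (fun x => (∑ j, a j * Th 1 (act (g j * A) x)) *
      conj (seed (nm q) (1 / (n + 1)) x)) μH := by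
    refine integrable_mul_seed (F := fun x => ∑ j, a j * Th 1 (act (g j * A) x))
      (C := ∑ j, ‖a j‖ * C j)
      (continuous_finsetSum _ fun j _ => continuous_const.mul (hcont j)).measurable
      (fun x => ?_) _ (hY n)
    rw [Finset.sum_mul]
    refine (norm_sum_le _ _).trans (Finset.sum_le_sum fun j _ => ?_)
    rw [norm_mul, mul_assoc]
    exact mul_le_mul_of_nonneg_left (hC j x) (norm_nonneg _)
  refine ⟨hI, ?_⟩
  rw [integral_μH hI]
  refine setIntegral_eq_zero_of_forall_eq_zero fun y hy0 => mul_eq_zero_of_left ?_ _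
  have hy0' : 0 < y := hy0
  have e2 : ∀ z : ℂ, (∑ j, a j * Th 1 (act (g j * A) (hp z y))) *
      conj (seed (nm q) (1 / (n + 1)) (hp z y)) =
      ∑ j, (((1 / (n + 1) : ℝ) ^ (4 / 3 : ℝ) * Real.exp (-(1 / (n + 1)) / y) : ℝ) : ℂ) * a j *
        ((wt (nm q) z : ℂ) * Th 1 (act (g j * A) (hp z y))) := by
    intro z
    rw [seed, Complex.conj_ofReal, hy_hp z hy0', hp_fst, Complex.ofReal_mul (wt _ _),
      Finset.sum_mul]
    refine Finset.sum_congr rfl fun j _ => ?_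
    ring
  simp only [e2]
  rw [integral_finsetSum]
  · have e3 : ∀ j, ∫ z : ℂ, (wt (nm q) z : ℂ) * Th 1 (act (g j * A) (hp z y)) =
        ((V0 * Mk y 0 * nr (g i).det ^ (-(1 / 3 : ℝ)) : ℝ) : ℂ) *
          (((nr (g j).det ^ (-(1 / 3 : ℝ)) : ℝ) : ℂ) *
            Cv (g j 0 0 * A 0 0 + g j 0 1 * A 1 0) (g j 1 0 * A 0 0 + g j 1 1 * A 1 0)) := by
      intro j
      rw [(Th_act_ct (hG' j)).2 (nm q) hN ?_ y hy0', hG, nr_mul,
        Real.mul_rpow (Nat.cast_nonneg _) (Nat.cast_nonneg _)]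
      · simp only [Matrix.mul_apply, Fin.sum_univ_two]
        push_cast
        ring
      · rw [← mul_cj, hG]
        exact (mul_dvd_mul_left _ (mul_dvd_mul (hdvd j) (hdvd i))).mul_right _
    simp only [integral_const_mul, e3]
    have h1 := h (A 0 0) (A 1 0)
    refine Eq.trans ?_ (mul_eq_zero_of_right
      ((((1 / (n + 1) : ℝ) ^ (4 / 3 : ℝ) * Real.exp (-(1 / (n + 1)) / y) : ℝ) : ℂ) *
        ((V0 * Mk y 0 * nr (g i).det ^ (-(1 / 3 : ℝ)) : ℝ) : ℂ)) h1)
    rw [Finset.mul_sum]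
    refine Finset.sum_congr rfl fun j _ => ?_
    ring
  · intro j _
    refine Integrable.const_mul (Integrable.mul_bdd (c := C j * (y + y ^ (-(4 : ℝ)) + 1))
      (integrable_wt _).ofReal ?_ (Eventually.of_forall fun z => ?_)) _
    · exact ((hcont j).comp (continuous_id.prodMk continuous_const)).aestronglyMeasurable
    · have := hC j (hp z y)
      rwa [hy_hp z hy0'] at this

end Crest.Agent.R17
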