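import Crest.Agent.R17.ThetaHecke

/-!
# Row 17, theta module M2: differentiating the expansions along a geodesic
-/

set_option autoImplicit false

noncomputable section

namespace Crest.Agent.R17

open scoped ComplexConjugate Topology
open Filter

namespace VorM2

theorem bound : ∃ K : ℝ, 0 < K ∧ ∀ (σ : SL2) (r : O) (y : ℝ), 0 < y →
    ‖tt σ r * (Mk y (b1 * nr r) : ℂ)‖ * ‖ι r‖ ≤
      K * (y ^ (2 / 3 : ℝ) * (y ^ 2 * b1) ^ (-4 : ℝ)) * nr r ^ (-2 : ℝ) := by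
  obtain ⟨C, hC, h1⟩ := norm_tt_le
  obtain ⟨D, hD, h2⟩ := W0_le_rpow (A := 4) (by norm_num)
  refine ⟨C * D, by positivity, fun σ r y hy0 => ?_⟩
  have hb := b1_pos
  rcases eq_or_ne r 0 with rfl | hr
  · rw [map_zero, norm_zero, mul_zero]
    positivity
  have hn := one_le_nr hr
  have h3 : ‖tt σ r‖ ≤ C * nr r :=
    (h1 σ r hr).trans (mul_le_mul_of_nonneg_left (Real.rpow_le_self_of_one_le hn (by norm_num)) hC.le)
  have h4 : ‖ι r‖ ≤ nr r := by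
    rw [norm_ι]
    exact Real.sqrt_le_iff.2 ⟨by positivity, by nlinarith⟩
  have h5 := h2 (y ^ 2 * (b1 * nr r)) (by positivity)
  have h6 : nr r ^ (-2 : ℝ) = nr r * nr r ^ (-4 : ℝ) * nr r := by
    rw [← Real.rpow_one_add' (by positivity) (by norm_num), ← Real.rpow_add_one (by positivity)]
    norm_num
  rw [norm_mul, Complex.norm_real, Real.norm_of_nonneg (Mk_pos hy0 (by positivity)).le, Mk, h6]
  rw [← mul_assoc, Real.mul_rpow (by positivity) (by positivity)] at h5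
  have h7 := (W0_pos (b := y ^ 2 * (b1 * nr r)) (by positivity)).le
  calc _ ≤ C * nr r * (y ^ (2 / 3 : ℝ) * (D * ((y ^ 2 * b1) ^ (-4 : ℝ) * nr r ^ (-4 : ℝ)))) * nr r := by
        gcongr
        rwa [← mul_assoc]
    _ = _ := by ring

theorem summable (σ : SL2) {y : ℝ} (hy0 : 0 < y) (z : ℂ) {f : O → ℂ} (hf : ∀ r, ‖f r‖ = ‖ι r‖) :
    Summable fun r : O => tt σ r * (Mk y (b1 * nr r) : ℂ) * eC (ι r * z / 9) * f r := by
  obtain ⟨K, -, h⟩ := bound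
  refine .of_norm_bounded ((summable_nr_rpow one_lt_two).mul_left _) fun r =>
    le_trans ?_ (h σ r y hy0)
  rw [norm_mul, norm_mul, norm_eC, mul_one, hf]

/-- The phase of `e(r ζ / 9)`. -/
def ph (r : O) (ζ : ℂ) : ℝ := 4 * Real.pi * (ι r * ζ / 9).im / Real.sqrt 3

theorem abs_ph_le (r : O) (ζ : ℂ) : |ph r ζ| ≤ 4 * Real.pi / 9 / Real.sqrt 3 * ‖ζ‖ * ‖ι r‖ := by
  have h := Complex.abs_im_le_norm (ι r * ζ / 9)
  rw [norm_div, norm_mul, Complex.norm_ofNat] at h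
  rw [ph, abs_div, abs_mul, abs_of_pos (by positivity), abs_of_pos (a := Real.sqrt 3) (by positivity)]
  calc _ ≤ 4 * Real.pi * (‖ι r‖ * ‖ζ‖ / 9) / Real.sqrt 3 := by gcongr
    _ = _ := by ring

theorem diff (r : O) (z ζ : ℂ) {t : ℝ} (ht : t ≠ 0) :
    (eC (ι r * (z + t * ζ) / 9) - eC (ι r * (z - t * ζ) / 9)) / (2 * t) =
      eC (ι r * z / 9) * (Complex.I * (ph r ζ * Real.sinc (t * ph r ζ) : ℝ)) := by
  have h1 : eC (t * (ι r * ζ / 9)) = Complex.exp ((t * ph r ζ : ℝ) * Complex.I) := by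
    rw [eC_eq, Complex.im_ofReal_mul, ph]
    congr 3
    ring
  have h2 : ph r ζ * Real.sinc (t * ph r ζ) = Real.sin (t * ph r ζ) / t := by
    rcases eq_or_ne (ph r ζ) 0 with h | h
    · simp [h]
    · rw [Real.sinc_of_ne_zero (mul_ne_zero ht h)]
      field_simp
  have h3 : (t : ℂ) ≠ 0 := Complex.ofReal_ne_zero.2 ht
  rw [show ι r * (z + t * ζ) / 9 = ι r * z / 9 + t * (ι r * ζ / 9) by ring,
    show ι r * (z - t * ζ) / 9 = ι r * z / 9 + -(t * (ι r * ζ / 9)) by ring, eC_add, eC_add, eC_neg,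
    h1, h2, ← mul_sub, Complex.sub_conj, Complex.exp_ofReal_mul_I_im]
  push_cast
  field_simp

theorem I_ph (r : O) (ζ : ℂ) : Complex.I * ph r ζ =
    ((2 * Real.pi / (9 * Real.sqrt 3) : ℝ) : ℂ) * (ι r * ζ - conj (ι r * ζ)) := by
  rw [Complex.sub_conj, ph, Complex.div_ofNat_im]
  push_cast
  ring

theorem odd_deriv (σ : SL2) (z₀ : ℂ) (ζ : ℝ → ℂ) (η : ℝ → ℝ) (hζ : ContinuousAt ζ 0)
    (hη : ContinuousAt η 0) (hη0 : 0 < η 0) :
    Tendsto (fun t : ℝ =>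
        (Th σ (hp (z₀ + t * ζ t) (η t)) - Th σ (hp (z₀ - t * ζ t) (η t))) / (2 * t))
      (𝓝[>] 0)
      (𝓝 (∑' r : O, tt σ r * (Mk (η 0) (b1 * nr r) : ℂ) * eC (ι r * z₀ / 9) *
        ((2 * Real.pi / (9 * Real.sqrt 3) : ℝ) : ℂ) * (ι r * ζ 0 - conj (ι r * ζ 0)))) := by
  obtain ⟨K, hK, h⟩ := bound
  have hb := b1_pos
  have hpos : ∀ᶠ t in 𝓝 (0 : ℝ), 0 < η t := hη.eventually (lt_mem_nhds hη0)
  have hg : ContinuousAt (fun t => 4 * Real.pi / 9 / Real.sqrt 3 * ‖ζ t‖ *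
      (K * (η t ^ (2 / 3 : ℝ) * (η t ^ 2 * b1) ^ (-4 : ℝ)))) 0 :=
    (hζ.norm.const_mul _).mul (((hη.rpow_const (.inl hη0.ne')).mul
      (((hη.pow 2).mul_const _).rpow_const (.inl (mul_pos (pow_pos hη0 2) hb).ne'))).const_mul _)
  have key := tendsto_tsum_of_dominated_convergence (𝓕 := 𝓝 (0 : ℝ))
    (f := fun t (r : O) => tt σ r * (Mk (η t) (b1 * nr r) : ℂ) *
      (eC (ι r * z₀ / 9) * (Complex.I * (ph r (ζ t) * Real.sinc (t * ph r (ζ t)) : ℝ))))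
    ((summable_nr_rpow one_lt_two).mul_left _) (fun r => ContinuousAt.tendsto (by
      have h1 : ContinuousAt (fun t => Mk (η t) (b1 * nr r)) 0 :=
        ((continuousOn_Mk (by positivity)).continuousAt (Ioi_mem_nhds hη0)).comp hη
      have h2 := Real.continuous_sinc
      unfold ph
      fun_prop))
    ((hpos.and (hg.eventually (gt_mem_nhds (lt_add_one _)))).mono fun t ht r => by
      have h1 := h σ r _ ht.1
      have h2 := abs_ph_le r (ζ t)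
      have h3 := Real.abs_sinc_le_one (t * ph r (ζ t))
      refine le_trans ?_ (mul_le_mul_of_nonneg_right ht.2.le (by positivity))
      rw [norm_mul, norm_mul (eC _), norm_eC, norm_mul Complex.I, Complex.norm_I, one_mul, one_mul,
        Complex.norm_real, Real.norm_eq_abs, abs_mul, mul_assoc _ (K * _)]
      refine le_trans ?_ (mul_le_mul_of_nonneg_left h1 (by positivity))
      refine (mul_le_mul_of_nonneg_left ((mul_le_of_le_one_right (abs_nonneg _) h3).trans h2)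
        (norm_nonneg _)).trans_eq ?_
      ring)
  simp only [zero_mul, Real.sinc_zero, mul_one, I_ph, ← mul_assoc] at key
  refine (key.mono_left nhdsWithin_le_nhds).congr' ?_
  filter_upwards [nhdsWithin_le_nhds hpos, self_mem_nhdsWithin] with t h1 h2
  have hs := fun z : ℂ => Summable.of_norm (f := fun r : O =>
    tt σ r * (Mk (η t) (b1 * nr r) : ℂ) * eC (ι r * z / 9))
    ((summable_Th σ h1).congr fun r => by rw [norm_mul _ (eC _), norm_eC, mul_one])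
  simp only [Th, hy_hp _ h1, hp_fst]
  rw [← (hs _).tsum_sub (hs _), ← tsum_div_const]
  refine tsum_congr fun r => ?_
  rw [← mul_sub, mul_div_assoc _ (_ - _), diff r _ _ (ne_of_gt h2)]
  ring

/-- The first moment of an expansion. -/
def S1 (σ : SL2) (y : ℝ) (z : ℂ) : ℂ :=
  ∑' r : O, tt σ r * (Mk y (b1 * nr r) : ℂ) * eC (ι r * z / 9) * ι r

/-- The conjugate first moment of an expansion. -/
def S2 (σ : SL2) (y : ℝ) (z : ℂ) : ℂ :=
  ∑' r : O, tt σ r * (Mk y (b1 * nr r) : ℂ) * eC (ι r * z / 9) * conj (ι r)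

theorem split (σ : SL2) {y : ℝ} (hy0 : 0 < y) (z ζ κ : ℂ) :
    ∑' r : O, tt σ r * (Mk y (b1 * nr r) : ℂ) * eC (ι r * z / 9) * κ * (ι r * ζ - conj (ι r * ζ)) =
      κ * (ζ * S1 σ y z - conj ζ * S2 σ y z) := by
  rw [S1, S2, ← tsum_mul_left, ← tsum_mul_left,
    ← ((summable σ hy0 z fun _ => rfl).mul_left _).tsum_sub
      ((summable σ hy0 z fun _ => Complex.norm_conj _).mul_left _), ← tsum_mul_left]
  refine tsum_congr fun r => ?_
  rw [map_mul]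
  ring

theorem geod (σ : SL2) (hβ : σ 1 0 ≠ 0) (z : ℂ) {y : ℝ} (hy0 : 0 < y) :
    Th 1 (hp (ι (σ 0 0) / ι (σ 1 0) + z) y) =
      Th σ (hp (-ι (σ 1 1) / ι (σ 1 0) - conj z / (ι (σ 1 0) ^ 2 * ((‖z‖ ^ 2 + y ^ 2 : ℝ) : ℂ)))
        (y / (‖ι (σ 1 0)‖ ^ 2 * (‖z‖ ^ 2 + y ^ 2)))) := by
  rw [← actC_geod (x := ι (σ 0 1)) (by rw [← map_mul, ← map_mul, ← map_sub, σ.det_eq, map_one])
    ((map_ne_zero_iff ι ι_injective).2 hβ) z hy0, ← Th_smul σ]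
  congr 1
  rw [← inv_smul_eq_iff, smul_def, act, Matrix.SpecialLinearGroup.SL2_inv_expl]
  congr 1
  refine Matrix.ext fun i j => ?_
  fin_cases i <;> fin_cases j <;> simp

theorem dir (σ : SL2) (hβ : σ 1 0 ≠ 0) (ζ : ℂ) {y : ℝ} (hy0 : 0 < y) :
    ζ * S1 1 y (ι (σ 0 0) / ι (σ 1 0)) - conj ζ * S2 1 y (ι (σ 0 0) / ι (σ 1 0)) =
      -(conj ζ / (ι (σ 1 0) ^ 2 * y ^ 2)) * S1 σ (nr (σ 1 0) * y)⁻¹ (-ι (σ 1 1) / ι (σ 1 0)) +
        ζ / conj (ι (σ 1 0) ^ 2 * y ^ 2) * S2 σ (nr (σ 1 0) * y)⁻¹ (-ι (σ 1 1) / ι (σ 1 0)) := by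
  have hb : ι (σ 1 0) ≠ 0 := (map_ne_zero_iff ι ι_injective).2 hβ
  have hn := nr_pos hβ
  have h1 := odd_deriv 1 (ι (σ 0 0) / ι (σ 1 0)) (fun _ => ζ) (fun _ => y) continuousAt_const
    continuousAt_const hy0
  have h2 := odd_deriv σ (-ι (σ 1 1) / ι (σ 1 0))
    (fun t => -(conj ζ / (ι (σ 1 0) ^ 2 * ((‖t * ζ‖ ^ 2 + y ^ 2 : ℝ) : ℂ))))
    (fun t => y / (‖ι (σ 1 0)‖ ^ 2 * (‖t * ζ‖ ^ 2 + y ^ 2)))
    (ContinuousAt.neg (continuousAt_const.div (by fun_prop)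
      (mul_ne_zero (pow_ne_zero _ hb) (Complex.ofReal_ne_zero.2 (by positivity)))))
    (continuousAt_const.div (by fun_prop) (by positivity)) (by positivity)
  have h3 := tendsto_nhds_unique h1 (h2.congr fun t => by
    rw [geod σ hβ _ hy0, sub_eq_add_neg (_ / _) (t * ζ), geod σ hβ _ hy0, norm_neg]
    simp only [map_neg, map_mul, Complex.conj_ofReal]
    congr 4 <;> ring)
  have h4 : y / (‖ι (σ 1 0)‖ ^ 2 * y ^ 2) = (nr (σ 1 0) * y)⁻¹ := by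
    rw [norm_ι_sq]
    field_simp
  simp only [Complex.ofReal_zero, zero_mul, norm_zero, zero_pow two_ne_zero, zero_add, h4] at h3
  rw [split _ hy0, split _ (by positivity)] at h3
  rw [mul_left_cancel₀ (Complex.ofReal_ne_zero.2 (by positivity)) h3]
  simp only [map_neg, map_div₀, Complex.conj_conj, Complex.ofReal_pow]
  ring

theorem S2_eq (σ : SL2) (hβ : σ 1 0 ≠ 0) {y : ℝ} (hy0 : 0 < y) :
    S2 1 y (ι (σ 0 0) / ι (σ 1 0)) =
      (ι (σ 1 0) ^ 2 * y ^ 2)⁻¹ * S1 σ (nr (σ 1 0) * y)⁻¹ (-ι (σ 1 1) / ι (σ 1 0)) := by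
  have h1 := dir σ hβ 1 hy0
  have h2 := dir σ hβ Complex.I hy0
  rw [map_one] at h1
  rw [Complex.conj_I] at h2
  apply mul_left_cancel₀ Complex.I_ne_zero
  linear_combination (h2 - Complex.I * h1) / 2

theorem U1_eq {y b : ℝ} (hy0 : 0 < y) (hb : 0 ≤ b) : U1 (y ^ 2 * b) = b ^ (1 / 3 : ℝ) * Mk y b := by
  rw [U1, Mk, Real.mul_rpow (by positivity) hb, ← Real.rpow_natCast, ← Real.rpow_mul hy0.le]
  norm_num
  ring

theorem arg_eq (r : O) : ((nr r ^ (1 / 6 : ℝ) * nr r ^ (1 / 3 : ℝ) : ℝ) : ℂ) * arg r = ι r := by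
  rcases eq_or_ne r 0 with rfl | hr
  · simp [arg]
  rw [← Real.rpow_add (nr_pos hr), arg, norm_ι, Real.sqrt_eq_rpow,
    show (1 / 6 + 1 / 3 : ℝ) = 1 / 2 by norm_num, mul_div_cancel₀]
  exact Complex.ofReal_ne_zero.2 (Real.rpow_pos_of_pos (nr_pos hr) _).ne'

theorem voronoi (σ : SL2) (hβ : σ 1 0 ≠ 0) {x : ℝ} (hx : 0 < x) :
    ∑' r : O, tauh r * eq (r * σ 0 0) (σ 1 0) * (U1 (81 * b1 * nr r * x) : ℂ) =
      (((81 : ℝ) ^ (-(1 / 6 : ℝ)) : ℝ) : ℂ) * (ι (σ 1 0) ^ 2)⁻¹ * (x : ℂ)⁻¹ *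
        ∑' ν : O, tt σ ν * eq (-(ν * σ 1 1)) (9 * σ 1 0) * ((nr ν ^ (1 / 6 : ℝ) : ℝ) : ℂ) * arg ν *
          (U1 (b1 / nr (σ 1 0) ^ 2 * nr ν / x) : ℂ) := by
  obtain ⟨y, hy0, rfl⟩ : ∃ y : ℝ, 0 < y ∧ x = y ^ 2 :=
    ⟨√x, Real.sqrt_pos.2 hx, (Real.sq_sqrt hx.le).symm⟩
  have hb := b1_pos
  have hn := nr_pos hβ
  have h9 : ι 9 = 9 := map_ofNat ι 9
  have h81 : (81 : ℝ) ^ (1 / 3 : ℝ) = 9 * 81 ^ (-(1 / 6 : ℝ)) := by
    rw [show (9 : ℝ) = 81 ^ (1 / 2 : ℝ) by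
      rw [← Real.sqrt_eq_rpow, eq_comm, Real.sqrt_eq_iff_mul_self_eq] <;> norm_num,
      ← Real.rpow_add (by norm_num)]
    norm_num
  have h1 : ∑' r : O, tauh r * eq (r * σ 0 0) (σ 1 0) * (U1 (81 * b1 * nr r * y ^ 2) : ℂ) =
      ((81 ^ (-(1 / 6 : ℝ)) * b1 ^ (1 / 3 : ℝ) : ℝ) : ℂ) * S2 1 y (ι (σ 0 0) / ι (σ 1 0)) := by
    symm
    rw [S2, ← (mul_right_injective₀ (show (9 : O) ≠ 0 by decide)).tsum_eq fun r hr => by
      by_contra h
      exact hr (by simp only [tt_one_eq_zero fun ⟨c, hc⟩ => h ⟨c, hc.symm⟩, zero_mul]),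
      ← tsum_mul_left]
    refine tsum_congr fun r => ?_
    have e1 : nr (9 * r) = 81 * nr r := by
      rw [nr_mul]
      congr 1
    have e2 := congrArg conj (arg_eq r)
    rw [map_mul, Complex.conj_ofReal] at e2
    rw [mul_comm _ (y ^ 2), U1_eq hy0 (by positivity), e1, tauh, eq, map_mul, map_mul, h9, map_mul,
      ← e2, Real.mul_rpow (by positivity) (by positivity), Real.mul_rpow (by positivity) hb.le, h81,
      show ι r * ι (σ 0 0) / ι (σ 1 0) = 9 * ι r * (ι (σ 0 0) / ι (σ 1 0)) / 9 by ring,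
      show 81 * b1 * nr r = b1 * (81 * nr r) by ring, map_ofNat]
    push_cast
    ring
  have h2 : ∑' ν : O, tt σ ν * eq (-(ν * σ 1 1)) (9 * σ 1 0) * ((nr ν ^ (1 / 6 : ℝ) : ℝ) : ℂ) *
      arg ν * (U1 (b1 / nr (σ 1 0) ^ 2 * nr ν / y ^ 2) : ℂ) =
      ((b1 ^ (1 / 3 : ℝ) : ℝ) : ℂ) * S1 σ (nr (σ 1 0) * y)⁻¹ (-ι (σ 1 1) / ι (σ 1 0)) := by
    rw [S1, ← tsum_mul_left]
    refine tsum_congr fun r => ?_
    rw [show b1 / nr (σ 1 0) ^ 2 * nr r / y ^ 2 = (nr (σ 1 0) * y)⁻¹ ^ 2 * (b1 * nr r) by ring,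
      U1_eq (by positivity) (by positivity), eq, map_neg, map_mul, map_mul, h9,
      Real.mul_rpow hb.le (by positivity),
      show -(ι r * ι (σ 1 1)) / (9 * ι (σ 1 0)) = ι r * (-ι (σ 1 1) / ι (σ 1 0)) / 9 by ring]
    generalize eC _ = E
    rw [← arg_eq r]
    push_cast
    ring
  rw [h1, h2, S2_eq σ hβ hy0]
  push_cast
  ring

end VorM2

end Crest.Agent.R17
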