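import Crest.Agent.R17.ThetaHecke
import Crest.Agent.R17.ThetaVorAuxM2

/-!
# Row 17, theta module M: the additive Voronoi formula and the structure of the dual coefficients
-/

set_option autoImplicit false

noncomputable section

namespace Crest.Agent.R17

open scoped ComplexConjugate

open Classical in
/-- The dual coefficients of the cusp `α / β` (independent of the completion `σ`). -/
def Bc (α β ν : O) : ℂ :=
  if h : ∃ σ : SL2, σ 0 0 = α ∧ σ 1 0 = β then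
    tt h.choose ν * eq (-(ν * h.choose 1 1)) (9 * β) * ((nr ν ^ (1 / 6 : ℝ) : ℝ) : ℂ) * arg ν
  else 0

theorem Bc_spec (σ : SL2) (hβ : σ 1 0 ≠ 0) (ν : O) : Bc (σ 0 0) (σ 1 0) ν =
    tt σ ν * eq (-(ν * σ 1 1)) (9 * σ 1 0) * ((nr ν ^ (1 / 6 : ℝ) : ℝ) : ℂ) * arg ν := by
  have h : ∃ τ : SL2, τ 0 0 = σ 0 0 ∧ τ 1 0 = σ 1 0 := ⟨σ, rfl, rfl⟩
  rw [Bc, dif_pos h]
  obtain ⟨t, ht⟩ := exists_mul_nT h.choose_spec.1 h.choose_spec.2
  have h11 : (σ * nT t) 1 1 = σ 1 0 * t + σ 1 1 := by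
    simp [nT, mkSL, Matrix.mul_apply, Fin.sum_univ_two]
  have h1 : eq (ν * t) 9 * eq (-(ν * (σ 1 0 * t + σ 1 1))) (9 * σ 1 0) =
      eq (-(ν * σ 1 1)) (9 * σ 1 0) := by
    rw [← eq_mul_mul hβ (ν * t) 9, mul_comm (σ 1 0) 9, ← eq_add]
    congr 1
    ring
  rw [ht, tt_mul_nT, h11, mul_assoc (tt σ ν), h1]
theorem Bc_add {β : O} (hβ : β ≠ 0) (α t ν : O) : Bc (α + t * β) β ν = Bc α β ν := by
  have e00 : ∀ (s : O) (σ : SL2), (nT s * σ) 0 0 = σ 0 0 + s * σ 1 0 := fun s σ => by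
    simp [nT, mkSL, Matrix.mul_apply, Fin.sum_univ_two]
  have e10 : ∀ (s : O) (σ : SL2), (nT s * σ) 1 0 = σ 1 0 := fun s σ => by
    simp [nT, mkSL, Matrix.mul_apply, Fin.sum_univ_two]
  have e11 : ∀ (s : O) (σ : SL2), (nT s * σ) 1 1 = σ 1 1 := fun s σ => by
    simp [nT, mkSL, Matrix.mul_apply, Fin.sum_univ_two]
  by_cases h : ∃ σ : SL2, σ 0 0 = α ∧ σ 1 0 = β
  · obtain ⟨σ, rfl, rfl⟩ := h
    have h1 := Bc_spec (nT t * σ) (by rwa [e10]) ν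
    rw [e00, e10, e11, tt_mul_Gam (nT_mem t), kap_nT, one_mul] at h1
    rw [h1, Bc_spec σ hβ]
  · rw [Bc, Bc, dif_neg h, dif_neg]
    rintro ⟨σ, h0, h1⟩
    exact h ⟨nT (-t) * σ, by rw [e00, h0, h1]; ring, by rw [e10, h1]⟩
theorem VorM1.arg_zero : arg 0 = 0 := by simp [arg]
theorem VorM1.norm_Bc {α β ν : O} (h : Bc α β ν ≠ 0) :
    ν ≠ 0 ∧ ∃ σ : SL2, tt σ ν ≠ 0 ∧ ‖Bc α β ν‖ = ‖tt σ ν‖ * nr ν ^ (1 / 6 : ℝ) := by
  unfold Bc at h ⊢
  split_ifs at h ⊢ with h'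
  · have hν : ν ≠ 0 := by
      rintro rfl
      exact h (by rw [VorM1.arg_zero, mul_zero])
    refine ⟨hν, h'.choose, fun h0 => h (by rw [h0, zero_mul, zero_mul, zero_mul]), ?_⟩
    rw [norm_mul, norm_mul, norm_mul, norm_eq, norm_arg hν, mul_one, mul_one, Complex.norm_real,
      Real.norm_of_nonneg (by positivity)]
  · exact absurd rfl h
theorem VorM1.rpow_le {r : O} (hr : r ≠ 0) :
    nr r ^ (1 / 3 : ℝ) * nr r ^ (1 / 6 : ℝ) ≤ nr r ^ (1 : ℝ) := by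
  rw [← Real.rpow_add (nr_pos hr)]
  exact Real.rpow_le_rpow_of_exponent_le (one_le_nr hr) (by norm_num)
theorem Bc_support : ∃ C : ℝ, 0 < C ∧ ∀ α β ν : O, Bc α β ν ≠ 0 →
    ∃ (u : O) (j : ℕ) (n d : O), IsUnit u ∧ Primary n ∧ Squarefree n ∧ Primary d ∧
      ν = u * lam ^ j * (n * d ^ 3) ∧
      ‖Bc α β ν‖ ≤ C * (3 : ℝ) ^ ((j : ℝ) / 6) * Real.sqrt (nr d) := by
  obtain ⟨C, hC, H⟩ := tt_support
  refine ⟨C, hC, fun α β ν h => ?_⟩
  obtain ⟨hν, σ, h0, h1⟩ := VorM1.norm_Bc h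
  rw [h1]
  exact H σ ν hν h0
theorem polyB_Bc : ∃ C : ℝ, ∀ α β : O, PolyB (Bc α β) C 1 := by
  obtain ⟨C, hC, H⟩ := norm_tt_le
  refine ⟨C, fun α β => ⟨?_, fun ν => ?_⟩⟩
  · by_contra h
    exact (VorM1.norm_Bc h).1 rfl
  · by_cases h : Bc α β ν = 0
    · rw [h, norm_zero]
      positivity
    · obtain ⟨hν, σ, -, h1⟩ := VorM1.norm_Bc h
      rw [h1]
      calc ‖tt σ ν‖ * nr ν ^ (1 / 6 : ℝ) ≤ C * nr ν ^ (1 / 3 : ℝ) * nr ν ^ (1 / 6 : ℝ) :=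
            mul_le_mul_of_nonneg_right (H σ ν hν) (by positivity)
        _ ≤ C * nr ν ^ (1 : ℝ) := by
            rw [mul_assoc]
            exact mul_le_mul_of_nonneg_left (VorM1.rpow_le hν) hC.le
theorem polyB_tauh : ∃ C : ℝ, PolyB tauh C 1 := by
  obtain ⟨C, hC, H⟩ := norm_tt_le
  have h0 : tauh 0 = 0 := by rw [tauh, VorM1.arg_zero, map_zero, mul_zero]
  refine ⟨C * nr 9 ^ (1 / 3 : ℝ), h0, fun r => ?_⟩
  by_cases hr : r = 0
  · rw [hr, h0, norm_zero]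
    positivity
  · have h9 : (9 : O) ≠ 0 := by
      rw [show (9 : O) = lam ^ 2 * lam ^ 2 by rw [lam_sq]; norm_num]
      exact mul_ne_zero (pow_ne_zero _ prime_lam.ne_zero) (pow_ne_zero _ prime_lam.ne_zero)
    have h1 := H 1 (9 * r) (mul_ne_zero h9 hr)
    rw [nr_mul, Real.mul_rpow (by positivity) (by positivity)] at h1
    rw [tauh, norm_mul, norm_mul, RCLike.norm_conj, norm_arg hr, mul_one, Complex.norm_real,
      Real.norm_of_nonneg (by positivity)]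
    calc ‖tt 1 (9 * r)‖ * nr r ^ (1 / 6 : ℝ)
        ≤ C * (nr 9 ^ (1 / 3 : ℝ) * nr r ^ (1 / 3 : ℝ)) * nr r ^ (1 / 6 : ℝ) :=
          mul_le_mul_of_nonneg_right h1 (by positivity)
      _ = C * nr 9 ^ (1 / 3 : ℝ) * (nr r ^ (1 / 3 : ℝ) * nr r ^ (1 / 6 : ℝ)) := by ring
      _ ≤ C * nr 9 ^ (1 / 3 : ℝ) * nr r ^ (1 : ℝ) :=
          mul_le_mul_of_nonneg_left (VorM1.rpow_le hr) (by positivity)

/-- Dependence on the generic part `D` of the denominator: the cusp is `b / β₀ + a / D`. -/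
theorem Bc_struct {β₀ D a b a' b' : O} (hβ : β₀ ≠ 0) (hD : Primary D) (hDβ : IsCoprime D β₀)
    (hb : IsCoprime b β₀) (ha' : D ∣ a' * (9 * β₀ ^ 2 * a) - 1) (hb' : β₀ ∣ b' - b * D ^ 2)
    (ν : O) :
    Bc (b * D + a * β₀) (β₀ * D) ν = conj (cub D a) * eq (-(ν * a')) D * Bc b' β₀ ν := by
  obtain ⟨s, hs⟩ := hb'
  obtain ⟨m, hm⟩ := ha'
  have hb'' : IsCoprime b' β₀ := by
    rw [show b' = b * D ^ 2 + β₀ * s by linear_combination hs]
    exact (hb.mul_left hDβ.pow_left).add_mul_left_left s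
  obtain ⟨δ, y, hdet⟩ := hb''
  -- `σ₁ = (b' -y; β₀ δ)`
  have h1 : β₀ * D ∣ (b * D + a * β₀) * (D * δ + 9 * β₀ * a') - 1 := by
    refine hDβ.symm.mul_dvd ⟨-y - δ * s + 9 * a' * b * D + a * (D * δ + 9 * β₀ * a'), ?_⟩
      ⟨m + b * (D * δ + 9 * β₀ * a') + a * β₀ * δ, ?_⟩
    · linear_combination hdet - δ * hs
    · linear_combination hm
  obtain ⟨x, hx⟩ := h1
  set σ₁ : SL2 := mkSL b' (-y) β₀ δ (by linear_combination hdet) with hσ₁
  set τ : SL2 := mkSL δ y (-β₀) b' (by linear_combination hdet) with hτ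
  set σ : SL2 := mkSL (b * D + a * β₀) x (β₀ * D) (D * δ + 9 * β₀ * a')
    (by linear_combination hx) with hσ
  have hτσ : τ * σ₁ = 1 := by
    refine Matrix.SpecialLinearGroup.ext _ _ fun i j => ?_
    fin_cases i <;> fin_cases j <;>
      simp [hτ, hσ₁, mkSL, Matrix.mul_apply, Fin.sum_univ_two]
    · linear_combination hdet
    · ring
    · ring
    · linear_combination hdet
  have hc : (σ * τ) 1 0 = -1 * (9 * β₀ * a' * β₀) := by
    simp [hτ, hσ, mkSL, Matrix.mul_apply, Fin.sum_univ_two]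
    ring
  have hd : (σ * τ) 1 1 = D + 9 * β₀ * a' * b' := by
    simp [hτ, hσ, mkSL, Matrix.mul_apply, Fin.sum_univ_two]
    linear_combination D * hdet
  have hpr : Primary (D + 9 * β₀ * a' * b') := by
    obtain ⟨k, hk⟩ := hD
    exact ⟨k + 3 * β₀ * a' * b', by linear_combination hk⟩
  have hmem : σ * τ ∈ Gam := mem_Gam.2
    ⟨by rw [hc]; exact ⟨-(β₀ * a' * β₀), by ring⟩, by rw [hd]; exact hpr⟩
  have h9 : (9 : O) ∣ D + 9 * β₀ * a' * b' - D := ⟨β₀ * a' * b', by ring⟩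
  have hkap : kap (σ * τ) = conj (cub D a) := by
    have hDa : IsCoprime D a := ⟨-m, a' * (9 * β₀ ^ 2), by linear_combination hm⟩
    have e1 : cub D (9 * β₀ * a' * β₀) * cub D a = 1 := by
      rw [← cub_mul_right, cub_congr (b := 1) ((rad_dvd D).trans ⟨m, by linear_combination hm⟩),
        cub_one_right]
    rw [kap, hc, hd, cub_mul_right, cub_neg_one, one_mul, cub_mul_right,
      cub_congr9' hpr hD h9 ⟨b', by ring⟩, cub_congr9' hpr hD h9 ⟨9 * a' * b', by ring⟩,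
      ← cub_mul_right]
    have e2 := Gauss_conj_mul (norm_cub hD hDa)
    linear_combination conj (cub D a) * e1 - cub D (9 * β₀ * a' * β₀) * e2
  have e3 : tt σ ν = conj (cub D a) * tt σ₁ ν := by
    rw [← hkap, ← tt_mul_Gam hmem, mul_assoc, hτσ, mul_one]
  have e4 := Bc_spec σ (mul_ne_zero hβ hD.ne_zero) ν
  have e5 := Bc_spec σ₁ hβ ν
  simp only [hσ, hσ₁, mkSL_00, mkSL_10, mkSL_11] at e4 e5
  have h9β : 9 * β₀ ≠ 0 := by
    refine mul_ne_zero ?_ hβ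
    rw [show (9 : O) = lam ^ 2 * lam ^ 2 by rw [lam_sq]; norm_num]
    exact mul_ne_zero (pow_ne_zero _ prime_lam.ne_zero) (pow_ne_zero _ prime_lam.ne_zero)
  have e6 : eq (-(ν * (D * δ + 9 * β₀ * a'))) (9 * (β₀ * D)) =
      eq (-(ν * a')) D * eq (-(ν * δ)) (9 * β₀) := by
    rw [← eq_mul_mul h9β (-(ν * a')) D, ← eq_mul_mul hD.ne_zero (-(ν * δ)) (9 * β₀),
      show D * (9 * β₀) = 9 * β₀ * D by ring, ← eq_add, mul_assoc 9 β₀ D]
    congr 1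
    ring
  rw [e4, e5, e6, ← hσ, ← hσ₁, e3]
  ring

/-- Directional derivative of an expansion along a curve which is odd in `z` and even in `y`. -/
theorem Th_odd_deriv (σ : SL2) (z₀ : ℂ) (ζ : ℝ → ℂ) (η : ℝ → ℝ) (hζ : ContinuousAt ζ 0)
    (hη : ContinuousAt η 0) (hη0 : 0 < η 0) :
    Filter.Tendsto (fun t : ℝ =>
        (Th σ (hp (z₀ + t * ζ t) (η t)) - Th σ (hp (z₀ - t * ζ t) (η t))) / (2 * t))
      (nhdsWithin 0 (Set.Ioi 0))
      (nhds (∑' r : O, tt σ r * (Mk (η 0) (b1 * nr r) : ℂ) * eC (ι r * z₀ / 9) *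
        ((2 * Real.pi / (9 * Real.sqrt 3) : ℝ) : ℂ) * (ι r * ζ 0 - conj (ι r * ζ 0)))) :=
  VorM2.odd_deriv σ z₀ ζ η hζ hη hη0

/-- **Additive Voronoi formula.** -/
theorem voronoi_add {α β : O} (h : IsCoprime α β) (hβ : β ≠ 0) {x : ℝ} (hx : 0 < x) :
    ∑' r : O, tauh r * eq (r * α) β * (U1 (81 * b1 * nr r * x) : ℂ) =
      (((81 : ℝ) ^ (-(1 / 6 : ℝ)) : ℝ) : ℂ) * (ι β ^ 2)⁻¹ * (x : ℂ)⁻¹ *
        ∑' ν : O, Bc α β ν * (U1 (b1 / nr β ^ 2 * nr ν / x) : ℂ) := by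
  obtain ⟨σ, rfl, rfl⟩ := exists_SL_col h
  simp only [Bc_spec σ hβ]
  exact VorM2.voronoi σ hβ hx

end Crest.Agent.R17
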